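import Vale.Agent.P026.CountA

/-! Lattice counts, divisor bound, sums of the weight w. -/

namespace Vale.Agent.P026

open Eis Complex Filter Topology
open scoped Classical ComplexConjugate

theorem card_ball_le {K : ℝ} (hK : 0 ≤ K) : ((ball K).card : ℝ) ≤ 16 * K := by
  rcases lt_or_ge K 1 with h | h
  · rw [ball_eq_empty h]
    simp only [Finset.card_empty, Nat.cast_zero]
    linarith
  have h0 : (0 : Eis) ∉ ball K := by simp [mem_ball]
  have h1 := cntA_disc 0 (R := K) (insert 0 (ball K)) (by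
    intro d hd
    rw [zero_add, normSq_toC]
    rcases Finset.mem_insert.1 hd with h | h
    · rw [h, N_zero]
      exact hK
    · exact (mem_ball.1 h).2)
  rw [Finset.card_insert_of_notMem h0] at h1
  push_cast at h1
  have h2 := Real.mul_self_sqrt hK
  have h3 : 1 ≤ √K := Real.one_le_sqrt.2 h
  nlinarith

/-- Lattice points in a disc around an arbitrary centre. -/
theorem card_disc_le (z : ℂ) {R : ℝ} (hR : 0 ≤ R) (s : Finset Eis)
    (hs : ∀ d ∈ s, normSq (z + toC d) ≤ R) : (s.card : ℝ) ≤ 16 * (1 + R) := by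
  have h1 := cntA_disc z s hs
  have h2 := Real.mul_self_sqrt hR
  nlinarith [sq_nonneg (√R - 1)]

theorem cnt_layer (s : Finset Eis) (F : Eis → ℝ) (g R : ℕ → ℝ) (hg : ∀ j, 0 ≤ g j)
    (hR : ∀ j, 0 ≤ R j) (hs : Summable fun j => g j * R j)
    (h : ∀ c ∈ s, ∃ j, c ∈ ball (R j) ∧ F c ≤ g j) :
    ∑ c ∈ s, F c ≤ 16 * ∑' j, g j * R j := by
  choose! idx h1 h2 using h
  rw [← Finset.sum_fiberwise_of_maps_to (g := idx) (t := s.image idx)
    (fun c hc => Finset.mem_image_of_mem idx hc)]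
  have h3 : ∀ j ∈ s.image idx, ∑ c ∈ s with idx c = j, F c ≤ 16 * (g j * R j) := by
    intro j _
    have h4 : ∑ c ∈ s with idx c = j, F c ≤ ((s.filter (idx · = j)).card : ℝ) * g j := by
      rw [← nsmul_eq_mul]
      refine Finset.sum_le_card_nsmul _ _ _ fun c hc => ?_
      rw [Finset.mem_filter] at hc
      rw [← hc.2]
      exact h2 c hc.1
    have h5 : (s.filter (idx · = j)).card ≤ (ball (R j)).card := by
      refine Finset.card_le_card fun c hc => ?_
      rw [Finset.mem_filter] at hc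
      rw [← hc.2]
      exact h1 c hc.1
    have h6 : ((s.filter (idx · = j)).card : ℝ) ≤ 16 * R j :=
      ((Nat.cast_le (α := ℝ)).2 h5).trans (card_ball_le (hR j))
    nlinarith [mul_le_mul_of_nonneg_right h6 (hg j)]
  refine (Finset.sum_le_sum h3).trans ?_
  rw [← Finset.mul_sum]
  exact mul_le_mul_of_nonneg_left
    (hs.sum_le_tsum _ fun j _ => mul_nonneg (hg j) (hR j)) (by norm_num)

theorem cnt_tail {s : ℝ} (hs : 1 < s) : ∃ C : ℝ, 0 < C ∧ ∀ x : ℝ, 0 < x → ∀ t : Finset Eis,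
    ∑ c ∈ t, (if x < N c then N c ^ (-s) else 0) ≤ C * x ^ (1 - s) := by
  have hq0 : (0 : ℝ) ≤ 2 ^ (1 - s) := by positivity
  have hq1 : (2 : ℝ) ^ (1 - s) < 1 :=
    Real.rpow_lt_one_of_one_lt_of_neg (by norm_num) (by linarith)
  refine ⟨32 * (1 - 2 ^ (1 - s))⁻¹, by have := sub_pos.2 hq1; positivity, fun x hx t => ?_⟩
  have e : ∀ j : ℕ, ((2 : ℝ) ^ j * x) ^ (-s) * (2 ^ (j + 1) * x)
      = 2 * x ^ (1 - s) * (2 ^ (1 - s)) ^ j := by
    intro j
    have hp : (0 : ℝ) < 2 ^ j * x := by positivity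
    rw [Real.rpow_pow_comm (by norm_num), mul_assoc 2, mul_comm (x ^ (1 - s)),
      ← Real.mul_rpow (by positivity) hx.le, sub_eq_add_neg, Real.rpow_add hp, Real.rpow_one]
    ring
  rw [← Finset.sum_filter]
  refine (cnt_layer _ _ (fun j => ((2 : ℝ) ^ j * x) ^ (-s)) (fun j => 2 ^ (j + 1) * x)
    (fun j => by positivity) (fun j => by positivity) ?_ ?_).trans ?_
  · simp only [e]
    exact (summable_geometric_of_lt_one hq0 hq1).mul_left _
  · intro c hc
    have h1 := (Finset.mem_filter.1 hc).2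
    obtain ⟨j, h2, h3⟩ := exists_nat_pow_near ((one_le_div hx).2 h1.le) (one_lt_two (α := ℝ))
    rw [le_div_iff₀ hx] at h2
    rw [div_lt_iff₀ hx] at h3
    refine ⟨j, mem_ball.2 ⟨fun h => ?_, h3.le⟩, ?_⟩
    · rw [h, N_zero] at h1
      linarith
    · exact Real.rpow_le_rpow_of_nonpos (by positivity) h2 (by linarith)
  · simp only [e]
    rw [tsum_mul_left, tsum_geometric_of_lt_one hq0 hq1]
    apply le_of_eq
    ring

theorem summable_N_rpow {s : ℝ} (hs : 1 < s) : Summable (fun c : Eis => N c ^ (-s)) := by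
  obtain ⟨C, -, h⟩ := cnt_tail hs
  refine summable_of_sum_le (fun c => Real.rpow_nonneg (N_nonneg c) _)
    (c := C * (1 / 2) ^ (1 - s)) fun t => le_trans (le_of_eq ?_) (h _ (by norm_num) t)
  refine Finset.sum_congr rfl fun c _ => ?_
  by_cases hc : c = 0
  · rw [hc, N_zero, Real.zero_rpow (by linarith), ite_self]
  · rw [if_pos (by linarith [one_le_N hc])]

theorem tail_N_rpow {s : ℝ} (hs : 1 < s) : ∃ C : ℝ, 0 < C ∧ ∀ x : ℝ, 0 < x →
    ∑' c : Eis, (if x < N c then N c ^ (-s) else 0) ≤ C * x ^ (1 - s) := by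
  obtain ⟨C, hC, h⟩ := cnt_tail hs
  refine ⟨C, hC, fun x hx => Real.tsum_le_of_sum_le (fun c => ?_) (h x hx)⟩
  dsimp only
  split_ifs
  · exact Real.rpow_nonneg (N_nonneg c) _
  · exact le_rfl

theorem sum_ball_rpow {s : ℝ} (hs : s < 1) : ∃ C : ℝ, 0 < C ∧ ∀ K : ℝ, 0 < K →
    ∑ c ∈ ball K, N c ^ (-s) ≤ C * K ^ (1 - s) := by
  have hq0 : (0 : ℝ) ≤ (2⁻¹ : ℝ) ^ (1 - s) := by positivity
  have hq1 : (2⁻¹ : ℝ) ^ (1 - s) < 1 := Real.rpow_lt_one (by norm_num) (by norm_num) (by linarith)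
  refine ⟨32 * (1 - (2⁻¹ : ℝ) ^ (1 - s))⁻¹, by have := sub_pos.2 hq1; positivity,
    fun K hK => ?_⟩
  have e : ∀ j : ℕ, (K / 2 ^ j) ^ (1 - s) * (2 ^ (j + 1) / K) * (K / 2 ^ j)
      = 2 * K ^ (1 - s) * ((2⁻¹ : ℝ) ^ (1 - s)) ^ j := by
    intro j
    rw [Real.rpow_pow_comm (by norm_num), mul_assoc 2,
      ← Real.mul_rpow hK.le (by positivity), inv_pow, ← div_eq_mul_inv]
    field_simp
    ring
  refine (cnt_layer _ _ (fun j => (K / 2 ^ j) ^ (1 - s) * (2 ^ (j + 1) / K)) (fun j => K / 2 ^ j)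
    (fun j => by positivity) (fun j => by positivity) ?_ ?_).trans ?_
  · simp only [e]
    exact (summable_geometric_of_lt_one hq0 hq1).mul_left _
  · intro c hc
    obtain ⟨h0, h1⟩ := mem_ball.1 hc
    have hp := N_pos h0
    obtain ⟨j, h2, h3⟩ := exists_nat_pow_near ((one_le_div hp).2 h1) (one_lt_two (α := ℝ))
    have h4 : N c ≤ K / 2 ^ j := by
      rw [le_div_iff₀ hp] at h2
      rw [le_div_iff₀ (by positivity)]
      linarith
    have h5 : (N c)⁻¹ ≤ 2 ^ (j + 1) / K := by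
      rw [div_lt_iff₀ hp] at h3
      rw [le_div_iff₀ hK, inv_mul_le_iff₀ hp]
      linarith
    refine ⟨j, mem_ball.2 ⟨h0, h4⟩, ?_⟩
    rw [show -s = (1 - s) + (-1) by ring, Real.rpow_add hp, Real.rpow_neg_one]
    exact mul_le_mul (Real.rpow_le_rpow hp.le h4 (by linarith)) h5 (by positivity) (by positivity)
  · simp only [e]
    rw [tsum_mul_left, tsum_geometric_of_lt_one hq0 hq1]
    apply le_of_eq
    ring

theorem sum_ball_inv {e : ℝ} (he : 0 < e) : ∃ C : ℝ, 0 < C ∧ ∀ K : ℝ, 0 < K →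
    ∑ c ∈ ball K, (N c)⁻¹ ≤ C * K ^ e := by
  obtain ⟨C, hC, h⟩ := sum_ball_rpow (s := 1 - e) (by linarith)
  refine ⟨C, hC, fun K hK => ?_⟩
  have h1 := h K hK
  rw [sub_sub_cancel] at h1
  refine le_trans (Finset.sum_le_sum fun c hc => ?_) h1
  rw [← Real.rpow_neg_one]
  exact Real.rpow_le_rpow_of_exponent_le (one_le_N (mem_ball.1 hc).1) (by linarith)

theorem cnt_dvd_pow {p m : Eis} (hp : Prime p) (hm : m ≠ 0) (k : ℕ) :
    ((ball (N (p ^ k * m))).filter (· ∣ p ^ k * m)).card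
      ≤ (k + 1) * ((ball (N m)).filter (· ∣ m)).card := by
  have h : (ball (N (p ^ k * m))).filter (· ∣ p ^ k * m) ⊆
      (Finset.range (k + 1) ×ˢ (ball (N m)).filter (· ∣ m)).image (fun y => p ^ y.1 * y.2) := by
    intro d hd
    obtain ⟨d1, d2, h1, h2, rfl⟩ := exists_dvd_and_dvd_of_dvd_mul (Finset.mem_filter.1 hd).2
    obtain ⟨i, hi, u, hu⟩ := (dvd_prime_pow hp k).1 h1
    have h3 : (↑u⁻¹ : Eis) * d2 ∣ m := (Units.isUnit u⁻¹).mul_left_dvd.2 h2
    refine Finset.mem_image.2 ⟨(i, (↑u⁻¹ : Eis) * d2), ?_, ?_⟩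
    · simp only [Finset.mem_product, Finset.mem_range, Finset.mem_filter, mem_ball]
      exact ⟨by omega, ⟨ne_zero_of_dvd_ne_zero hm h3, N_le_of_dvd hm h3⟩, h3⟩
    · simp only
      rw [← hu, mul_assoc, Units.mul_inv_cancel_left]
  refine (Finset.card_le_card h).trans (Finset.card_image_le.trans ?_)
  rw [Finset.card_product, Finset.card_range]

theorem cnt_two_le {p : Eis} (hp : Prime p) : 2 ≤ N p := by
  have h1 := nrm_pos hp.ne_zero
  have h2 : nrm p ≠ 1 := fun h => hp.not_isUnit (isUnit_iff_nrm.2 h)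
  have h3 : 2 ≤ nrm p := by omega
  unfold N
  exact_mod_cast h3

/-- Divisor bound (all divisors). -/
theorem card_dvd_le {e : ℝ} (he : 0 < e) : ∃ C : ℝ, 0 < C ∧ ∀ n : Eis, n ≠ 0 →
    (((ball (N n)).filter (· ∣ n)).card : ℝ) ≤ C * N n ^ e := by
  have hq : (1 : ℝ) < 2 ^ e := Real.one_lt_rpow (by norm_num) he
  obtain ⟨A, hA1, hA⟩ : ∃ A : ℝ, 1 ≤ A ∧ ∀ k : ℕ, (k : ℝ) + 1 ≤ A * (2 ^ e) ^ k := by
    have hq' := sub_pos.2 hq
    refine ⟨1 + (2 ^ e - 1)⁻¹, by have := inv_pos.2 hq'; linarith, fun k => ?_⟩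
    have h1 := one_add_mul_le_pow (a := (2 : ℝ) ^ e - 1) (by linarith) k
    rw [add_sub_cancel] at h1
    have h2 : (1 : ℝ) ≤ (2 ^ e) ^ k := one_le_pow₀ hq.le
    have h3 : (k : ℝ) ≤ (2 ^ e - 1)⁻¹ * (2 ^ e) ^ k := by
      rw [le_inv_mul_iff₀ hq']
      linarith
    linarith
  set B : ℝ := 2 ^ e⁻¹ with hB
  have key : ∀ (M : ℕ) (n : Eis), (nrm n).natAbs = M → n ≠ 0 →
      (((ball (N n)).filter (· ∣ n)).card : ℝ)
        ≤ 16 * A ^ ((ball B).filter (fun p => Prime p ∧ p ∣ n)).card * N n ^ e := by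
    intro M
    induction M using Nat.strong_induction_on with
    | _ M ih =>
      intro n hM hn
      by_cases hu : IsUnit n
      · rw [cntA_N_unit hu, Real.one_rpow, mul_one]
        have h1 := card_ball_le (zero_le_one (α := ℝ))
        have h2 : (((ball 1).filter (· ∣ n)).card : ℝ) ≤ (ball 1).card :=
          Nat.cast_le.2 (Finset.card_filter_le _ _)
        have h3 : 1 ≤ A ^ ((ball B).filter (fun p => Prime p ∧ p ∣ n)).card := one_le_pow₀ hA1
        linarith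
      obtain ⟨p, hp, hpn⟩ := WfDvdMonoid.exists_irreducible_factor hu hn
      obtain ⟨k, m, hm, rfl⟩ := WfDvdMonoid.max_power_factor hn hp
      have hpp : Prime p := hp.prime
      have hm0 : m ≠ 0 := right_ne_zero_of_mul hn
      have hk : k ≠ 0 := by
        rintro rfl
        exact hm (by simpa using hpn)
      have h2 := cnt_two_le hpp
      have hlt : (nrm m).natAbs < M := by
        have a1 : N m < N (p ^ k * m) := by
          rw [N_mul, N_pow]
          have : 1 < N p ^ k := one_lt_pow₀ (by linarith) hk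
          nlinarith [N_pos hm0]
        unfold N at a1
        have a2 : nrm m < nrm (p ^ k * m) := by exact_mod_cast a1
        have a3 := nrm_nonneg m
        omega
      have h3 := ih _ hlt m rfl hm0
      have h4 := (Nat.cast_le (α := ℝ)).2 (cnt_dvd_pow hpp hm0 k)
      push_cast at h4
      have hsub : (ball B).filter (fun q => Prime q ∧ q ∣ m) ⊆
          (ball B).filter (fun q => Prime q ∧ q ∣ p ^ k * m) := by
        intro q hq
        rw [Finset.mem_filter] at *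
        exact ⟨hq.1, hq.2.1, hq.2.2.mul_left _⟩
      have hN : N (p ^ k * m) ^ e = (N p ^ e) ^ k * N m ^ e := by
        rw [N_mul, N_pow, Real.mul_rpow (by positivity) (N_nonneg m),
          Real.rpow_pow_comm (N_nonneg p)]
      have h5 : ((k : ℝ) + 1) * A ^ ((ball B).filter (fun q => Prime q ∧ q ∣ m)).card
          ≤ A ^ ((ball B).filter (fun q => Prime q ∧ q ∣ p ^ k * m)).card * (N p ^ e) ^ k := by
        by_cases hb : N p ≤ B
        · have c1 : ((ball B).filter (fun q => Prime q ∧ q ∣ m)).card + 1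
              ≤ ((ball B).filter (fun q => Prime q ∧ q ∣ p ^ k * m)).card := by
            refine Finset.card_lt_card ((Finset.ssubset_iff_of_subset hsub).2 ⟨p, ?_, ?_⟩)
            · exact Finset.mem_filter.2 ⟨mem_ball.2 ⟨hpp.ne_zero, hb⟩, hpp, hpn⟩
            · exact fun h => hm (Finset.mem_filter.1 h).2.2
          have c2 := pow_le_pow_right₀ hA1 c1
          have c3 : ((2 : ℝ) ^ e) ^ k ≤ (N p ^ e) ^ k :=
            pow_le_pow_left₀ (by positivity) (Real.rpow_le_rpow (by norm_num) h2 he.le) k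
          calc _ ≤ (A * (N p ^ e) ^ k) * A ^ ((ball B).filter (fun q => Prime q ∧ q ∣ m)).card :=
                mul_le_mul_of_nonneg_right ((hA k).trans
                  (mul_le_mul_of_nonneg_left c3 (by linarith))) (by positivity)
            _ = A ^ (((ball B).filter (fun q => Prime q ∧ q ∣ m)).card + 1) * (N p ^ e) ^ k := by
                ring
            _ ≤ _ := mul_le_mul_of_nonneg_right c2 (by positivity)
        · have c1 : (2 : ℝ) ≤ N p ^ e := by
            have := Real.rpow_le_rpow (by positivity) (not_le.1 hb).le he.le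
            rwa [hB, Real.rpow_inv_rpow (by norm_num) he.ne'] at this
          have c2 : (k : ℝ) + 1 ≤ (N p ^ e) ^ k := by
            have := one_add_mul_le_pow (a := (1 : ℝ)) (by norm_num) k
            have c3 : ((1 : ℝ) + 1) ^ k ≤ (N p ^ e) ^ k :=
              pow_le_pow_left₀ (by norm_num) (by linarith) k
            linarith
          rw [mul_comm]
          exact mul_le_mul (pow_le_pow_right₀ hA1 (Finset.card_le_card hsub)) c2 (by positivity)
            (by positivity)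
      have h6 : 0 ≤ N m ^ e := Real.rpow_nonneg (N_nonneg m) e
      rw [hN]
      calc _ ≤ ((k : ℝ) + 1) *
            (16 * A ^ ((ball B).filter (fun q => Prime q ∧ q ∣ m)).card * N m ^ e) :=
            h4.trans (mul_le_mul_of_nonneg_left h3 (by positivity))
        _ = 16 * (((k : ℝ) + 1) * A ^ ((ball B).filter (fun q => Prime q ∧ q ∣ m)).card)
            * N m ^ e := by ring
        _ ≤ 16 * (A ^ ((ball B).filter (fun q => Prime q ∧ q ∣ p ^ k * m)).card * (N p ^ e) ^ k)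
            * N m ^ e := by gcongr
        _ = _ := by ring
  refine ⟨16 * A ^ (ball B).card, by positivity, fun n hn => (key _ n rfl hn).trans ?_⟩
  have := pow_le_pow_right₀ hA1 (Finset.card_filter_le (ball B) (fun p => Prime p ∧ p ∣ n))
  have h6 : 0 ≤ N n ^ e := Real.rpow_nonneg (N_nonneg n) e
  gcongr

theorem card_divs_le {e : ℝ} (he : 0 < e) : ∃ C : ℝ, 0 < C ∧ ∀ n : Eis, n ≠ 0 →
    ((divs n).card : ℝ) ≤ C * N n ^ e := by
  obtain ⟨C, hC, h⟩ := card_dvd_le he
  refine ⟨C, hC, fun n hn => le_trans (Nat.cast_le.2 (Finset.card_le_card fun d hd => ?_)) (h n hn)⟩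
  unfold divs at hd
  rw [Finset.mem_filter] at *
  exact ⟨hd.1, hd.2.2⟩

theorem card_divs_prime_mul {p x : Eis} (hp : Prime p) (h1 : P1 p) (hx : x ≠ 0) (h : ¬ p ∣ x) :
    (divs (p * x)).card = 2 * (divs x).card := by
  have hpx : p * x ≠ 0 := mul_ne_zero hp.ne_zero hx
  have e : divs (p * x) = divs x ∪ (divs x).image (p * ·) := by
    ext d
    rw [Finset.mem_union, Finset.mem_image, mem_divs hpx, mem_divs hx]
    constructor
    · rintro ⟨h2, h3⟩
      by_cases hd : p ∣ d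
      · obtain ⟨d', rfl⟩ := hd
        exact Or.inr ⟨d', (mem_divs hx).2 ⟨(P0.of_mul h1.1 h2).2.1,
          (mul_dvd_mul_iff_left hp.ne_zero).1 h3⟩, rfl⟩
      · exact Or.inl ⟨h2, (hp.coprime_iff_not_dvd.2 hd).symm.dvd_of_dvd_mul_left h3⟩
    · rintro (⟨h2, h3⟩ | ⟨d', hd', rfl⟩)
      · exact ⟨h2, h3.mul_left _⟩
      · rw [mem_divs hx] at hd'
        exact ⟨(P0.of_prime hp h1).mul hd'.1
          (hp.coprime_iff_not_dvd.2 fun h' => h (h'.trans hd'.2)), mul_dvd_mul_left _ hd'.2⟩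
  have hdis : Disjoint (divs x) ((divs x).image (p * ·)) := by
    rw [Finset.disjoint_left]
    intro d hd hd'
    obtain ⟨d', -, rfl⟩ := Finset.mem_image.1 hd'
    exact h ((dvd_mul_right p d').trans ((mem_divs hx).1 hd).2)
  rw [e, Finset.card_union_of_disjoint hdis,
    Finset.card_image_of_injective _ (mul_right_injective₀ hp.ne_zero), two_mul]

theorem summable_Sm {e : ℝ} (he : 0 < e) :
    Summable (fun r : Eis => if Sm r then N r ^ (-e) else 0) := by
  have hq0 : (0 : ℝ) ≤ 2 ^ (-e) := by positivity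
  have hq1 : (2 : ℝ) ^ (-e) < 1 := Real.rpow_lt_one_of_one_lt_of_neg (by norm_num) (by linarith)
  have hg := summable_geometric_of_lt_one hq0 hq1
  have hp : ∀ n : ℕ, (0 : ℝ) ≤ (2 ^ (-e)) ^ n := fun n => by positivity
  have h2 := hg.mul_of_nonneg hg hp hp
  have h3 := (Summable.of_finite (f := fun _ : ball 1 => (1 : ℝ))).mul_of_nonneg h2
    (fun _ => zero_le_one) (fun y => mul_nonneg (hp _) (hp _))
  have hex : ∀ r : {r : Eis | Sm r}, ∃ y : ball 1 × ℕ × ℕ,
      r.1 = y.1.1 * (2 ^ y.2.1 * lam ^ y.2.2) := by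
    rintro ⟨r, k, hk⟩
    have e6 : (6 : Eis) ^ k ∣ 2 ^ k * lam ^ (2 * k) := by
      rw [pow_mul, lam_sq, ← mul_pow]
      exact pow_dvd_pow_of_dvd ⟨-1, by norm_num⟩ k
    obtain ⟨d1, d2, a1, a2, rfl⟩ := exists_dvd_and_dvd_of_dvd_mul (hk.trans e6)
    obtain ⟨i, -, u, hu⟩ := (dvd_prime_pow prime_two k).1 a1
    obtain ⟨j, -, v, hv⟩ := (dvd_prime_pow prime_lam _).1 a2
    refine ⟨(⟨((u * v)⁻¹ : Eisˣ), cntA_unit.2 (Units.isUnit _)⟩, i, j), ?_⟩
    simp only
    rw [← hu, ← hv, Units.eq_inv_mul_iff_mul_eq]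
    push_cast
    ring
  choose σ hσ using hex
  have hinj : Function.Injective σ := fun x y h => Subtype.ext (by rw [hσ x, hσ y, h])
  have h4 : Summable (fun r : {r : Eis | Sm r} => N r.1 ^ (-e)) := by
    refine Summable.of_nonneg_of_le (fun r => Real.rpow_nonneg (N_nonneg _) _) (fun r => ?_)
      (h3.comp_injective hinj)
    simp only [Function.comp]
    rw [hσ r, N_mul, N_mul, cntA_N_unit (cntA_unit.1 (σ r).1.2), one_mul, one_mul, N_pow, N_pow,
      Real.mul_rpow (pow_nonneg (N_nonneg _) _) (pow_nonneg (N_nonneg _) _),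
      ← Real.rpow_pow_comm (N_nonneg _), ← Real.rpow_pow_comm (N_nonneg _)]
    have b1 : N 2 ^ (-e) ≤ 2 ^ (-e) :=
      Real.rpow_le_rpow_of_nonpos (by norm_num) (cnt_two_le prime_two) (by linarith)
    have b2 : N lam ^ (-e) ≤ 2 ^ (-e) :=
      Real.rpow_le_rpow_of_nonpos (by norm_num) (cnt_two_le prime_lam) (by linarith)
    have b3 := Real.rpow_nonneg (N_nonneg 2) (-e)
    have b4 := Real.rpow_nonneg (N_nonneg lam) (-e)
    gcongr
  have h5 := (summable_subtype_iff_indicator (f := fun r : Eis => N r ^ (-e))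
    (s := {r : Eis | Sm r})).1 h4
  refine h5.congr fun r => ?_
  simp [Set.indicator_apply]

theorem cnt_tendsto : ∃ c : ℝ, 0 < c ∧
    Tendsto (fun R : ℝ => (((ball R).filter P1).card : ℝ) / R) atTop (𝓝 c) := by
  obtain ⟨c, hc, h⟩ := cntA_tendsto
  have hU : (0 : ℝ) < (ball 1).card :=
    Nat.cast_pos.2 (Finset.card_pos.2 ⟨1, cntA_unit.2 isUnit_one⟩)
  have hd : ∀ a : ℝ, 0 < a →
      Tendsto (fun R : ℝ => ((ball (R / a)).card : ℝ) / R) atTop (𝓝 (c / a)) := by
    intro a ha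
    refine ((h.comp (tendsto_id.atTop_div_const ha)).div_const a).congr' ?_
    filter_upwards [eventually_gt_atTop 0] with R hR
    simp only [Function.comp, id]
    field_simp
  refine ⟨(c - c / 3 - c / 4 + c / 12) / (ball 1).card, div_pos (by linarith) hU, ?_⟩
  refine ((((h.sub (hd 3 (by norm_num))).sub (hd 4 (by norm_num))).add
    (hd 12 (by norm_num))).div_const _).congr fun R => ?_
  rw [← sub_div, ← sub_div, ← add_div, ← cntA_incl]
  field_simp

/-- Lower bound for the number of odd primary elements. -/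
theorem card_P1_ge : ∃ c : ℝ, 0 < c ∧ ∀ Z : ℝ, 1 ≤ Z →
    c * Z ≤ (((ball Z).filter P1).card : ℝ) := by
  obtain ⟨c, hc, h⟩ := cnt_tendsto
  obtain ⟨Z0, hZ0⟩ := eventually_atTop.1 (h.eventually (lt_mem_nhds (half_lt_self hc)))
  refine ⟨min (c / 2) (max Z0 1)⁻¹, lt_min (by linarith) (by positivity), fun Z hZ => ?_⟩
  rcases le_total Z0 Z with h1 | h1
  · have := (lt_div_iff₀ (by linarith)).1 (hZ0 Z h1)
    exact (mul_le_mul_of_nonneg_right (min_le_left _ _) (by linarith)).trans this.le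
  · have h2 : (1 : ℝ) ≤ ((ball Z).filter P1).card :=
      Nat.one_le_cast.2 (Finset.card_pos.2
        ⟨1, Finset.mem_filter.2 ⟨mem_ball.2 ⟨one_ne_zero, by rwa [N_one]⟩, P1.one⟩⟩)
    refine ((mul_le_mul_of_nonneg_right (min_le_right _ _) (by linarith)).trans ?_).trans h2
    rw [inv_mul_le_iff₀ (by positivity), mul_one]
    exact h1.trans (le_max_left _ _)

/-- Asymptotic for the number of odd primary elements. -/
theorem tendsto_card_P1 : ∃ c : ℝ, 0 < c ∧
    Tendsto (fun R : ℝ => (((ball R).filter P1).card : ℝ) / R) atTop (𝓝 c) := cnt_tendsto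

theorem w_pos (x : ℝ) : 0 < w x := Real.exp_pos _
theorem w_le_one (x : ℝ) : w x ≤ 1 := Real.exp_le_one_iff.2 (neg_nonpos.2 (sq_nonneg _))
theorem w_le_rpow (a : ℝ) {x : ℝ} (hx : 0 < x) : w x ≤ Real.exp (a ^ 2 / 4) * x ^ a := by
  rw [Real.rpow_def_of_pos hx, ← Real.exp_add]
  exact Real.exp_le_exp.2 (by nlinarith [sq_nonneg (Real.log x + a / 2)])
theorem rpow_mul_w (a : ℝ) {x : ℝ} (hx : 0 < x) :
    x ^ a * w x = Real.exp (a ^ 2 / 4) * w (x / Real.exp (a / 2)) := by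
  unfold w
  rw [Real.rpow_def_of_pos hx, ← Real.exp_add, ← Real.exp_add,
    Real.log_div hx.ne' (Real.exp_pos _).ne', Real.log_exp]
  congr 1
  ring

theorem cnt_w (k B : ℝ) {Y : ℝ} (hY : 0 < Y) {c : Eis} (hc : c ≠ 0) :
    N c ^ k * w (N c / Y) ≤ Real.exp (B ^ 2 / 4) * Y ^ B * N c ^ (k - B) := by
  have hp := N_pos hc
  have h1 := w_le_rpow (-B) (div_pos hp hY)
  rw [neg_sq, Real.div_rpow hp.le hY.le, Real.rpow_neg hY.le, div_inv_eq_mul] at h1
  refine (mul_le_mul_of_nonneg_left h1 (Real.rpow_nonneg hp.le k)).trans (le_of_eq ?_)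
  rw [sub_eq_add_neg, Real.rpow_add hp]
  ring

theorem cnt_summable {F : Eis → ℝ} (h0 : ∀ c, 0 ≤ F c) (C : ℝ)
    (h : ∀ c, c ≠ 0 → F c ≤ C * N c ^ (-(2 : ℝ))) : Summable F := by
  refine Summable.of_norm_bounded_eventually ((summable_N_rpow one_lt_two).mul_left C) ?_
  filter_upwards [(Set.finite_singleton (0 : Eis)).compl_mem_cofinite] with c hc
  rw [Real.norm_of_nonneg (h0 c)]
  exact h c hc

theorem summable_w (k : ℝ) {Y : ℝ} (hY : 0 < Y) :
    Summable (fun c : Eis => N c ^ k * w (N c / Y)) := by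
  refine cnt_summable (fun c => mul_nonneg (Real.rpow_nonneg (N_nonneg c) k) (w_pos _).le)
    (Real.exp ((k + 2) ^ 2 / 4) * Y ^ (k + 2)) fun c hc => ?_
  have := cnt_w k (k + 2) hY hc
  rwa [show k - (k + 2) = -2 by ring] at this

theorem cnt_split {F G : Eis → ℝ} {x D : ℝ} (hD : 0 ≤ D) (h0 : ∀ c, 0 ≤ F c) (hG : ∀ c, 0 ≤ G c)
    (h1 : ∀ c, c ≠ 0 → F c ≤ G c) (h2 : ∀ c, c ≠ 0 → F c ≤ D * N c ^ (-(2 : ℝ))) {U V : ℝ}
    (hU : ∑ c ∈ ball x, G c ≤ U)
    (hV : ∀ t : Finset Eis, ∑ c ∈ t, (if x < N c then N c ^ (-(2 : ℝ)) else 0) ≤ V) :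
    ∑' c : Eis, (if c = 0 then 0 else F c) ≤ U + D * V := by
  refine Real.tsum_le_of_sum_le (fun c => ?_) fun t => ?_
  · dsimp only
    split_ifs
    · exact le_rfl
    · exact h0 c
  have h3 : ∀ c ∈ t, (if c = 0 then 0 else F c) ≤
      (if c ∈ ball x then G c else 0) + D * (if x < N c then N c ^ (-(2 : ℝ)) else 0) := by
    intro c _
    have hn : 0 ≤ N c ^ (-(2 : ℝ)) := Real.rpow_nonneg (N_nonneg c) _
    by_cases hc : c = 0
    · rw [if_pos hc]
      have := hG c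
      positivity
    · rw [if_neg hc]
      by_cases hx : x < N c
      · rw [if_pos hx, if_neg (fun h => absurd (mem_ball.1 h).2 (not_le.2 hx)), zero_add]
        exact h2 c hc
      · rw [if_neg hx, if_pos (mem_ball.2 ⟨hc, not_lt.1 hx⟩), mul_zero, add_zero]
        exact h1 c hc
  refine (Finset.sum_le_sum h3).trans ?_
  rw [Finset.sum_add_distrib, ← Finset.mul_sum]
  refine add_le_add (le_trans ?_ hU) (mul_le_mul_of_nonneg_left (hV t) hD)
  rw [← Finset.sum_filter]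
  exact Finset.sum_le_sum_of_subset_of_nonneg (fun c hc => (Finset.mem_filter.1 hc).2)
    fun c _ _ => hG c

/-- Sum of the weight over nonzero elements, any Y. -/
theorem tsum_w_le {k : ℝ} (hk : -1 < k) : ∃ C : ℝ, 0 < C ∧ ∀ Y : ℝ, 0 < Y →
    ∑' c : Eis, (if c = 0 then 0 else N c ^ k * w (N c / Y)) ≤ C * Y ^ (k + 1) := by
  obtain ⟨C1, hC1, h1⟩ := sum_ball_rpow (s := -k) (by linarith)
  obtain ⟨C2, hC2, h2⟩ := cnt_tail one_lt_two
  refine ⟨C1 + Real.exp ((k + 2) ^ 2 / 4) * C2, by positivity, fun Y hY => ?_⟩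
  have h3 := cnt_split (F := fun c => N c ^ k * w (N c / Y)) (G := fun c => N c ^ (- -k))
    (D := Real.exp ((k + 2) ^ 2 / 4) * Y ^ (k + 2)) (by positivity)
    (fun c => mul_nonneg (Real.rpow_nonneg (N_nonneg c) k) (w_pos _).le)
    (fun c => Real.rpow_nonneg (N_nonneg c) _)
    (fun c _ => by
      rw [neg_neg]
      exact mul_le_of_le_one_right (Real.rpow_nonneg (N_nonneg c) k) (w_le_one _))
    (fun c hc => by
      have := cnt_w k (k + 2) hY hc
      rwa [show k - (k + 2) = -2 by ring] at this) (h1 Y hY) (h2 Y hY)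
  refine h3.trans (le_of_eq ?_)
  have e : Y ^ (k + 2) * Y ^ ((1 : ℝ) - 2) = Y ^ (k + 1) := by
    rw [← Real.rpow_add hY]
    congr 1
    ring
  rw [show 1 - -k = k + 1 by ring]
  linear_combination Real.exp ((k + 2) ^ 2 / 4) * C2 * e

/-- Rapid decay for small Y. -/
theorem tsum_w_small (k A : ℝ) : ∃ C : ℝ, 0 < C ∧ ∀ Y : ℝ, 0 < Y → Y ≤ 1 →
    ∑' c : Eis, (if c = 0 then 0 else N c ^ k * w (N c / Y)) ≤ C * Y ^ A := by
  have hs := summable_N_rpow one_lt_two
  have hn : ∀ c : Eis, 0 ≤ N c ^ (-(2 : ℝ)) := fun c => Real.rpow_nonneg (N_nonneg c) _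
  have hT : 0 ≤ ∑' c : Eis, N c ^ (-(2 : ℝ)) := tsum_nonneg hn
  set B := max A (k + 2) with hB
  refine ⟨Real.exp (B ^ 2 / 4) * (∑' c : Eis, N c ^ (-(2 : ℝ))) + 1, by positivity,
    fun Y hY hY1 => ?_⟩
  have h0 : ∀ c : Eis, 0 ≤ (if c = 0 then 0 else N c ^ k * w (N c / Y)) := by
    intro c
    split_ifs
    · exact le_rfl
    · exact mul_nonneg (Real.rpow_nonneg (N_nonneg c) k) (w_pos _).le
  have h1 : ∀ c : Eis, (if c = 0 then 0 else N c ^ k * w (N c / Y))
      ≤ Real.exp (B ^ 2 / 4) * Y ^ A * N c ^ (-(2 : ℝ)) := by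
    intro c
    have := hn c
    split_ifs with hc
    · positivity
    · refine (cnt_w k B hY hc).trans ?_
      have a1 : Y ^ B ≤ Y ^ A := Real.rpow_le_rpow_of_exponent_ge hY hY1 (le_max_left _ _)
      have a2 : N c ^ (k - B) ≤ N c ^ (-(2 : ℝ)) :=
        Real.rpow_le_rpow_of_exponent_le (one_le_N hc) (by linarith [le_max_right A (k + 2)])
      have a3 := Real.rpow_nonneg (N_nonneg c) (k - B)
      gcongr
  have h2 := (Summable.of_nonneg_of_le h0 h1 (hs.mul_left _)).tsum_le_tsum h1 (hs.mul_left _)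
  rw [tsum_mul_left] at h2
  have h3 : 0 < Y ^ A := Real.rpow_pos_of_pos hY A
  nlinarith

theorem cnt_exp {a : ℝ} (ha : 0 < a) {c : Eis} (hc : c ≠ 0) :
    Real.exp (-(a * N c)) ≤ 2 / a ^ 2 * N c ^ (-(2 : ℝ)) := by
  have hp := N_pos hc
  have h1 := Real.quadratic_le_exp_of_nonneg (mul_pos ha hp).le
  have h2 := mul_pos ha hp
  rw [Real.rpow_neg hp.le, Real.rpow_two, Real.exp_neg, inv_le_comm₀ (Real.exp_pos _) (by positivity)]
  have : (2 / a ^ 2 * (N c ^ 2)⁻¹)⁻¹ = (a * N c) ^ 2 / 2 := by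
    field_simp
  rw [this]
  linarith

theorem summable_exp {a : ℝ} (ha : 0 < a) : Summable (fun c : Eis => Real.exp (-(a * N c))) :=
  cnt_summable (fun _ => (Real.exp_pos _).le) _ fun _ hc => cnt_exp ha hc

theorem tsum_exp_le : ∃ C : ℝ, 0 < C ∧ ∀ a : ℝ, 0 < a →
    ∑' c : Eis, (if c = 0 then 0 else Real.exp (-(a * N c))) ≤ C / a := by
  obtain ⟨C2, hC2, h2⟩ := cnt_tail one_lt_two
  refine ⟨16 + 2 * C2, by positivity, fun a ha => ?_⟩
  have h3 := cnt_split (F := fun c => Real.exp (-(a * N c))) (G := fun _ => 1) (x := a⁻¹)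
    (D := 2 / a ^ 2) (by positivity) (fun _ => (Real.exp_pos _).le) (fun _ => zero_le_one)
    (fun c _ => Real.exp_le_one_iff.2 (neg_nonpos.2 (mul_nonneg ha.le (N_nonneg c))))
    (fun c hc => cnt_exp ha hc) (U := 16 * a⁻¹)
    (by simpa using card_ball_le (inv_pos.2 ha).le) (h2 a⁻¹ (inv_pos.2 ha))
  refine h3.trans (le_of_eq ?_)
  rw [show (1 : ℝ) - 2 = -1 by norm_num, Real.rpow_neg_one, inv_inv]
  field_simp

end Vale.Agent.P026
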