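import Vale.Agent.P026.Struct
import Vale.Agent.P026.Count

/-! Minkowski inequality and the passage between the sums Tsq and Tth in mean square. -/

namespace Vale.Agent.P026

open Eis Complex
open scoped Classical ComplexConjugate

noncomputable section

/-- Minkowski inequality for an infinite sum of finite vectors. -/
theorem bt_mink {ι κ : Type*} (H : Finset κ) (g : ι → κ → ℂ) (F : κ → ℂ)
    (hF : ∀ h ∈ H, HasSum (fun d => g d h) (F h)) (b : ι → ℝ) (hb : Summable b)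
    (hb0 : ∀ d, 0 ≤ b d) (hg : ∀ d, ∑ h ∈ H, ‖g d h‖ ^ 2 ≤ b d ^ 2) :
    ∑ h ∈ H, ‖F h‖ ^ 2 ≤ (∑' d, b d) ^ 2 := by
  let e := (EuclideanSpace.equiv H ℂ).symm
  have h1 : HasSum (fun d => (fun h : H => g d h)) (fun h : H => F h) :=
    Pi.hasSum.mpr fun h => hF h h.2
  have h2 := (e.hasSum').mpr h1
  have h3 : ∀ v : κ → ℂ, ‖e (fun h : H => v h)‖ ^ 2 = ∑ h ∈ H, ‖v h‖ ^ 2 := fun v => by
    rw [EuclideanSpace.norm_sq_eq, ← Finset.sum_coe_sort H]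
    rfl
  have h4 := h2.norm_le_of_bounded hb.hasSum fun d =>
    (pow_le_pow_iff_left₀ (norm_nonneg _) (hb0 d) two_ne_zero).mp ((h3 _).le.trans (hg d))
  rw [← h3]
  exact pow_le_pow_left₀ (norm_nonneg _) h4 2

theorem bt_norm_cop_le (D c : Eis) : ‖cop D c‖ ≤ 1 := by
  unfold cop
  split_ifs <;> simp

theorem bt_cop_mul (D x y : Eis) : cop D (x * y) = cop D x * cop D y := by
  unfold cop
  by_cases hx : IsCoprime x D <;> by_cases hy : IsCoprime y D <;>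
    simp [hx, hy, IsCoprime.mul_left_iff]

theorem Bd1.bt_mul {F G : Eis → ℂ} (hF : Bd1 F) (hG : Bd1 G) : Bd1 (fun c => F c * G c) :=
  fun c => by
  rw [norm_mul]
  exact mul_le_one₀ (hF c) (norm_nonneg _) (hG c)

theorem bt_bd (Xi : Eis → ℂ) (hB : Bd1 Xi) (D h : Eis) :
    Bd1 (fun c => Xi c * cop D c * chi 1 h c) :=
  (hB.bt_mul (bt_norm_cop_le D)).bt_mul (norm_chi_le 1 h)

theorem Per.bt_comp {q : Eis} {F : Eis → ℂ} (hF : Per q F) (s : Eis) :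
    Per q (fun x => F (x * s)) := by
  have := hF.comp_mul s
  simpa only [mul_comm] using this

/-- The mean square of the full theta sums. -/
def btT (Xi : Eis → ℂ) (D0 : Eis) (Y K t : ℝ) : ℝ :=
  ∑ h ∈ ball K, ‖Tth true (fun c => Xi c * cop D0 c * chi 1 h c) Y t‖ ^ 2

theorem bt_split (Xi : Eis → ℂ) (D h : Eis) {d e : Eis} (hd : d ≠ 0) (he : e ≠ 0) :
    Xi (e * d ^ 3) * cop D (e * d ^ 3) * chi 1 h (e * d ^ 3) =
      (cop D (d ^ 3) * chi 1 h (d ^ 3)) * (Xi (e * d ^ 3) * cop D e * chi 1 h e) := by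
  rw [bt_cop_mul, chi_mul_right 1 h he (pow_ne_zero 3 hd)]
  ring

theorem bt_fac_le (D h d : Eis) : ‖cop D (d ^ 3) * chi 1 h (d ^ 3)‖ ≤ 1 := by
  rw [norm_mul]
  exact mul_le_one₀ (bt_norm_cop_le _ _) (norm_nonneg _) (norm_chi_le _ _ _)

theorem bt_sq_le {x y z u : ℂ} {d : Eis} (hx : ‖x‖ ≤ ab d) (hy : ‖y‖ = 1) (hz : ‖z‖ ≤ 1) :
    ‖x * y * (z * u)‖ ^ 2 ≤ N d * ‖u‖ ^ 2 := by
  rw [← ab_sq, ← mul_pow, norm_mul, norm_mul, norm_mul, hy, mul_one]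
  refine pow_le_pow_left₀ (by positivity) ?_ 2
  exact mul_le_mul hx (mul_le_of_le_one_left (norm_nonneg _) hz) (by positivity) (ab_nonneg d)

theorem bt_BB_le {Xi : Eis → ℂ} (hB : Bd1 Xi) (D : Eis) {Y : ℝ} (hY : 0 < Y) (K t : ℝ)
    (b : Eis → ℝ) (hb : Summable b) (hb0 : ∀ d, 0 ≤ b d)
    (h : ∀ d, P0 d → N d * btT (fun c => Xi (c * d ^ 3)) D (Y / N d ^ 3) K t ≤ b d ^ 2) :
    BB Xi D Y K t ≤ (∑' d, b d) ^ 2 := by
  refine bt_mink (ball K) _ _ (fun h _ => Tsq_hasSum true (bt_bd Xi hB D h) hY t) b hb hb0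
    fun d => ?_
  by_cases hd : P0 d
  · refine le_trans ?_ (h d hd)
    rw [btT, Finset.mul_sum]
    refine Finset.sum_le_sum fun k _ => ?_
    rw [Tth_congr true (fun e he => bt_split Xi D k hd.ne_zero he.ne_zero), Tth_const_mul]
    refine bt_sq_le ?_ (norm_nit _ _) (bt_fac_le _ _ _)
    rw [norm_mul]
    exact (mul_le_of_le_one_left (norm_nonneg _) (norm_mu0_le d)).trans (norm_bet_le _ _)
  · have : mu0 d = 0 := by
      by_contra hc
      exact hd (mu0_ne_zero.mp hc)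
    simp only [this, zero_mul, norm_zero, ne_eq, OfNat.ofNat_ne_zero, not_false_eq_true, zero_pow,
      Finset.sum_const_zero]
    positivity

theorem bt_T_le {Xi : Eis → ℂ} (hB : Bd1 Xi) (D : Eis) {Y : ℝ} (hY : 0 < Y) (K t : ℝ)
    (b : Eis → ℝ) (hb : Summable b) (hb0 : ∀ d, 0 ≤ b d)
    (h : ∀ d, P1 d → N d * BB (fun c => Xi (c * d ^ 3)) D (Y / N d ^ 3) K t ≤ b d ^ 2) :
    btT Xi D Y K t ≤ (∑' d, b d) ^ 2 := by
  refine bt_mink (ball K) _ _ (fun h _ => Tth_hasSum true (bt_bd Xi hB D h) hY t) b hb hb0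
    fun d => ?_
  by_cases hd : P1 d
  · refine le_trans ?_ (h d hd)
    rw [BB, Finset.mul_sum]
    refine Finset.sum_le_sum fun k _ => ?_
    rw [Tsq_congr true (fun e he => bt_split Xi D k hd.ne_zero he.ne_zero), Tsq_const_mul]
    exact bt_sq_le (norm_bet_le _ _) (norm_nit _ _) (bt_fac_le _ _ _)
  · have : bet true d = 0 := if_neg hd
    simp only [this, zero_mul, norm_zero, ne_eq, OfNat.ofNat_ne_zero, not_false_eq_true, zero_pow,
      Finset.sum_const_zero]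
    positivity

theorem bt_pow_sq {n : ℝ} (hn : 0 < n) : (n ^ (-(41 / 32 : ℝ))) ^ 2 = n ^ (-(41 / 16 : ℝ)) := by
  rw [← Real.rpow_natCast, ← Real.rpow_mul hn.le]
  norm_num

theorem bt_div_rpow {n Y : ℝ} (hn : 0 < n) (hY : 0 < Y) (k : ℕ) (a : ℝ) :
    (Y / n ^ k) ^ a = Y ^ a * n ^ (-(k * a)) := by
  rw [Real.div_rpow hY.le (by positivity), ← Real.rpow_natCast, ← Real.rpow_mul hn.le,
    Real.rpow_neg hn.le, div_eq_mul_inv]

theorem bt_scale {n Y K g : ℝ} (hn : 1 ≤ n) (hY : 0 < Y) (hK : 0 ≤ K) (hg : 0 ≤ g) :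
    n * ((Y / n ^ 3 + K * (Y / n ^ 3) ^ (3 / 16 : ℝ)) * (Y / n ^ 3) ^ (1 + g)) ≤
      (Y + K * Y ^ (3 / 16 : ℝ)) * Y ^ (1 + g) * (n ^ (-(41 / 32 : ℝ))) ^ 2 := by
  have hn0 : 0 < n := by linarith
  have h1 : Y / n ^ 3 + K * (Y / n ^ 3) ^ (3 / 16 : ℝ) ≤
      (Y + K * Y ^ (3 / 16 : ℝ)) * n ^ (-(9 / 16 : ℝ)) := by
    rw [bt_div_rpow hn0 hY, add_mul, mul_assoc]
    refine add_le_add ?_ (le_of_eq (by norm_num))
    rw [div_eq_mul_inv, ← Real.rpow_natCast, ← Real.rpow_neg hn0.le]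
    exact mul_le_mul_of_nonneg_left (Real.rpow_le_rpow_of_exponent_le hn (by norm_num)) hY.le
  have h2 : (Y / n ^ 3) ^ (1 + g) ≤ Y ^ (1 + g) * n ^ (-(3 : ℝ)) := by
    rw [bt_div_rpow hn0 hY]
    exact mul_le_mul_of_nonneg_left (Real.rpow_le_rpow_of_exponent_le hn (by push_cast; linarith))
      (by positivity)
  have h3 : n * (n ^ (-(9 / 16 : ℝ)) * n ^ (-(3 : ℝ))) = (n ^ (-(41 / 32 : ℝ))) ^ 2 := by
    rw [bt_pow_sq hn0, ← Real.rpow_add hn0, ← Real.rpow_one_add' hn0.le (by norm_num)]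
    norm_num
  rw [← h3]
  calc _ ≤ n * (((Y + K * Y ^ (3 / 16 : ℝ)) * n ^ (-(9 / 16 : ℝ))) *
        (Y ^ (1 + g) * n ^ (-(3 : ℝ)))) := by gcongr
    _ = _ := by ring

theorem bt_scale' {n Y e : ℝ} (hn : 1 ≤ n) (hY : 0 < Y) (he : 0 ≤ e) :
    n * (Y / n ^ 3) ^ (2 + e) ≤ Y ^ (2 + e) * (n ^ (-(41 / 32 : ℝ))) ^ 2 := by
  have hn0 : 0 < n := by linarith
  rw [bt_div_rpow hn0 hY, bt_pow_sq hn0, mul_left_comm]
  refine mul_le_mul_of_nonneg_left ?_ (by positivity)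
  nth_rewrite 1 [← Real.rpow_one n]
  rw [← Real.rpow_add hn0]
  exact Real.rpow_le_rpow_of_exponent_le hn (by push_cast; linarith)

/-- The constant sum of N d ^ (-41/32). -/
def btS : ℝ := ∑' d : Eis, N d ^ (-(41 / 32 : ℝ))

theorem bt_summable : Summable fun d : Eis => N d ^ (-(41 / 32 : ℝ)) :=
  summable_N_rpow (by norm_num)

theorem btS_nonneg : 0 ≤ btS := tsum_nonneg fun d => Real.rpow_nonneg (N_nonneg d) _

/-- The shape of the bound given by the reverse Poisson step. -/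
def btR (q : Eis) (C : ℝ) (A : ℕ) (g e : ℝ) : Prop :=
  ∀ Xi : Eis → ℂ, Per q Xi → Bd1 Xi → ∀ D0 : Eis, P0 D0 → ∀ Y K t : ℝ, 0 < Y → 0 < K →
    BB Xi D0 Y K t ≤ C * (1 + |t|) ^ A * N D0 ^ e * (Y + K * Y ^ (3 / 16 : ℝ)) * Y ^ (1 + g)

theorem bt_T_of_R {q : Eis} {C : ℝ} {A : ℕ} {g e : ℝ} (hC : 0 ≤ C) (hg : 0 ≤ g)
    (hR : btR q C A g e) {Xi : Eis → ℂ} (hP : Per q Xi) (hB : Bd1 Xi) {D : Eis} (hD : P0 D)
    {Y K : ℝ} (t : ℝ) (hY : 0 < Y) (hK : 0 < K) :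
    btT Xi D Y K t ≤
      btS ^ 2 * (C * (1 + |t|) ^ A * N D ^ e * (Y + K * Y ^ (3 / 16 : ℝ)) * Y ^ (1 + g)) := by
  obtain ⟨X, hX⟩ : ∃ X, X = C * (1 + |t|) ^ A * N D ^ e := ⟨_, rfl⟩
  have hX0 : 0 ≤ X := by
    have := Real.rpow_nonneg (N_nonneg D) e
    rw [hX]
    positivity
  obtain ⟨Z, hZ⟩ : ∃ Z, Z = X * (Y + K * Y ^ (3 / 16 : ℝ)) * Y ^ (1 + g) := ⟨_, rfl⟩
  have hZ0 : 0 ≤ Z := by rw [hZ]; positivity
  rw [← hX, ← hZ]
  have h1 := bt_T_le hB D hY K t (fun d => √Z * N d ^ (-(41 / 32 : ℝ))) (bt_summable.mul_left _)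
    (fun d => mul_nonneg (Real.sqrt_nonneg _) (Real.rpow_nonneg (N_nonneg d) _)) fun d hd => by
      have hn := one_le_N hd.ne_zero
      have h2 := hR _ (hP.bt_comp (d ^ 3)) (fun c => hB _) D hD (Y / N d ^ 3) K t
        (by positivity) hK
      rw [← hX] at h2
      have h3 := mul_le_mul_of_nonneg_left (bt_scale hn hY hK.le hg) hX0
      rw [mul_pow, Real.sq_sqrt hZ0, hZ]
      refine (mul_le_mul_of_nonneg_left h2 (by positivity)).trans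
        (le_trans (le_of_eq ?_) (h3.trans (le_of_eq ?_))) <;> ring
  rwa [tsum_mul_left, mul_pow, Real.sq_sqrt hZ0, mul_comm] at h1

/-- The shape of the bound given by the Voronoi step. -/
def btV (q : Eis) (C : ℝ) (A C0 : ℕ) (e : ℝ) : Prop :=
  ∀ (Xi : Eis → ℂ), Per q Xi → Bd1 Xi → ∀ D0 : Eis, P0 D0 → ∀ Y P K t : ℝ, 1 ≤ Y → 1 ≤ P →
    N D0 ≤ P → K ≤ P * Y ^ (13 / 16 : ℝ) →
    btT Xi D0 Y K t ≤ C * (1 + |t|) ^ A * P ^ C0 * Y ^ (2 + e)

/-- The bound for a small coprimality modulus. -/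
theorem bt_small {q : Eis} {C C' Ct : ℝ} {A A' C0 : ℕ} {g e : ℝ} (hC : 0 ≤ C) (hC' : 0 ≤ C')
    (hg : 0 ≤ g) (he : 0 ≤ e) (hR : btR q C A g e) (hV : btV q C' A' C0 e)
    (hCt : ∀ x : ℝ, 0 < x → ∑' c : Eis, (if x < N c then N c ^ (-(41 / 32 : ℝ)) else 0) ≤
      Ct * x ^ (1 - (41 / 32 : ℝ)))
    {Xi : Eis → ℂ} (hP : Per q Xi) (hB : Bd1 Xi) {D : Eis} (hD : P0 D)
    {Y K U P : ℝ} (t : ℝ) (hK : 0 < K) (hU : 1 ≤ U) (hUY : U ^ 3 ≤ Y) (hP1 : 1 ≤ P)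
    (hDP : N D ≤ P) (hKP : K ≤ P * (Y / U ^ 3) ^ (13 / 16 : ℝ)) :
    BB Xi D Y K t ≤
      2 * (Ct ^ 2 * U ^ (-(9 / 16 : ℝ)) * btS ^ 2 *
        (C * (1 + |t|) ^ A * N D ^ e * (Y + K * Y ^ (3 / 16 : ℝ)) * Y ^ (1 + g))) +
      2 * (btS ^ 2 * (C' * (1 + |t|) ^ A' * P ^ C0 * Y ^ (2 + e))) := by
  have hU0 : 0 < U := by linarith
  have hY : 0 < Y := lt_of_lt_of_le (by positivity) hUY
  obtain ⟨X, hX⟩ : ∃ X, X = C * (1 + |t|) ^ A * N D ^ e := ⟨_, rfl⟩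
  have hX0 : 0 ≤ X := by
    have := Real.rpow_nonneg (N_nonneg D) e
    rw [hX]
    positivity
  obtain ⟨Z, hZ⟩ : ∃ Z, Z = btS ^ 2 * (X * (Y + K * Y ^ (3 / 16 : ℝ)) * Y ^ (1 + g)) := ⟨_, rfl⟩
  have hZ0 : 0 ≤ Z := by rw [hZ]; positivity
  obtain ⟨X', hX'⟩ : ∃ X', X' = C' * (1 + |t|) ^ A' * P ^ C0 := ⟨_, rfl⟩
  have hX0' : 0 ≤ X' := by rw [hX']; positivity
  obtain ⟨Z', hZ'⟩ : ∃ Z', Z' = X' * Y ^ (2 + e) := ⟨_, rfl⟩
  have hZ0' : 0 ≤ Z' := by rw [hZ']; positivity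
  have hs : Summable fun c : Eis => if U < N c then N c ^ (-(41 / 32 : ℝ)) else 0 :=
    Summable.of_nonneg_of_le
      (fun c => by split_ifs; exacts [Real.rpow_nonneg (N_nonneg c) _, le_rfl])
      (fun c => by split_ifs; exacts [le_rfl, Real.rpow_nonneg (N_nonneg c) _]) bt_summable
  have h1 := bt_BB_le hB D hY K t
    (fun d => √Z * (if U < N d then N d ^ (-(41 / 32 : ℝ)) else 0) +
      √Z' * N d ^ (-(41 / 32 : ℝ))) ((hs.mul_left _).add (bt_summable.mul_left _))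
    (fun d => by
      have := Real.rpow_nonneg (N_nonneg d) (-(41 / 32 : ℝ))
      split_ifs <;> positivity) fun d hd => by
      have hn := one_le_N hd.ne_zero
      have hp := Real.rpow_nonneg (N_nonneg d) (-(41 / 32 : ℝ))
      have hP' := hP.bt_comp (d ^ 3)
      have hB' : Bd1 fun c => Xi (c * d ^ 3) := fun c => hB _
      split_ifs with hUd
      · refine le_trans ?_ (pow_le_pow_left₀ (by positivity)
          (le_add_of_nonneg_right (by positivity)) 2)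
        have h2 := bt_T_of_R hC hg hR hP' hB' hD (Y := Y / N d ^ 3) t (by positivity) hK
        rw [← hX] at h2
        have h3 := mul_le_mul_of_nonneg_left (bt_scale hn hY hK.le hg)
          (mul_nonneg (sq_nonneg btS) hX0)
        rw [mul_pow, Real.sq_sqrt hZ0, hZ]
        refine (mul_le_mul_of_nonneg_left h2 (by positivity)).trans
          (le_trans (le_of_eq ?_) (h3.trans (le_of_eq ?_))) <;> ring
      · have h4 : Y / U ^ 3 ≤ Y / N d ^ 3 := by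
          gcongr
          exact not_lt.mp hUd
        have h2 := hV _ hP' hB' D hD (Y / N d ^ 3) P K t
          (le_trans ((one_le_div (by positivity)).mpr hUY) h4) hP1 hDP
          (hKP.trans (by gcongr))
        rw [← hX'] at h2
        have h3 := mul_le_mul_of_nonneg_left (bt_scale' hn hY he) hX0'
        rw [mul_zero, zero_add, mul_pow, Real.sq_sqrt hZ0', hZ']
        refine (mul_le_mul_of_nonneg_left h2 (by positivity)).trans
          (le_trans (le_of_eq ?_) (h3.trans (le_of_eq ?_))) <;> ring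
  rw [(hs.mul_left _).tsum_add (bt_summable.mul_left _), tsum_mul_left, tsum_mul_left] at h1
  have h5 := hCt U hU0
  have h6 : 0 ≤ ∑' c : Eis, if U < N c then N c ^ (-(41 / 32 : ℝ)) else 0 :=
    tsum_nonneg fun c => by split_ifs; exacts [Real.rpow_nonneg (N_nonneg c) _, le_rfl]
  have h7 : (U ^ (1 - (41 / 32 : ℝ))) ^ 2 = U ^ (-(9 / 16 : ℝ)) := by
    rw [← Real.rpow_natCast, ← Real.rpow_mul hU0.le]
    norm_num
  have h8 := pow_le_pow_left₀ h6 h5 2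
  rw [mul_pow, h7] at h8
  rw [← hX, ← hX', ← hZ', mul_assoc _ (btS ^ 2), ← hZ]
  refine h1.trans ((add_sq_le).trans ?_)
  rw [mul_pow, mul_pow, Real.sq_sqrt hZ0, Real.sq_sqrt hZ0', mul_add, mul_comm Z, mul_comm Z']
  exact add_le_add (mul_le_mul_of_nonneg_left (mul_le_mul_of_nonneg_right h8 hZ0) zero_le_two)
    le_rfl

end

end Vale.Agent.P026
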