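import Vale.Agent.P026.VStepB

/-! The family bound for one fixed background. -/

namespace Vale.Agent.P026

open Eis Complex
open scoped Classical ComplexConjugate

theorem vs_lift_cases {r0 : Eis} (hr : Sm r0) (r : Eis) :
    (∃ x, P1 x ∧ r = r0 * x) ∨ ((¬ ∃ x, P1 x ∧ r = r0 * x) ∧ ∀ F, lift r0 F r = 0) := by
  by_cases h : ∃ x, P1 x ∧ r = r0 * x
  · exact Or.inl h
  · refine Or.inr ⟨h, fun F => if_neg fun h' => h ⟨r / r0, h'.2, ?_⟩⟩
    exact (EuclideanDomain.mul_div_cancel' hr.ne_zero h'.1).symm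

theorem vs_lift_chi {r0 h : Eis} (hr : Sm r0) (hh : P1 h) (G : Eis → ℂ) (r : Eis) :
    lift r0 G r * chi 1 r h = chi 1 r0 h * lift r0 (fun c => G c * chi 1 c h) r := by
  rcases vs_lift_cases hr r with ⟨x, hx, rfl⟩ | ⟨-, h0⟩
  · rw [lift_mul hr _ hx, lift_mul hr _ hx, chi_mul_left _ _ _ hh]
    ring
  · rw [h0, h0, zero_mul, mul_zero]

theorem vs_lift_cov {r0 s : Eis} (hr : Sm r0) (hs : P1 s) {G : Eis → ℂ} {ξ : ℂ}
    (h : ∀ x, P1 x → G (x * s) = ξ * G x) (r : Eis) :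
    lift r0 G (r * s) = ξ * cub 9 s * conj (cub r0 s) * lift r0 G r := by
  rcases vs_lift_cases hr r with ⟨x, hx, rfl⟩ | ⟨h1, h0⟩
  · rw [mul_assoc r0, lift_mul hr _ hx, lift_mul hr _ (hx.mul hs), h x hx,
      cub_mul_right _ hx.ne_zero hs.ne_zero, cub_mul_right _ hx.ne_zero hs.ne_zero, map_mul]
    ring
  · rcases vs_lift_cases hr (r * s) with ⟨y, hy, h2⟩ | ⟨-, h2⟩
    · obtain ⟨x, rfl⟩ := (hr.coprime hs).dvd_of_dvd_mul_right ⟨y, h2⟩
      rw [mul_assoc, mul_right_inj' hr.ne_zero] at h2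
      exact absurd ⟨x, hs.of_mul (by rw [mul_comm, h2]; exact hy), rfl⟩ h1
    · rw [h0, h2, mul_zero]

theorem vs_Tth (T : Theta) {r0 h hs : Eis} (hr : Sm r0) (hh : P1 h) (h4 : (4 : Eis) ∣ h - hs)
    {F : Eis → ℂ} (hF : Bd1 F) {Y : ℝ} (hY : 0 < Y) (t : ℝ) :
    ‖T.tau 1 0 r0‖ * ‖Tth true (fun c => F c * chi 1 h c) Y t‖ =
      ‖∑' r, T.tau 1 0 r * ang true r * lift r0 (fun c => F c * Rq hs c) r * chi 1 r h *
        W (N r0 * Y) t r‖ := by
  have h1 := Tth_eq T true hr (F := fun c => F c * Rq hs c * chi 1 c h) (fun c => by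
    rw [norm_mul, norm_mul]
    exact mul_le_one₀ (mul_le_one₀ (hF c) (norm_nonneg _) (norm_Rq_le _ _)) (norm_nonneg _)
      (norm_chi_le _ _ _)) hY t
  have h2 : ∀ r, T.tau 1 0 r * ang true r * lift r0 (fun c => F c * Rq hs c) r * chi 1 r h *
      W (N r0 * Y) t r = chi 1 r0 h * (T.tau 1 0 r * ang true r *
        lift r0 (fun c => F c * Rq hs c * chi 1 c h) r * W (N r0 * Y) t r) := fun r => by
    rw [mul_assoc _ (lift _ _ _), vs_lift_chi hr hh]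
    ring
  simp only [h2]
  rw [tsum_mul_left, h1, norm_mul, norm_mul, norm_mul, norm_mul, norm_chi _ (hr.coprime hh),
    norm_ang _ hr.ne_zero, norm_nit, one_mul, mul_one, mul_one,
    Tth_congr true (G := fun c => F c * Rq hs c * chi 1 c h)]
  intro c hc
  rw [chi_recip 1 hh hc, Rq_congr h4 (show (4 : Eis) ∣ c - c by simp)]
  ring

theorem vs_fam (T : Theta) {q1 : Eis} (hq1 : q1 ≠ 0) (h72 : (72 : Eis) ∣ q1) {e : ℝ} (he : 0 < e) :
    ∃ (C : ℝ) (A : ℕ), 0 < C ∧ ∀ (q : Eis) (F : Eis → ℂ), q ≠ 0 → q1 ∣ q → Per q F → Bd1 F →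
      (∀ s, q1 ∣ s - 1 → IsCoprime s q → ∃ ξ : ℂ, ‖ξ‖ = 1 ∧ ∀ x, P1 x → F (x * s) = ξ * F x) →
      ∀ Y H K0 R0 t : ℝ, 0 < Y → 1 ≤ H → 0 < K0 → 1 ≤ R0 →
        R0 ^ e * (H ^ 2 * N q ^ 2 / Y) ≤ R0 →
      ∑ h ∈ (ball H).filter (fun h => P0 h ∧ IsCoprime h q),
        ‖Tth true (fun c => F c * chi 1 h c) Y t‖ ^ 2 ≤
        C * (1 + |t|) ^ A * Y * N q ^ (1 + e) * H * R0 ^ e * vsBr (N q) H K0 R0 := by
  obtain ⟨r0, hr, hτ⟩ := exists_r0 T
  obtain ⟨n, hn⟩ := exists_nat_ge (1 / e)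
  have hne : 1 ≤ ((n + 2 : ℕ) : ℝ) * e := by
    rw [div_le_iff₀ he] at hn
    push_cast
    linarith
  obtain ⟨C, A, hC, hv⟩ := vs_vor T he (n := n + 2) (by omega)
  have hc := one_le_N hr.ne_zero
  have hτ0 := norm_pos_iff.2 hτ
  have hN1 := N_pos hq1
  refine ⟨N q1 * (C * N r0 * N r0 ^ (1 + e) * ((81 * N r0) ^ 2 + N r0 ^ (2 * (n + 2))) /
    ‖T.tau 1 0 r0‖ ^ 2), A, by positivity, ?_⟩
  intro q F hq hq1q hP hB cov Y H K0 R0 t hY hH hK hR hRe
  have hH0 := zero_le_one.trans hH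
  have hR0 := zero_le_one.trans hR
  have hN := N_pos hq
  have h4 : (4 : Eis) ∣ q1 := Dvd.dvd.trans ⟨18, by norm_num⟩ h72
  have hbr := vsBr_one_le (n := N q) hH0 hK.le hR0
  have hb0 := zero_le_one.trans hbr
  have c1 : vsBr (N (9 * (r0 * q))) H K0 R0 ≤ (81 * N r0) ^ 2 * vsBr (N q) H K0 R0 := by
    have := vsBr_scale (n := N q) (c := 81 * N r0) hH0 hK.le hR0 (by linarith) le_rfl
    rw [mul_one, one_pow, mul_one] at this
    rwa [N_mul, N_mul, show N 9 = 81 by simp [N, nrm], ← mul_assoc]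
  have c2 : R0 ^ 2 * ((H * N (r0 * q)) ^ 2 / (N r0 * Y * R0)) ^ (2 * (n + 2)) ≤
      N r0 ^ (2 * (n + 2)) * (R0 ^ e * vsBr (N q) H K0 R0) := by
    have := vs_tail hR hne (by positivity) (zero_le_one.trans hc) hRe
    rw [show (H * N (r0 * q)) ^ 2 / (N r0 * Y * R0) = N r0 * (H ^ 2 * N q ^ 2 / Y) / R0 by
      rw [N_mul]; field_simp]
    exact this.trans (le_mul_of_one_le_right (by positivity)
      (one_le_mul_of_one_le_of_one_le (Real.one_le_rpow hR he.le) hbr))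
  rw [← Finset.sum_fiberwise_of_maps_to (g := fun h => h % q1) (t := res q1)
    fun h _ => mod_mem_res hq1 h]
  refine (Finset.sum_le_card_nsmul _ _ (C * N r0 * N r0 ^ (1 + e) *
    ((81 * N r0) ^ 2 + N r0 ^ (2 * (n + 2))) / ‖T.tau 1 0 r0‖ ^ 2 * (1 + |t|) ^ A * Y *
      N q ^ (1 + e) * H * R0 ^ e * vsBr (N q) H K0 R0) fun hs _ => ?_).trans (le_of_eq ?_)
  swap
  · rw [nsmul_eq_mul, card_res hq1]
    ring
  have hG : Per q fun c => F c * Rq hs c := hP.mul (Per.of_congr fun x y h =>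
    Rq_congr (by simp) ((h4.trans hq1q).trans h))
  have k := hv (r0 * q) q1 hs (lift r0 fun c => F c * Rq hs c) (mul_ne_zero hr.ne_zero hq)
    (Dvd.dvd.trans ⟨4, by norm_num⟩ h72) (hq1q.mul_left _) (lift_per hr hG (h72.trans hq1q))
    (lift_bd fun c => by
      rw [norm_mul]
      exact mul_le_one₀ (hB c) (norm_nonneg _) (norm_Rq_le _ _))
    (fun s h1 h2 => by
      have hs1 : P1 s := P1.one.of_dvd_sub ((Dvd.dvd.trans ⟨12, by norm_num⟩ h72).trans h1)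
      obtain ⟨ξ, h3, h5⟩ := cov s h1 h2.of_mul_right_right
      refine ⟨ξ * cub 9 s * conj (cub r0 s), ?_, vs_lift_cov hr hs1 fun x hx => ?_⟩
      · rw [norm_mul, norm_mul, Complex.norm_conj, h3, norm_cub (vs_Sm_nine.coprime hs1),
          norm_cub (hr.coprime hs1), mul_one, mul_one]
      · rw [h5 x hx, Rq_congr (x' := hs) (y' := x) (by simp)
          (by rw [← mul_sub_one]; exact (h4.trans h1).mul_left x), mul_assoc])
    (N r0 * Y) H K0 R0 t (by positivity) hH hK hR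
    (((ball H).filter fun h => P0 h ∧ IsCoprime h q).filter fun h => h % q1 = hs)
    (fun h hh => by
      simp only [Finset.mem_filter] at hh ⊢
      exact ⟨hh.1.1, hh.1.2.1⟩)
    (fun h hh => by
      simp only [Finset.mem_filter] at hh
      exact ⟨(hr.coprime hh.1.2.1.1).symm.mul_right hh.1.2.2, hh.2 ▸ dvd_sub_mod q1 h⟩)
  rw [← Finset.sum_congr rfl fun h hh => by
    simp only [Finset.mem_filter] at hh
    rw [← vs_Tth T hr hh.1.2.1.1 (h4.trans (hh.2 ▸ dvd_sub_mod q1 h)) hB hY t, mul_pow],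
    ← Finset.mul_sum] at k
  have c3 := add_le_add (mul_le_mul_of_nonneg_left c1 (Real.rpow_nonneg hR0 e)) c2
  have c5 := N_nonneg (r0 * q)
  have c4 := k.trans (mul_le_mul_of_nonneg_left c3 (by positivity))
  rw [N_mul, Real.mul_rpow (N_nonneg _) hN.le] at c4
  rw [div_mul_eq_mul_div, div_mul_eq_mul_div, div_mul_eq_mul_div, div_mul_eq_mul_div,
    div_mul_eq_mul_div, div_mul_eq_mul_div, le_div_iff₀ (by positivity)]
  linarith

end Vale.Agent.P026
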