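import Vale.Agent.P026.CStep
import Vale.Agent.P026.VStepC

/-! The Voronoi step. -/

namespace Vale.Agent.P026

open Eis Complex
open scoped Classical ComplexConjugate

/-- One fixed background: the family of squarefree twists coprime to the background modulus. -/
theorem vfam (T : Theta) {q1 : Eis} (hq1 : q1 ≠ 0) (h72 : (72 : Eis) ∣ q1) {e : ℝ} (he : 0 < e) :
    ∃ (C : ℝ) (A : ℕ), 0 < C ∧ ∀ (q : Eis) (F : Eis → ℂ), q ≠ 0 → q1 ∣ q → Per q F → Bd1 F →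
      (∀ s, q1 ∣ s - 1 → IsCoprime s q → ∃ ξ : ℂ, ‖ξ‖ = 1 ∧ ∀ x, P1 x → F (x * s) = ξ * F x) →
      ∀ Y H K0 R0 t : ℝ, 0 < Y → 1 ≤ H → 0 < K0 → 1 ≤ R0 →
        R0 ^ e * (H ^ 2 * N q ^ 2 / Y) ≤ R0 →
      ∑ h ∈ (ball H).filter (fun h => P0 h ∧ IsCoprime h q),
        ‖Tth true (fun c => F c * chi 1 h c) Y t‖ ^ 2 ≤
        C * (1 + |t|) ^ A * Y * N q ^ (1 + e) * H * R0 ^ e *
          (1 + R0 / √(H * max 1 K0) + R0 ^ (3 / 2 : ℝ) / H + R0 ^ 4 / H ^ 3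
            + N q ^ 2 * K0 ^ (3 / 2 : ℝ) * R0 ^ 2 / H ^ (3 / 2 : ℝ)) :=
  vs_fam T hq1 h72 he

theorem vs_sizes {K L Y c P : ℝ} (hL : 1 ≤ L) (hLK : L ^ 2 ≤ K) (hY : 1 ≤ Y) (hc : 1 ≤ c)
    (hP : 1 ≤ P) (hK : K ≤ P * Y ^ (13 / 16 : ℝ)) :
    K ≤ P * Y ∧ P * Y ≤ c ^ 2 * P ^ 4 * Y ∧ c * P * L ≤ c ^ 2 * P ^ 4 * Y := by
  have h1 : K ≤ P * Y := hK.trans (mul_le_mul_of_nonneg_left
    (Real.rpow_le_self_of_one_le hY (by norm_num)) (by linarith))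
  have h2 : L ≤ P * Y := ((le_self_pow₀ hL two_ne_zero).trans hLK).trans h1
  have h3 : c * P ^ 2 * Y ≤ c ^ 2 * P ^ 4 * Y := by
    have := le_self_pow₀ hc two_ne_zero
    have := pow_le_pow_right₀ hP (show 2 ≤ 4 by norm_num)
    gcongr
  have h4 := mul_le_mul_of_nonneg_left h2 (show 0 ≤ c * P by positivity)
  have h5 : 1 * (P * Y) ≤ c * P * (P * Y) :=
    mul_le_mul_of_nonneg_right (one_le_mul_of_one_le_of_one_le hc hP) (by positivity)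
  exact ⟨h1, by linarith, by linarith⟩

theorem vs_real {K L Y c P n e : ℝ} (hL : 1 ≤ L) (hLK : L ^ 2 ≤ K) (hY : 1 ≤ Y) (hc : 1 ≤ c)
    (hP : 1 ≤ P) (hK : K ≤ P * Y ^ (13 / 16 : ℝ)) (hn : 0 < n) (hn' : n ≤ c * P * L) (he : 0 < e)
    (he2 : 2 * e ≤ 1) : ∃ R0, 1 ≤ R0 ∧ R0 ^ e * ((K / L ^ 2) ^ 2 * n ^ 2 / Y) ≤ R0 ∧
      Y * n ^ (1 + e) * (K / L ^ 2) * R0 ^ e * vsBr n (K / L ^ 2) (Y ^ (1 / 16 : ℝ) / L ^ 2) R0 ≤
        5 * c ^ 9 * P ^ 21 * Y ^ 2 * ((c ^ 2 * P ^ 4 * Y) ^ e) ^ 11 * L⁻¹ := by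
  obtain ⟨h1, h2, h3⟩ := vs_sizes hL hLK hY hc hP hK
  have h4 := vs_br hL hLK hY (one_le_mul_of_one_le_of_one_le hc hP) hP hK hn.le hn'
  have hK0 : 0 ≤ K := (sq_nonneg L).trans hLK
  have h5 : (K / L ^ 2) ^ 2 * n ^ 2 / Y ≤ c ^ 2 * P ^ 4 * Y := by
    calc _ ≤ (K / L ^ 2) ^ 2 * (c * P * L) ^ 2 / Y := by gcongr
      _ = (c * P * K) ^ 2 / (L ^ 2 * Y) := by field_simp
      _ ≤ (c * P * (P * Y)) ^ 2 / (1 * Y) := by
          gcongr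
          exact one_le_pow₀ hL
      _ = _ := by field_simp
  obtain ⟨M, hM⟩ : ∃ M, M = c ^ 2 * P ^ 4 * Y := ⟨_, rfl⟩
  obtain ⟨R, hR⟩ : ∃ R, R = max 1 ((K / L ^ 2) ^ 2 * n ^ 2 / Y) := ⟨_, rfl⟩
  rw [← hM] at h2 h3 h5 ⊢
  have hM1 : 1 ≤ M := (one_le_mul_of_one_le_of_one_le hP hY).trans h2
  have hR1 : 1 ≤ R := hR ▸ le_max_left _ _
  have hR2 : (K / L ^ 2) ^ 2 * n ^ 2 / Y ≤ R := hR ▸ le_max_right _ _
  have hR3 : R ≤ M := hR ▸ max_le hM1 h5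
  rw [← hR] at h4
  obtain ⟨x, hx⟩ : ∃ x, x = M ^ e := ⟨_, rfl⟩
  have hx1 : 1 ≤ x := hx ▸ Real.one_le_rpow hM1 he.le
  have hx2 : 1 ≤ x ^ 2 := one_le_pow₀ hx1
  have h6 : (R * x ^ 2) ^ e ≤ x ^ 2 := by
    rw [Real.mul_rpow (by positivity) (by positivity), sq x]
    refine mul_le_mul (hx ▸ Real.rpow_le_rpow (by positivity) hR3 he.le) ?_ (by positivity)
      (by positivity)
    rw [← sq, ← Real.rpow_natCast, ← Real.rpow_mul (by positivity)]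
    exact Real.rpow_le_self_of_one_le hx1 (by exact_mod_cast he2)
  have h7 := vsBr_scale (n := n) (H := K / L ^ 2) (K0 := Y ^ (1 / 16 : ℝ) / L ^ 2) (R := R)
    (by positivity) (by positivity) (by positivity) le_rfl hx2
  rw [one_mul, one_pow, one_mul] at h7
  have h8 : n ^ (1 + e) ≤ c * P * L * x := by
    rw [Real.rpow_add hn, Real.rpow_one, hx]
    exact mul_le_mul hn' (Real.rpow_le_rpow hn.le (hn'.trans h3) he.le) (by positivity)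
      (by positivity)
  refine ⟨R * x ^ 2, one_le_mul_of_one_le_of_one_le hR1 hx2, ?_, ?_⟩
  · rw [mul_comm R]
    exact mul_le_mul (mul_comm R _ ▸ h6) hR2 (by positivity) (by positivity)
  rw [← hx]
  have h9 := zero_le_one.trans (vsBr_one_le (n := n) (H := K / L ^ 2)
    (K0 := Y ^ (1 / 16 : ℝ) / L ^ 2) (R := R * x ^ 2) (by positivity) (by positivity)
    (by positivity))
  calc _ ≤ Y * (c * P * L * x) * (K / L ^ 2) * x ^ 2 *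
        ((x ^ 2) ^ 4 * vsBr n (K / L ^ 2) (Y ^ (1 / 16 : ℝ) / L ^ 2) R) := by gcongr
    _ = Y * c * P * x ^ 11 * L⁻¹ * (K * vsBr n (K / L ^ 2) (Y ^ (1 / 16 : ℝ) / L ^ 2) R) := by
        field_simp
    _ ≤ Y * c * P * x ^ 11 * L⁻¹ * (5 * ((c * P) ^ 8 * P ^ 12 * Y)) := by gcongr
    _ = _ := by ring

theorem vs_cover {f : Eis → ℝ} (hf : ∀ h, 0 ≤ f h) {m : Eis} (hm : m ≠ 0) (K : ℝ) :
    ∑ h ∈ ball K, f h ≤ ∑ s ∈ S0, ∑ l ∈ (ball K).filter (fun l => N l ^ 2 ≤ K),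
      ∑ b ∈ divs (l * m), ∑ k ∈ (ball (K / N l ^ 2)).filter
        (fun k => P0 k ∧ IsCoprime k (72 * (l * m))), f (s * b * l ^ 2 * k) := by
  simp only [Finset.sum_sigma']
  refine le_trans (Finset.sum_le_sum_of_subset_of_nonneg (fun h hh => ?_) fun _ _ _ => hf _)
    (Finset.sum_image_le_of_nonneg (f := f) fun _ _ => hf _)
  obtain ⟨h0, hK⟩ := mem_ball.1 hh
  obtain ⟨s, hs, k, l, hk, hl, rfl⟩ := exists_kernel h0
  have hlm := mul_ne_zero hl hm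
  obtain ⟨b, k', hb, hk', rfl, h1, h2, -⟩ := exists_gcd_P0 hk hlm
  have h3 := one_le_N hl
  have h4 : N k' * N l ^ 2 ≤ K := by
    rw [← N_pow, ← N_mul]
    exact (N_le_of_dvd h0 ⟨s * b, by ring⟩).trans hK
  have h5 : N l ^ 2 ≤ K := (le_mul_of_one_le_left (sq_nonneg _) (one_le_N hk'.ne_zero)).trans h4
  refine Finset.mem_image.2 ⟨⟨s, l, b, k'⟩, ?_, by ring⟩
  simp only [Finset.mem_sigma, Finset.mem_filter, mem_ball, mem_divs hlm]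
  refine ⟨hs, ⟨⟨hl, (le_self_pow₀ h3 two_ne_zero).trans h5⟩, h5⟩, ⟨hb, h1⟩,
    ⟨hk'.ne_zero, (le_div_iff₀ (by positivity)).2 h4⟩, hk', IsCoprime.mul_right ?_ h2⟩
  exact (hk'.1.coprime_six.pow_right (n := 3)).of_isCoprime_of_dvd_right ⟨3, by norm_num⟩

/-- The background function. -/
noncomputable def vsBg (Xi : Eis → ℂ) (D n c : Eis) : ℂ :=
  if P1 c then Xi c * cop D c * chi 1 n c else 0

theorem vsBg_per {Xi : Eis → ℂ} {D n Q : Eis} (hQ : Q ≠ 0) (hX : Per Q Xi) (hD : D ∣ Q)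
    (hn : n ∣ Q ^ 4) : Per (72 * Q) (vsBg Xi D n) := by
  refine Per.of_congr fun x y h => ?_
  have h6 : (6 : Eis) ∣ x - y := Dvd.dvd.trans ⟨12 * Q, by ring⟩ h
  have h1 : Q ∣ x - y := (dvd_mul_left _ _).trans h
  unfold vsBg
  by_cases hx : P1 x
  · rw [if_pos hx, if_pos (hx.of_dvd_sub (dvd_sub_comm.1 h6)), hX.congr h1,
      (per_cop D).congr (hD.trans h1), chi_per_rad 1 hx 4 hn hQ h]
  · rw [if_neg hx, if_neg fun hy => hx (hy.of_dvd_sub h6)]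

theorem vsBg_bd {Xi : Eis → ℂ} (hX : Bd1 Xi) (D n : Eis) : Bd1 (vsBg Xi D n) := fun c => by
  unfold vsBg cop
  split_ifs
  · rw [mul_one, norm_mul]
    exact mul_le_one₀ (hX c) (norm_nonneg _) (norm_chi_le _ _ _)
  all_goals simp

theorem vsBg_cov {Xi : Eis → ℂ} {q D n Q : Eis} (h6 : (6 : Eis) ∣ q) (hX : Per q Xi) (hD : D ∣ Q)
    (hn : n ∣ Q ^ 4) (s : Eis) (h1 : q ∣ s - 1) (h2 : IsCoprime s (72 * Q)) :
    ∃ ξ : ℂ, ‖ξ‖ = 1 ∧ ∀ x, P1 x → vsBg Xi D n (x * s) = ξ * vsBg Xi D n x := by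
  have hs : P1 s := P1.one.of_dvd_sub (h6.trans h1)
  have h3 := h2.of_mul_right_right
  refine ⟨chi 1 n s, norm_chi _ ((h3.pow_right (n := 4)).of_isCoprime_of_dvd_right hn).symm,
    fun x hx => ?_⟩
  have h4 : cop D (x * s) = cop D x := by
    simp only [cop, IsCoprime.mul_left_iff, h3.of_isCoprime_of_dvd_right hD, and_true]
  rw [vsBg, vsBg, if_pos hx, if_pos (hx.mul hs), h4, chi_mul_right _ _ hx.ne_zero hs.ne_zero,
    hX.congr (x := x * s) (y := x) (by rw [← mul_sub_one]; exact h1.mul_left x)]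
  ring

theorem vstep (T : Theta) {q : Eis} (hq : q ≠ 0) (h72 : (72 : Eis) ∣ q) :
    ∃ C0 : ℕ, ∀ e : ℝ, 0 < e → ∃ (C : ℝ) (A : ℕ), 0 < C ∧
      ∀ (Xi : Eis → ℂ), Per q Xi → Bd1 Xi → ∀ D0 : Eis, P0 D0 → ∀ Y P K t : ℝ, 1 ≤ Y → 1 ≤ P →
        N D0 ≤ P → K ≤ P * Y ^ (13 / 16 : ℝ) →
        ∑ h ∈ ball K, ‖Tth true (fun c => Xi c * cop D0 c * chi 1 h c) Y t‖ ^ 2 ≤
          C * (1 + |t|) ^ A * P ^ C0 * Y ^ (2 + e) := by
  refine ⟨25, fun e he => ?_⟩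
  obtain ⟨e1, he1, he2, he3⟩ : ∃ e1 : ℝ, 0 < e1 ∧ 13 * e1 ≤ 1 ∧ 13 * e1 ≤ e :=
    ⟨min e 1 / 13, by positivity, by linarith [min_le_right e 1], by linarith [min_le_left e 1]⟩
  obtain ⟨C, A, hC, hf⟩ := vs_fam T hq h72 he1
  obtain ⟨Cd, hCd, hd⟩ := card_divs_le he1
  obtain ⟨Cb, hCb, hb⟩ := sum_ball_inv he1
  obtain ⟨c, hc⟩ : ∃ c, c = 5184 * N q := ⟨_, rfl⟩
  have hc1 : 1 ≤ c := by linarith [one_le_N hq]
  refine ⟨120 * C * Cd * Cb * c ^ 11, A, by positivity, ?_⟩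
  intro Xi hX hB D0 hD Y P K t hY hP hDP hK
  rcases lt_or_ge K 1 with hK1 | hK1
  · rw [ball_eq_empty hK1, Finset.sum_empty]
    positivity
  obtain ⟨h1, h2, -⟩ := vs_sizes le_rfl (by rwa [one_pow]) hY hc1 hP hK
  obtain ⟨x, hx⟩ : ∃ x, x = (c ^ 2 * P ^ 4 * Y) ^ e1 := ⟨_, rfl⟩
  have hx0 : 0 ≤ x := by rw [hx]; positivity
  have hx1 : x ^ 13 ≤ c ^ 2 * P ^ 4 * Y ^ e := by
    rw [hx, ← Real.rpow_natCast, ← Real.rpow_mul (by positivity),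
      Real.mul_rpow (by positivity) (by positivity)]
    refine mul_le_mul (Real.rpow_le_self_of_one_le
      (one_le_mul_of_one_le_of_one_le (one_le_pow₀ hc1) (one_le_pow₀ hP)) ?_)
      (Real.rpow_le_rpow_of_exponent_le hY ?_) (by positivity) (by positivity)
    all_goals push_cast; linarith
  have hm := mul_ne_zero hq hD.ne_zero
  obtain ⟨Z, hZ⟩ : ∃ Z, Z = C * (1 + |t|) ^ A * (5 * c ^ 9 * P ^ 21 * Y ^ 2 * x ^ 11) := ⟨_, rfl⟩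
  have hZ0 : 0 ≤ Z := by rw [hZ]; positivity
  refine (vs_cover (fun _ => sq_nonneg _) hm K).trans ((Finset.sum_le_card_nsmul _ _
    (Cd * x * Z * (Cb * x)) fun s hs => ?_).trans ?_)
  swap
  · rw [nsmul_eq_mul, Real.rpow_add (by linarith), Real.rpow_two]
    have k1 : (S0.card : ℝ) ≤ 24 := by exact_mod_cast card_S0
    have k2 := mul_le_mul_of_nonneg_right k1 (show 0 ≤ Cd * x * Z * (Cb * x) by positivity)
    have k3 := mul_le_mul_of_nonneg_left hx1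
      (show 0 ≤ 120 * C * Cd * Cb * c ^ 9 * (1 + |t|) ^ A * P ^ 21 * Y ^ 2 by positivity)
    rw [hZ] at k2 ⊢
    linarith
  have k1 : ∑ l ∈ ball K, (N l)⁻¹ ≤ Cb * x := (hb K (by linarith)).trans
    (mul_le_mul_of_nonneg_left (hx ▸ Real.rpow_le_rpow (by linarith) (h1.trans h2) he1.le) hCb.le)
  refine le_trans ?_ (mul_le_mul_of_nonneg_left ((Finset.sum_le_sum_of_subset_of_nonneg
    (Finset.filter_subset (fun l => N l ^ 2 ≤ K) _)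
    fun l _ _ => inv_nonneg.2 (N_nonneg l)).trans k1) (by positivity))
  rw [Finset.mul_sum]
  refine Finset.sum_le_sum fun l hl => ?_
  obtain ⟨hl1, hl2⟩ := Finset.mem_filter.1 hl
  have hl0 := (mem_ball.1 hl1).1
  have hL := one_le_N hl0
  have hQ := mul_ne_zero hl0 hm
  have hq' : 72 * (l * (q * D0)) ≠ 0 := mul_ne_zero (ne_zero_of_dvd_ne_zero hq h72) hQ
  have hn : N (72 * (l * (q * D0))) ≤ c * P * N l := by
    rw [N_mul, N_mul, N_mul, show N 72 = 5184 by simp [N, nrm], hc]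
    have := mul_le_mul_of_nonneg_left hDP (mul_nonneg (N_nonneg q) (N_nonneg l))
    linarith
  obtain ⟨R0, r1, r2, r3⟩ := vs_real hL hl2 hY hc1 hP hK (N_pos hq') hn he1 (by linarith)
  rw [← hx] at r3
  have k2 : ((divs (l * (q * D0))).card : ℝ) ≤ Cd * x := (hd _ hQ).trans
    (mul_le_mul_of_nonneg_left (hx ▸ Real.rpow_le_rpow (N_nonneg _)
      (((N_le_of_dvd hq' (dvd_mul_left _ _)).trans hn).trans
        (vs_sizes hL hl2 hY hc1 hP hK).2.2) he1.le) hCd.le)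
  refine (Finset.sum_le_card_nsmul _ _ (Z * (N l)⁻¹) fun b hb' => ?_).trans ?_
  swap
  · rw [nsmul_eq_mul, mul_assoc _ Z]
    exact mul_le_mul_of_nonneg_right k2 (by positivity)
  have hqQ : q ∣ l * (q * D0) := ⟨l * D0, by ring⟩
  have hDQ : D0 ∣ l * (q * D0) := ⟨l * q, by ring⟩
  have h6 : (6 : Eis) ∣ q := Dvd.dvd.trans ⟨12, by norm_num⟩ h72
  have hnQ : s * b * l ^ 2 ∣ (l * (q * D0)) ^ 4 := by
    rw [show (l * (q * D0)) ^ 4 = l * (q * D0) * (l * (q * D0)) * (l * (q * D0)) ^ 2 by ring]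
    exact mul_dvd_mul (mul_dvd_mul (((S0_spec hs).1.trans h6).trans hqQ) ((mem_divs hQ).1 hb').2)
      (pow_dvd_pow_of_dvd (dvd_mul_right _ _) 2)
  have k3 := hf _ (vsBg Xi D0 (s * b * l ^ 2)) hq' (hqQ.mul_left _)
    (vsBg_per hQ (hX.of_dvd hqQ) hDQ hnQ) (vsBg_bd hB _ _) (vsBg_cov h6 hX hDQ hnQ) Y
    (K / N l ^ 2) (Y ^ (1 / 16 : ℝ) / N l ^ 2) R0 t (by linarith)
    ((one_le_div (by positivity)).2 hl2) (by positivity) r1 r2
  have k4 := mul_le_mul_of_nonneg_left r3 (show 0 ≤ C * (1 + |t|) ^ A by positivity)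
  refine (le_of_eq (Finset.sum_congr rfl fun k _ => ?_)).trans (k3.trans ?_)
  · rw [Tth_congr true fun y hy => ?_]
    rw [vsBg, if_pos hy, chi_mul_left _ _ _ hy, mul_assoc (Xi y * cop D0 y)]
  · rw [hZ]
    linarith

end Vale.Agent.P026
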