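import Vale.Agent.P026.LemP

/-! From the second moment to a power saving for one Moebius sum. -/

namespace Vale.Agent.P026

open Eis Complex
open scoped Classical ComplexConjugate

theorem f1_summable {a : Eis → ℂ} (ha : Bd1 a) {Y : ℝ} (hY : 0 < Y) (t : ℝ) :
    Summable fun c => a c * W Y t c := by
  refine Summable.of_norm_bounded (summable_w 0 hY) fun c => ?_
  rw [norm_mul, norm_W, Real.rpow_zero]
  exact mul_le_mul_of_nonneg_right (ha c) (w_pos _).le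

theorem f1_split {k : Eis} (hk : k ≠ 0) (c : Eis) :
    mu0 c = ∑ d ∈ divs k, if d ∣ c ∧ IsCoprime (c / d) k then mu0 c else 0 := by
  by_cases hc : P0 c
  · obtain ⟨g, x, hg, -, rfl, h1, h2, h3⟩ := exists_gcd_P0 hc hk
    rw [Finset.sum_eq_single_of_mem g ((mem_divs hk).2 ⟨hg, h1⟩), if_pos]
    · exact ⟨Dvd.intro _ rfl, by rwa [mul_div_cancel_left₀ _ hg.ne_zero]⟩
    · intro d hd hne
      obtain ⟨a1, a2⟩ := (mem_divs hk).1 hd
      refine if_neg fun ⟨a3, a4⟩ => hne (a1.1.1.eq_of_associated hg.1.1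
        (associated_of_dvd_dvd (h3 d a3 a2) ?_))
      refine (a4.symm.of_isCoprime_of_dvd_left h1).dvd_of_dvd_mul_right ?_
      rw [EuclideanDomain.mul_div_cancel' a1.ne_zero a3]
      exact Dvd.intro _ rfl
  · rw [not_not.1 (mt mu0_ne_zero.1 hc)]
    simp

theorem f1_decomp {k : Eis} (hk : k ≠ 0) {Xi : Eis → ℂ} (hB : Bd1 Xi) {Y : ℝ} (hY : 0 < Y) :
    ∑' c, mu0 c * Xi c * W Y 0 c =
      ∑ d ∈ divs k, mu0 d * ∑' c, mu0 c * Xi (d * c) * cop k c * W (Y / N d) 0 c := by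
  have hs : ∀ d, Summable fun c =>
      (if d ∣ c ∧ IsCoprime (c / d) k then mu0 c else 0) * Xi c * W Y 0 c := fun d =>
    f1_summable (fun c => by
      rw [norm_mul]
      refine mul_le_one₀ ?_ (norm_nonneg _) (hB c)
      split_ifs
      · exact norm_mu0_le c
      · simp) hY 0
  rw [tsum_congr fun c => by rw [f1_split hk c, Finset.sum_mul, Finset.sum_mul],
    Summable.tsum_finsetSum fun d _ => hs d]
  refine Finset.sum_congr rfl fun d hd => ?_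
  obtain ⟨a1, a2⟩ := (mem_divs hk).1 hd
  rw [← (mul_right_injective₀ a1.ne_zero).tsum_eq fun c hc => ?_, ← tsum_mul_left]
  · refine tsum_congr fun c => ?_
    rw [mul_div_cancel_left₀ _ a1.ne_zero]
    by_cases h : IsCoprime c k
    · rcases eq_or_ne c 0 with rfl | h0
      · have : mu0 0 = 0 := not_not.1 (mt mu0_ne_zero.1 fun h => h.ne_zero rfl)
        simp [this]
      · rw [if_pos ⟨Dvd.intro _ rfl, h⟩, mu0_mul a1, W_mul _ _ h0 a1.ne_zero, cop, cop, if_pos h,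
          if_pos (h.of_isCoprime_of_dvd_right a2)]
        simp only [nit, zero_mul, ofReal_zero, mul_zero, Complex.exp_zero]
        ring
    · simp [cop, h]
  · have : d ∣ c := by
      by_contra h
      simp [h] at hc
    obtain ⟨e, rfl⟩ := this
    exact ⟨e, rfl⟩

theorem f1_sixth {a b : Eis} (ha : P1 a) (hb : P1 b) (h : a ^ 6 = b ^ 6) : a = b := by
  refine ha.1.eq_of_associated hb.1 (associated_of_dvd_dvd ?_ ?_)
  · exact (UniqueFactorizationMonoid.pow_dvd_pow_iff_dvd (by norm_num : 6 ≠ 0)).1 h.dvd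
  · exact (UniqueFactorizationMonoid.pow_dvd_pow_iff_dvd (by norm_num : 6 ≠ 0)).1 h.symm.dvd

theorem f1_moment (Xi : Eis → ℂ) (Y : ℝ) {Z : ℝ} :
    ∑ k ∈ (ball Z).filter P1, ‖∑' c, mu0 c * Xi c * cop k c * W Y 0 c‖ ^ 2 ≤
      AA Xi 1 Y (Z ^ 6) 0 := by
  refine le_trans ?_ (le_QQ _ _ _)
  have e : ∀ k ∈ (ball Z).filter P1, ‖∑' c, mu0 c * Xi c * cop k c * W Y 0 c‖ ^ 2 =
      ‖∑' c, mu0 c * Xi c * cop 1 c * W Y 0 c * chi 2 (k ^ 6) c‖ ^ 2 := fun k _ => by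
    congr 2
    refine tsum_congr fun c => ?_
    by_cases hc : P0 c
    · rw [chi_sixth 2 k hc.1, cop.eq_def 1, if_pos isCoprime_one_right]
      ring
    · rw [not_not.1 (mt mu0_ne_zero.1 hc)]
      simp
  rw [Finset.sum_congr rfl e, ← Finset.sum_image (g := fun k : Eis => k ^ 6)
    (f := fun h => ‖∑' c, mu0 c * Xi c * cop 1 c * W Y 0 c * chi 2 h c‖ ^ 2) fun a ha b hb h =>
      f1_sixth (Finset.mem_filter.1 ha).2 (Finset.mem_filter.1 hb).2 h]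
  refine Finset.sum_le_sum_of_subset_of_nonneg (fun h hh => ?_) fun _ _ _ => sq_nonneg _
  obtain ⟨k, hk, rfl⟩ := Finset.mem_image.1 hh
  obtain ⟨h1, h2⟩ := mem_ball.1 (Finset.mem_filter.1 hk).1
  exact mem_ball.2 ⟨pow_ne_zero _ h1, by rw [N_pow]; exact pow_le_pow_left₀ (N_nonneg _) h2 6⟩

theorem fin1 {q : Eis} (h : HH q (1 / 384)) (Xi : Eis → ℂ) (hP : Per q Xi) (hB : Bd1 Xi) :
    ∃ C : ℝ, ∀ Y : ℝ, 1 ≤ Y →
      ‖∑' c, mu0 c * Xi c * W Y 0 c‖ ≤ C * Y ^ (383 / 384 : ℝ) := by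
  obtain ⟨C, A, hC⟩ := h
  obtain ⟨C1, c1, h1⟩ := card_divs_le (e := 1 / 76) (by norm_num)
  obtain ⟨c2, c2p, h2⟩ := card_P1_ge
  have hs := summable_N_rpow (s := 1 + 1 / 384) (by norm_num)
  obtain ⟨T, hT⟩ : ∃ T, T = ∑' c : Eis, N c ^ (-(1 + 1 / 384 : ℝ)) := ⟨_, rfl⟩
  have T0 : 0 ≤ T := hT ▸ tsum_nonneg fun c => Real.rpow_nonneg (N_nonneg c) _
  refine ⟨√(C1 * (2 * |C| * T) / c2), fun Y hY => ?_⟩
  have Y0 : 0 < Y := by linarith
  obtain ⟨Z, hZ⟩ : ∃ Z, Z = Y ^ (19 / 96 : ℝ) := ⟨_, rfl⟩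
  have Z1 : 1 ≤ Z := hZ ▸ Real.one_le_rpow hY (by norm_num)
  have Z6 : Z ^ 6 = Y ^ (19 / 16 : ℝ) := by
    rw [hZ, ← Real.rpow_natCast, ← Real.rpow_mul Y0.le]; norm_num
  obtain ⟨S, hS⟩ : ∃ S : Eis → Eis → ℝ, ∀ d k,
      S d k = ‖∑' c, mu0 c * Xi (d * c) * cop k c * W (Y / N d) 0 c‖ := ⟨_, fun _ _ => rfl⟩
  have a1 : ∀ k ∈ (ball Z).filter P1, ‖∑' c, mu0 c * Xi c * W Y 0 c‖ ^ 2 ≤
      C1 * Z ^ (1 / 76 : ℝ) * ∑ d ∈ ball Z, S d k ^ 2 := by
    intro k hk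
    obtain ⟨k0, kZ⟩ := mem_ball.1 (Finset.mem_filter.1 hk).1
    have b1 : ‖∑' c, mu0 c * Xi c * W Y 0 c‖ ≤ ∑ d ∈ divs k, S d k := by
      rw [f1_decomp k0 hB Y0]
      refine (norm_sum_le _ _).trans (Finset.sum_le_sum fun d _ => ?_)
      rw [norm_mul, hS]
      exact mul_le_of_le_one_left (norm_nonneg _) (norm_mu0_le d)
    refine (pow_le_pow_left₀ (norm_nonneg _) b1 2).trans (sq_sum_le_card_mul_sum_sq.trans
      (mul_le_mul ((h1 k k0).trans ?_) ?_ (by positivity) (by positivity)))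
    · exact mul_le_mul_of_nonneg_left (Real.rpow_le_rpow (N_nonneg k) kZ (by norm_num)) c1.le
    · exact Finset.sum_le_sum_of_subset_of_nonneg
        ((Finset.filter_subset _ _).trans (ball_mono kZ)) fun _ _ _ => sq_nonneg _
  have a2 : ∀ d ∈ ball Z, ∑ k ∈ (ball Z).filter P1, S d k ^ 2 ≤
      2 * |C| * (Y ^ (19 / 16 : ℝ) * Y ^ (1 + 1 / 384 : ℝ)) * N d ^ (-(1 + 1 / 384 : ℝ)) := by
    intro d hd
    have d1 := one_le_N (mem_ball.1 hd).1
    have d0 : 0 < Y / N d := by positivity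
    simp only [hS]
    refine (f1_moment (fun c => Xi (d * c)) _).trans ((hC _ (hP.comp_mul d) (fun c => hB _) _ _ 0 d0
      (by positivity)).trans ?_)
    have b1 : (Y / N d) ^ (19 / 16 : ℝ) ≤ Y ^ (19 / 16 : ℝ) :=
      Real.rpow_le_rpow d0.le (div_le_self Y0.le d1) (by norm_num)
    rw [abs_zero, add_zero, one_pow, mul_one, Z6, Real.div_rpow Y0.le (N_nonneg d) (1 + 1 / 384),
      Real.rpow_neg (N_nonneg d), div_eq_mul_inv (Y ^ _)]
    calc _ ≤ |C| * (Y ^ (19 / 16 : ℝ) + Y ^ (19 / 16 : ℝ)) *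
          (Y ^ (1 + 1 / 384 : ℝ) * (N d ^ (1 + 1 / 384 : ℝ))⁻¹) := by
          gcongr
          exact le_abs_self C
      _ = _ := by ring
  have a3 := Finset.sum_le_sum a1
  rw [Finset.sum_const, nsmul_eq_mul, ← Finset.mul_sum, Finset.sum_comm] at a3
  have a4 := Finset.sum_le_sum a2
  rw [← Finset.mul_sum] at a4
  have a5 : ∑ d ∈ ball Z, N d ^ (-(1 + 1 / 384 : ℝ)) ≤ T :=
    hT ▸ hs.sum_le_tsum _ fun c _ => Real.rpow_nonneg (N_nonneg c) _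
  have a6 : Z ^ (1 / 76 : ℝ) * (Y ^ (19 / 16 : ℝ) * Y ^ (1 + 1 / 384 : ℝ)) =
      Z * (Y ^ (383 / 384 : ℝ)) ^ 2 := by
    rw [hZ, ← Real.rpow_mul Y0.le, ← Real.rpow_natCast, ← Real.rpow_mul Y0.le,
      ← Real.rpow_add Y0, ← Real.rpow_add Y0, ← Real.rpow_add Y0]
    norm_num
  have a7 : c2 * Z * ‖∑' c, mu0 c * Xi c * W Y 0 c‖ ^ 2 ≤
      C1 * (2 * |C| * T) * (Z * (Y ^ (383 / 384 : ℝ)) ^ 2) := by
    refine (mul_le_mul_of_nonneg_right (h2 Z Z1) (sq_nonneg _)).trans (a3.trans ?_)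
    rw [← a6]
    calc _ ≤ C1 * Z ^ (1 / 76 : ℝ) *
          (2 * |C| * (Y ^ (19 / 16 : ℝ) * Y ^ (1 + 1 / 384 : ℝ)) * T) := by
          refine mul_le_mul_of_nonneg_left (a4.trans ?_) (by positivity)
          exact mul_le_mul_of_nonneg_left a5 (by positivity)
      _ = _ := by ring
  refine (abs_le_of_sq_le_sq' ?_ (by positivity)).2
  rw [mul_pow, Real.sq_sqrt (by positivity), div_mul_eq_mul_div, le_div_iff₀ c2p]
  refine le_of_mul_le_mul_left ?_ (show 0 < Z by linarith)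
  linarith

end Vale.Agent.P026
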