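import Vale.Agent.P026.Count

/-! The Mellin transform of the smoothed Moebius sum. -/

namespace Vale.Agent.P026

open Eis Complex MeasureTheory Set Filter Asymptotics
open scoped Classical ComplexConjugate Topology

/-- The weight as a complex function. -/
noncomputable def f2w (x : ℝ) : ℂ := (w x : ℂ)

theorem f2_contw : ContinuousOn w (Ioi 0) := fun _ hx =>
  (Real.continuous_exp.continuousAt.comp
    ((Real.continuousAt_log (ne_of_gt hx)).pow 2).neg).continuousWithinAt

theorem f2_conv (s : ℂ) : MellinConvergent f2w s := by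
  have k : ∀ (a : ℝ) (l : Filter ℝ), (∀ᶠ x in l, 0 < x) → f2w =O[l] (· ^ a) := fun a l hl =>
    IsBigO.of_bound (Real.exp (a ^ 2 / 4)) (hl.mono fun x hx => by
      rw [f2w, norm_real, Real.norm_of_nonneg (w_pos x).le,
        Real.norm_of_nonneg (Real.rpow_nonneg hx.le _)]
      exact w_le_rpow a hx)
  exact mellinConvergent_of_isBigO_rpow (a := s.re + 1) (b := s.re - 1)
    ((continuous_ofReal.comp_continuousOn f2_contw).locallyIntegrableOn measurableSet_Ioi)
    (k _ _ (eventually_gt_atTop 0)) (by linarith) (k _ _ self_mem_nhdsWithin) (by linarith)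

theorem f2_mellin_w (s : ℂ) :
    mellin f2w s = (Real.pi : ℂ) ^ (1 / 2 : ℂ) * cexp (s ^ 2 / 4) := by
  have h1 := integral_image_eq_integral_abs_deriv_smul (s := univ) MeasurableSet.univ
    (fun x _ => (Real.hasDerivAt_exp x).hasDerivWithinAt) Real.exp_injective.injOn
    (fun t : ℝ => (t : ℂ) ^ (s - 1) • f2w t)
  have h2 := integral_cexp_quadratic (b := -1) (by simp) s 0
  rw [image_univ, Real.range_exp, Measure.restrict_univ] at h1
  rw [mellin, h1, integral_congr_ae (g := fun x : ℝ => cexp (-1 * x ^ 2 + s * x + 0))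
    (Eventually.of_forall fun x => ?_), h2]
  · congr 2
    · simp
    · ring
  · simp only [f2w, w, Real.log_exp, abs_of_pos (Real.exp_pos x), real_smul, smul_eq_mul,
      ofReal_exp]
    rw [cpow_def_of_ne_zero (Complex.exp_ne_zero _), Complex.log_exp (by simp [Real.pi_pos])
      (by simp [Real.pi_pos.le]), ← Complex.exp_add, ← Complex.exp_add]
    congr 1
    push_cast
    ring

/-- The smoothed sum as a function of the reciprocal length. -/
noncomputable def f2S (a : Eis → ℂ) (x : ℝ) : ℂ := ∑' c, a c * f2w (N c * x)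

theorem f2_cont {a : Eis → ℂ} (ha : Bd1 a) (h0 : a 0 = 0) : ContinuousOn (f2S a) (Ioi 0) := by
  intro x hx
  have x0 : 0 < x / 2 := half_pos hx
  refine ((continuousOn_tsum (s := Ioi (x / 2)) (fun c => ?_)
    ((summable_N_rpow (s := 2) one_lt_two).mul_left (Real.exp ((-2) ^ 2 / 4) * (x / 2) ^ (-2 : ℝ)))
    fun c y hy => ?_).continuousAt (Ioi_mem_nhds (half_lt_self hx))).continuousWithinAt
  · rcases eq_or_ne c 0 with rfl | hc
    · simpa [h0] using continuousOn_const
    · refine continuousOn_const.mul (continuous_ofReal.comp_continuousOn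
        (f2_contw.comp (by fun_prop) fun y hy => mul_pos (N_pos hc) (x0.trans hy)))
  · rcases eq_or_ne c 0 with rfl | hc
    · rw [h0, zero_mul, norm_zero]
      have := N_nonneg 0
      positivity
    · have y0 : 0 < y := x0.trans hy
      rw [norm_mul, f2w, norm_real, Real.norm_of_nonneg (w_pos _).le]
      refine (mul_le_of_le_one_left (w_pos _).le (ha c)).trans
        ((w_le_rpow (-2) (mul_pos (N_pos hc) y0)).trans ?_)
      rw [Real.mul_rpow (N_nonneg c) y0.le, mul_comm (N c ^ _), mul_assoc]
      exact mul_le_mul_of_nonneg_left (mul_le_mul_of_nonneg_right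
        (Real.rpow_le_rpow_of_nonpos x0 (le_of_lt hy) (by norm_num))
        (Real.rpow_nonneg (N_nonneg c) _)) (Real.exp_pos _).le

theorem f2_diff {a : Eis → ℂ} (ha : Bd1 a) (h0 : a 0 = 0) {σ C : ℝ}
    (h : ∀ Y : ℝ, 1 ≤ Y → ‖∑' c, a c * W Y 0 c‖ ≤ C * Y ^ σ) {s : ℂ} (hs : σ < s.re) :
    DifferentiableAt ℂ (mellin (f2S a)) s := by
  obtain ⟨C1, -, h1⟩ := tsum_w_small 0 (s.re + 1)
  refine mellin_differentiableAt_of_isBigO_rpow (a := s.re + 1)
    ((f2_cont ha h0).locallyIntegrableOn measurableSet_Ioi)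
    (IsBigO.of_bound C1 ((eventually_ge_atTop 1).mono fun x hx => ?_)) (by linarith)
    (IsBigO.of_bound C ?_) hs
  · have x0 : 0 < x := by linarith
    have h2 := h1 x⁻¹ (inv_pos.2 x0) (inv_le_one_of_one_le₀ hx)
    rw [Real.norm_of_nonneg (Real.rpow_nonneg x0.le _), Real.rpow_neg x0.le, ← Real.inv_rpow x0.le]
    refine le_trans (tsum_of_norm_bounded (Summable.hasSum ?_) fun c => ?_) h2
    · refine (summable_w 0 (inv_pos.2 x0)).of_norm_bounded fun c => ?_
      split_ifs
      · have := N_nonneg c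
        have := w_pos (N c / x⁻¹)
        rw [norm_zero]
        positivity
      · rw [Real.rpow_zero, one_mul, Real.norm_of_nonneg (w_pos _).le]
    · split_ifs with hc
      · simp [hc, h0]
      · rw [norm_mul, f2w, norm_real, Real.norm_of_nonneg (w_pos _).le, Real.rpow_zero,
          div_inv_eq_mul]
        exact mul_le_mul_of_nonneg_right (ha c) (w_pos _).le
  · filter_upwards [Ioc_mem_nhdsGT zero_lt_one] with x hx
    have h2 := h x⁻¹ (one_le_inv_iff₀.2 hx)
    rw [Real.norm_of_nonneg (Real.rpow_nonneg hx.1.le _), Real.rpow_neg hx.1.le,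
      ← Real.inv_rpow hx.1.le]
    simpa [W, nit, f2S, f2w] using h2

theorem f2_series {a : Eis → ℂ} (ha : Bd1 a) (h0 : a 0 = 0) {s : ℂ} (hs : 1 < s.re) :
    mellin (f2S a) s = (∑' c, a c * (N c : ℂ) ^ (-s)) * mellin f2w s := by
  have k := hasSum_integral_of_summable_integral_norm (μ := volume.restrict (Ioi (0 : ℝ)))
    (F := fun (c : Eis) (t : ℝ) => a c * ((t : ℂ) ^ (s - 1) • f2w (N c * t))) (fun c => ?_) ?_
  · rw [← tsum_mul_right, mellin, setIntegral_congr_fun measurableSet_Ioi
      (g := fun t : ℝ => ∑' c, a c * ((t : ℂ) ^ (s - 1) • f2w (N c * t))) fun t _ => ?_,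
      ← k.tsum_eq]
    · refine tsum_congr fun c => ?_
      rcases eq_or_ne c 0 with rfl | hc
      · simp [h0]
      · rw [integral_const_mul, mul_assoc, ← smul_eq_mul _ (mellin _ _),
          ← mellin_comp_mul_left _ _ (N_pos hc), mellin]
    · simp only [f2S, smul_eq_mul, ← tsum_mul_left, mul_left_comm]
  · rcases eq_or_ne c 0 with rfl | hc
    · simp [h0]
    · exact Integrable.const_mul ((MellinConvergent.comp_mul_left (N_pos hc)).2 (f2_conv s)) _
  · refine ((summable_N_rpow hs).mul_right ‖mellin f2w s.re‖).of_norm_bounded fun c => ?_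
    rcases eq_or_ne c 0 with rfl | hc
    · have := N_nonneg 0
      simp only [h0, zero_mul, norm_zero, integral_zero]
      positivity
    · have e : ((∫ t in Ioi (0 : ℝ), ‖(t : ℂ) ^ (s - 1) • f2w (N c * t)‖ : ℝ) : ℂ) =
          mellin (fun t => f2w (N c * t)) s.re := by
        rw [mellin, ← integral_complex_ofReal]
        refine setIntegral_congr_fun measurableSet_Ioi fun t ht => ?_
        simp only [f2w, smul_eq_mul, norm_mul, norm_real, Real.norm_of_nonneg (w_pos _).le,
          norm_cpow_eq_rpow_re_of_pos ht, ofReal_mul, ofReal_cpow (le_of_lt ht), sub_re, one_re,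
          ofReal_sub, ofReal_one]
      simp only [norm_mul (a c), integral_const_mul]
      rw [norm_mul, ← norm_real (∫ _ in _, _), e, mellin_comp_mul_left _ _ (N_pos hc), norm_smul,
        norm_cpow_eq_rpow_re_of_pos (N_pos hc), norm_norm]
      exact mul_le_of_le_one_left (by have := N_nonneg c; positivity) (ha c)

end Vale.Agent.P026
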