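import Vale.Agent.P026.Fin2A
import Vale.Agent.P026.Fin2B

/-! From the power saving to the zero-free half-plane. -/

namespace Vale.Agent.P026

open Eis Complex
open scoped Classical ComplexConjugate

/-- The number of odd primary elements of given norm. -/
theorem card_norm (n : ℕ) (hn : Nat.Coprime n 6) :
    ((((ball n).filter (fun c => P1 c ∧ nrm c = n)).card : ℕ) : ℤ) =
      ∑ d ∈ n.divisors, legendreSym 3 d := f2_card n hn

theorem f2_mu_zero {c : Eis} (h : ¬ P0 c) : mu0 c = 0 := not_not.1 (mt mu0_ne_zero.1 h)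

theorem f2_inv {φ : Eis → ℂ} (hφ : ∀ c d, φ (c * d) = φ c * φ d) (h1 : φ 1 = 1)
    (hs : Summable fun c => ‖φ c‖) :
    (∑' c, mu0 c * φ c) * (∑' c, if P1 c then φ c else 0) = 1 := by
  have s1 : Summable fun c => ‖mu0 c * φ c‖ := hs.of_nonneg_of_le (fun _ => norm_nonneg _) fun c =>
    (norm_mul_le _ _).trans (mul_le_of_le_one_left (norm_nonneg _) (norm_mu0_le c))
  have s2 : Summable fun c => ‖if P1 c then φ c else 0‖ :=
    hs.of_nonneg_of_le (fun _ => norm_nonneg _) fun c => by split_ifs <;> simp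
  rw [tsum_mul_tsum_of_summable_norm s1 s2,
    ← ((summable_mul_of_summable_norm s1 s2).hasSum.tsum_fiberwise fun p => p.1 * p.2).tsum_eq]
  have key : ∀ n : Eis, ∑' b : (fun p : Eis × Eis => p.1 * p.2) ⁻¹' {n},
      mu0 b.1.1 * φ b.1.1 * (if P1 b.1.2 then φ b.1.2 else 0) = if n = 1 then 1 else 0 := by
    intro n
    by_cases hn : P1 n
    · have n0 := hn.ne_zero
      rw [tsum_subtype _ fun p : Eis × Eis => mu0 p.1 * φ p.1 * (if P1 p.2 then φ p.2 else 0),
        tsum_eq_sum (s := (divs n).image fun d => (d, n / d)) fun p hp => ?_,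
        Finset.sum_image fun d _ e _ h => (Prod.ext_iff.1 h).1,
        Finset.sum_congr rfl (g := fun d => mu0 d * φ n) fun d hd => ?_, ← Finset.sum_mul,
        sum_mu0_P1 hn]
      · split_ifs with h
        · rw [h, h1, one_mul]
        · exact zero_mul _
      · obtain ⟨a1, a2⟩ := (mem_divs n0).1 hd
        have e := EuclideanDomain.mul_div_cancel' a1.ne_zero a2
        rw [Set.indicator_of_mem (by exact e), if_pos (a1.1.of_mul (e.symm ▸ hn)), mul_assoc, ← hφ, e]
      · refine Set.indicator_apply_eq_zero.2 fun h => ?_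
        have e : p.1 * p.2 = n := h
        rw [f2_mu_zero fun h0 => hp (Finset.mem_image.2 ⟨p.1, (mem_divs n0).2 ⟨h0, _, e.symm⟩, by
          rw [← e, mul_div_cancel_left₀ _ h0.ne_zero]⟩), zero_mul, zero_mul]
    · rw [if_neg fun h : n = 1 => hn (by rw [h]; exact P1.one), tsum_congr (g := fun _ => 0) fun b => ?_, tsum_zero]
      have e : b.1.1 * b.1.2 = n := b.2
      split_ifs with h
      · rw [f2_mu_zero fun h0 => hn (e ▸ h0.1.mul h), zero_mul, zero_mul]
      · exact mul_zero _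
  simp only [key, tsum_ite_eq]

theorem f2_cop {c : Eis} (hc : P1 c) {n : ℕ} (h : nrm c = n) : Nat.Coprime n 6 := by
  have h1 : P1 (cj c) := ⟨hc.1.cj, fun h2 => hc.2 (by
    have := f2_cj_dvd h2
    rwa [cj_cj, show cj 2 = 2 by decide] at this)⟩
  have h2 := hc.mul h1
  rw [mul_cj, h] at h2
  have h3 := bs_prim.1 h2.1
  have h4 := mt bs_two_dvd.2 h2.2
  simp only [intCast_a, intCast_b, dvd_zero, and_true] at h3 h4
  have h5 : n % 6 = 1 := by omega
  rw [Nat.Coprime, Nat.gcd_comm, Nat.gcd_rec, h5]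
  rfl

theorem f2_norm_series {g : ℕ → ℂ} {s : ℂ}
    (hs : Summable fun c : Eis => ‖g (nrm c).natAbs * (N c : ℂ) ^ (-s)‖) :
    ∑' c, (if P1 c then g (nrm c).natAbs * (N c : ℂ) ^ (-s) else 0) =
      LSeries (fun n => (f2T n).card * g n) s := by
  have s2 : Summable fun c => if P1 c then g (nrm c).natAbs * (N c : ℂ) ^ (-s) else 0 :=
    hs.of_norm_bounded fun c => by
      split_ifs
      · exact le_rfl
      · rw [norm_zero]; exact norm_nonneg _
  rw [← (s2.hasSum.tsum_fiberwise fun c => (nrm c).natAbs).tsum_eq, LSeries]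
  refine tsum_congr fun n => ?_
  rw [tsum_subtype _ fun c => if P1 c then g (nrm c).natAbs * (N c : ℂ) ^ (-s) else 0,
    tsum_eq_sum (s := f2T n) fun c hc => ?_,
    Finset.sum_congr rfl (g := fun _ => g n * (n : ℂ) ^ (-s)) fun c hc => ?_, Finset.sum_const,
    nsmul_eq_mul]
  · rcases eq_or_ne n 0 with rfl | hn
    · rw [LSeries.term_zero, Finset.card_eq_zero.2, Nat.cast_zero, zero_mul]
      exact Finset.eq_empty_of_forall_notMem fun c hc =>
        (f2_mem.1 hc).1.ne_zero (nrm_eq_zero.1 (f2_mem.1 hc).2)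
    · rw [LSeries.term_of_ne_zero hn, cpow_neg, div_eq_mul_inv, mul_assoc]
  · obtain ⟨a1, a2⟩ := f2_mem.1 hc
    rw [Set.indicator_of_mem (by simp [a2]), if_pos a1, N, a2]
    simp
  · refine Set.indicator_apply_eq_zero.2 fun h => if_neg fun h1 => hc (f2_mem.2 ⟨h1, ?_⟩)
    have e : (nrm c).natAbs = n := h
    rw [← e, Int.natAbs_of_nonneg (nrm_nonneg c)]

/-- The character modulo three. -/
noncomputable def f2chi : DirichletCharacter ℂ 3 :=
  (quadraticChar (ZMod 3)).ringHomComp (Int.castRingHom ℂ)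

theorem f2_conv_eq (q : ℕ) (χ : DirichletCharacter ℂ q) (h1 : q ∣ 6 * q) (h2 : 3 ∣ 6 * q) :
    LSeries.convolution (fun n : ℕ => DirichletCharacter.changeLevel h1 χ n)
      (fun n : ℕ => (DirichletCharacter.changeLevel h1 χ * DirichletCharacter.changeLevel h2 f2chi) n)
      = fun n => (f2T n).card * χ n := by
  rw [LSeries.convolution_def]
  ext n
  have e : ∀ p ∈ n.divisorsAntidiagonal, DirichletCharacter.changeLevel h1 χ p.1 *
      (DirichletCharacter.changeLevel h1 χ * DirichletCharacter.changeLevel h2 f2chi) p.2 =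
      DirichletCharacter.changeLevel h1 χ n * DirichletCharacter.changeLevel h2 f2chi p.2 :=
    fun p hp => by
      rw [MulChar.mul_apply, ← mul_assoc, ← map_mul, ← Nat.cast_mul,
        (Nat.mem_divisorsAntidiagonal.1 hp).1]
  rw [Finset.sum_congr rfl e, ← Finset.mul_sum,
    Nat.sum_divisorsAntidiagonal' fun _ b => DirichletCharacter.changeLevel h2 f2chi (b : ℕ)]
  have cl : ∀ {k : ℕ} (ψ : DirichletCharacter ℂ k) (h : k ∣ 6 * q) {b : ℕ}, Nat.Coprime b (6 * q) →
      DirichletCharacter.changeLevel h ψ b = ψ b := fun ψ h b hb => by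
    simpa using DirichletCharacter.changeLevel_eq_cast_of_dvd' ψ h (Nat.isCoprime_iff_coprime.2 hb)
  by_cases hn : Nat.Coprime n (6 * q)
  · have c := congrArg (Int.cast : ℤ → ℂ) (f2_card n (Nat.Coprime.coprime_mul_right_right hn))
    rw [Int.cast_natCast, Int.cast_sum] at c
    rw [cl χ h1 hn, mul_comm, c]
    congr 1
    refine Finset.sum_congr rfl fun b hb => ?_
    rw [cl f2chi h2 (hn.coprime_dvd_left (Nat.dvd_of_mem_divisors hb))]
    simp [f2chi, legendreSym]
  · rw [MulChar.map_nonunit _ (mt (ZMod.isUnit_iff_coprime _ _).1 hn), zero_mul]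
    by_cases h6 : Nat.Coprime n 6
    · rw [MulChar.map_nonunit _ (mt (ZMod.isUnit_iff_coprime _ _).1 fun h => hn (h6.mul_right h)),
        mul_zero]
    · rw [Finset.card_eq_zero.2, Nat.cast_zero, zero_mul]
      exact Finset.eq_empty_of_forall_notMem fun c hc => h6 (f2_cop (f2_mem.1 hc).1 (f2_mem.1 hc).2)

theorem f2_preconn {σ : ℝ} (hσ1 : σ < 1) : IsPreconnected {z : ℂ | σ < z.re ∧ z ≠ 1} := by
  have a1 := (convex_halfSpace_re_gt 1).isPreconnected
  have a2 := ((convex_halfSpace_re_gt σ).inter (convex_halfSpace_im_gt 0)).isPreconnected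
  have a3 := ((convex_halfSpace_re_gt σ).inter (convex_halfSpace_im_lt 0)).isPreconnected
  have a4 := ((convex_halfSpace_re_gt σ).inter (convex_halfSpace_re_lt 1)).isPreconnected
  have b1 := a1.union (⟨2, 1⟩ : ℂ) (by simp) (by exact ⟨by simp; linarith, by simp⟩) a2
  have b2 := b1.union (⟨2, -1⟩ : ℂ) (by exact Or.inl (by simp))
    (by exact ⟨by simp; linarith, by simp⟩) a3
  have b := b2.union (⟨(σ + 1) / 2, 1⟩ : ℂ) (by exact Or.inl (Or.inr ⟨by simp; linarith, by simp⟩))
    (by exact ⟨by simp; linarith, by simp; linarith⟩) a4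
  refine b.subset_closure ?_ (subset_closure.trans' fun z hz => ?_)
  · rintro z (((h | h) | h) | h)
    · exact ⟨hσ1.trans h, by rintro rfl; simp at h⟩
    · exact ⟨h.1, by rintro rfl; simp at h⟩
    · exact ⟨h.1, by rintro rfl; simp at h⟩
    · exact ⟨h.1, by rintro rfl; simp at h⟩
  · rcases lt_trichotomy z.im 0 with h | h | h
    · exact Or.inl (Or.inr ⟨hz.1, h⟩)
    · rcases lt_trichotomy z.re 1 with k | k | k
      · exact Or.inr ⟨hz.1, k⟩
      · exact absurd (Complex.ext k h) hz.2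
      · exact Or.inl (Or.inl (Or.inl k))
    · exact Or.inl (Or.inl (Or.inr ⟨hz.1, h⟩))

theorem fin2 {σ : ℝ} (hσ : 0 < σ) (hσ1 : σ < 1) (q : ℕ) [NeZero q] (χ : DirichletCharacter ℂ q)
    (h : ∃ C : ℝ, ∀ Y : ℝ, 1 ≤ Y →
      ‖∑' c, mu0 c * χ ((nrm c : ℤ) : ZMod q) * W Y 0 c‖ ≤ C * Y ^ σ)
    {s : ℂ} (hs : σ < s.re) (hs1 : s ≠ 1) : DirichletCharacter.LFunction χ s ≠ 0 := by
  intro h0
  obtain ⟨C, hC⟩ := h
  have : NeZero (6 * q) := ⟨mul_ne_zero (by norm_num) (NeZero.ne q)⟩
  have h1 : q ∣ 6 * q := Dvd.intro_left _ rfl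
  have h2 : 3 ∣ 6 * q := Dvd.dvd.mul_right (by norm_num) q
  have ha : Bd1 fun c => mu0 c * χ ((nrm c : ℤ) : ZMod q) := fun c =>
    (norm_mul_le _ _).trans (mul_le_one₀ (norm_mu0_le c) (norm_nonneg _) (χ.norm_le_one _))
  have a0 : mu0 0 * χ ((nrm 0 : ℤ) : ZMod q) = 0 := by
    rw [f2_mu_zero fun h => h.ne_zero rfl, zero_mul]
  obtain ⟨F, hF⟩ : ∃ F : ℂ → ℂ, F = fun z =>
      mellin (f2S fun c => mu0 c * χ ((nrm c : ℤ) : ZMod q)) z *
      ((DirichletCharacter.changeLevel h1 χ).LFunction z * (DirichletCharacter.changeLevel h1 χ *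
        DirichletCharacter.changeLevel h2 f2chi).LFunction z) := ⟨_, rfl⟩
  have ho : IsOpen {z : ℂ | σ < z.re ∧ z ≠ 1} :=
    (isOpen_lt continuous_const continuous_re).inter isOpen_ne
  have dF : AnalyticOnNhd ℂ F {z : ℂ | σ < z.re ∧ z ≠ 1} :=
    DifferentiableOn.analyticOnNhd (fun z hz => by
      rw [hF]
      exact ((f2_diff ha a0 hC hz.1).mul
        ((DirichletCharacter.differentiableAt_LFunction _ z (Or.inl hz.2)).mul
        (DirichletCharacter.differentiableAt_LFunction _ z (Or.inl hz.2)))).differentiableWithinAt) ho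
  have dG : AnalyticOnNhd ℂ (fun z : ℂ => (Real.pi : ℂ) ^ (1 / 2 : ℂ) * cexp (z ^ 2 / 4))
      {z : ℂ | σ < z.re ∧ z ≠ 1} :=
    DifferentiableOn.analyticOnNhd (Differentiable.differentiableOn (by fun_prop)) ho
  have e : ∀ z : ℂ, 1 < z.re → F z = (Real.pi : ℂ) ^ (1 / 2 : ℂ) * cexp (z ^ 2 / 4) := by
    intro z hz
    have cz : ∀ c : Eis, (((nrm c).natAbs : ℕ) : ZMod q) = ((nrm c : ℤ) : ZMod q) := fun c => by
      rw [← Int.cast_natCast, Int.natAbs_of_nonneg (nrm_nonneg c)]
    have sm : Summable fun c : Eis => ‖χ ((nrm c : ℤ) : ZMod q) * (N c : ℂ) ^ (-z)‖ :=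
      (summable_N_rpow hz).of_nonneg_of_le (fun _ => norm_nonneg _) fun c => by
        rw [norm_mul, norm_cpow_eq_rpow_re_of_nonneg (N_nonneg c) (by simp; linarith), neg_re]
        exact mul_le_of_le_one_left (Real.rpow_nonneg (N_nonneg c) _) (χ.norm_le_one _)
    have i1 := f2_inv (φ := fun c => χ ((nrm c : ℤ) : ZMod q) * (N c : ℂ) ^ (-z)) (fun c d => by
      rw [nrm_mul, N_mul, Int.cast_mul, map_mul, ofReal_mul,
        mul_cpow_ofReal_nonneg (N_nonneg c) (N_nonneg d)]
      ring) (by simp [nrm]) sm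
    have i2 := f2_norm_series (g := fun n => χ n) (s := z) (by simpa only [cz] using sm)
    simp only [cz] at i2
    rw [i2, ← f2_conv_eq q χ h1 h2, LSeries_convolution'
      (DirichletCharacter.LSeriesSummable_of_one_lt_re _ hz)
      (DirichletCharacter.LSeriesSummable_of_one_lt_re _ hz),
      ← DirichletCharacter.LFunction_eq_LSeries _ hz,
      ← DirichletCharacter.LFunction_eq_LSeries _ hz] at i1
    simp only [hF, f2_series ha a0 hz, f2_mellin_w, mul_assoc (mu0 _)]
    rw [mul_right_comm, i1, one_mul]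
  have key := dF.eqOn_of_preconnected_of_eventuallyEq dG (f2_preconn hσ1) (z₀ := 2)
    ⟨by simp; linarith, by norm_num⟩ (Filter.eventually_of_mem
      ((isOpen_lt continuous_const continuous_re).mem_nhds (by simp : 1 < (2 : ℂ).re)) e) ⟨hs, hs1⟩
  simp only [hF, DirichletCharacter.LFunction_changeLevel h1 χ (Or.inr hs1), h0, zero_mul,
    mul_zero] at key
  exact mul_ne_zero (cpow_ne_zero_iff.2 (Or.inl (ofReal_ne_zero.2 Real.pi_ne_zero)))
    (Complex.exp_ne_zero _) key.symm

end Vale.Agent.P026
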