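import Vale.Agent.P026.Count

/-! The kernel kap and its Mellin transform. -/

namespace Vale.Agent.P026

open Eis Complex MeasureTheory
open scoped Classical ComplexConjugate

theorem c0_pos : 0 < c0 := by
  unfold c0
  have := Real.pi_pos
  positivity

theorem kp_meas (y : ℝ) :
    Measurable (fun u : ℝ => u ^ (-(2 / 3) : ℝ) * Real.exp (-u - y ^ 2 / u)) := by
  fun_prop

theorem kp_nonneg (y : ℝ) {u : ℝ} (hu : 0 < u) :
    0 ≤ u ^ (-(2 / 3) : ℝ) * Real.exp (-u - y ^ 2 / u) := by positivity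

theorem kp_le (y : ℝ) {u : ℝ} (hu : 0 < u) :
    u ^ (-(2 / 3) : ℝ) * Real.exp (-u - y ^ 2 / u) ≤ Real.exp (-u) * u ^ ((1 / 3 : ℝ) - 1) := by
  have h1 : Real.exp (-u - y ^ 2 / u) ≤ Real.exp (-u) := by
    apply Real.exp_le_exp.2
    have : 0 ≤ y ^ 2 / u := by positivity
    linarith
  rw [show ((1 / 3 : ℝ) - 1) = -(2 / 3) by norm_num, mul_comm]
  exact mul_le_mul_of_nonneg_right h1 (by positivity)

theorem integrableOn_kk (y : ℝ) :
    IntegrableOn (fun u : ℝ => u ^ (-(2 / 3) : ℝ) * Real.exp (-u - y ^ 2 / u)) (Set.Ioi 0) := by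
  refine Integrable.mono' (Real.GammaIntegral_convergent (s := 1 / 3) (by norm_num))
    (kp_meas y).aestronglyMeasurable ?_
  filter_upwards [ae_restrict_mem measurableSet_Ioi] with u hu
  rw [Real.norm_of_nonneg (kp_nonneg y hu)]
  exact kp_le y hu

theorem kk_pos (y : ℝ) : 0 < kk y := by
  unfold kk
  rw [setIntegral_pos_iff_support_of_nonneg_ae _ (integrableOn_kk y)]
  · have : Function.support (fun u : ℝ => u ^ (-(2 / 3) : ℝ) * Real.exp (-u - y ^ 2 / u))
        ∩ Set.Ioi 0 = Set.Ioi 0 := by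
      refine Set.inter_eq_right.2 fun u hu => ?_
      have hu' : 0 < u := hu
      rw [Function.mem_support]
      positivity
    rw [this, Real.volume_Ioi]
    exact ENNReal.zero_lt_top
  · filter_upwards [ae_restrict_mem measurableSet_Ioi] with u hu
    exact kp_nonneg y hu

theorem continuous_kk : Continuous kk := by
  unfold kk
  refine continuous_of_dominated (bound := fun u => Real.exp (-u) * u ^ ((1 / 3 : ℝ) - 1))
    (fun y => (kp_meas y).aestronglyMeasurable) (fun y => ?_)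
    (Real.GammaIntegral_convergent (s := 1 / 3) (by norm_num)) ?_
  · filter_upwards [ae_restrict_mem measurableSet_Ioi] with u hu
    rw [Real.norm_of_nonneg (kp_nonneg y hu)]
    exact kp_le y hu
  · refine Filter.Eventually.of_forall fun u => ?_
    fun_prop

theorem kk_antitoneOn : AntitoneOn kk (Set.Ici 0) := by
  intro x hx y _ hxy
  unfold kk
  refine setIntegral_mono_on (integrableOn_kk y) (integrableOn_kk x) measurableSet_Ioi
    fun u hu => ?_
  have hu' : 0 < u := hu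
  have hx' : 0 ≤ x := hx
  refine mul_le_mul_of_nonneg_left (Real.exp_le_exp.2 ?_) (by positivity)
  have : x ^ 2 / u ≤ y ^ 2 / u := by gcongr
  linarith

theorem kap_nonneg {y : ℝ} (hy : 0 ≤ y) : 0 ≤ kap y :=
  mul_nonneg (Real.rpow_nonneg hy _) (kk_pos _).le

theorem kap_pos {y : ℝ} (hy : 0 < y) : 0 < kap y :=
  mul_pos (Real.rpow_pos_of_pos hy _) (kk_pos _)

theorem continuous_kap : Continuous kap := by
  unfold kap
  exact (Real.continuous_rpow_const (by norm_num)).mul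
    (continuous_kk.comp (continuous_const.mul continuous_id))

theorem kp_decay (m : ℕ) : ∃ C : ℝ, 0 < C ∧ ∀ y : ℝ, 0 < y → kk y ≤ C / y ^ (2 * m) := by
  have hs : (0 : ℝ) < m + 1 / 3 := by positivity
  refine ⟨m.factorial * Real.Gamma (m + 1 / 3), by
    have := Real.Gamma_pos_of_pos hs
    positivity, fun y hy => ?_⟩
  have hI := Real.GammaIntegral_convergent hs
  have : kk y ≤ ∫ u in Set.Ioi (0 : ℝ),
      (m.factorial / y ^ (2 * m)) * (Real.exp (-u) * u ^ ((m : ℝ) + 1 / 3 - 1)) := by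
    unfold kk
    refine setIntegral_mono_on (integrableOn_kk y) (hI.const_mul _) measurableSet_Ioi
      fun u hu => ?_
    have hu' : 0 < u := hu
    have h1 := Real.pow_div_factorial_le_exp (y ^ 2 / u) (by positivity) m
    have h2 : Real.exp (-(y ^ 2 / u)) ≤ m.factorial / y ^ (2 * m) * u ^ m := by
      rw [Real.exp_neg, inv_le_comm₀ (Real.exp_pos _) (by positivity)]
      refine le_trans (le_of_eq ?_) h1
      rw [div_pow, ← pow_mul]
      field_simp
    have h3 : u ^ ((m : ℝ) + 1 / 3 - 1) = u ^ m * u ^ (-(2 / 3) : ℝ) := by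
      rw [← Real.rpow_natCast, ← Real.rpow_add hu']
      congr 1
      ring
    rw [h3, sub_eq_add_neg, Real.exp_add]
    calc u ^ (-(2 / 3) : ℝ) * (Real.exp (-u) * Real.exp (-(y ^ 2 / u)))
        ≤ u ^ (-(2 / 3) : ℝ) * (Real.exp (-u) * (m.factorial / y ^ (2 * m) * u ^ m)) := by
          gcongr
      _ = _ := by ring
  rw [integral_const_mul, ← Real.Gamma_eq_integral hs] at this
  refine this.trans (le_of_eq ?_)
  ring

theorem kap_le (n : ℕ) : ∃ C : ℝ, 0 < C ∧ ∀ y : ℝ, 0 < y → kap y ≤ C / y ^ n := by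
  obtain ⟨C0, hC0, h0⟩ := kp_decay 0
  obtain ⟨C1, hC1, h1⟩ := kp_decay (n + 1)
  have hc := c0_pos
  refine ⟨C0 + C1 / c0 ^ (2 * (n + 1)), by positivity, fun y hy => ?_⟩
  have hA : 0 < C1 / c0 ^ (2 * (n + 1)) := by positivity
  unfold kap
  rcases le_total y 1 with h | h
  · have a1 : y ^ (2 / 3 : ℝ) ≤ 1 := Real.rpow_le_one hy.le h (by norm_num)
    have a2 := h0 (c0 * y) (by positivity)
    simp only [mul_zero, pow_zero, div_one] at a2
    have a3 : y ^ n ≤ 1 := pow_le_one₀ hy.le h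
    have a4 : y ^ (2 / 3 : ℝ) * kk (c0 * y) ≤ C0 := by
      calc _ ≤ 1 * C0 := mul_le_mul a1 a2 (kk_pos _).le zero_le_one
        _ = C0 := one_mul _
    rw [le_div_iff₀ (by positivity)]
    have a5 : 0 ≤ y ^ (2 / 3 : ℝ) * kk (c0 * y) := kap_nonneg hy.le
    nlinarith
  · have a1 : y ^ (2 / 3 : ℝ) ≤ y := by
      calc y ^ (2 / 3 : ℝ) ≤ y ^ (1 : ℝ) := Real.rpow_le_rpow_of_exponent_le h (by norm_num)
        _ = y := Real.rpow_one y
    have a2 := h1 (c0 * y) (by positivity)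
    have a3 : y ^ (n + 1) ≤ y ^ (2 * (n + 1)) := pow_le_pow_right₀ h (by omega)
    calc y ^ (2 / 3 : ℝ) * kk (c0 * y) ≤ y * (C1 / (c0 * y) ^ (2 * (n + 1))) :=
          mul_le_mul a1 a2 (kk_pos _).le hy.le
      _ = C1 / c0 ^ (2 * (n + 1)) * y / y ^ (2 * (n + 1)) := by
          rw [mul_pow]; field_simp
      _ ≤ C1 / c0 ^ (2 * (n + 1)) * y / y ^ (n + 1) := by gcongr
      _ = C1 / c0 ^ (2 * (n + 1)) / y ^ n := by
          rw [pow_succ]; field_simp
      _ ≤ _ := by gcongr; linarith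

theorem kp_kap_zero : kap 0 = 0 := by
  unfold kap
  rw [Real.zero_rpow (by norm_num), zero_mul]

theorem summable_kap (k : ℕ) {v : ℝ} (hv : 0 < v) :
    Summable (fun r : Eis => ab r ^ k * kap (ab r * v)) := by
  obtain ⟨C, hC, h⟩ := kap_le (k + 4)
  refine Summable.of_nonneg_of_le (fun r => mul_nonneg (pow_nonneg (ab_nonneg r) _)
    (kap_nonneg (mul_nonneg (ab_nonneg r) hv.le))) (fun r => ?_)
    ((summable_N_rpow (s := 2) (by norm_num)).mul_left (C / v ^ (k + 4)))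
  by_cases hr : r = 0
  · subst hr
    have : ab 0 = 0 := by simp [ab]
    rw [this, zero_mul, kp_kap_zero, mul_zero]
    exact mul_nonneg (by positivity) (Real.rpow_nonneg (N_nonneg _) _)
  · have ha := ab_pos hr
    have h2 : N r ^ (-(2 : ℝ)) = (ab r ^ 4)⁻¹ := by
      rw [Real.rpow_neg (N_nonneg r), Real.rpow_two, ← ab_sq, ← pow_mul]
    rw [h2]
    calc ab r ^ k * kap (ab r * v) ≤ ab r ^ k * (C / (ab r * v) ^ (k + 4)) :=
          mul_le_mul_of_nonneg_left (h _ (by positivity)) (by positivity)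
      _ = _ := by
          rw [mul_pow, pow_add]; field_simp

/-- The integrand of the double integral. -/
noncomputable def kpF (s : ℂ) (y u : ℝ) : ℂ :=
  (y : ℂ) ^ (s - 1) • ((u ^ (-(2 / 3) : ℝ) * Real.exp (-u - y ^ 2 / u) : ℝ) : ℂ)

theorem kp_split (y u : ℝ) : u ^ (-(2 / 3) : ℝ) * Real.exp (-u - y ^ 2 / u) =
    (u ^ (-(2 / 3) : ℝ) * Real.exp (-u)) * Real.exp (-u⁻¹ * y ^ (2 : ℝ)) := by
  rw [mul_assoc, ← Real.exp_add, Real.rpow_two]
  congr 2
  ring

theorem kp_normF (s : ℂ) {y u : ℝ} (hy : 0 < y) (hu : 0 < u) : ‖kpF s y u‖ =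
    (u ^ (-(2 / 3) : ℝ) * Real.exp (-u)) *
      (y ^ (s.re - 1) * Real.exp (-u⁻¹ * y ^ (2 : ℝ))) := by
  unfold kpF
  rw [norm_smul, norm_cpow_eq_rpow_re_of_pos hy, Complex.norm_real,
    Real.norm_of_nonneg (kp_nonneg y hu), kp_split, sub_re, one_re]
  ring

theorem kp_measF (s : ℂ) : Measurable (Function.uncurry (kpF s)) := by
  unfold kpF Function.uncurry
  simp only [smul_eq_mul]
  refine Measurable.mul ?_ ?_
  · exact (Complex.measurable_ofReal.comp measurable_fst).pow_const _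
  · refine Complex.measurable_ofReal.comp ?_
    fun_prop

theorem kp_intF {s : ℂ} (hs : 0 < s.re) : Integrable (Function.uncurry (kpF s))
    ((volume.restrict (Set.Ioi (0 : ℝ))).prod (volume.restrict (Set.Ioi (0 : ℝ)))) := by
  rw [integrable_prod_iff' (kp_measF s).aestronglyMeasurable]
  constructor
  · filter_upwards [ae_restrict_mem measurableSet_Ioi] with u hu
    have hu' : 0 < u := hu
    have hI := (integrableOn_rpow_mul_exp_neg_mul_rpow (s := s.re - 1) (p := 2) (b := u⁻¹)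
      (by linarith) two_pos (inv_pos.2 hu')).const_mul (u ^ (-(2 / 3) : ℝ) * Real.exp (-u))
    refine Integrable.mono' hI
      ((kp_measF s).comp (measurable_id.prodMk measurable_const)).aestronglyMeasurable ?_
    filter_upwards [ae_restrict_mem measurableSet_Ioi] with y hy
    exact (kp_normF s hy hu').le
  · have hs2 : 0 < s.re / 2 + 1 / 3 := by positivity
    have hI := (Real.GammaIntegral_convergent hs2).const_mul (1 / 2 * Real.Gamma (s.re / 2))
    refine hI.congr ?_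
    filter_upwards [ae_restrict_mem measurableSet_Ioi] with u hu
    have hu' : 0 < u := hu
    have h1 : ∫ y in Set.Ioi (0 : ℝ), ‖Function.uncurry (kpF s) (y, u)‖ =
        ∫ y in Set.Ioi (0 : ℝ), (u ^ (-(2 / 3) : ℝ) * Real.exp (-u)) *
          (y ^ (s.re - 1) * Real.exp (-u⁻¹ * y ^ (2 : ℝ))) :=
      setIntegral_congr_fun measurableSet_Ioi fun y hy => kp_normF s hy hu'
    rw [h1, integral_const_mul, _root_.integral_rpow_mul_exp_neg_mul_rpow two_pos (by linarith)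
      (inv_pos.2 hu'), Real.inv_rpow hu'.le, ← Real.rpow_neg hu'.le]
    have h2 : u ^ (s.re / 2 + 1 / 3 - 1) = u ^ (-(2 / 3) : ℝ) * u ^ (-(-(s.re - 1 + 1) / 2)) := by
      rw [← Real.rpow_add hu']
      congr 1
      ring
    rw [h2, show (s.re - 1 + 1) / 2 = s.re / 2 by ring]
    ring

theorem kp_inner {s : ℂ} (hs : 0 < s.re) {u : ℝ} (hu : 0 < u) :
    ∫ y in Set.Ioi (0 : ℝ), kpF s y u =
      (1 / 2 * Gamma (s / 2)) * ((Real.exp (-u) : ℂ) * (u : ℂ) ^ (s / 2 + 1 / 3 - 1)) := by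
  have h1 := mellin_comp_rpow (fun t : ℝ => cexp (-(((u⁻¹ : ℝ) : ℂ) * t))) s 2
  have hs2 : 0 < (s / 2).re := by simp; linarith
  have h2 := integral_cpow_mul_exp_neg_mul_Ioi hs2 (inv_pos.2 hu)
  have h3 : ∫ y in Set.Ioi (0 : ℝ), kpF s y u = ((u ^ (-(2 / 3) : ℝ) * Real.exp (-u) : ℝ) : ℂ) *
      mellin (fun t : ℝ => cexp (-(((u⁻¹ : ℝ) : ℂ) * ((t ^ (2 : ℝ) : ℝ) : ℂ)))) s := by
    unfold mellin
    rw [← integral_const_mul]
    refine setIntegral_congr_fun measurableSet_Ioi fun y _ => ?_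
    unfold kpF
    beta_reduce
    rw [kp_split, smul_eq_mul, smul_eq_mul, ofReal_mul _ (Real.exp _), ofReal_exp (-u⁻¹ * _),
      ofReal_mul (-u⁻¹), ofReal_neg, neg_mul]
    ring
  rw [h3, h1]
  unfold mellin
  simp only [smul_eq_mul]
  rw [show ((2 : ℝ) : ℂ) = 2 by norm_num, h2]
  have hu0 : (u : ℂ) ≠ 0 := ofReal_ne_zero.2 hu.ne'
  have h4 : (u : ℂ) ^ (s / 2 + 1 / 3 - 1) = ((u ^ (-(2 / 3) : ℝ) : ℝ) : ℂ) * (u : ℂ) ^ (s / 2) := by
    rw [ofReal_cpow hu.le, ← cpow_add _ _ hu0]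
    congr 1
    push_cast
    ring
  rw [h4, ofReal_inv, one_div, inv_inv, real_smul, abs_two]
  push_cast
  ring

theorem kp_mellin_kk {s : ℂ} (hs : 0 < s.re) :
    HasMellin (fun y : ℝ => (kk y : ℂ)) s (1 / 2 * Gamma (s / 2) * Gamma (s / 2 + 1 / 3)) := by
  have hF := kp_intF hs
  have hin : ∀ y : ℝ, ∫ u in Set.Ioi (0 : ℝ), kpF s y u = (y : ℂ) ^ (s - 1) • (kk y : ℂ) := by
    intro y
    unfold kpF kk
    rw [integral_smul, integral_complex_ofReal]
  constructor
  · have := hF.integral_prod_left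
    simp only [Function.uncurry_apply_pair, hin] at this
    exact this
  · have h1 := integral_integral_swap hF
    simp only [hin] at h1
    unfold mellin
    rw [h1, setIntegral_congr_fun measurableSet_Ioi fun u hu => kp_inner hs hu,
      integral_const_mul]
    have hs2 : 0 < (s / 2 + 1 / 3).re := by
      simp; linarith
    rw [Gamma_eq_integral hs2, GammaIntegral]

/-- The Mellin transform of the kernel. -/
theorem mellin_kap {u : ℂ} (hu : 0 < u.re) :
    HasMellin (fun y : ℝ => (kap y : ℂ)) (2 * u)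
      ((c0 : ℂ) ^ (-(2 * u) - 2 / 3) / 2 * Gamma (u + 1 / 3) * Gamma (u + 2 / 3)) := by
  have hs : 0 < (2 * u + 2 / 3).re := by
    simp; linarith
  obtain ⟨h1, h2⟩ := kp_mellin_kk hs
  have hE : Set.EqOn (fun t : ℝ => (t : ℂ) ^ (2 * u - 1) • (kap t : ℂ))
      (fun t : ℝ => (t : ℂ) ^ (2 * u - 1) • ((t : ℂ) ^ (2 / 3 : ℂ) • (kk (c0 * t) : ℂ)))
      (Set.Ioi 0) := by
    intro t ht
    have ht' : 0 < t := ht
    beta_reduce
    unfold kap
    rw [ofReal_mul, ofReal_cpow ht'.le, smul_eq_mul (_ ^ (2 / 3 : ℂ))]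
    norm_num
  constructor
  · have a1 := (MellinConvergent.comp_mul_left (f := fun y : ℝ => (kk y : ℂ)) c0_pos).2 h1
    have a2 := (MellinConvergent.cpow_smul (f := fun y : ℝ => (kk (c0 * y) : ℂ))).2 a1
    exact IntegrableOn.congr_fun a2 hE.symm measurableSet_Ioi
  · have a1 := mellin_comp_mul_left (fun y : ℝ => (kk y : ℂ)) (2 * u + 2 / 3) c0_pos
    have a2 := mellin_cpow_smul (fun y : ℝ => (kk (c0 * y) : ℂ)) (2 * u) (2 / 3)
    have a3 : mellin (fun y : ℝ => (kap y : ℂ)) (2 * u) =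
        mellin (fun t : ℝ => (t : ℂ) ^ (2 / 3 : ℂ) • (kk (c0 * t) : ℂ)) (2 * u) :=
      setIntegral_congr_fun measurableSet_Ioi hE
    rw [a3, a2, a1, h2, smul_eq_mul, show (2 * u + 2 / 3) / 2 = u + 1 / 3 by ring,
      show u + 1 / 3 + 1 / 3 = u + 2 / 3 by ring,
      show -(2 * u + 2 / 3) = -(2 * u) - 2 / 3 by ring]
    ring

/-- The integral of the test function fk against the power one third. -/
theorem integral_fk {a D E : ℝ} (hD : 0 < D) (hE : 0 < E) :
    IntegrableOn (fun y : ℝ => ((y ^ (-(2 / 3) : ℝ) : ℝ) : ℂ) * fk a D E y) (Set.Ioi 0) ∧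
    ∫ y in Set.Ioi (0 : ℝ), ((y ^ (-(2 / 3) : ℝ) : ℝ) : ℂ) * fk a D E y =
      ((D ^ (-(2 / 3) : ℝ) * E ^ (-(1 / 3) : ℝ) * kk (a * (√E / D)) : ℝ) : ℂ) := by
  have hb : 0 < E / D := by positivity
  set b := a * (√E / D) with hbdef
  have hE1 : Set.EqOn (fun y : ℝ => ((y ^ (-(2 / 3) : ℝ) : ℝ) : ℂ) * fk a D E y)
      (fun y : ℝ => (((D⁻¹ * (E / D) ^ (2 / 3 : ℝ)) * ((E / D * y) ^ (-(2 / 3) : ℝ) *
        Real.exp (-(E / D * y) - b ^ 2 / (E / D * y))) : ℝ) : ℂ)) (Set.Ioi 0) := by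
    intro y hy
    have hy' : 0 < y := hy
    beta_reduce
    unfold fk
    rw [← ofReal_mul, Real.mul_rpow hb.le hy'.le]
    congr 1
    have e1 : -(y * E / D) - a ^ 2 / (y * D) = -(E / D * y) - b ^ 2 / (E / D * y) := by
      rw [hbdef, mul_pow, div_pow, Real.sq_sqrt hE.le]
      field_simp
    have e2 : (E / D) ^ (2 / 3 : ℝ) * (E / D) ^ (-(2 / 3) : ℝ) = 1 := by
      rw [← Real.rpow_add hb]; norm_num
    rw [e1]
    linear_combination (-(D⁻¹ * y ^ (-(2 / 3) : ℝ) *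
      Real.exp (-(E / D * y) - b ^ 2 / (E / D * y)))) * e2
  have hI : IntegrableOn (fun y : ℝ => (E / D * y) ^ (-(2 / 3) : ℝ) *
      Real.exp (-(E / D * y) - b ^ 2 / (E / D * y))) (Set.Ioi 0) := by
    refine (integrableOn_Ioi_comp_mul_left_iff
      (fun u : ℝ => u ^ (-(2 / 3) : ℝ) * Real.exp (-u - b ^ 2 / u)) 0 hb).2 ?_
    rw [mul_zero]
    exact integrableOn_kk b
  constructor
  · exact IntegrableOn.congr_fun (hI.const_mul _).ofReal hE1.symm measurableSet_Ioi
  · rw [setIntegral_congr_fun measurableSet_Ioi hE1, integral_complex_ofReal, integral_const_mul,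
      integral_comp_mul_left_Ioi
        (fun u : ℝ => u ^ (-(2 / 3) : ℝ) * Real.exp (-u - b ^ 2 / u)) 0 hb, mul_zero, smul_eq_mul]
    congr 1
    have e1 : D⁻¹ * (E / D) ^ (2 / 3 : ℝ) * (E / D)⁻¹ =
        D ^ (-(2 / 3) : ℝ) * E ^ (-(1 / 3) : ℝ) := by
      rw [Real.div_rpow hE.le hD.le, Real.rpow_neg hD.le,
        show (-(1 / 3) : ℝ) = 2 / 3 - 1 by norm_num, Real.rpow_sub_one hE.ne']
      field_simp
    rw [← e1]
    unfold kk
    ring

end Vale.Agent.P026
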