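import Vale.Agent.P026.PtwA

/-! The almost everywhere Fourier expansion of the theta function at a cusp. -/

namespace Vale.Agent.P026

open Eis Complex MeasureTheory Filter Topology
open scoped Classical ComplexConjugate

theorem pw_M3 : (volume.restrict (Set.univ ×ˢ DE) : Measure (ℂ × ℝ × ℝ)) =
    (volume : Measure ℂ).prod (volume.restrict DE) := by
  rw [Measure.volume_eq_prod, ← Measure.prod_restrict, Measure.restrict_univ]

theorem pw_ae_ae {P : ℂ × ℝ × ℝ → Prop}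
    (h : ∀ᵐ x : ℂ × ℝ × ℝ ∂(volume.restrict (Set.univ ×ˢ DE)), P x) :
    ∀ᵐ p ∂(volume.restrict DE), ∀ᵐ z : ℂ, P (z, p) := by
  rw [pw_M3] at h
  exact Measure.ae_ae_of_ae_prod (Measure.measurePreserving_swap.quasiMeasurePreserving.ae h)

theorem pw_of_ae_ae {u : ℂ × ℝ × ℝ → ℂ} (hu : Measurable u)
    (h : ∀ᵐ p ∂(volume.restrict DE), ∀ᵐ z : ℂ, u (z, p) = 0) :
    ∀ᵐ x : ℂ × ℝ × ℝ ∂(volume.restrict (Set.univ ×ˢ DE)), u x = 0 := by
  have hm : MeasurableSet {x : ℂ × ℝ × ℝ | u x = 0} := measurableSet_eq_fun hu measurable_const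
  rw [pw_M3, Measure.ae_prod_iff_ae_ae hm, Measure.ae_ae_comm hm]
  exact h

theorem pw_ae_snd {P : ℝ × ℝ → Prop} (h : ∀ᵐ p ∂(volume.restrict DE), P p) :
    ∀ᵐ x : ℂ × ℝ × ℝ ∂(volume.restrict (Set.univ ×ˢ DE)), P x.2 := by
  rw [pw_M3]
  exact Measure.quasiMeasurePreserving_snd.ae h

theorem pw_ae_map {f : ℂ → ℂ} (hf : MeasurePreserving f volume volume) {P : ℂ × ℝ × ℝ → Prop}
    (h : ∀ᵐ x : ℂ × ℝ × ℝ ∂(volume.restrict (Set.univ ×ˢ DE)), P x) :
    ∀ᵐ x : ℂ × ℝ × ℝ ∂(volume.restrict (Set.univ ×ˢ DE)), P (f x.1, x.2) := by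
  rw [pw_M3] at h ⊢
  exact (hf.prod (MeasurePreserving.id _)).quasiMeasurePreserving.ae h

theorem pw_ae_DE : ∀ᵐ x : ℂ × ℝ × ℝ ∂(volume.restrict (Set.univ ×ˢ DE)), x.2 ∈ DE :=
  pw_ae_snd (ae_restrict_mem measurableSet_DE)

/-- An almost everywhere identity of continuous functions holds in the interior. -/
theorem pw_eq {f g : ℂ × ℝ × ℝ → ℂ}
    (h : ∀ᵐ x : ℂ × ℝ × ℝ ∂(volume.restrict (Set.univ ×ˢ DE)), f x = g x)
    (hf : ∀ x : ℂ × ℝ × ℝ, 0 < x.2.1 → 0 < x.2.2 → ContinuousAt f x)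
    (hg : ∀ x : ℂ × ℝ × ℝ, 0 < x.2.1 → 0 < x.2.2 → ContinuousAt g x)
    (z : ℂ) {D E : ℝ} (hD : 0 < D) (h1 : 1 < E) (h2 : E < 2) : f (z, D, E) = g (z, D, E) := by
  have hU : IsOpen ((Set.univ : Set ℂ) ×ˢ (Set.Ioi (0 : ℝ) ×ˢ Set.Ioo (1 : ℝ) 2)) :=
    isOpen_univ.prod (isOpen_Ioi.prod isOpen_Ioo)
  refine Measure.eqOn_open_of_ae_eq (μ := volume) (ae_restrict_of_ae_restrict_of_subset
    (Set.prod_mono_right (Set.prod_mono_right Set.Ioo_subset_Icc_self)) h) hU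
    (fun x hx => (hf x hx.2.1 (one_pos.trans hx.2.2.1)).continuousWithinAt)
    (fun x hx => (hg x hx.2.1 (one_pos.trans hx.2.2.1)).continuousWithinAt)
    ⟨trivial, hD, h1, h2⟩

variable {θ : HF → ℂ}

theorem pw_meas_pt (p : ℝ × ℝ) : Measurable fun z : ℂ => pt z p.1 p.2 :=
  measurable_pt.comp (measurable_id.prodMk measurable_const)

theorem pw_meas' {X : Type*} [MeasurableSpace X] (b : Eis → ℂ) {f : X → ℂ} {g : X → ℝ}
    (hf : Measurable f) (hg : Measurable g) : Measurable fun x => pwT b (f x) (g x) := by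
  simpa only [Function.comp_def] using (pw_meas (b := b)).comp (hf.prodMk hg)

theorem pw_L2 (hθ : IsTheta θ) (s : SL) : ∀ᵐ p ∂(volume.restrict DE),
    MemLp (fun z => θ (act s (pt z p.1 p.2))) 2 (volume.restrict F9) := by
  have hU : DE = ⋃ n : ℕ, r1B (1 / (n + 1)) (n + 1) := by
    ext p
    simp only [Set.mem_iUnion]
    constructor
    · rintro ⟨h1, h2⟩
      have h1' : 0 < p.1 := h1
      obtain ⟨n, hn⟩ := exists_nat_ge (max p.1 p.1⁻¹)
      refine ⟨n, ⟨?_, by linarith [le_max_left p.1 p.1⁻¹]⟩, h2⟩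
      rw [one_div, inv_le_comm₀ (by positivity) h1']
      linarith [le_max_right p.1 p.1⁻¹]
    · rintro ⟨n, h1, h2⟩
      exact ⟨lt_of_lt_of_le (by positivity) h1.1, h2⟩
  rw [hU, ae_restrict_iUnion_iff]
  intro n
  have hD : (0 : ℝ) < 1 / (n + 1) := by positivity
  have hD' : (1 : ℝ) / (n + 1) ≤ n + 1 := by
    rw [div_le_iff₀ (by positivity)]
    nlinarith [(Nat.cast_nonneg n : (0 : ℝ) ≤ n)]
  obtain ⟨C, hC⟩ := hθ.bd
  have hm : Measurable fun Q => θ (act s Q) := hθ.meas.comp (continuous_act s).measurable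
  have hm2 : Measurable fun Q => ‖θ (act s Q)‖ₑ ^ 2 := hm.enorm.pow_const 2
  have h1 := (hC s _ _ hD hD').trans_lt ENNReal.ofReal_lt_top
  rw [lintegral_box _ _ hD hm2] at h1
  have h2 := ae_lt_top (measurable_fst.ennreal_ofReal.mul
    ((hm2.comp measurable_pt).lintegral_prod_left' (μ := volume.restrict F9))) h1.ne
  filter_upwards [h2, ae_restrict_mem (r1_measB _ _)] with p hp hpB
  have hp0 : 0 < p.1 := hD.trans_le hpB.1.1
  refine ⟨(hm.comp (pw_meas_pt p)).aestronglyMeasurable, ?_⟩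
  rw [eLpNorm_lt_top_iff_lintegral_rpow_enorm_lt_top two_ne_zero ENNReal.ofNat_ne_top]
  simpa using ENNReal.lt_top_of_mul_ne_top_right hp.ne (by simpa using hp0)

theorem pw_aut_tr (hθ : IsTheta θ) (A q y : Eis) :
    ∀ᵐ x : ℂ × ℝ × ℝ ∂(volume.restrict (Set.univ ×ˢ DE)),
      θ (act (sig A q) (pt (x.1 + 9 * toC y) x.2.1 x.2.2)) =
        θ (act (sig A q) (pt x.1 x.2.1 x.2.2)) := by
  have h1 := (measurePreserving_act (sig A q)).quasiMeasurePreserving.ae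
    (hθ.aut _ (conj_tr_mem (sig A q) y))
  filter_upwards [ae_pt h1] with x hx
  rw [kap0_conj_tr, map_one, one_mul, ← act_mul, inv_mul_cancel_right, act_mul, act_tr_pt,
    map_mul, map_ofNat] at hx
  exact hx

/-- The constant term. -/
noncomputable def pwC (θ : HF → ℂ) (s : SL) (p : ℝ × ℝ) : ℂ :=
  (V9 : ℂ)⁻¹ * ∫ z in F9, θ (act s (pt z p.1 p.2)) * conj (eR 0 z)

/-- The full expansion as a function on forms. -/
noncomputable def pwH (c : ℝ × ℝ → ℂ) (b : Eis → ℂ) (Q : HF) : ℂ :=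
  c (Q.2.2, Q.1 * Q.2.2 - normSq Q.2.1) +
    (((Q.1 * Q.2.2 - normSq Q.2.1) ^ (-(2 / 3) : ℝ) : ℝ) : ℂ) *
      pwT b (Q.2.1 / (Q.2.2 : ℂ)) (√(Q.1 * Q.2.2 - normSq Q.2.1) / Q.2.2)

theorem pwH_pt (c : ℝ × ℝ → ℂ) (b : Eis → ℂ) (z : ℂ) {D : ℝ} (hD : D ≠ 0) (E : ℝ) :
    pwH c b (pt z D E) = c (D, E) + ((E ^ (-(2 / 3) : ℝ) : ℝ) : ℂ) * pwT b z (√E / D) := by
  have h : (pt z D E).2.1 / ((pt z D E).2.2 : ℂ) = z :=
    mul_div_cancel_left₀ z (ofReal_ne_zero.2 hD)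
  rw [pwH, geo_pt_det z hD, h]
  rfl

theorem pw_b {tau : Eis → ℂ} {C : ℝ} (h : ∀ r, ‖tau r‖ ≤ C * ab r) (r : Eis) :
    ‖tau r / (ab r : ℂ)‖ ≤ |C| := by
  by_cases hr : r = 0
  · simp [hr, ab]
  · rw [norm_div, norm_real, Real.norm_of_nonneg (ab_nonneg r), div_le_iff₀ (ab_pos hr)]
    exact (h r).trans (mul_le_mul_of_nonneg_right (le_abs_self C) (ab_nonneg r))

theorem pw_fib {f : ℂ → ℂ} (hf : MemLp f 2 (volume.restrict F9)) {b : Eis → ℂ} {C v : ℝ}
    (hb : ∀ r, ‖b r‖ ≤ C) (hv : 0 < v) (k : ℂ) (h : ∀ r, r ≠ 0 → ∫ z in F9, f z * conj (eR r z) =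
      (V9 : ℂ) * b r * (k * (kap (ab r * v) : ℂ))) : ∀ᵐ z ∂(volume.restrict F9),
    f z - ((V9 : ℂ)⁻¹ * (∫ z in F9, f z * conj (eR 0 z)) + k * pwT b z v) = 0 := by
  obtain ⟨c, hc⟩ : ∃ c, c = (V9 : ℂ)⁻¹ * ∫ z in F9, f z * conj (eR 0 z) := ⟨_, rfl⟩
  rw [← hc]
  have hT : MemLp (fun z => pwT b z v) 2 (volume.restrict F9) :=
    MemLp.of_bound (pw_meas' b measurable_id' measurable_const).aestronglyMeasurable _
      (Eventually.of_forall fun z => pw_le hb z hv)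
  have hL : MemLp (fun z => f z - (c + k * pwT b z v)) 2 (volume.restrict F9) :=
    hf.sub ((memLp_const c).add (hT.const_mul k))
  refine fourier_unique hL fun r => ?_
  have he : AEStronglyMeasurable (fun z => conj (eR r z)) (volume.restrict F9) :=
    (continuous_conj.comp (continuous_eR r)).aestronglyMeasurable
  have he' : ∀ᵐ z ∂(volume.restrict F9), ‖conj (eR r z)‖ ≤ 1 :=
    Eventually.of_forall fun z => by rw [RCLike.norm_conj, norm_eR]
  have i1 := (hf.integrable one_le_two).mul_bdd he he'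
  have i2 := (integrable_const (μ := volume.restrict F9) c).mul_bdd he he'
  have i3 := ((hT.integrable one_le_two).mul_bdd he he').const_mul k
  simp only [sub_mul, mul_assoc, ← sub_sub]
  rw [integral_sub (i1.sub' i2) i3, integral_sub i1 i2, integral_const_mul, integral_const_mul,
    pw_coef hb hv]
  have hV : (V9 : ℂ) ≠ 0 := ofReal_ne_zero.2 V9_pos.ne'
  have e1 : ∫ z in F9, conj (eR r z) = if r = 0 then (V9 : ℂ) else 0 := by
    simp only [← eR_neg, integral_eR, neg_eq_zero]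
  rw [e1]
  by_cases hr : r = 0
  · subst hr
    have : ab 0 = 0 := by simp [ab]
    rw [if_pos rfl, this, zero_mul, kp_kap_zero, hc]
    field_simp
    simp
  · rw [if_neg hr, h r hr]
    ring

theorem pw_expand (hθ : IsTheta θ) {tau : Eis → Eis → Eis → ℂ} (h : IsCoef θ tau) (A q : Eis) :
    ∀ᵐ Q ∂nu, θ (act (sig A q) Q) =
      pwH (pwC θ (sig A q)) (fun r => tau A q r / (ab r : ℂ)) Q := by
  obtain ⟨C, hC⟩ := h.bound
  have hb := pw_b (hC A q)
  set b : Eis → ℂ := fun r => tau A q r / (ab r : ℂ) with hbdef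
  have hm : Measurable fun Q => θ (act (sig A q) Q) :=
    hθ.meas.comp (continuous_act _).measurable
  obtain ⟨u, hu⟩ : ∃ u : ℂ × ℝ × ℝ → ℂ, u = fun x => θ (act (sig A q) (pt x.1 x.2.1 x.2.2)) -
    (pwC θ (sig A q) x.2 + ((x.2.2 ^ (-(2 / 3) : ℝ) : ℝ) : ℂ) * pwT b x.1 (√x.2.2 / x.2.1)) :=
    ⟨_, rfl⟩
  have hum : Measurable u := by
    rw [hu]
    refine (hm.comp measurable_pt).sub (Measurable.add
      ((measurable_const.mul (r1_meas_coef hm 0)).comp measurable_snd) (Measurable.mul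
        (by fun_prop) (pw_meas' b measurable_fst (by fun_prop))))
  have hper : ∀ᵐ p ∂(volume.restrict DE), ∀ y : Eis, ∀ᵐ z : ℂ, u (z + 9 * toC y, p) = u (z, p) := by
    rw [ae_all_iff]
    intro y
    filter_upwards [pw_ae_ae (pw_aut_tr hθ A q y)] with p hp
    filter_upwards [hp] with z hz
    simp only [hu, pw_per]
    rw [hz]
  have hsh : ∀ᵐ p ∂(volume.restrict DE), ∀ r : Eis, r ≠ 0 → _ :=
    ae_all_iff.2 fun r => eventually_imp_distrib_left.2 (h.shape A q r)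
  have key : ∀ᵐ x : ℂ × ℝ × ℝ ∂(volume.restrict (Set.univ ×ˢ DE)), u x = 0 := by
    refine pw_of_ae_ae hum ?_
    filter_upwards [hper, hsh, pw_L2 hθ (sig A q), ae_restrict_mem measurableSet_DE]
      with p h1 h2 h3 h4
    have hv : 0 < √p.2 / p.1 := div_pos (Real.sqrt_pos.2 (one_pos.trans_le h4.2.1)) h4.1
    have hump : Measurable fun z => u (z, p) := hum.comp (measurable_id.prodMk measurable_const)
    have h5 : ∀ᵐ z ∂(volume.restrict F9), u (z, p) = 0 := by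
      simp only [hu]
      exact pw_fib h3 hb hv _ fun r hr => by rw [h2 r hr, ofReal_mul]
    have h6 : ∫⁻ z, ‖u (z, p)‖ₑ = 0 := by
      rw [lintegral_F9 hump.enorm, ENNReal.tsum_eq_zero]
      intro y
      refine lintegral_eq_zero_of_ae_eq_zero ?_
      filter_upwards [ae_restrict_of_ae (h1 y), h5] with z e1 e2
      simp only [e1, e2, enorm_zero, Pi.zero_apply]
    filter_upwards [(lintegral_eq_zero_iff hump.enorm).1 h6] with z hz
    simpa using hz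
  refine ae_of_pt ?_
  filter_upwards [key, pw_ae_DE] with x h1 h2
  rw [pwH_pt _ _ _ (ne_of_gt h2.1)]
  rw [hu] at h1
  exact sub_eq_zero.1 h1

end Vale.Agent.P026
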