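import Vale.Agent.P026.Four
import Vale.Agent.P026.Kap
import Vale.Agent.P026.PtwB

/-! From almost everywhere identities to the Voronoi identity. -/

namespace Vale.Agent.P026

open Eis Complex MeasureTheory Filter Topology
open scoped Classical ComplexConjugate

theorem pw_toC_ne {q : Eis} (hq : q ≠ 0) : toC q ≠ 0 := fun h =>
  hq (toC_inj (h.trans (map_zero toC).symm))

/-- The odd displacement. -/
noncomputable def pwW (q x : ℂ) (D E : ℝ) : ℂ :=
  D * conj x / (q ^ 2 * ((D * normSq x + E / D : ℝ) : ℂ))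

theorem pw_act (g : SL) (hq : g.c ≠ 0) (x : ℂ) {D E : ℝ} (hD : 0 < D) (hE : 0 < E) :
    act g⁻¹ (pt (toC g.a / toC g.c + x) D E) =
      pt (toC (-g.d) / toC g.c - pwW (toC g.c) x D E) (N g.c * (D * normSq x + E / D)) E := by
  have hc := pw_toC_ne hq
  have hdet := geo_detC g
  have h1 : toC (-g.c) * (toC g.a / toC g.c + x) + toC g.a = -(toC g.c * x) := by
    rw [map_neg]; field_simp; ring
  have h2 : toC g.d * (toC g.a / toC g.c + x) + toC (-g.b) = (toC g.c)⁻¹ + toC g.d * x := by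
    rw [map_neg]; field_simp; linear_combination hdet
  have h3 : D * normSq (-(toC g.c * x)) + N (-g.c) * E / D = N g.c * (D * normSq x + E / D) := by
    rw [normSq_neg, normSq_mul, normSq_toC, N_neg]; ring
  rw [act_pt g⁻¹ _ hD hE]
  simp only [SL.inv_a, SL.inv_b, SL.inv_c, SL.inv_d]
  rw [h1, h2, h3]
  have h4 : 0 < D * normSq x + E / D := by
    have := normSq_nonneg x
    positivity
  have h5 : ((D * normSq x + E / D : ℝ) : ℂ) ≠ 0 := ofReal_ne_zero.2 h4.ne'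
  have h6 : (N g.c : ℂ) = toC g.c * conj (toC g.c) := by rw [mul_conj, normSq_toC]
  have h7 : conj (toC g.c) ≠ 0 := (_root_.map_ne_zero _).2 hc
  have h8 : ((E / D : ℝ) : ℂ) = ((D * normSq x + E / D : ℝ) : ℂ) - D * (x * conj x) := by
    rw [mul_conj]; push_cast; ring
  congr 1
  rw [pwW, ofReal_mul (N g.c), h6, h8]
  simp only [map_neg, map_mul]
  generalize ((D * normSq x + E / D : ℝ) : ℂ) = S at h5
  field_simp
  ring

theorem pwW_neg (q x : ℂ) (D E : ℝ) : pwW q (-x) D E = -pwW q x D E := by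
  rw [pwW, pwW, normSq_neg, map_neg, mul_neg, neg_div]

variable {θ : HF → ℂ} {tau : Eis → Eis → Eis → ℂ}

theorem pw_cont_comp {X : Type*} [TopologicalSpace X] {b : Eis → ℂ} {C : ℝ} (hb : ∀ r, ‖b r‖ ≤ C)
    {f : X → ℂ} {g : X → ℝ} {x : X} (hf : ContinuousAt f x) (hg : ContinuousAt g x)
    (h : 0 < g x) : ContinuousAt (fun y => pwT b (f y) (g y)) x := by
  simpa only [Function.comp_def] using
    (pw_contAt hb (p := (f x, g x)) h).comp_of_eq (hf.prodMk hg) rfl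

theorem pw_odd (hθ : IsTheta θ) (h : IsCoef θ tau) {A q : Eis} {g : SL} (hq : g.c ≠ 0)
    (hg : g * (sig A q)⁻¹ ∈ G3) {k : ℂ}
    (hk : conj (kap0 (g * (sig A q)⁻¹).c (g * (sig A q)⁻¹).d) = k) (x : ℂ) {D E : ℝ} (hD : 0 < D)
    (h1 : 1 < E) (h2 : E < 2) :
    pwT (fun r => tau 1 0 r / (ab r : ℂ)) (toC g.a / toC g.c + x) (√E / D) -
      pwT (fun r => tau 1 0 r / (ab r : ℂ)) (toC g.a / toC g.c - x) (√E / D) =
    k * (pwT (fun r => tau A q r / (ab r : ℂ)) (toC (-g.d) / toC g.c - pwW (toC g.c) x D E)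
        (√E / (N g.c * (D * normSq x + E / D))) -
      pwT (fun r => tau A q r / (ab r : ℂ)) (toC (-g.d) / toC g.c + pwW (toC g.c) x D E)
        (√E / (N g.c * (D * normSq x + E / D)))) := by
  obtain ⟨C, hC⟩ := h.bound
  have e1 := pw_expand hθ h 1 0
  have e2 := (measurePreserving_act g⁻¹).quasiMeasurePreserving.ae (pw_expand hθ h A q)
  have e3 := (measurePreserving_act (sig A q * g⁻¹)).quasiMeasurePreserving.ae (hθ.aut _ hg)
  obtain ⟨b1, hb1'⟩ : ∃ b1, b1 = fun r => tau 1 0 r / (ab r : ℂ) := ⟨_, rfl⟩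
  obtain ⟨b2, hb2'⟩ : ∃ b2, b2 = fun r => tau A q r / (ab r : ℂ) := ⟨_, rfl⟩
  have hb1 : ∀ r, ‖b1 r‖ ≤ |C| := hb1' ▸ pw_b (hC 1 0)
  have hb2 : ∀ r, ‖b2 r‖ ≤ |C| := hb2' ▸ pw_b (hC A q)
  rw [← hb1'] at e1 ⊢
  rw [← hb2'] at e2 ⊢
  generalize pwC θ (sig 1 0) = c1 at e1
  generalize pwC θ (sig A q) = c2 at e2
  have e4 : ∀ᵐ Q ∂nu, pwH c1 b1 Q = k * pwH c2 b2 (act g⁻¹ Q) := by
    filter_upwards [e1, e2, e3] with Q a1 a2 a3
    rw [sig_one_zero, act_one] at a1
    rw [hk, ← act_mul, mul_assoc, inv_mul_cancel_left, mul_inv_cancel, act_one, act_mul] at a3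
    rw [← a1, ← a2, a3]
  have e5 := pw_ae_map (measurePreserving_add_left volume (toC g.a / toC g.c)) (ae_pt e4)
  have e6 := pw_ae_map (Measure.measurePreserving_neg volume) e5
  have hN := N_pos hq
  have hS : ∀ y : ℂ × ℝ × ℝ, 0 < y.2.1 → 0 < y.2.2 → 0 < y.2.1 * normSq y.1 + y.2.2 / y.2.1 :=
    fun y a1 a2 => by
      have := normSq_nonneg y.1
      positivity
  refine pw_eq (f := fun y => pwT b1 (toC g.a / toC g.c + y.1) (√y.2.2 / y.2.1) -
      pwT b1 (toC g.a / toC g.c - y.1) (√y.2.2 / y.2.1))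
    (g := fun y => k * (pwT b2 (toC (-g.d) / toC g.c - pwW (toC g.c) y.1 y.2.1 y.2.2)
        (√y.2.2 / (N g.c * (y.2.1 * normSq y.1 + y.2.2 / y.2.1))) -
      pwT b2 (toC (-g.d) / toC g.c + pwW (toC g.c) y.1 y.2.1 y.2.2)
        (√y.2.2 / (N g.c * (y.2.1 * normSq y.1 + y.2.2 / y.2.1))))) ?_ (fun y a1 a2 => ?_)
    (fun y a1 a2 => ?_) x hD h1 h2
  · filter_upwards [e5, e6, pw_ae_DE] with y a1 a2 a3
    have b1 : 0 < y.2.1 := a3.1
    have b2 : 0 < y.2.2 := one_pos.trans_le a3.2.1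
    have b3 := mul_pos hN (hS y b1 b2)
    rw [pw_act g hq _ b1 b2, pwH_pt _ _ _ b1.ne', pwH_pt _ _ _ b3.ne'] at a1
    rw [pw_act g hq _ b1 b2, normSq_neg, pwH_pt _ _ _ b1.ne', pwH_pt _ _ _ b3.ne', pwW_neg,
      sub_neg_eq_add, ← sub_eq_add_neg] at a2
    have b4 : ((y.2.2 ^ (-(2 / 3) : ℝ) : ℝ) : ℂ) ≠ 0 :=
      ofReal_ne_zero.2 (Real.rpow_pos_of_pos b2 _).ne'
    refine mul_left_cancel₀ b4 ?_
    linear_combination a1 - a2
  · have c1 : ContinuousAt (fun y : ℂ × ℝ × ℝ => √y.2.2 / y.2.1) y :=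
      ContinuousAt.div (by fun_prop) (by fun_prop) a1.ne'
    have c2 : 0 < √y.2.2 / y.2.1 := div_pos (Real.sqrt_pos.2 a2) a1
    have c3 : ContinuousAt (fun y : ℂ × ℝ × ℝ => toC g.a / toC g.c + y.1) y := by fun_prop
    have c4 : ContinuousAt (fun y : ℂ × ℝ × ℝ => toC g.a / toC g.c - y.1) y := by fun_prop
    have c5 := pw_cont_comp hb1 c3 c1 c2
    have c6 := pw_cont_comp hb1 c4 c1 c2
    exact c5.sub c6
  · have c0 : ContinuousAt (fun y : ℂ × ℝ × ℝ => y.2.1 * normSq y.1 + y.2.2 / y.2.1) y :=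
      ContinuousAt.add (by fun_prop) (ContinuousAt.div (by fun_prop) (by fun_prop) a1.ne')
    have c1 : ContinuousAt (fun y : ℂ × ℝ × ℝ =>
        √y.2.2 / (N g.c * (y.2.1 * normSq y.1 + y.2.2 / y.2.1))) y :=
      ContinuousAt.div (by fun_prop) (c0.const_mul _) (mul_pos hN (hS y a1 a2)).ne'
    have c2 := div_pos (Real.sqrt_pos.2 a2) (mul_pos hN (hS y a1 a2))
    have c3 : ContinuousAt (fun y : ℂ × ℝ × ℝ => pwW (toC g.c) y.1 y.2.1 y.2.2) y :=
      ContinuousAt.div (by fun_prop) ((continuous_ofReal.continuousAt.comp c0).const_mul _)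
        (mul_ne_zero (pow_ne_zero 2 (pw_toC_ne hq)) (ofReal_ne_zero.2 (hS y a1 a2).ne'))
    have c4 : ContinuousAt (fun y : ℂ × ℝ × ℝ =>
      toC (-g.d) / toC g.c - pwW (toC g.c) y.1 y.2.1 y.2.2) y := continuousAt_const.sub c3
    have c5 : ContinuousAt (fun y : ℂ × ℝ × ℝ =>
      toC (-g.d) / toC g.c + pwW (toC g.c) y.1 y.2.1 y.2.2) y := continuousAt_const.add c3
    have c6 := pw_cont_comp hb2 c4 c1 c2
    have c7 := pw_cont_comp hb2 c5 c1 c2
    exact (c6.sub c7).const_mul k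

/-- The differentiated series. -/
noncomputable def pwP (t : Eis → ℂ) (z : ℂ) (v : ℝ) (o : Bool) : ℂ :=
  ∑' r : Eis, t r * ang o r * eR r z * (kap (ab r * v) : ℂ)

theorem pw_split {t : Eis → ℂ} {C : ℝ} (ht : ∀ r, ‖t r‖ ≤ C * ab r) (z x : ℂ) {v : ℝ}
    (hv : 0 < v) :
    ∑' r : Eis, t r / (ab r : ℂ) * (kap (ab r * v) : ℂ) * (eR r z * (2 * I * (pwA r x : ℂ))) =
      4 * Real.pi / (9 * (√3 : ℝ)) * (x * pwP t z v true - conj x * pwP t z v false) := by
  have hs : ∀ o, Summable fun r : Eis => t r * ang o r * eR r z * (kap (ab r * v) : ℂ) :=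
    fun o => Summable.of_norm_bounded ((summable_kap 1 hv).mul_left C) fun r => by
      have h := kap_nonneg (mul_nonneg (ab_nonneg r) hv.le)
      rw [norm_mul, norm_mul, norm_mul, norm_eR, mul_one, norm_real, Real.norm_of_nonneg h,
        pow_one, ← mul_assoc]
      exact mul_le_mul_of_nonneg_right ((mul_le_of_le_one_right (norm_nonneg _)
        (norm_ang_le o r)).trans (ht r)) h
  rw [pwP, pwP, ← tsum_mul_left, ← tsum_mul_left,
    ← ((hs true).mul_left x).tsum_sub ((hs false).mul_left _), ← tsum_mul_left]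
  refine tsum_congr fun r => ?_
  rw [pwA_eq]
  simp only [ang, if_true, Bool.false_eq_true, if_false]
  ring

theorem pw_der (hθ : IsTheta θ) (h : IsCoef θ tau) {A q : Eis} {g : SL} (hq : g.c ≠ 0)
    (hg : g * (sig A q)⁻¹ ∈ G3) {k : ℂ}
    (hk : conj (kap0 (g * (sig A q)⁻¹).c (g * (sig A q)⁻¹).d) = k) (u : ℂ) {v : ℝ} (hv : 0 < v) :
    u * pwP (tau 1 0) (toC g.a / toC g.c) v true -
      conj u * pwP (tau 1 0) (toC g.a / toC g.c) v false =
    k * (-(conj u / (toC g.c ^ 2 * v ^ 2)) *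
        pwP (tau A q) (toC (-g.d) / toC g.c) (1 / (N g.c * v)) true +
      u / (conj (toC g.c) ^ 2 * v ^ 2) *
        pwP (tau A q) (toC (-g.d) / toC g.c) (1 / (N g.c * v)) false) := by
  obtain ⟨C, hC⟩ := h.bound
  have hN := N_pos hq
  have hc := pw_toC_ne hq
  have hE : √(25 / 16) = (5 / 4 : ℝ) := by
    rw [Real.sqrt_eq_iff_mul_self_eq (by norm_num) (by norm_num)]; norm_num
  set D : ℝ := 5 / 4 / v with hD
  have hD0 : 0 < D := by positivity
  have t0 : Tendsto (fun e : ℝ => D * normSq (e * u) + 25 / 16 / D) (𝓝[>] 0) (𝓝 (25 / 16 / D)) := by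
    have : Continuous fun e : ℝ => D * normSq (e * u) + 25 / 16 / D := by fun_prop
    simpa using (this.tendsto 0).mono_left (nhdsWithin_le_nhds (s := Set.Ioi 0))
  have t1 := pw_lim (pw_b (hC 1 0)) (toC g.a / toC g.c) (x := fun _ => u) (v := fun _ => v) hv
    tendsto_const_nhds tendsto_const_nhds
  have t2 : Tendsto (fun e : ℝ => -(D * conj u /
      (toC g.c ^ 2 * ((D * normSq (e * u) + 25 / 16 / D : ℝ) : ℂ)))) (𝓝[>] 0)
      (𝓝 (-(conj u / (toC g.c ^ 2 * v ^ 2)))) := by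
    have e : conj u / (toC g.c ^ 2 * v ^ 2) =
        D * conj u / (toC g.c ^ 2 * ((25 / 16 / D : ℝ) : ℂ)) := by
      have : (v : ℂ) ≠ 0 := ofReal_ne_zero.2 hv.ne'
      rw [hD]; push_cast; field_simp; ring
    rw [e]
    exact (tendsto_const_nhds.div (((continuous_ofReal.tendsto _).comp t0).const_mul _)
      (mul_ne_zero (pow_ne_zero 2 hc) (ofReal_ne_zero.2 (by positivity)))).neg
  have t3 : Tendsto (fun e : ℝ => 5 / 4 / (N g.c * (D * normSq (e * u) + 25 / 16 / D))) (𝓝[>] 0)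
      (𝓝 (1 / (N g.c * v))) := by
    have e : 1 / (N g.c * v) = 5 / 4 / (N g.c * (25 / 16 / D)) := by
      rw [hD]; field_simp; norm_num
    rw [e]
    exact tendsto_const_nhds.div (t0.const_mul _) (by positivity)
  have t4 := (pw_lim (pw_b (hC A q)) (toC (-g.d) / toC g.c) (by positivity) t2 t3).const_mul k
  have key := tendsto_nhds_unique t1 (t4.congr fun e => by
    have a := pw_odd hθ h hq hg hk (e * u) hD0 (E := 25 / 16) (by norm_num) (by norm_num)
    have a1 : 5 / 4 / D = v := by rw [hD]; field_simp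
    have a2 : pwW (toC g.c) (e * u) D (25 / 16) = e * (D * conj u /
        (toC g.c ^ 2 * ((D * normSq (e * u) + 25 / 16 / D : ℝ) : ℂ))) := by
      rw [pwW, map_mul, conj_ofReal]; ring
    rw [hE, a1, a2] at a
    rw [a, mul_neg, ← sub_eq_add_neg, sub_neg_eq_add, mul_div_assoc k])
  rw [pw_split (hC 1 0) _ _ hv, pw_split (hC A q) _ _ (by positivity)] at key
  have hκ : (4 * Real.pi / (9 * (√3 : ℝ)) : ℂ) ≠ 0 := by
    exact_mod_cast (by positivity : (4 * Real.pi / (9 * √3) : ℝ) ≠ 0)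
  refine mul_left_cancel₀ hκ (key.trans ?_)
  simp only [map_neg, map_div₀, map_mul, map_pow, conj_conj, conj_ofReal]
  ring

theorem pw_vor (hθ : IsTheta θ) (h : IsCoef θ tau) (o : Bool) (A q d : Eis) (hq : q ≠ 0)
    (hc : IsCoprime A q) (hn : Nrmd A q) (hd : IsDel A q d) :
    Vor (fun r => tau 1 0 r * ang o r * psi (9 * q) (r * A))
      (fun r => tau A q r * ang (!o) r * psi (9 * q) (-(r * d))) (N q) (kz A q * ang o q ^ 2) := by
  obtain ⟨g, rfl, rfl, rfl, hg, hk⟩ := exists_mat hq hc hn hd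
  intro v hv
  have h1 := pw_der hθ h hq hg hk 1 hv
  have h2 := pw_der hθ h hq hg hk I hv
  have e1 : ∀ o, Phi (fun r => tau 1 0 r * ang o r * psi (9 * g.c) (r * g.a)) v =
      v * pwP (tau 1 0) (toC g.a / toC g.c) v o := fun o => by
    simp only [Phi, pwP, eR_div hq]
  have e2 : ∀ o, Phi (fun r => tau g.a g.c r * ang o r * psi (9 * g.c) (-(r * g.d)))
      (1 / (N g.c * v)) = (1 / (N g.c * v) : ℝ) *
        pwP (tau g.a g.c) (toC (-g.d) / toC g.c) (1 / (N g.c * v)) o := fun o => by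
    simp only [Phi, pwP, eR_div hq, mul_neg]
  rw [e1, e2]
  have hc0 := pw_toC_ne hq
  have h6 : (N g.c : ℂ) = toC g.c * conj (toC g.c) := by rw [mul_conj, normSq_toC]
  have h7 : conj (toC g.c) ≠ 0 := (_root_.map_ne_zero _).2 hc0
  have h8 : (v : ℂ) ≠ 0 := ofReal_ne_zero.2 hv.ne'
  have h9 : (ab g.c : ℂ) ^ 2 = toC g.c * conj (toC g.c) := by rw [← h6, ← ab_sq, ofReal_pow]
  rw [map_one] at h1
  rw [conj_I] at h2
  generalize pwP (tau 1 0) (toC g.a / toC g.c) v = P at *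
  generalize pwP (tau g.a g.c) (toC (-g.d) / toC g.c) (1 / (N g.c * v)) = P' at *
  have f1 : P true = kz g.a g.c * (1 / (conj (toC g.c) ^ 2 * v ^ 2)) * P' false := by
    linear_combination (1 / 2 : ℂ) * h1 - (I / 2) * h2 + ((P true + P false) / 2 -
      kz g.a g.c * (1 / (toC g.c ^ 2 * v ^ 2) * P' true +
        1 / (conj (toC g.c) ^ 2 * v ^ 2) * P' false) / 2) * I_mul_I
  have f2 : P false = kz g.a g.c * (1 / (toC g.c ^ 2 * v ^ 2)) * P' true := by
    linear_combination f1 - h1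
  cases o
  · rw [f2, ang, div_pow, h9]
    push_cast
    rw [h6]
    simp only [Bool.not_false]
    field_simp
  · rw [f1, ang, div_pow, h9]
    push_cast
    rw [h6]
    simp only [if_true, Bool.not_true]
    field_simp

theorem pw_nonzero (hθ : IsTheta θ) (h : IsCoef θ tau) : ∃ r, tau 1 0 r ≠ 0 := by
  by_contra h0
  push Not at h0
  obtain ⟨l, hl, hc⟩ := h.const
  have e1 := pw_expand hθ h 1 0
  have e2 : ∀ᵐ Q ∂nu, θ Q = (V9 : ℂ)⁻¹ * (l * ((Q.2.2 ^ (-(2 / 3) : ℝ) *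
      (Q.1 * Q.2.2 - normSq Q.2.1) ^ (-(1 / 3) : ℝ) : ℝ) : ℂ)) := by
    refine ae_of_pt ?_
    filter_upwards [ae_pt e1, pw_ae_snd hc, pw_ae_DE] with x a1 a2 a3
    rw [pwH_pt _ _ _ (ne_of_gt a3.1), sig_one_zero, act_one, pwC] at a1
    have : ∀ z, eR 0 z = 1 := fun z => by simp [eR]
    simp only [act_one, this, map_one, mul_one, h0, zero_div, pwT, zero_mul, tsum_zero, mul_zero,
      add_zero] at a1
    rw [a1, a2, geo_pt_det _ (ne_of_gt a3.1)]
    rfl
  let g : SL := ⟨1, 0, 3, 1, by ring⟩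
  have hg : g ∈ G3 := ⟨Prim.one, dvd_zero _, dvd_rfl, Prim.one⟩
  have e3 := (measurePreserving_act g).quasiMeasurePreserving.ae e2
  have key := pw_eq (f := fun x => ((x.2.1 * normSq (toC g.c * x.1 + toC g.d) +
    N g.c * x.2.2 / x.2.1 : ℝ) : ℂ)) (g := fun x => (x.2.1 : ℂ)) ?_ (fun x a1 _ => ?_)
    (fun x _ _ => by fun_prop) 0 (D := 1) (E := 3 / 2) one_pos (by norm_num) (by norm_num)
  · have h3 : N g.c = 9 := by
      have := N_natCast 3
      norm_num at this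
      exact this
    have h4 : toC g.d = 1 := map_one toC
    rw [ofReal_inj, h3, h4] at key
    norm_num at key
  · filter_upwards [ae_pt e2, ae_pt e3, ae_pt (hθ.aut g hg), pw_ae_DE] with x a1 a2 a3 a4
    have b1 : 0 < x.2.1 := a4.1
    have b2 : 0 < x.2.2 := one_pos.trans_le a4.2.1
    have b3 : 0 < x.2.1 * normSq (toC g.c * x.1 + toC g.d) + N g.c * x.2.2 / x.2.1 := by
      have := normSq_nonneg (toC g.c * x.1 + toC g.d)
      have := N_pos (x := g.c) (by decide)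
      positivity
    rw [a1, a2, act_pt g _ b1 b2, geo_pt_det _ b1.ne', geo_pt_det _ b3.ne'] at a3
    have a5 := congrArg norm a3
    have hV : (V9 : ℂ)⁻¹ ≠ 0 := inv_ne_zero (ofReal_ne_zero.2 V9_pos.ne')
    rw [norm_mul (conj _), RCLike.norm_conj, norm_kap0_G3 hg, one_mul, norm_mul, norm_mul,
      norm_mul, norm_mul, mul_right_inj' (norm_ne_zero_iff.2 hV),
      mul_right_inj' (norm_ne_zero_iff.2 hl), norm_real, norm_real] at a5
    simp only [pt] at a5
    rw [Real.norm_of_nonneg (by positivity), Real.norm_of_nonneg (by positivity),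
      mul_left_inj' (Real.rpow_pos_of_pos b2 _).ne',
      Real.rpow_left_inj b3.le b1.le (by norm_num)] at a5
    rw [a5]
  · exact continuous_ofReal.continuousAt.comp
      (ContinuousAt.add (by fun_prop) (ContinuousAt.div (by fun_prop) (by fun_prop) a1.ne'))

theorem theta_of_coef {θ : HF → ℂ} (hθ : IsTheta θ) {tau : Eis → Eis → Eis → ℂ}
    (h : IsCoef θ tau) : Nonempty Theta := by
  obtain ⟨C, hC⟩ := h.bound
  exact ⟨⟨tau, C, h.zero, hC, h.congr, h.cube, h.sq, h.one, pw_nonzero hθ h, pw_vor hθ h⟩⟩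

end Vale.Agent.P026
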