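import Vale.Agent.P026.AsymA

/-! Asymptotics of the constant term. -/

namespace Vale.Agent.P026

open Eis Complex Filter Topology
open scoped Classical ComplexConjugate

theorem as_norm_N (m : Eis) : ‖(N m : ℂ)‖ = N m := by
  rw [Complex.norm_real, Real.norm_of_nonneg (N_nonneg m)]

theorem as_norm_ex (y : ℝ) : ‖ex y‖ = Real.exp (-y) := by
  unfold ex
  rw [Complex.norm_real, Real.norm_of_nonneg (Real.exp_pos _).le]

theorem as_mu0_zero {d : Eis} (hd : ¬ P0 d) : mu0 d = 0 := by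
  by_contra h
  exact hd (mu0_ne_zero.1 h)

/-- Weighted sum of inverse squares of norms. -/
noncomputable def asZ (χ : Eis → ℂ) : ℂ := ∑' m : Eis, if P1 m then χ m / (N m : ℂ) ^ 2 else 0
/-- Its inverse. -/
noncomputable def asD (χ : Eis → ℂ) : ℂ := ∑' d : Eis, mu0 d * χ d / (N d : ℂ) ^ 2

theorem as_hZ {χ : Eis → ℂ} (h1 : ∀ c, ‖χ c‖ ≤ 1) (m : Eis) :
    ‖χ m / (N m : ℂ) ^ 2‖ ≤ 1 / N m ^ 2 := by
  rw [norm_div, norm_pow, as_norm_N]
  exact div_le_div_of_nonneg_right (h1 m) (by positivity)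

theorem as_DZ {χ : Eis → ℂ} (h1 : ∀ c, ‖χ c‖ ≤ 1) (hm : ∀ d m, χ (d * m) = χ d * χ m)
    (ho : χ 1 = 1) : asD χ * asZ χ = 1 := by
  have h := as_conv (g := mu0) (h := fun m => χ m / (N m : ℂ) ^ 2) norm_mu0_le
    (fun d => as_mu0_zero) (K := 1) fun m _ => as_hZ h1 m
  rw [tsum_eq_single 1] at h
  · rw [if_pos P1.one, sum_mu0_P1 P1.one, if_pos rfl, ho] at h
    simp only [N_one, ofReal_one, one_pow, div_one, mul_one] at h
    rw [h]
    unfold asD asZ
    rw [← tsum_mul_right]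
    refine tsum_congr fun d => ?_
    rw [← tsum_mul_left, ← tsum_mul_left]
    refine tsum_congr fun m => ?_
    split_ifs
    · rw [hm, N_mul]; push_cast; ring
    · simp
  · intro m hm1
    split_ifs with h
    · rw [sum_mu0_P1 h, if_neg hm1, zero_mul]
    · rfl

/-- The sum over cubes weighted by the totient factor. -/
noncomputable def asU (χ : Eis → ℂ) (x : ℝ) : ℂ :=
  ((x ^ (1 / 3 : ℝ) : ℝ) : ℂ) * ∑' m : Eis,
    if P1 m then (∑ d ∈ divs m, mu0 d / (N d : ℂ)) * (χ m * ex (x * N m ^ 3)) else 0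

theorem as_hT {χ : Eis → ℂ} (h1 : ∀ c, ‖χ c‖ ≤ 1) {x : ℝ} (hx : 0 < x) (m : Eis) (hm : P1 m) :
    ‖χ m * ex (x * N m ^ 3)‖ ≤ x⁻¹ / N m ^ 2 := by
  rw [norm_mul, as_norm_ex]
  calc ‖χ m‖ * Real.exp (-(x * N m ^ 3)) ≤ 1 * (x⁻¹ / N m ^ 2) :=
        mul_le_mul (h1 m) (as_exp_le hx hm.ne_zero) (Real.exp_pos _).le zero_le_one
    _ = _ := one_mul _

theorem as_root {x : ℝ} (hx : 0 < x) (d : Eis) :
    (x * N d ^ 3) ^ (1 / 3 : ℝ) = x ^ (1 / 3 : ℝ) * N d := by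
  have := N_nonneg d
  rw [Real.mul_rpow hx.le (by positivity), ← Real.rpow_natCast, ← Real.rpow_mul this]
  norm_num

theorem as_U {χ : Eis → ℂ} (h1 : ∀ c, ‖χ c‖ ≤ 1) (hm : ∀ d m, χ (d * m) = χ d * χ m)
    {x : ℝ} (hx : 0 < x) :
    asU χ x = ∑' d, mu0 d * χ d / (N d : ℂ) ^ 2 * asT χ (x * N d ^ 3) := by
  have hg : ∀ d, ‖mu0 d / (N d : ℂ)‖ ≤ 1 := by
    intro d
    by_cases hd : d = 0
    · simp [hd]
    · rw [norm_div, as_norm_N, div_le_one (N_pos hd)]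
      exact (norm_mu0_le d).trans (one_le_N hd)
  have h := as_conv (g := fun d => mu0 d / (N d : ℂ)) (h := fun m => χ m * ex (x * N m ^ 3)) hg
    (fun d hd => by rw [as_mu0_zero hd, zero_div]) (as_hT h1 hx)
  unfold asU
  rw [h, ← tsum_mul_left]
  refine tsum_congr fun d => ?_
  by_cases hd : d = 0
  · simp [hd]
  · have hN : (N d : ℂ) ≠ 0 := ofReal_ne_zero.2 (N_pos hd).ne'
    have h2 : ∑' m, (if P1 m then χ (d * m) * ex (x * N (d * m) ^ 3) else 0) =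
        χ d * ∑' m, if P1 m then χ m * ex (x * N d ^ 3 * N m ^ 3) else 0 := by
      rw [← tsum_mul_left]
      refine tsum_congr fun m => ?_
      split_ifs
      · rw [hm, N_mul, mul_pow, mul_assoc x, mul_assoc]
      · simp
    unfold asT
    rw [h2, as_root hx, ofReal_mul]
    field_simp

theorem as_Ulim {χ : Eis → ℂ} (h1 : ∀ c, ‖χ c‖ ≤ 1) (hm : ∀ d m, χ (d * m) = χ d * χ m) {κ : ℂ}
    (hT : Tendsto (asT χ) (𝓝[>] 0) (𝓝 κ)) (hB : ∃ B : ℝ, ∀ x, 0 < x → ‖asT χ x‖ ≤ B) :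
    Tendsto (asU χ) (𝓝[>] 0) (𝓝 (asD χ * κ)) ∧ ∃ B : ℝ, ∀ x, 0 < x → ‖asU χ x‖ ≤ B := by
  have ha : Summable fun d => ‖mu0 d * χ d / (N d : ℂ) ^ 2‖ := by
    refine Summable.of_nonneg_of_le (fun _ => norm_nonneg _) (fun d => ?_) as_sum2
    rw [← one_div]
    refine as_hZ (χ := fun d => mu0 d * χ d) (fun c => ?_) d
    rw [norm_mul]
    exact mul_le_one₀ (norm_mu0_le c) (norm_nonneg _) (h1 c)
  obtain ⟨a1, B, a2⟩ := as_tann (b := fun d => N d ^ 3) ha (fun d hd => by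
    have : d ≠ 0 := by
      rintro rfl
      simp at hd
    have := N_pos this
    positivity) hT hB
  refine ⟨a1.congr' ?_, B, fun x hx => ?_⟩
  · filter_upwards [self_mem_nhdsWithin] with x hx using (as_U h1 hm hx).symm
  · rw [as_U h1 hm hx]; exact a2 x hx

/-- Splitting a sum supported on smooth multiples of cubes. -/
theorem as_split {F : Eis → ℂ} (hF : Summable F) (h0 : F 0 = 0)
    (hc : ∀ s x, Sm s → P1 x → (¬ ∃ m, P1 m ∧ x = m ^ 3) → F (s * x) = 0) :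
    ∑' c, F c = ∑' s, ∑' m, if Sm s ∧ P1 m then F (s * m ^ 3) else 0 := by
  set S : Set (Eis × Eis) := {q | Sm q.1 ∧ P1 q.2} with hS
  have hinj : Function.Injective fun q : S => q.1.1 * q.1.2 ^ 3 := by
    rintro ⟨⟨s, m⟩, hs, hm⟩ ⟨⟨s', m'⟩, hs', hm'⟩ h
    obtain ⟨a1, a2⟩ := smooth_unique hs hs' (hm.pow 3) (hm'.pow 3) h
    have a3 := (cube_unique P0.one P0.one hm hm' (by rw [one_mul, one_mul]; exact a2)).2
    exact Subtype.ext (Prod.ext a1 a3)
  have h1 := hinj.tsum_eq (f := F) (by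
    intro c hc'
    rw [Function.mem_support] at hc'
    have hc0 : c ≠ 0 := by
      rintro rfl
      exact hc' h0
    obtain ⟨s, x, hs, hx, rfl⟩ := exists_smooth hc0
    by_contra hn
    refine hc' (hc s x hs hx ?_)
    rintro ⟨m, hm, rfl⟩
    exact hn ⟨⟨(s, m), hs, hm⟩, rfl⟩)
  have h2 : Summable (S.indicator fun q : Eis × Eis => F (q.1 * q.2 ^ 3)) :=
    summable_subtype_iff_indicator.1 (hF.comp_injective hinj)
  rw [← h1, tsum_subtype S fun q : Eis × Eis => F (q.1 * q.2 ^ 3), h2.tsum_prod]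
  refine tsum_congr fun s => tsum_congr fun m => ?_
  simp only [Set.indicator, hS, Set.mem_ofPred_eq]

theorem as_main {wS : Eis → ℝ} (hw0 : ∀ s, 0 ≤ wS s) (hw1 : ∀ s, wS s ≤ 81 * N s)
    (hw2 : ∀ s m, Sm s → P1 m →
      gK kap0 0 (s * m ^ 3) = (wS s : ℂ) * ((N m : ℂ) ^ 3 * ∑ d ∈ divs m, mu0 d / (N d : ℂ)))
    (hw3 : ∀ s x, Sm s → P1 x → (¬ ∃ m, P1 m ∧ x = m ^ 3) → gK kap0 0 (s * x) = 0)
    {χ : Eis → ℂ} (h1 : ∀ c, ‖χ c‖ ≤ 1) (hm : ∀ d m, χ (d * m) = χ d * χ m)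
    (hs : ∀ s m, Sm s → χ (s * m ^ 3) = χ m) {k : Eis → Eis → ℂ}
    (hk : ∀ c, gK k 0 c = χ c * gK kap0 0 c) {κ : ℂ}
    (hT : Tendsto (asT χ) (𝓝[>] 0) (𝓝 κ)) (hB : ∃ B : ℝ, ∀ x, 0 < x → ‖asT χ x‖ ≤ B) :
    Tendsto (Rs k 0 ex) (𝓝[>] 0) (𝓝 (((∑' s, if Sm s then wS s * N s ^ (-(4 / 3) : ℝ) else 0 : ℝ) : ℂ)
      * (asD χ * κ))) ∧ ∃ B : ℝ, ∀ x, 0 < x → ‖Rs k 0 ex x‖ ≤ B := by
  obtain ⟨hU, hUB⟩ := as_Ulim h1 hm hT hB
  set a : Eis → ℝ := fun s => if Sm s then wS s * N s ^ (-(4 / 3) : ℝ) else 0 with ha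
  have ha0 : ∀ s, 0 ≤ a s := by
    intro s
    simp only [ha]
    split_ifs
    · exact mul_nonneg (hw0 s) (Real.rpow_nonneg (N_nonneg s) _)
    · exact le_rfl
  have hsa : Summable fun s => ‖(a s : ℂ)‖ := by
    refine Summable.of_nonneg_of_le (fun _ => norm_nonneg _) (fun s => ?_)
      ((summable_Sm (e := 1 / 3) (by norm_num)).mul_left 81)
    rw [Complex.norm_real, Real.norm_of_nonneg (ha0 s)]
    simp only [ha]
    split_ifs with h
    · have hN := N_pos h.ne_zero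
      calc wS s * N s ^ (-(4 / 3) : ℝ) ≤ 81 * N s * N s ^ (-(4 / 3) : ℝ) :=
            mul_le_mul_of_nonneg_right (hw1 s) (by positivity)
        _ = 81 * N s ^ (-(1 / 3) : ℝ) := by
            rw [show (-(1 / 3) : ℝ) = -(4 / 3) + 1 by norm_num, Real.rpow_add_one hN.ne']
            ring
    · simp
  have hR : ∀ t, 0 < t → Rs k 0 ex t = ∑' s, (a s : ℂ) * asU χ (t * N s) := by
    intro t ht
    have hF : Summable fun c : Eis => gK k 0 c / (N c : ℂ) * ex (t * N c) := by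
      refine Summable.of_norm_bounded ((summable_exp ht).mul_left 81) fun c => ?_
      rw [norm_mul, as_norm_ex]
      refine mul_le_mul_of_nonneg_right ?_ (Real.exp_pos _).le
      by_cases hc : c = 0
      · simp [hc]
      · rw [norm_div, as_norm_N, div_le_iff₀ (N_pos hc), hk, norm_mul]
        calc ‖χ c‖ * ‖gK kap0 0 c‖ ≤ 1 * (81 * N c) :=
              mul_le_mul (h1 c) (norm_gK_le adm_kap0 0 hc) (norm_nonneg _) zero_le_one
          _ = _ := one_mul _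
    unfold Rs
    rw [as_split hF (by simp) fun s x hs hx hn => by rw [hk, hw3 s x hs hx hn]; simp,
      ← tsum_mul_left]
    refine tsum_congr fun s => ?_
    by_cases hsm : Sm s
    · have hN := N_pos hsm.ne_zero
      have hN' : (N s : ℂ) ≠ 0 := ofReal_ne_zero.2 hN.ne'
      have h2 : ∑' m, (if Sm s ∧ P1 m then
          gK k 0 (s * m ^ 3) / (N (s * m ^ 3) : ℂ) * ex (t * N (s * m ^ 3)) else 0) =
          (wS s / N s : ℂ) * ∑' m : Eis, if P1 m then
            (∑ d ∈ divs m, mu0 d / (N d : ℂ)) * (χ m * ex (t * N s * N m ^ 3)) else 0 := by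
        rw [← tsum_mul_left]
        refine tsum_congr fun m => ?_
        by_cases hm' : P1 m
        · have hM : (N m : ℂ) ≠ 0 := ofReal_ne_zero.2 (N_pos hm'.ne_zero).ne'
          rw [if_pos ⟨hsm, hm'⟩, if_pos hm', hk, hs s m hsm, hw2 s m hsm hm', N_mul, N_pow,
            mul_assoc t]
          push_cast
          field_simp
        · simp [hm']
      have h3 : (a s : ℂ) * (((t * N s) ^ (1 / 3 : ℝ) : ℝ) : ℂ) =
          ((t ^ (1 / 3 : ℝ) : ℝ) : ℂ) * (wS s / N s : ℂ) := by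
        rw [← ofReal_div, ← ofReal_mul, ← ofReal_mul]
        congr 1
        simp only [ha, hsm, if_true]
        have e : N s ^ (-(4 / 3) : ℝ) * N s ^ (1 / 3 : ℝ) = (N s)⁻¹ := by
          rw [← Real.rpow_add hN, ← Real.rpow_neg_one]; norm_num
        rw [Real.mul_rpow ht.le hN.le, div_eq_mul_inv (wS s), ← e]
        ring
      unfold asU
      rw [h2, ← mul_assoc, ← mul_assoc, h3]
    · simp [ha, hsm]
  obtain ⟨a1, B, a2⟩ := as_tann (b := fun s => N s) hsa (fun s hs' => by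
    refine N_pos ?_
    have : Sm s := by
      by_contra h
      exact hs' (by simp [ha, h])
    exact this.ne_zero) hU hUB
  refine ⟨?_, B, fun x hx => ?_⟩
  · rw [ofReal_tsum]
    refine a1.congr' ?_
    filter_upwards [self_mem_nhdsWithin] with x hx using (hR x hx).symm
  · rw [hR x hx]; exact a2 x hx

theorem as_Toff {p : Eis} (hp : P1 p) {x : ℝ} (hx : 0 < x) :
    asT (fun m => if p ∣ m then 0 else 1) x = asT 1 x - (N p : ℂ)⁻¹ * asT 1 (x * N p ^ 3) := by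
  have h := as_off hp (h := fun m => ex (x * N m ^ 3)) (K := x⁻¹) fun m hm => by
    rw [as_norm_ex]; exact as_exp_le hx hm.ne_zero
  have hN : (N p : ℂ) ≠ 0 := ofReal_ne_zero.2 (N_pos hp.ne_zero).ne'
  unfold asT
  rw [h, as_root hx, ofReal_mul]
  simp only [Pi.one_apply, one_mul, N_mul, mul_pow, mul_assoc]
  field_simp

theorem as_Zoff {p : Eis} (hp : P1 p) :
    asZ (fun m => if p ∣ m then 0 else 1) = asZ 1 * (1 - ((N p : ℂ) ^ 2)⁻¹) := by
  have h := as_off hp (h := fun m => 1 / (N m : ℂ) ^ 2) (K := 1) fun m _ =>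
    as_hZ (χ := fun _ => 1) (fun _ => norm_one.le) m
  unfold asZ
  simp only [← mul_div_assoc, mul_one] at h
  rw [h, mul_sub, mul_one, ← tsum_mul_right]
  congr 1
  refine tsum_congr fun m => ?_
  split_ifs
  · rw [N_mul]; push_cast; simp only [Pi.one_apply]; ring
  · simp

theorem as_Zpos : ∃ z : ℝ, 0 < z ∧ asZ 1 = z := by
  have hs : Summable fun m : Eis => if P1 m then (N m ^ 2)⁻¹ else 0 := by
    refine Summable.of_nonneg_of_le (fun m => ?_) (fun m => ?_) as_sum2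
    · split_ifs
      · positivity
      · exact le_rfl
    · split_ifs
      · exact le_rfl
      · positivity
  refine ⟨∑' m : Eis, if P1 m then (N m ^ 2)⁻¹ else 0, hs.tsum_pos (fun m => ?_) 1 ?_, ?_⟩
  · split_ifs
    · positivity
    · exact le_rfl
  · simp [P1.one]
  · unfold asZ
    rw [ofReal_tsum]
    refine tsum_congr fun m => ?_
    split_ifs <;> simp

theorem asym : ∃ l : ℝ, 0 < l ∧
    Tendsto (Rs kap0 0 ex) (𝓝[>] 0) (𝓝 (l : ℂ)) ∧
    (∃ B : ℝ, ∀ x, 0 < x → ‖Rs kap0 0 ex x‖ ≤ B) ∧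
    ∀ p, Prime p → P1 p →
      Tendsto (Rs (off p kap0) 0 ex) (𝓝[>] 0) (𝓝 ((l * (N p / (N p + 1)) : ℝ) : ℂ)) ∧
      (∃ B : ℝ, ∀ x, 0 < x → ‖Rs (off p kap0) 0 ex x‖ ≤ B) := by
  obtain ⟨wS, hw0, hw1, hw27, hw2, hw3⟩ := gK_zero
  obtain ⟨κ, hκ, hT, B, hB⟩ := as_T1
  obtain ⟨z, hz, hZ⟩ := as_Zpos
  have hz' : (z : ℂ) ≠ 0 := ofReal_ne_zero.2 hz.ne'
  set W : ℝ := ∑' s, if Sm s then wS s * N s ^ (-(4 / 3) : ℝ) else 0 with hW
  have hWpos : 0 < W := by
    have hnn : ∀ s, 0 ≤ if Sm s then wS s * N s ^ (-(4 / 3) : ℝ) else 0 := by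
      intro s
      split_ifs
      · exact mul_nonneg (hw0 s) (Real.rpow_nonneg (N_nonneg s) _)
      · exact le_rfl
    have h27 : Sm 27 := ⟨3, 8, by norm_num⟩
    refine Summable.tsum_pos ?_ hnn 27 ?_
    · refine Summable.of_nonneg_of_le hnn (fun s => ?_)
        ((summable_Sm (e := 1 / 3) (by norm_num)).mul_left 81)
      split_ifs with h
      · have hN := N_pos h.ne_zero
        calc wS s * N s ^ (-(4 / 3) : ℝ) ≤ 81 * N s * N s ^ (-(4 / 3) : ℝ) :=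
              mul_le_mul_of_nonneg_right (hw1 s) (by positivity)
          _ = 81 * N s ^ (-(1 / 3) : ℝ) := by
              rw [show (-(1 / 3) : ℝ) = -(4 / 3) + 1 by norm_num, Real.rpow_add_one hN.ne']
              ring
      · simp
    · rw [if_pos h27]
      exact mul_pos hw27 (Real.rpow_pos_of_pos (N_pos h27.ne_zero) _)
  have hD : asD 1 = (z : ℂ)⁻¹ := by
    have := as_DZ (χ := 1) (fun _ => norm_one.le) (fun _ _ => (one_mul _).symm) rfl
    rw [hZ] at this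
    exact eq_inv_of_mul_eq_one_left this
  obtain ⟨a1, a2⟩ := as_main hw0 hw1 hw2 hw3 (χ := 1) (fun _ => norm_one.le)
    (fun _ _ => (one_mul _).symm) (fun _ _ _ => rfl) (k := kap0) (fun _ => (one_mul _).symm)
    hT ⟨B, hB⟩
  refine ⟨W * (z⁻¹ * κ), by positivity, ?_, a2, fun p hp h1 => ?_⟩
  · rw [hD] at a1
    push_cast
    exact a1
  · have hN := N_pos h1.ne_zero
    have hN1 : 1 < N p := lt_of_lt_of_le (by norm_num) (h1.seven_le fun h => hp.not_isUnit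
      (h ▸ isUnit_one))
    have hN' : (N p : ℂ) ≠ 0 := ofReal_ne_zero.2 hN.ne'
    have b1 : ∀ c, ‖(if p ∣ c then 0 else 1 : ℂ)‖ ≤ 1 := fun c => by split_ifs <;> simp
    have b2 : ∀ d m, (if p ∣ d * m then 0 else 1 : ℂ) =
        (if p ∣ d then 0 else 1) * (if p ∣ m then 0 else 1) := by
      intro d m
      by_cases hd : p ∣ d <;> by_cases hm : p ∣ m <;> simp [hp.dvd_mul, hd, hm]
    have b3 : ∀ s m, Sm s → (if p ∣ s * m ^ 3 then 0 else 1 : ℂ) = if p ∣ m then 0 else 1 := by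
      intro s m hs
      have : ¬ p ∣ s := fun h => hp.not_isUnit ((hs.coprime h1).isUnit_of_dvd' h dvd_rfl)
      simp only [hp.dvd_mul, this, false_or, hp.dvd_pow_iff_dvd (show 3 ≠ 0 by norm_num)]
    have b4 : Tendsto (asT fun m => if p ∣ m then 0 else 1) (𝓝[>] 0)
        (𝓝 ((κ : ℂ) - (N p : ℂ)⁻¹ * κ)) := by
      refine (hT.sub ((hT.comp (as_scale (pow_pos hN 3))).const_mul _)).congr' ?_
      filter_upwards [self_mem_nhdsWithin] with x hx using (as_Toff h1 hx).symm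
    have b5 : ∀ x, 0 < x → ‖asT (fun m => if p ∣ m then 0 else 1) x‖ ≤ B + ‖(N p : ℂ)⁻¹‖ * B := by
      intro x hx
      rw [as_Toff h1 hx]
      refine (norm_sub_le _ _).trans (add_le_add (hB x hx) ?_)
      rw [norm_mul]
      exact mul_le_mul_of_nonneg_left (hB _ (mul_pos hx (pow_pos hN 3))) (norm_nonneg _)
    obtain ⟨c1, c2⟩ := as_main hw0 hw1 hw2 hw3 (χ := fun m => if p ∣ m then 0 else 1) b1 b2 b3
      (k := off p kap0) (fun c => by rw [gK_off]; split_ifs <;> simp) b4 ⟨_, b5⟩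
    refine ⟨?_, c2⟩
    have hD' := as_DZ (χ := fun m => if p ∣ m then 0 else 1) b1 b2
      (if_neg fun h => hp.not_isUnit (isUnit_of_dvd_one h))
    rw [as_Zoff h1, hZ] at hD'
    have e1 : (N p : ℂ) + 1 ≠ 0 := by
      rw [← ofReal_one, ← ofReal_add]; exact ofReal_ne_zero.2 (by positivity)
    have e2 : (N p : ℂ) - 1 ≠ 0 := by
      rw [← ofReal_one, ← ofReal_sub]; exact ofReal_ne_zero.2 (by linarith)
    have e3 : asD (fun m => if p ∣ m then 0 else 1) * ((κ : ℂ) - (N p : ℂ)⁻¹ * κ) =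
        (z : ℂ)⁻¹ * κ * (N p / (N p + 1)) := by
      rw [eq_inv_of_mul_eq_one_left hD',
        show 1 - ((N p : ℂ) ^ 2)⁻¹ = (N p - 1) * (N p + 1) / N p ^ 2 by field_simp; ring,
        show (κ : ℂ) - (N p : ℂ)⁻¹ * κ = κ * (N p - 1) / N p by field_simp]
      field_simp
    rw [e3] at c1
    push_cast
    rw [mul_assoc]
    exact c1

end Vale.Agent.P026
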