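import Vale.Agent.P026.Res1
import Vale.Agent.P026.Asym

/-! Growth and constant term of the Fourier coefficients. -/

namespace Vale.Agent.P026

open Eis Complex MeasureTheory Filter Topology
open scoped Classical ComplexConjugate ENNReal

theorem r2_cs {g : ℂ → ℝ≥0∞} (hg : Measurable g) :
    (∫⁻ z in F9, g z) ^ 2 ≤ ENNReal.ofReal V9 * ∫⁻ z in F9, g z ^ 2 := by
  have h := ENNReal.lintegral_mul_le_Lp_mul_Lq (volume.restrict F9) Real.HolderConjugate.two_two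
    (f := g) (g := fun _ => 1) hg.aemeasurable aemeasurable_const
  simp only [Pi.mul_apply, mul_one, ENNReal.one_rpow, lintegral_const, one_mul,
    Measure.restrict_apply_univ, volume_F9, ENNReal.rpow_two] at h
  refine (pow_le_pow_left' h 2).trans (le_of_eq ?_)
  rw [mul_pow, ← ENNReal.rpow_two, ← ENNReal.rpow_two, ← ENNReal.rpow_mul, ← ENNReal.rpow_mul]
  norm_num [mul_comm]

theorem r2_meas_pt (D E : ℝ) : Measurable fun z : ℂ => pt z D E :=
  measurable_pt.comp (f := fun z : ℂ => (z, D, E)) (by fun_prop)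

theorem r2_vol_rect {a b : ℝ} :
    volume (Set.Icc a b ×ˢ Set.Icc (1 : ℝ) 2) = ENNReal.ofReal (b - a) := by
  rw [Measure.volume_eq_prod, Measure.prod_prod, Real.volume_Icc, Real.volume_Icc]
  norm_num

theorem r2_rect_sub {a b : ℝ} (ha : 0 < a) : Set.Icc a b ×ˢ Set.Icc (1 : ℝ) 2 ⊆ DE :=
  Set.prod_mono (fun _ hx => ha.trans_le hx.1) subset_rfl

theorem r2_exists {P : ℝ × ℝ → Prop} (h : ∀ᵐ p ∂(volume.restrict DE), P p) : ∃ p ∈ DE, P p := by
  refine Measure.exists_mem_of_measure_ne_zero_of_ae (fun h0 => ?_) h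
  have h1 := measure_mono_null (r2_rect_sub (a := 1) (b := 2) one_pos) h0
  rw [r2_vol_rect] at h1
  norm_num at h1

/-- Growth of the coefficients. -/
theorem r2_bound {θ : HF → ℂ} (hθ : IsTheta θ) : ∃ C : ℝ, ∀ (s : SL) (r : Eis) (τ : ℂ), r ≠ 0 →
    (∀ᵐ p ∂(volume.restrict DE), ∫ z in F9, θ (act s (pt z p.1 p.2)) * conj (eR r z) =
      (V9 : ℂ) * (τ / (ab r : ℂ)) *
        ((p.2 ^ (-(2 / 3) : ℝ) * kap (ab r * (√p.2 / p.1)) : ℝ) : ℂ)) → ‖τ‖ ≤ C * ab r := by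
  obtain ⟨C, hC⟩ := hθ.bd
  have hk := kk_pos (c0 * 2)
  have hV := V9_pos
  refine ⟨√(240 * |C| / (V9 * kk (c0 * 2) ^ 2)), fun s r τ hr h => ?_⟩
  have ha := one_le_ab hr
  set a := ab r with ha'
  have ha0 : 0 < a := by linarith
  have hm : Measurable fun Q => θ (act s Q) := hθ.meas.comp (continuous_act s).measurable
  have h1 := hC s a (2 * a) ha0 (by linarith)
  rw [lintegral_box _ _ ha0 (hm.enorm.pow_const 2)] at h1
  have h2 : ∀ᵐ p ∂(volume.restrict (Set.Icc a (2 * a) ×ˢ Set.Icc (1 : ℝ) 2)),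
      ENNReal.ofReal (V9 * ‖τ‖ ^ 2 * kk (c0 * 2) ^ 2 / (16 * a)) ≤
        ENNReal.ofReal p.1 * ∫⁻ z in F9, ‖θ (act s (pt z p.1 p.2))‖ₑ ^ 2 := by
    filter_upwards [ae_restrict_of_ae_restrict_of_subset (r2_rect_sub ha0) h,
      ae_restrict_mem (measurableSet_Icc.prod measurableSet_Icc)] with p hp hp'
    obtain ⟨⟨k1, k2⟩, k3, k4⟩ := hp'
    have hD : 0 < p.1 := by linarith
    have s1 : 1 ≤ √p.2 := Real.one_le_sqrt.2 k3
    have s2 : √p.2 ≤ 2 := Real.sqrt_le_iff.2 ⟨by norm_num, by linarith⟩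
    have y1 : 1 / 2 ≤ a * (√p.2 / p.1) := by
      rw [← mul_div_assoc, le_div_iff₀ hD]
      nlinarith
    have y2 : a * (√p.2 / p.1) ≤ 2 := by
      rw [← mul_div_assoc, div_le_iff₀ hD]
      nlinarith
    have b1 : (1 / 2 : ℝ) ≤ p.2 ^ (-(2 / 3) : ℝ) := by
      calc (1 / 2 : ℝ) = (2 : ℝ) ^ (-1 : ℝ) := by rw [Real.rpow_neg_one]; norm_num
        _ ≤ (2 : ℝ) ^ (-(2 / 3) : ℝ) := Real.rpow_le_rpow_of_exponent_le (by norm_num) (by norm_num)
        _ ≤ _ := Real.rpow_le_rpow_of_nonpos (by linarith) k4 (by norm_num)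
    have b2 : 1 / 2 * kk (c0 * 2) ≤ kap (a * (√p.2 / p.1)) := by
      unfold kap
      refine mul_le_mul ?_ (kk_antitoneOn (mul_nonneg c0_pos.le (by linarith))
        (mul_nonneg c0_pos.le (by norm_num)) (mul_le_mul_of_nonneg_left y2 c0_pos.le)) hk.le
        (by positivity)
      calc (1 / 2 : ℝ) = (1 / 2 : ℝ) ^ (1 : ℝ) := (Real.rpow_one _).symm
        _ ≤ (1 / 2 : ℝ) ^ (2 / 3 : ℝ) :=
          Real.rpow_le_rpow_of_exponent_ge (by norm_num) (by norm_num) (by norm_num)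
        _ ≤ _ := Real.rpow_le_rpow (by norm_num) y1 (by norm_num)
    have b3 : 1 / 2 * (1 / 2 * kk (c0 * 2)) ≤ p.2 ^ (-(2 / 3) : ℝ) * kap (a * (√p.2 / p.1)) :=
      mul_le_mul b1 b2 (by positivity) (by linarith)
    have e1 : ENNReal.ofReal (V9 * (‖τ‖ / a) * (1 / 2 * (1 / 2 * kk (c0 * 2)))) ≤
        ∫⁻ z in F9, ‖θ (act s (pt z p.1 p.2))‖ₑ := by
      have e2 := enorm_integral_le_lintegral_enorm (μ := volume.restrict F9)
        (fun z => θ (act s (pt z p.1 p.2)) * conj (eR r z))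
      rw [hp, ← ofReal_norm] at e2
      refine (ENNReal.ofReal_le_ofReal ?_).trans (e2.trans (le_of_eq (lintegral_congr fun z => ?_)))
      · rw [norm_mul, norm_mul, norm_div, Complex.norm_real, Complex.norm_real, Complex.norm_real,
          Real.norm_of_nonneg hV.le, Real.norm_of_nonneg ha0.le,
          Real.norm_of_nonneg (le_trans (by positivity) b3)]
        gcongr
      · rw [enorm_mul, ← ofReal_norm (conj (eR r z)), Complex.norm_conj, norm_eR]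
        simp
    have e3 := (pow_le_pow_left' e1 2).trans (r2_cs (hm.comp (r2_meas_pt p.1 p.2)).enorm)
    rw [← ENNReal.ofReal_pow (by positivity)] at e3
    have e4 : (V9 * (‖τ‖ / a) * (1 / 2 * (1 / 2 * kk (c0 * 2)))) ^ 2 =
        V9 * (V9 * ‖τ‖ ^ 2 * kk (c0 * 2) ^ 2 / (16 * a ^ 2)) := by
      ring
    rw [e4, ENNReal.ofReal_mul hV.le,
      ENNReal.mul_le_mul_iff_right (by simpa using hV) ENNReal.ofReal_ne_top] at e3
    refine le_trans ?_ (mul_le_mul' (ENNReal.ofReal_le_ofReal k1) e3)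
    rw [← ENNReal.ofReal_mul ha0.le]
    refine ENNReal.ofReal_le_ofReal (le_of_eq ?_)
    field_simp
  have h3 := (lintegral_mono_ae h2).trans h1
  rw [setLIntegral_const, r2_vol_rect, ← ENNReal.ofReal_mul (by positivity)] at h3
  have h4 : C * (1 + (2 * a) ^ 2) * (1 + 2 * a / a) ≤ 15 * |C| * a ^ 2 := by
    rw [mul_div_assoc, div_self ha0.ne']
    have := le_abs_self C
    have := abs_nonneg C
    have : 1 ≤ a ^ 2 := one_le_pow₀ ha
    nlinarith
  have h5 := (ENNReal.ofReal_le_ofReal_iff (by positivity)).1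
    (h3.trans (ENNReal.ofReal_le_ofReal h4))
  refine le_of_sq_le_sq (?_) (by positivity)
  rw [mul_pow, Real.sq_sqrt (by positivity), div_mul_eq_mul_div, le_div_iff₀ (by positivity)]
  rw [show 2 * a - a = a by ring, div_mul_eq_mul_div, mul_div_mul_right _ _ ha0.ne',
    div_le_iff₀ (by norm_num)] at h5
  nlinarith

/-- Fibrewise convergence along a subsequence. -/
theorem r2_liminf {k : Eis → Eis → ℂ} {f : HF → ℂ} (hf : Measurable f) (h : Conv k f) :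
    ∀ᵐ p ∂(volume.restrict DE), liminf (fun n : ℕ => ∫⁻ z in F9,
      ‖(((1 / ((n : ℝ) + 1)) ^ (4 / 3 : ℝ) : ℝ) : ℂ) * Es k (1 / ((n : ℝ) + 1)) (pt z p.1 p.2) -
        f (pt z p.1 p.2)‖ₑ ^ 2) atTop = 0 := by
  have hsub : DE ⊆ ⋃ j : ℕ, Set.Icc (1 / ((j : ℝ) + 1)) ((j : ℝ) + 1) ×ˢ Set.Icc (1 : ℝ) 2 := by
    rintro ⟨D, E⟩ ⟨h1, h2⟩
    have h1' : 0 < D := h1
    obtain ⟨j, hj⟩ := exists_nat_ge (max D (1 / D))
    refine Set.mem_iUnion.2 ⟨j, ⟨?_, ?_⟩, h2⟩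
    · exact (one_div_le (by positivity) h1').2 (by linarith [le_max_right D (1 / D)])
    · linarith [le_max_left D (1 / D)]
  refine ae_restrict_of_ae_restrict_of_subset hsub ((ae_restrict_iUnion_iff _ _).2 fun j => ?_)
  have hj : (0 : ℝ) < 1 / ((j : ℝ) + 1) := by positivity
  have hj' : 1 / ((j : ℝ) + 1) ≤ (j : ℝ) + 1 := by
    rw [div_le_iff₀ (by positivity)]
    nlinarith [(Nat.cast_nonneg j : (0 : ℝ) ≤ j)]
  have ht : Tendsto (fun n : ℕ => 1 / ((n : ℝ) + 1)) atTop (𝓝[>] 0) :=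
    tendsto_nhdsWithin_iff.2 ⟨tendsto_one_div_add_atTop_nhds_zero_nat,
      Eventually.of_forall fun n => by simp only [Set.mem_Ioi]; positivity⟩
  have h1 := (h _ _ hj hj').comp ht
  set G : ℕ → HF → ℝ≥0∞ := fun n Q =>
    ‖(((1 / ((n : ℝ) + 1)) ^ (4 / 3 : ℝ) : ℝ) : ℂ) * Es k (1 / ((n : ℝ) + 1)) Q - f Q‖ₑ ^ 2 with hG
  have hm : ∀ n, Measurable (G n) := fun n =>
    (((measurable_Es k _).const_mul _).sub hf).enorm.pow_const 2
  have hm2 : ∀ n, Measurable fun p : ℝ × ℝ => ∫⁻ z in F9, G n (pt z p.1 p.2) := fun n =>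
    Measurable.lintegral_prod_left' ((hm n).comp measurable_pt)
  have h2 : Tendsto (fun n => ∫⁻ p in Set.Icc (1 / ((j : ℝ) + 1)) ((j : ℝ) + 1) ×ˢ
      Set.Icc (1 : ℝ) 2, ENNReal.ofReal p.1 * ∫⁻ z in F9, G n (pt z p.1 p.2)) atTop (𝓝 0) := by
    refine h1.congr fun n => ?_
    exact lintegral_box _ _ hj (hm n)
  have h3 : Tendsto (fun n => ∫⁻ p in Set.Icc (1 / ((j : ℝ) + 1)) ((j : ℝ) + 1) ×ˢ
      Set.Icc (1 : ℝ) 2, ∫⁻ z in F9, G n (pt z p.1 p.2)) atTop (𝓝 0) := by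
    have h4 := ENNReal.Tendsto.const_mul (a := ENNReal.ofReal ((j : ℝ) + 1)) h2
      (Or.inr ENNReal.ofReal_ne_top)
    rw [mul_zero] at h4
    refine tendsto_of_tendsto_of_tendsto_of_le_of_le tendsto_const_nhds h4 (fun _ => zero_le)
      fun n => ?_
    dsimp only
    rw [← lintegral_const_mul' _ _ ENNReal.ofReal_ne_top]
    refine setLIntegral_mono' (measurableSet_Icc.prod measurableSet_Icc) fun p hp => ?_
    rw [← mul_assoc, ← ENNReal.ofReal_mul (by positivity)]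
    refine le_mul_of_one_le_left zero_le (ENNReal.one_le_ofReal.2 ?_)
    have := (div_le_iff₀ (by positivity)).1 hp.1.1
    linarith
  have h5 := lintegral_liminf_le (μ := volume.restrict (Set.Icc (1 / ((j : ℝ) + 1)) ((j : ℝ) + 1) ×ˢ
    Set.Icc (1 : ℝ) 2)) (u := atTop) hm2
  rw [h3.liminf_eq, nonpos_iff_eq_zero, lintegral_eq_zero_iff (Measurable.liminf hm2)] at h5
  exact h5

theorem r2_limit {u : ℕ → ℂ → ℂ} {v : ℂ → ℂ} (hu : ∀ n, IntegrableOn (u n) F9)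
    (hm : ∀ n, Measurable (u n)) (hv : Measurable v)
    (h : liminf (fun n => ∫⁻ z in F9, ‖u n z - v z‖ₑ ^ 2) atTop = 0) {L : ℂ}
    (hL : Tendsto (fun n => ∫ z in F9, u n z) atTop (𝓝 L)) : ∫ z in F9, v z = L := by
  have h1 : ∀ δ : ℝ≥0∞, 0 < δ → ∃ᶠ n in atTop, ∫⁻ z in F9, ‖u n z - v z‖ₑ ^ 2 < δ :=
    fun δ hδ => frequently_lt_of_liminf_lt (by isBoundedDefault) (h ▸ hδ)
  have h2 := fun n => r2_cs ((hm n).sub hv).enorm
  have hvi : IntegrableOn v F9 := by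
    obtain ⟨n, hn⟩ := (h1 ⊤ ENNReal.zero_lt_top).exists
    have h3 : IntegrableOn (fun z => u n z - v z) F9 := by
      refine ⟨((hm n).sub hv).aestronglyMeasurable, hasFiniteIntegral_iff_enorm.2 ?_⟩
      have h4 := (h2 n).trans_lt (ENNReal.mul_lt_top ENNReal.ofReal_lt_top hn)
      exact (ENNReal.pow_lt_top_iff.1 h4).resolve_right (by norm_num)
    refine ((hu n).sub h3).congr_fun (fun z _ => ?_) measurableSet_F9
    simp
  have h4 : Tendsto (fun n => ‖(∫ z in F9, u n z) - ∫ z in F9, v z‖ₑ ^ 2) atTop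
      (𝓝 (‖L - ∫ z in F9, v z‖ₑ ^ 2)) := ENNReal.Tendsto.pow (hL.sub_const _).enorm
  have h5 : ∀ δ : ℝ≥0∞, 0 < δ → ‖L - ∫ z in F9, v z‖ₑ ^ 2 ≤ ENNReal.ofReal V9 * δ := by
    intro δ hδ
    refine le_of_tendsto_of_frequently h4 ((h1 δ hδ).mono fun n hn => ?_)
    rw [← integral_sub (hu n) hvi]
    exact (pow_le_pow_left' (enorm_integral_le_lintegral_enorm _) 2).trans
      ((h2 n).trans (mul_le_mul' le_rfl hn.le))
  have h6 : Tendsto (fun δ : ℝ≥0∞ => ENNReal.ofReal V9 * δ) (𝓝[>] 0) (𝓝 0) := by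
    have := ENNReal.Tendsto.const_mul (a := ENNReal.ofReal V9) (f := 𝓝[>] (0 : ℝ≥0∞))
      (m := fun δ => δ) (b := 0) (tendsto_id.mono_left nhdsWithin_le_nhds)
      (Or.inr ENNReal.ofReal_ne_top)
    rwa [mul_zero] at this
  have h7 := ge_of_tendsto h6 (eventually_nhdsWithin_of_forall h5)
  rw [nonpos_iff_eq_zero, pow_eq_zero_iff (by norm_num), enorm_eq_zero, sub_eq_zero] at h7
  exact h7.symm

theorem r2_first {D : ℝ} (hD : 0 < D) :
    Tendsto (fun t : ℝ => ((t ^ (4 / 3 : ℝ) * V9 : ℝ) : ℂ) *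
      ∑' d : Eis, kap0 0 d * (Real.exp (-(t * D * N d)) : ℂ)) (𝓝[>] 0) (𝓝 0) := by
  obtain ⟨C, hC, h⟩ := tsum_exp_le
  have hV := V9_pos
  have h1 : Tendsto (fun t : ℝ => V9 * C / D * t ^ (1 / 3 : ℝ)) (𝓝[>] 0) (𝓝 0) := by
    have := ((Real.continuousAt_rpow_const 0 (1 / 3) (Or.inr (by norm_num))).tendsto.mono_left
      (nhdsWithin_le_nhds (s := Set.Ioi 0))).const_mul (V9 * C / D)
    rwa [Real.zero_rpow (by norm_num), mul_zero] at this
  refine squeeze_zero_norm' ?_ h1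
  filter_upwards [self_mem_nhdsWithin] with t ht
  have ht' : 0 < t := ht
  have h2 : Summable fun c : Eis => if c = 0 then 0 else Real.exp (-(t * D * N c)) :=
    Summable.of_norm_bounded (summable_exp (mul_pos ht' hD)) fun c => by
      split_ifs
      · simp [Real.exp_nonneg]
      · simp
  have h3 : ‖∑' d : Eis, kap0 0 d * (Real.exp (-(t * D * N d)) : ℂ)‖ ≤ C / (t * D) := by
    refine (tsum_of_norm_bounded h2.hasSum fun d => ?_).trans (h _ (mul_pos ht' hD))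
    split_ifs with hd
    · have : ¬ Prim 0 := fun h => h.ne_zero rfl
      simp [hd, kap0, this]
    · rw [norm_mul, Complex.norm_real, Real.norm_of_nonneg (Real.exp_nonneg _)]
      exact mul_le_of_le_one_left (Real.exp_nonneg _) (norm_kap0_le _ _)
  rw [norm_mul, Complex.norm_real, Real.norm_of_nonneg (by positivity)]
  refine (mul_le_mul_of_nonneg_left h3 (by positivity)).trans (le_of_eq ?_)
  rw [show (4 / 3 : ℝ) = 1 / 3 + 1 by norm_num, Real.rpow_add_one ht'.ne']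
  field_simp

theorem r2_Rs_fk (k : Eis → Eis → ℂ) {D E t : ℝ} (hD : 0 < D) (hE : 0 < E) (ht : 0 < t) :
    Rs k 0 (fk (c0 * ab 0) D E) t =
      ((D ^ (-(2 / 3) : ℝ) * E ^ (-(1 / 3) : ℝ) : ℝ) : ℂ) * Rs k 0 ex (t * (E / D)) := by
  have h0 : ab 0 = 0 := by simp [ab]
  have h1 : D ^ (-(2 / 3) : ℝ) * E ^ (-(1 / 3) : ℝ) * (t * (E / D)) ^ (1 / 3 : ℝ) =
      t ^ (1 / 3 : ℝ) * D⁻¹ := by
    rw [Real.mul_rpow ht.le (by positivity), Real.div_rpow hE.le hD.le, Real.rpow_neg hE.le,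
      ← Real.rpow_neg_one D, show (-1 : ℝ) = -(2 / 3) - 1 / 3 by norm_num, Real.rpow_sub hD]
    have := Real.rpow_pos_of_pos hE (1 / 3)
    field_simp
  unfold Rs
  rw [← mul_assoc, ← Complex.ofReal_mul, h1, Complex.ofReal_mul, mul_assoc,
    ← tsum_mul_left (a := ((D⁻¹ : ℝ) : ℂ))]
  congr 1
  refine tsum_congr fun c => ?_
  unfold fk ex
  rw [h0, mul_zero, show -(t * N c * E / D) - 0 ^ 2 / (t * N c * D) = -(t * (E / D) * N c) by ring]
  push_cast
  ring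

theorem r2_const {θ : HF → ℂ} (hθ : IsTheta θ) : ∃ l : ℂ, l ≠ 0 ∧ ∀ᵐ p ∂(volume.restrict DE),
    ∫ z in F9, θ (pt z p.1 p.2) = l * ((p.1 ^ (-(2 / 3) : ℝ) * p.2 ^ (-(1 / 3) : ℝ) : ℝ) : ℂ) := by
  obtain ⟨l, hl, h1, -⟩ := asym
  have h2 := hθ.conv 1 0
  simp only [kapS_one_zero, sig_one_zero, act_one] at h2
  refine ⟨Real.pi * l, by exact_mod_cast (mul_pos Real.pi_pos hl).ne', ?_⟩
  filter_upwards [r2_liminf hθ.meas h2, ae_restrict_mem measurableSet_DE] with p hp hp'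
  have hD : 0 < p.1 := hp'.1
  have hE : 0 < p.2 := one_pos.trans_le hp'.2.1
  have ht : Tendsto (fun n : ℕ => 1 / ((n : ℝ) + 1)) atTop (𝓝[>] 0) :=
    tendsto_nhdsWithin_iff.2 ⟨tendsto_one_div_add_atTop_nhds_zero_nat,
      Eventually.of_forall fun n => by simp only [Set.mem_Ioi]; positivity⟩
  refine r2_limit (fun n => (integrableOn_Es norm_kap0_le (by positivity) hp').const_mul _)
    (fun n => ((measurable_Es _ _).comp (r2_meas_pt _ _)).const_mul _)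
    (hθ.meas.comp (r2_meas_pt _ _)) hp ?_
  have h3 : Tendsto (fun t : ℝ => t * (p.2 / p.1)) (𝓝[>] 0) (𝓝[>] 0) := by
    refine tendsto_nhdsWithin_iff.2 ⟨?_, ?_⟩
    · have := (continuous_mul_const (p.2 / p.1)).tendsto (0 : ℝ)
      rw [zero_mul] at this
      exact this.mono_left nhdsWithin_le_nhds
    · filter_upwards [self_mem_nhdsWithin] with t ht using mul_pos ht (div_pos hE hD)
  have h4 := ((r2_first hD).add (((h1.comp h3).const_mul
    ((p.1 ^ (-(2 / 3) : ℝ) * p.2 ^ (-(1 / 3) : ℝ) : ℝ) : ℂ)).const_mul (Real.pi : ℂ))).comp ht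
  rw [zero_add, mul_comm _ (l : ℂ), ← mul_assoc] at h4
  refine h4.congr fun n => ?_
  have hn : (0 : ℝ) < 1 / ((n : ℝ) + 1) := by positivity
  have h5 := four_coef adm_kap0 hn hp' 0
  have h6 : ∀ z, eR 0 z = 1 := fun z => by simp [eR]
  simp only [h6, map_one, mul_one, if_true] at h5
  rw [integral_const_mul, h5, r2_Rs_fk _ hD hE hn]
  rfl

end Vale.Agent.P026
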