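import Vale.Agent.P026.Res2A
import Vale.Agent.P026.Res2B

/-! Hecke relations, growth and constant term of the theta coefficients. -/

namespace Vale.Agent.P026

open Eis Complex MeasureTheory Filter Topology
open scoped Classical ComplexConjugate

theorem exists_isCoef {θ : HF → ℂ} (hθ : IsTheta θ) : ∃ tau, IsCoef θ tau := by
  obtain ⟨m, hm, h⟩ := res_shape
  have hV : (V9 : ℂ) ≠ 0 := by exact_mod_cast V9_pos.ne'
  have hme : ∀ s : SL, Measurable fun Q => θ (act s Q) := fun s =>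
    hθ.meas.comp (continuous_act s).measurable
  let ρ : (Eis → Eis → ℂ) → Eis → ℂ := fun k r => limUnder (𝓝[>] 0) (Rs k r phi0)
  have h1 : ∀ A q r, r ≠ 0 → Tendsto (Rs (kapS A q) r phi0) (𝓝[>] 0) (𝓝 (ρ (kapS A q) r)) ∧
      ∀ᵐ p ∂(volume.restrict DE), ∫ z in F9, θ (act (sig A q) (pt z p.1 p.2)) * conj (eR r z) =
        (m : ℂ) * ρ (kapS A q) r * ((p.1 ^ (-(2 / 3) : ℝ) * p.2 ^ (-(1 / 3) : ℝ) *
          kk (c0 * ab r * (√p.2 / p.1)) : ℝ) : ℂ) := by
    intro A q r hr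
    obtain ⟨x, k1, k2⟩ := h _ (adm_kapS A q) _ (hme _) (hθ.conv A q) r hr
    have k3 : ρ (kapS A q) r = x := k1.limUnder_eq
    rw [k3]
    exact ⟨k1, k2⟩
  have h2 : ∀ A q p, Prime p → P1 p → ∀ r, r ≠ 0 →
      Tendsto (Rs (off p (kapS A q)) r phi0) (𝓝[>] 0)
        (𝓝 (((N p / (N p + 1) : ℝ) : ℂ) * ρ (kapS A q) r)) := by
    intro A q p hp hp1 r hr
    obtain ⟨x, k1, k2⟩ := h _ (adm_off p (adm_kapS A q)) _ ((hme _).const_mul _)
      (hθ.conv_off A q p hp hp1) r hr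
    obtain ⟨y, hy, k3, k4⟩ := r2_exists (k2.and (h1 A q r hr).2)
    have hD : 0 < y.1 := hy.1
    have hE : 0 < y.2 := one_pos.trans_le hy.2.1
    have k5 := kk_pos (c0 * ab r * (√y.2 / y.1))
    simp only [mul_assoc (((N p / (N p + 1) : ℝ) : ℂ))] at k3
    rw [integral_const_mul, k4, ← mul_assoc] at k3
    have k6 := mul_right_cancel₀ (by exact_mod_cast (by positivity)) k3
    rw [mul_left_comm] at k6
    rwa [mul_left_cancel₀ (by exact_mod_cast hm.ne') k6]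
  have h3 : ∀ A q p, Prime p → P1 p → ∀ r, r ≠ 0 →
      ρ (kapS A q) (r * p ^ 3) = ρ (kapS A q) r := by
    intro A q p hp hp1 r hr
    have k1 := h2 A q p hp hp1 _ (mul_ne_zero hr (pow_ne_zero 3 hp.ne_zero))
    have hN := N_pos hp.ne_zero
    rw [r2_Rs_cube A q hp hp1] at k1
    exact mul_left_cancel₀ (by exact_mod_cast (by positivity))
      (tendsto_nhds_unique k1 (h2 A q p hp hp1 r hr))
  let tau : Eis → Eis → Eis → ℂ := fun A q r =>
    m * ρ (kapS A q) r * ((ab r ^ (1 / 3 : ℝ) : ℝ) : ℂ) / V9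
  have h0 : ∀ A q, tau A q 0 = 0 := fun A q => by simp [tau, ab]
  have h4 : ∀ A q r, r ≠ 0 → ∀ᵐ p ∂(volume.restrict DE),
      ∫ z in F9, θ (act (sig A q) (pt z p.1 p.2)) * conj (eR r z) =
        (V9 : ℂ) * (tau A q r / (ab r : ℂ)) *
          ((p.2 ^ (-(2 / 3) : ℝ) * kap (ab r * (√p.2 / p.1)) : ℝ) : ℂ) := by
    intro A q r hr
    filter_upwards [(h1 A q r hr).2, ae_restrict_mem measurableSet_DE] with p hp hp'
    have hD : 0 < p.1 := hp'.1
    have hE : 0 < p.2 := one_pos.trans_le hp'.2.1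
    have ha := ab_pos hr
    have k1 : p.1 ^ (-(2 / 3) : ℝ) * p.2 ^ (-(1 / 3) : ℝ) * ab r =
        ab r ^ (1 / 3 : ℝ) * (p.2 ^ (-(2 / 3) : ℝ) * (ab r * (√p.2 / p.1)) ^ (2 / 3 : ℝ)) := by
      rw [Real.mul_rpow ha.le (by positivity), Real.div_rpow (by positivity) hD.le,
        Real.sqrt_eq_rpow, ← Real.rpow_mul hE.le, Real.rpow_neg hD.le,
        show (-(1 / 3) : ℝ) = -(2 / 3) + 1 / 2 * (2 / 3) by norm_num, Real.rpow_add hE]
      conv_lhs => rw [← Real.rpow_one (ab r), show (1 : ℝ) = 1 / 3 + 2 / 3 by norm_num,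
        Real.rpow_add ha]
      ring
    have k2 : ((ab r : ℝ) : ℂ) ≠ 0 := by exact_mod_cast ha.ne'
    have k3 := congrArg (fun x : ℝ => (x : ℂ)) k1
    rw [hp]
    simp only [tau, kap, mul_assoc c0]
    generalize kk (c0 * (ab r * (√p.2 / p.1))) = K
    generalize (ab r * (√p.2 / p.1)) ^ (2 / 3 : ℝ) = Z at k3 ⊢
    generalize ρ (kapS A q) r = x
    push_cast at k3 ⊢
    field_simp
    linear_combination m * x * K * k3
  refine ⟨tau, h0, ?_, fun A q A' q' hA hq => ?_, fun A q r p hp hp1 => ?_,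
    fun A q r p hp hp1 hr => ?_, fun A q r p hp hp1 hr => ?_, h4, r2_const hθ⟩
  · obtain ⟨C, hC⟩ := r2_bound hθ
    refine ⟨C, fun A q r => ?_⟩
    by_cases hr : r = 0
    · rw [hr, h0]
      simp [ab]
    · exact hC _ r _ hr (h4 A q r hr)
  · have k1 : kapS A q = kapS A' q' := by
      funext c d
      unfold kapS
      rw [sig_congr hA hq]
    simp only [tau, k1]
  · by_cases hr : r = 0
    · rw [hr, zero_mul, h0, mul_zero]
    · simp only [tau]
      rw [h3 A q p hp hp1 r hr, ab_mul, ab_pow,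
        Real.mul_rpow (ab_nonneg _) (pow_nonneg (ab_nonneg _) _), r2_rpow _ (ab_nonneg _)]
      push_cast
      ring
  · have hr0 : r ≠ 0 := fun h => hr (h ▸ dvd_zero p)
    simp only [tau]
    rw [r2_sq A q hp hp1 hr (fun x hx => (h1 A q x hx).1) (h2 A q p hp hp1)
      (h3 A q p hp hp1 _ (mul_ne_zero hr0 (pow_ne_zero 2 hp.ne_zero)))]
    simp
  · have k1 := r2_one A q hp hp1 hr (fun x hx => (h1 A q x hx).1) (h2 A q p hp hp1)
    simp only [tau]
    rw [ab_mul, Real.mul_rpow (ab_nonneg _) (ab_nonneg _)]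
    push_cast
    linear_combination m * ((ab r ^ (1 / 3 : ℝ) : ℝ) : ℂ) / V9 * k1

end Vale.Agent.P026
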