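import Vale.Agent.P026.L2
import Vale.Agent.P026.Res2
import Vale.Agent.P026.Ptw
import Vale.Agent.P026.Boot
import Vale.Agent.P026.Fin1
import Vale.Agent.P026.Fin2

/-! Assembly. -/

namespace Vale.Agent.P026

open Eis Complex

theorem theta_nonempty : Nonempty Theta := by
  obtain ⟨θ, hθ⟩ := exists_isTheta
  obtain ⟨tau, h⟩ := exists_isCoef hθ
  exact theta_of_coef hθ h

theorem main (q : ℕ) [NeZero q] (χ : DirichletCharacter ℂ q) {s : ℂ} (hs : 383 / 384 < s.re)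
    (hs1 : s ≠ 1) : DirichletCharacter.LFunction χ s ≠ 0 := by
  obtain ⟨T⟩ := theta_nonempty
  have hq : (72 * (q : Eis)) ≠ 0 := by
    intro h
    have h1 := congrArg Eis.a h
    have h2 : (q : ℤ) ≠ 0 := by exact_mod_cast NeZero.ne q
    simp at h1
    exact NeZero.ne q h1
  have hH := boot T hq (Dvd.intro _ rfl) (f := 1 / 384) (by norm_num)
  refine fin2 (σ := 383 / 384) (by norm_num) (by norm_num) q χ
    (fin1 hH (fun c => χ ((nrm c : ℤ) : ZMod q)) ?_ ?_) hs hs1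
  · intro x y
    have : ((nrm (x + 72 * (q : Eis) * y) : ℤ) : ZMod q) = ((nrm x : ℤ) : ZMod q) := by
      rw [ZMod.intCast_eq_intCast_iff_dvd_sub]
      refine ⟨-(72 * (2 * x.a * y.a - x.a * y.b - x.b * y.a + 2 * x.b * y.b)
        + 72 ^ 2 * q * (y.a ^ 2 - y.a * y.b + y.b ^ 2)), ?_⟩
      simp [nrm]; ring
    simp only [this]
  · intro x
    exact χ.norm_le_one _

theorem qgrh : ∃ σ₀ : ℝ, σ₀ < 1 ∧ ∀ (q : ℕ) [NeZero q] (χ : DirichletCharacter ℂ q) (s : ℂ),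
    σ₀ < s.re → s ≠ 1 → DirichletCharacter.LFunction χ s ≠ 0 :=
  ⟨383 / 384, by norm_num, fun q _ χ _ hs hs1 => main q χ hs hs1⟩

end Vale.Agent.P026
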