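import Mathlib

/-! Poisson summation for complex Gaussians on the square lattice. -/

namespace Vale.Agent.P026

open Complex
open scoped Real

theorem poisA_summable_one {T : ℝ} (hT : 0 < T) (S : ℝ) :
    Summable (fun n : ℤ => Real.exp (-π * (T * n ^ 2 - 2 * S * |(n : ℝ)|))) := by
  have := summable_pow_mul_jacobiTheta₂_term_bound S hT 0
  simpa using this

theorem poisA_form {p q r : ℝ} (hp : 0 < p) (h : q ^ 2 < p * r) :
    ∃ e : ℝ, 0 < e ∧ ∀ x y : ℝ, e * (x ^ 2 + y ^ 2) ≤ p * x ^ 2 + 2 * q * x * y + r * y ^ 2 := by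
  have hr : 0 < r := by
    by_contra hr
    have : p * r ≤ 0 := mul_nonpos_of_nonneg_of_nonpos hp.le (not_lt.1 hr)
    nlinarith [sq_nonneg q]
  refine ⟨(p * r - q ^ 2) / (p + r), div_pos (by linarith) (by linarith), fun x y => ?_⟩
  rw [div_mul_eq_mul_div, div_le_iff₀ (by linarith)]
  nlinarith [sq_nonneg (p * x + q * y), sq_nonneg (q * x + r * y)]

theorem poisA_summable {p q r : ℂ} (hp : 0 < p.re) (h : q.re ^ 2 < p.re * r.re) (a b c : ℂ) :
    Summable (fun x : ℤ × ℤ =>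
      cexp (-π * (p * x.1 ^ 2 + 2 * q * x.1 * x.2 + r * x.2 ^ 2) + a * x.1 + b * x.2 + c)) := by
  obtain ⟨e, he, hq⟩ := poisA_form hp h
  have s1 := poisA_summable_one he (|a.re| / (2 * π))
  have s2 := poisA_summable_one he (|b.re| / (2 * π))
  have s3 := (s1.mul_of_nonneg s2 (fun _ => (Real.exp_pos _).le)
    (fun _ => (Real.exp_pos _).le)).mul_left (Real.exp c.re)
  refine Summable.of_norm_bounded s3 (fun x => ?_)
  rw [Complex.norm_exp, ← Real.exp_add, ← Real.exp_add]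
  apply Real.exp_le_exp.2
  have hre : (-π * (p * x.1 ^ 2 + 2 * q * x.1 * x.2 + r * x.2 ^ 2) + a * x.1 + b * x.2 + c).re
      = -π * (p.re * (x.1 : ℝ) ^ 2 + 2 * q.re * x.1 * x.2 + r.re * (x.2 : ℝ) ^ 2)
        + a.re * x.1 + b.re * x.2 + c.re := by
    simp [pow_two]
  rw [hre]
  have h1 := hq (x.1 : ℝ) (x.2 : ℝ)
  have h2 : a.re * x.1 ≤ |a.re| * |(x.1 : ℝ)| := by rw [← abs_mul]; exact le_abs_self _
  have h3 : b.re * x.2 ≤ |b.re| * |(x.2 : ℝ)| := by rw [← abs_mul]; exact le_abs_self _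
  have hpi := Real.pi_pos
  have e1 : π * (2 * (|a.re| / (2 * π))) = |a.re| := by field_simp
  have e2 : π * (2 * (|b.re| / (2 * π))) = |b.re| := by field_simp
  have h4 := mul_le_mul_of_nonneg_left h1 hpi.le
  have e3 : -π * (e * (x.1 : ℝ) ^ 2 - 2 * (|a.re| / (2 * π)) * |(x.1 : ℝ)|)
      = -(π * (e * (x.1 : ℝ) ^ 2)) + |a.re| * |(x.1 : ℝ)| := by
    rw [← e1]; field_simp; ring
  have e4 : -π * (e * (x.2 : ℝ) ^ 2 - 2 * (|b.re| / (2 * π)) * |(x.2 : ℝ)|)
      = -(π * (e * (x.2 : ℝ) ^ 2)) + |b.re| * |(x.2 : ℝ)| := by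
    rw [← e2]; field_simp; ring
  rw [e3, e4]
  nlinarith

theorem poisA_root {p : ℂ} (hp : 0 < p.re) {ρ : ℝ} (hρ : 0 < ρ) :
    1 / p ^ (1 / 2 : ℂ) * (1 / ((ρ : ℂ) / p) ^ (1 / 2 : ℂ)) = ((1 / √ρ : ℝ) : ℂ) := by
  have hp0 : p ≠ 0 := fun h => by simp [h] at hp
  have harg : p.arg ≠ π := by
    intro h
    have := (Complex.arg_eq_pi_iff.1 h).1
    linarith
  have h1 : ((ρ : ℂ) / p) ^ (1 / 2 : ℂ) = (√ρ : ℝ) * (p ^ (1 / 2 : ℂ))⁻¹ := by
    rw [← Complex.inv_cpow _ _ harg, div_eq_mul_inv,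
      Complex.cpow_def_of_ne_zero (mul_ne_zero (by exact_mod_cast hρ.ne') (inv_ne_zero hp0)),
      Complex.log_ofReal_mul hρ (inv_ne_zero hp0), Complex.cpow_def_of_ne_zero (inv_ne_zero hp0),
      add_mul, Complex.exp_add, Real.sqrt_eq_rpow, Real.rpow_def_of_pos hρ]
    push_cast
    ring
  have h2 : p ^ (1 / 2 : ℂ) ≠ 0 := by
    rw [Ne, Complex.cpow_eq_zero_iff]; exact fun h => hp0 h.1
  have h3 : ((√ρ : ℝ) : ℂ) ≠ 0 := by exact_mod_cast (Real.sqrt_pos.2 hρ).ne'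
  rw [h1]; push_cast; field_simp

theorem poisA_two {p q r : ℂ} {ρ : ℝ} (hρ : 0 < ρ) (hd : p * r - q ^ 2 = ρ) (hp : 0 < p.re)
    (h : q.re ^ 2 < p.re * r.re) (α β : ℂ) :
    ∑' x : ℤ × ℤ, cexp (-π * (p * x.1 ^ 2 + 2 * q * x.1 * x.2 + r * x.2 ^ 2)
        + 2 * π * (α * x.1 + β * x.2))
      = ((1 / √ρ : ℝ) : ℂ) * ∑' y : ℤ × ℤ, cexp (-π / ρ * (r * (y.1 + I * α) ^ 2
          - 2 * q * (y.1 + I * α) * (y.2 + I * β) + p * (y.2 + I * β) ^ 2)) := by
  have hp0 : p ≠ 0 := fun h => by simp [h] at hp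
  have hρ0 : (ρ : ℂ) ≠ 0 := by exact_mod_cast hρ.ne'
  have hP : 0 < normSq p := normSq_pos.2 hp0
  have hr : 0 < r.re := by
    by_contra hr
    have : p.re * r.re ≤ 0 := mul_nonpos_of_nonneg_of_nonpos hp.le (not_lt.1 hr)
    nlinarith [sq_nonneg q.re]
  have hrp : r - q ^ 2 / p = ρ / p := by rw [← hd]; field_simp
  have hi1 : (p⁻¹).re = p.re / normSq p := inv_re p
  have ha' : 0 < ((ρ : ℂ) / p).re := by
    rw [div_eq_mul_inv, re_ofReal_mul, hi1]; positivity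
  have hmid : (-(I * q / p)).re ^ 2 < (p⁻¹).re * ((ρ : ℂ) / p).re := by
    have e1 : (-(I * q / p)).re = (q.im * p.re - q.re * p.im) / normSq p := by
      simp [div_re]; ring
    have e2 : ((ρ : ℂ) / p).re = r.re - ((q.re ^ 2 - q.im ^ 2) * p.re
        + 2 * q.re * q.im * p.im) / normSq p := by
      rw [← hrp]; simp [div_re, pow_two]; ring
    rw [e1, e2, hi1, div_pow, div_lt_iff₀ (by positivity)]
    have e3 : normSq p = p.re ^ 2 + p.im ^ 2 := by rw [normSq_apply]; ring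
    have e4 : p.re / normSq p * (r.re - ((q.re ^ 2 - q.im ^ 2) * p.re
        + 2 * q.re * q.im * p.im) / normSq p) * normSq p ^ 2
        = p.re * (r.re * normSq p - ((q.re ^ 2 - q.im ^ 2) * p.re
        + 2 * q.re * q.im * p.im)) := by field_simp
    rw [e4]
    have e5 : 0 < normSq p * (p.re * r.re - q.re ^ 2) := mul_pos hP (by linarith)
    rw [e3] at e5 ⊢
    nlinarith
  have hi2 : 0 < (p⁻¹).re := by rw [hi1]; positivity
  -- the three summable families
  have S0 := poisA_summable hp h (2 * π * α) (2 * π * β) 0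
  have S1 := poisA_summable hi2 hmid (-(2 * π * I * α / p)) (2 * π * (β - q * α / p))
    (π * α ^ 2 / p)
  have hf1 : 0 < (r / ρ).re := by rw [div_ofReal_re]; positivity
  have hf2 : (-q / ρ).re ^ 2 < (r / ρ).re * (p / ρ).re := by
    rw [div_ofReal_re, div_ofReal_re, div_ofReal_re, neg_re, div_pow, div_mul_div_comm,
      ← pow_two, neg_sq]
    exact div_lt_div_of_pos_right (by linarith) (by positivity)
  have S2 := poisA_summable hf1 hf2 (-π / ρ * (2 * I * (r * α - q * β)))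
    (-π / ρ * (2 * I * (p * β - q * α))) (-π / ρ * (-(r * α ^ 2) + 2 * q * α * β - p * β ^ 2))
  set F : ℤ × ℤ → ℂ := fun x => cexp (-π * (p * x.1 ^ 2 + 2 * q * x.1 * x.2 + r * x.2 ^ 2)
        + 2 * π * (α * x.1 + β * x.2)) with hF
  set G : ℤ × ℤ → ℂ := fun x => cexp (-π * (p⁻¹ * x.1 ^ 2 + 2 * (-(I * q / p)) * x.1 * x.2
    + ρ / p * x.2 ^ 2) + -(2 * π * I * α / p) * x.1 + 2 * π * (β - q * α / p) * x.2
      + π * α ^ 2 / p) with hG
  set H : ℤ × ℤ → ℂ := fun y => cexp (-π / ρ * (r * (y.1 + I * α) ^ 2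
          - 2 * q * (y.1 + I * α) * (y.2 + I * β) + p * (y.2 + I * β) ^ 2)) with hH
  have SF : Summable F := by
    refine S0.congr (fun x => ?_)
    simp only [hF]; congr 1; ring
  have SH : Summable H := by
    refine S2.congr (fun x => ?_)
    simp only [hH]; congr 1
    have : I ^ 2 = -1 := I_sq
    field_simp
    linear_combination (r * α ^ 2 - 2 * q * α * β + p * β ^ 2) * this
  have st1 : ∀ n : ℤ, ∑' m : ℤ, F (m, n) = 1 / p ^ (1 / 2 : ℂ) * ∑' k : ℤ, G (k, n) := by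
    intro n
    have := Complex.tsum_exp_neg_quadratic hp (α - q * n)
    have e1 : ∀ m : ℤ, F (m, n) = cexp (-π * r * n ^ 2 + 2 * π * β * n) *
        cexp (-π * p * m ^ 2 + 2 * π * (α - q * n) * m) := by
      intro m; simp only [hF]; rw [← Complex.exp_add]; congr 1; ring
    have e2 : ∀ k : ℤ, G (k, n) = cexp (-π * r * n ^ 2 + 2 * π * β * n) *
        cexp (-π / p * (k + I * (α - q * n)) ^ 2) := by
      intro k; simp only [hG]; rw [← Complex.exp_add, ← hrp]; congr 1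
      have : I ^ 2 = -1 := I_sq
      field_simp
      linear_combination ((α - q * n) ^ 2) * this
    simp_rw [e1, e2, tsum_mul_left, this]
    ring
  have st2 : ∀ k : ℤ, ∑' n : ℤ, G (k, n)
      = 1 / ((ρ : ℂ) / p) ^ (1 / 2 : ℂ) * ∑' l : ℤ, H (k, l) := by
    intro k
    have := Complex.tsum_exp_neg_quadratic ha' (β + I * q * (k + I * α) / p)
    have e1 : ∀ n : ℤ, G (k, n) = cexp (-π / p * (k + I * α) ^ 2) *
        cexp (-π * (ρ / p) * n ^ 2 + 2 * π * (β + I * q * (k + I * α) / p) * n) := by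
      intro n; simp only [hG]; rw [← Complex.exp_add]; congr 1
      have : I ^ 2 = -1 := I_sq
      field_simp
      linear_combination (α ^ 2 - 2 * q * α * n) * this
    have e2 : ∀ l : ℤ, H (k, l) = cexp (-π / p * (k + I * α) ^ 2) *
        cexp (-π / (ρ / p) * (l + I * (β + I * q * (k + I * α) / p)) ^ 2) := by
      intro l; simp only [hH]; rw [← Complex.exp_add]; congr 1
      have h2 : I ^ 2 = -1 := I_sq
      have e3 : (l : ℂ) + I * (β + I * q * (k + I * α) / p)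
          = (l + I * β) - q * (k + I * α) / p := by
        field_simp
        linear_combination (q * (k + I * α)) * h2
      have e4 : r = (ρ + q ^ 2) / p := by rw [← hd]; field_simp; ring
      rw [e3, e4]
      field_simp
      ring
    simp_rw [e1, e2, tsum_mul_left, this]
    ring
  have SG : Summable G := S1
  calc ∑' x, F x = ∑' n : ℤ, ∑' m : ℤ, F (m, n) := by
        rw [SF.tsum_prod, ← (SF.tsum_comm (f := fun m n => F (m, n)))]
    _ = 1 / p ^ (1 / 2 : ℂ) * ∑' n : ℤ, ∑' k : ℤ, G (k, n) := by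
        simp_rw [st1, tsum_mul_left]
    _ = 1 / p ^ (1 / 2 : ℂ) * ∑' k : ℤ, ∑' n : ℤ, G (k, n) := by
        rw [SG.tsum_comm (f := fun m n => G (m, n))]
    _ = 1 / p ^ (1 / 2 : ℂ) * (1 / ((ρ : ℂ) / p) ^ (1 / 2 : ℂ) * ∑' y, H y) := by
        simp_rw [st2, tsum_mul_left]
        rw [SH.tsum_prod]
    _ = _ := by rw [← mul_assoc, poisA_root hp hρ]

end Vale.Agent.P026
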