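import Mathlib

/-! Gamma function bounds, a contour shift and a Gaussian integral. -/

namespace Vale.Agent.P026

open Complex MeasureTheory Filter Topology
open scoped ComplexConjugate

theorem melA_norm_Gamma_le {s : ℂ} (hs : 0 < s.re) : ‖Gamma s‖ ≤ Real.Gamma s.re := by
  rw [Gamma_eq_integral hs, Real.Gamma_eq_integral hs, GammaIntegral]
  refine (norm_integral_le_integral_norm _).trans (le_of_eq ?_)
  refine setIntegral_congr_fun measurableSet_Ioi fun x hx => ?_
  simp only [norm_mul, norm_real, Real.norm_eq_abs, abs_of_pos (Real.exp_pos _)]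
  rw [norm_cpow_eq_rpow_re_of_pos hx]
  simp

theorem melA_norm_sin_le (z : ℂ) : ‖sin z‖ ≤ Real.exp |z.im| := by
  have h1 : ‖cexp (-z * I)‖ ≤ Real.exp |z.im| := by
    rw [norm_exp]
    simpa using le_abs_self _
  have h2 : ‖cexp (z * I)‖ ≤ Real.exp |z.im| := by
    rw [norm_exp]
    simpa using neg_le_abs _
  have h3 := norm_sub_le (cexp (-z * I)) (cexp (z * I))
  rw [sin, norm_div, norm_mul, norm_I, mul_one]
  simp only [Complex.norm_ofNat]
  linarith

theorem melA_inv_Gamma_left (M : ℝ) : ∃ C : ℝ, 0 ≤ C ∧ ∀ s : ℂ, -M ≤ s.re → s.re ≤ 0 →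
    ‖(Gamma s)⁻¹‖ ≤ C * Real.exp (Real.pi * |s.im|) := by
  have hc : ContinuousOn Real.Gamma (Set.Icc 1 (1 + M)) := fun x hx =>
    (Real.differentiableAt_Gamma fun m hm => by
      have : (0 : ℝ) ≤ m := Nat.cast_nonneg m
      linarith [hx.1]).continuousAt.continuousWithinAt
  obtain ⟨C, hC⟩ := isCompact_Icc.exists_bound_of_continuousOn hc
  refine ⟨max C 0, le_max_right _ _, fun s h1 h2 => ?_⟩
  have hre : 0 < (1 - s).re := by simp; linarith
  have h0 : Gamma (1 - s) ≠ 0 := Gamma_ne_zero_of_re_pos hre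
  have e : (Gamma s)⁻¹ = Gamma (1 - s) * sin (Real.pi * s) / Real.pi := by
    have h := Gamma_mul_Gamma_one_sub s
    rw [← eq_div_iff h0] at h
    rw [h, inv_div, div_div_eq_mul_div]
  have h3 : ‖Gamma (1 - s)‖ ≤ max C 0 := by
    refine (melA_norm_Gamma_le hre).trans (le_trans ?_ (le_max_left _ _))
    exact (le_abs_self _).trans (hC _ ⟨by simp; linarith, by simp; linarith⟩)
  have h4 : ‖sin (Real.pi * s)‖ ≤ Real.exp (Real.pi * |s.im|) := by
    refine (melA_norm_sin_le _).trans (le_of_eq ?_)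
    simp [abs_mul, abs_of_pos Real.pi_pos]
  rw [e, norm_div, norm_mul, norm_real, Real.norm_eq_abs, abs_of_pos Real.pi_pos]
  refine (div_le_self (by positivity) (by linarith [Real.pi_gt_three])).trans ?_
  exact mul_le_mul h3 h4 (norm_nonneg _) (le_max_right _ _)

theorem melA_inv_Gamma (M : ℝ) : ∃ C : ℝ, 0 ≤ C ∧ ∀ s : ℂ, |s.re| ≤ M →
    ‖(Gamma s)⁻¹‖ ≤ C * Real.exp (Real.pi * |s.im|) := by
  obtain ⟨C, hC0, hC⟩ := melA_inv_Gamma_left (M + 1)
  have key : ∀ m : ℕ, ∀ s : ℂ, -(M + 1) ≤ s.re → s.re ≤ m → 0 ≤ M → 1 ≤ |s.im| →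
      ‖(Gamma s)⁻¹‖ ≤ C * Real.exp (Real.pi * |s.im|) := by
    intro m
    induction m with
    | zero => exact fun s h1 h2 _ _ => hC s h1 (by simpa using h2)
    | succ m ih =>
      intro s h1 h2 hM h3
      rcases le_or_gt s.re m with h | h
      · exact ih s h1 h hM h3
      have hm : (0 : ℝ) ≤ m := Nat.cast_nonneg m
      have h4 : 1 ≤ ‖s - 1‖ := h3.trans (by simpa using abs_im_le_norm (s - 1))
      have h5 : s - 1 ≠ 0 := norm_pos_iff.1 (by linarith)
      have h6 := ih (s - 1) (by simp; linarith) (by push_cast at h2; simp; linarith) hM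
        (by simpa using h3)
      have e : Gamma s = (s - 1) * Gamma (s - 1) := by
        rw [← Gamma_add_one _ h5, sub_add_cancel]
      rw [e, mul_inv, norm_mul, norm_inv]
      simp only [sub_im, one_im, sub_zero] at h6
      refine le_trans (mul_le_of_le_one_left (norm_nonneg _) (inv_le_one_of_one_le₀ h4)) h6
  have hK : IsCompact (Set.Icc (-M) M ×ℂ Set.Icc (-1 : ℝ) 1) := isCompact_Icc.reProdIm isCompact_Icc
  obtain ⟨D, hD⟩ := hK.exists_bound_of_continuousOn
    differentiable_one_div_Gamma.continuous.continuousOn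
  refine ⟨max C D, hC0.trans (le_max_left _ _), fun s hs => ?_⟩
  have hM : 0 ≤ M := (abs_nonneg _).trans hs
  rcases le_total 1 |s.im| with h | h
  · obtain ⟨m, hm⟩ := exists_nat_ge M
    refine (key m s (by linarith [neg_abs_le s.re]) (by linarith [le_abs_self s.re]) hM h).trans ?_
    gcongr
    exact le_max_left _ _
  · refine (hD s ⟨abs_le.1 hs, abs_le.1 h⟩).trans ((le_max_right C D).trans ?_)
    exact le_mul_of_one_le_right (hC0.trans (le_max_left _ _)) (Real.one_le_exp (by positivity))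

theorem melA_ratio (z : ℂ) (hz : 0 < z.re) (m : ℕ) :
    ‖Gamma (conj z + m) * (Gamma (z - m))⁻¹‖ ≤ (‖z‖ + m) ^ (2 * m) := by
  induction m with
  | zero =>
    simp only [Nat.cast_zero, add_zero, sub_zero, mul_zero, pow_zero]
    rw [Gamma_conj, norm_mul, norm_inv, Complex.norm_conj]
    exact mul_inv_le_one
  | succ m ih =>
    have hm : (0 : ℝ) ≤ m := Nat.cast_nonneg m
    have h0 : conj z + m ≠ 0 := fun h => by
      have := congrArg re h
      simp at this
      linarith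
    have e1 : Gamma (conj z + ((m + 1 : ℕ) : ℂ)) = (conj z + m) * Gamma (conj z + m) := by
      rw [← Gamma_add_one _ h0]
      push_cast
      rw [add_assoc]
    have e2 : (Gamma (z - ((m + 1 : ℕ) : ℂ)))⁻¹ = (z - (m + 1)) * (Gamma (z - m))⁻¹ := by
      have := one_div_Gamma_eq_self_mul_one_div_Gamma_add_one (z - (m + 1))
      rw [show z - (m + 1) + 1 = z - m by ring] at this
      push_cast
      exact this
    have h1 : ‖conj z + m‖ ≤ ‖z‖ + (m + 1) := by
      refine (norm_add_le _ _).trans ?_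
      simp
    have h2 : ‖z - (m + 1)‖ ≤ ‖z‖ + (m + 1) := by
      refine (norm_sub_le _ _).trans ?_
      have : ‖(m + 1 : ℂ)‖ ≤ m + 1 := (norm_add_le _ _).trans (by simp)
      linarith
    have h3 : (‖z‖ + m) ^ (2 * m) ≤ (‖z‖ + (m + 1)) ^ (2 * m) := by
      gcongr
      linarith
    rw [e1, e2, mul_mul_mul_comm, norm_mul, norm_mul]
    push_cast
    calc ‖conj z + m‖ * ‖z - (m + 1)‖ * ‖Gamma (conj z + m) * (Gamma (z - m))⁻¹‖
        ≤ (‖z‖ + (m + 1)) * (‖z‖ + (m + 1)) * (‖z‖ + (m + 1)) ^ (2 * m) := by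
          gcongr
          exact ih.trans h3
      _ = _ := by ring

theorem melA_int_gauss (C : ℝ) : Integrable fun τ : ℝ => C * Real.exp (-(1 / 8) * τ ^ 2) :=
  (integrable_exp_neg_mul_sq (by norm_num : (0 : ℝ) < 1 / 8)).const_mul C

theorem melA_int_line {f : ℂ → ℂ} (hf : Continuous f) {σ C : ℝ}
    (hb : ∀ τ : ℝ, ‖f (σ + τ * I)‖ ≤ C * Real.exp (-(1 / 8) * τ ^ 2)) :
    Integrable fun τ : ℝ => f (σ + τ * I) :=
  (melA_int_gauss C).mono' (by fun_prop) (Eventually.of_forall hb)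

/-- Shifting a vertical line of integration. -/
theorem melA_shift {f : ℂ → ℂ} (hf : Differentiable ℂ f) {a b C : ℝ} (hab : a ≤ b)
    (hb : ∀ σ ∈ Set.Icc a b, ∀ τ : ℝ, ‖f (σ + τ * I)‖ ≤ C * Real.exp (-(1 / 8) * τ ^ 2)) :
    ∫ τ : ℝ, f (a + τ * I) = ∫ τ : ℝ, f (b + τ * I) := by
  have ia := melA_int_line hf.continuous (hb a ⟨le_rfl, hab⟩)
  have ib := melA_int_line hf.continuous (hb b ⟨hab, le_rfl⟩)
  have la := intervalIntegral_tendsto_integral ia tendsto_neg_atTop_atBot tendsto_id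
  have lb := intervalIntegral_tendsto_integral ib tendsto_neg_atTop_atBot tendsto_id
  have hz : Tendsto (fun T : ℝ => C * Real.exp (-(1 / 8) * T ^ 2) * |b - a|) atTop (𝓝 0) := by
    have h1 : Tendsto (fun T : ℝ => -(1 / 8) * T ^ 2) atTop atBot :=
      (tendsto_pow_atTop two_ne_zero).const_mul_atTop_of_neg (by norm_num)
    simpa using ((Real.tendsto_exp_atBot.comp h1).const_mul C).mul_const |b - a|
  have hor : ∀ T : ℝ, ‖∫ x : ℝ in a..b, f (x + T * I)‖ ≤
      C * Real.exp (-(1 / 8) * T ^ 2) * |b - a| := fun T =>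
    intervalIntegral.norm_integral_le_of_norm_le_const fun x hx => by
      rw [Set.uIoc_of_le hab] at hx
      exact hb x ⟨hx.1.le, hx.2⟩ T
  have h1 : Tendsto (fun T : ℝ => ∫ x : ℝ in a..b, f (x + T * I)) atTop (𝓝 0) :=
    squeeze_zero_norm hor hz
  have h2 : Tendsto (fun T : ℝ => ∫ x : ℝ in a..b, f (x + (-T : ℝ) * I)) atTop (𝓝 0) :=
    squeeze_zero_norm (fun T => by simpa using hor (-T)) hz
  have h3 := ((h2.sub h1).add (lb.const_smul I)).sub (la.const_smul I)
  have h4 : ∀ T : ℝ, (∫ x : ℝ in a..b, f (x + (-T : ℝ) * I)) - (∫ x : ℝ in a..b, f (x + T * I)) +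
      I • (∫ y : ℝ in (-T)..(id T), f (b + y * I)) -
      I • (∫ y : ℝ in (-T)..(id T), f (a + y * I)) = 0 := fun T =>
    integral_boundary_rect_eq_zero_of_differentiableOn f ⟨a, -T⟩ ⟨b, T⟩ hf.differentiableOn
  simp only [h4] at h3
  have h5 := tendsto_nhds_unique h3 tendsto_const_nhds
  simp only [sub_zero, zero_add, smul_eq_mul, sub_eq_zero] at h5
  exact (mul_left_cancel₀ I_ne_zero h5).symm

/-- The Gaussian integral inverting the Mellin transform of the weight. -/
theorem melA_gauss (σ t L : ℝ) :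
    ∫ τ : ℝ, cexp ((σ + τ * I + t * I) ^ 2 / 4 - (σ + τ * I + t * I) * L) =
      2 * (√Real.pi : ℝ) * (Real.exp (-L ^ 2) : ℝ) := by
  have h := integral_cexp_quadratic (b := -(1 / 4)) (by norm_num)
    (I * ((σ + t * I) / 2 - L)) ((σ + t * I) ^ 2 / 4 - (σ + t * I) * L)
  have e1 : ∀ τ : ℝ, (σ + τ * I + t * I) ^ 2 / 4 - (σ + τ * I + t * I) * L =
      -(1 / 4) * (τ : ℂ) ^ 2 + I * ((σ + t * I) / 2 - L) * τ +
        ((σ + t * I) ^ 2 / 4 - (σ + t * I) * L) := fun τ => by
    linear_combination (τ : ℂ) ^ 2 / 4 * I_sq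
  simp only [e1]
  rw [h]
  congr 1
  · have : (Real.pi : ℂ) / - -(1 / 4) = ((2 * √Real.pi : ℝ) : ℂ) ^ 2 := by
      rw [← ofReal_pow, mul_pow, Real.sq_sqrt Real.pi_pos.le]
      push_cast
      ring
    rw [this, show (1 / 2 : ℂ) = ((2 : ℕ) : ℂ)⁻¹ by norm_num, pow_cpow_nat_inv two_ne_zero]
    · push_cast
      rfl
    · rw [arg_ofReal_of_nonneg (by positivity)]
      have := Real.pi_pos
      simp only [Nat.cast_ofNat]
      linarith
    · rw [arg_ofReal_of_nonneg (by positivity)]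
      positivity
  · rw [ofReal_exp]
    congr 1
    push_cast
    linear_combination ((σ + t * I) / 2 - L) ^ 2 * I_sq

end Vale.Agent.P026
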