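import Vale.Agent.P026.Gauss

/-! The finite Fourier identity behind the self-dual Poisson inequality. -/

namespace Vale.Agent.P026

open Eis Complex
open scoped Classical ComplexConjugate

theorem lp_mul_div {D : Eis} (hD : D ≠ 0) (c : Eis) : D * c / D = c :=
  mul_div_cancel_left₀ c hD

theorem lp_div_mul {D c : Eis} (hD : D ≠ 0) (h : D ∣ c) : D * (c / D) = c :=
  EuclideanDomain.mul_div_cancel' hD h

theorem lp_P0_div {D c : Eis} (hD : P0 D) (hc : P0 c) (h : D ∣ c) :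
    P0 (c / D) ∧ IsCoprime D (c / D) :=
  (P0.of_mul hD.1.1 (by rwa [lp_div_mul hD.ne_zero h])).2

theorem lp_sum_divs {p x : Eis} (hp : Prime p) (h1 : P1 p) (hx : x ≠ 0) (h : ¬ p ∣ x)
    (f : Eis → ℂ) : ∑ D ∈ divs (p * x), f D = ∑ D ∈ divs x, (f D + f (p * D)) := by
  have hpx : p * x ≠ 0 := mul_ne_zero hp.ne_zero hx
  have hP := P0.of_prime hp h1
  rw [Finset.sum_add_distrib, ← Finset.sum_filter_add_sum_filter_not (divs (p * x))
    (fun D => ¬ p ∣ D)]
  congr 1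
  · refine Finset.sum_congr ?_ fun _ _ => rfl
    ext D
    simp only [Finset.mem_filter, mem_divs hpx, mem_divs hx]
    constructor
    · rintro ⟨⟨a, b⟩, c⟩
      exact ⟨a, ((hp.coprime_iff_not_dvd.2 c).symm).dvd_of_dvd_mul_left b⟩
    · rintro ⟨a, b⟩
      exact ⟨⟨a, b.mul_left p⟩, fun c => h (c.trans b)⟩
  · symm
    refine Finset.sum_bij (fun D _ => p * D) ?_ ?_ ?_ fun _ _ => rfl
    · intro D hD
      obtain ⟨a, b⟩ := (mem_divs hx).1 hD
      simp only [Finset.mem_filter, mem_divs hpx, not_not]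
      exact ⟨⟨hP.mul a (hp.coprime_iff_not_dvd.2 fun c => h (c.trans b)), mul_dvd_mul_left p b⟩,
        dvd_mul_right _ _⟩
    · intro D _ E _ e
      exact mul_left_cancel₀ hp.ne_zero e
    · intro D hD
      simp only [Finset.mem_filter, mem_divs hpx, not_not] at hD
      obtain ⟨⟨a, b⟩, E, rfl⟩ := hD
      exact ⟨E, (mem_divs hx).2 ⟨(P0.of_mul h1.1 a).2.1,
        (mul_dvd_mul_iff_left hp.ne_zero).1 b⟩, rfl⟩

theorem lp_divs_one : divs 1 = {1} := by
  ext D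
  rw [mem_divs one_ne_zero, Finset.mem_singleton]
  exact ⟨fun h => h.1.1.1.eq_one_of_isUnit (isUnit_of_dvd_one h.2),
    fun h => by rw [h]; exact ⟨P0.one, dvd_rfl⟩⟩

/-- The self-dual local function. -/
noncomputable def lpPhi (g m : Eis) : ℂ :=
  ∑ D ∈ divs g, if D ^ 2 ∣ m then (N D : ℂ) * cop (g / D) m else 0

/-- Its factor at a prime. -/
noncomputable def lpLoc (p m : Eis) : ℂ :=
  (if p ∣ m then 0 else 1) + if p ^ 2 ∣ m then (N p : ℂ) else 0

theorem lp_cop_mul (x y m : Eis) : cop (x * y) m = cop x m * cop y m := by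
  unfold cop
  by_cases h1 : IsCoprime m x <;> by_cases h2 : IsCoprime m y <;>
    simp [IsCoprime.mul_right_iff, h1, h2]

theorem lp_cop_prime {p : Eis} (hp : Prime p) (m : Eis) : cop p m = if p ∣ m then 0 else 1 := by
  unfold cop
  by_cases h : p ∣ m
  · rw [if_pos h, if_neg fun c => hp.coprime_iff_not_dvd.1 c.symm h]
  · rw [if_neg h, if_pos (hp.coprime_iff_not_dvd.2 h).symm]

theorem lpPhi_one (m : Eis) : lpPhi 1 m = 1 := by
  simp [lpPhi, lp_divs_one, cop, isCoprime_one_right]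

theorem lpPhi_mul {p g : Eis} (hp : Prime p) (h1 : P1 p) (hg : P0 g) (h : ¬ p ∣ g) (m : Eis) :
    lpPhi (p * g) m = lpLoc p m * lpPhi g m := by
  unfold lpPhi
  rw [lp_sum_divs hp h1 hg.ne_zero h, Finset.mul_sum]
  refine Finset.sum_congr rfl fun D hD => ?_
  obtain ⟨a, E, rfl⟩ := (mem_divs hg.ne_zero).1 hD
  have hD0 := a.ne_zero
  have e1 : p * (D * E) / D = p * E := by
    rw [show p * (D * E) = D * (p * E) by ring, lp_mul_div hD0]
  have e2 : p * (D * E) / (p * D) = E := by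
    rw [← mul_assoc, lp_mul_div (mul_ne_zero hp.ne_zero hD0)]
  have hc : IsCoprime (p ^ 2) (D ^ 2) :=
    (hp.coprime_iff_not_dvd.2 fun c => h (c.mul_right E)).pow
  have e3 : (p * D) ^ 2 ∣ m ↔ p ^ 2 ∣ m ∧ D ^ 2 ∣ m := by
    rw [mul_pow]
    exact ⟨fun c => ⟨(dvd_mul_right _ _).trans c, (dvd_mul_left _ _).trans c⟩,
      fun c => hc.mul_dvd c.1 c.2⟩
  rw [e1, e2, lp_mul_div hD0, lp_cop_mul, lp_cop_prime hp, N_mul, lpLoc]
  simp only [e3]
  by_cases u : p ^ 2 ∣ m <;> by_cases v : D ^ 2 ∣ m <;> by_cases z : p ∣ m <;>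
    simp [u, v, z] <;> ring

theorem lpLoc_unit {p u : Eis} (hu : IsCoprime u p) (m : Eis) :
    lpLoc p (u * m) = lpLoc p m := by
  have e1 : p ∣ u * m ↔ p ∣ m := ⟨hu.symm.dvd_of_dvd_mul_left, fun c => c.mul_left u⟩
  have e2 : p ^ 2 ∣ u * m ↔ p ^ 2 ∣ m :=
    ⟨(hu.symm.pow_left).dvd_of_dvd_mul_left, fun c => c.mul_left u⟩
  simp only [lpLoc, e1, e2]

theorem lpPhi_unit {g : Eis} (hg : P0 g) :
    ∀ u, IsCoprime u g → ∀ m, lpPhi g (u * m) = lpPhi g m := by
  refine P0.induction (Pr := fun g => ∀ u, IsCoprime u g → ∀ m, lpPhi g (u * m) = lpPhi g m)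
    (fun u _ m => by rw [lpPhi_one, lpPhi_one]) (fun p x hp h1 hx h ih u hu m => ?_) hg
  rw [lpPhi_mul hp h1 hx h, lpPhi_mul hp h1 hx h, lpLoc_unit hu.of_mul_right_left,
    ih u hu.of_mul_right_right]

theorem lp_per_loc (p : Eis) : Per (p ^ 2) (lpLoc p) := fun x y => by
  have e1 : p ∣ x + p ^ 2 * y ↔ p ∣ x :=
    dvd_add_left ((dvd_pow_self p two_ne_zero).mul_right y)
  have e2 : p ^ 2 ∣ x + p ^ 2 * y ↔ p ^ 2 ∣ x := dvd_add_left (dvd_mul_right _ _)
  simp only [lpLoc, e1, e2]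

theorem lp_per_phi {g : Eis} (hg : P0 g) : Per (g ^ 2) (lpPhi g) := by
  refine P0.induction (Pr := fun g => Per (g ^ 2) (lpPhi g))
    (fun x y => by rw [lpPhi_one, lpPhi_one]) (fun p x hp h1 hx h ih => ?_) hg
  have : lpPhi (p * x) = fun m => lpLoc p m * lpPhi x m := funext (lpPhi_mul hp h1 hx h)
  rw [this, mul_pow]
  exact ((lp_per_loc p).of_dvd (dvd_mul_right _ _)).mul (ih.of_dvd (dvd_mul_left _ _))

/-- Gauss sums factor along coprime moduli. -/
theorem lp_gauss_crt {c d : Eis} (hc : c ≠ 0) (hd : d ≠ 0) (hcd : IsCoprime c d)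
    {F G : Eis → ℂ} (hF : Per c F) (hG : Per d G) (h : Eis) :
    gauss (fun x => F x * G x) (c * d) h =
      gauss (fun x => F (d * x)) c h * gauss (fun x => G (c * x)) d h := by
  unfold gauss
  rw [sum_res_crt hc hd hcd (((hF.of_dvd (dvd_mul_right _ _)).mul
    (hG.of_dvd (dvd_mul_left _ _))).mul (per_psi _ h)), Finset.sum_mul_sum]
  refine Finset.sum_congr rfl fun u _ => Finset.sum_congr rfl fun v _ => ?_
  have e1 : psi (c * d) (h * (d * u + c * v)) = psi c (h * u) * psi d (h * v) := by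
    rw [show h * (d * u + c * v) = d * (h * u) + c * (h * v) by ring, psi_add, psi_mul_left hd,
      mul_comm c d, psi_mul_left hc]
  rw [e1, hF, add_comm (d * u), hG]
  ring

theorem lp_gauss_loc {p : Eis} (hp : Prime p) (h : Eis) :
    gauss (lpLoc p) (p ^ 2) h = (N p : ℂ) * lpLoc p h := by
  have hp0 := hp.ne_zero
  have hpp : p ^ 2 ≠ 0 := pow_ne_zero 2 hp0
  have ind : ∀ {q r : Eis}, q ≠ 0 → r ≠ 0 →
      ∑ x ∈ res (q * r), (if q ∣ x then 1 else 0) * psi (q * r) (h * x) =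
        if r ∣ h then (N r : ℂ) else 0 := by
    intro q r hq hr
    have per : Per (q * r) fun x => (if q ∣ x then (1 : ℂ) else 0) := fun x y => by
      simp only [dvd_add_left ((dvd_mul_right q r).mul_right y)]
    rw [sum_res_mul hq hr (per.mul (per_psi _ h)),
      Finset.sum_eq_single_of_mem (0 % q) (mod_mem_res hq 0), ← sum_psi hr h]
    · refine Finset.sum_congr rfl fun v _ => ?_
      rw [EuclideanDomain.zero_mod, zero_add, if_pos (dvd_mul_right _ _), one_mul,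
        show h * (q * v) = q * (h * v) by ring, mul_comm q r, psi_mul_left hq]
    · intro u hu hne
      refine Finset.sum_eq_zero fun v _ => ?_
      rw [if_neg, zero_mul]
      intro c
      refine hne (res_unique hu (mod_mem_res hq 0) ?_)
      rw [EuclideanDomain.zero_mod, sub_zero]
      exact (dvd_add_left (dvd_mul_right _ _)).1 c
  have e : ∀ x, lpLoc p x = 1 - (if p ∣ x then 1 else 0) +
      (N p : ℂ) * (if p ^ 2 ∣ x then 1 else 0) := fun x => by
    unfold lpLoc; split_ifs <;> ring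
  have i1 := ind hp0 hp0
  have i2 := ind hpp one_ne_zero
  rw [← sq] at i1
  rw [mul_one] at i2
  unfold gauss
  simp only [e, add_mul, sub_mul, one_mul, mul_assoc, Finset.sum_add_distrib,
    Finset.sum_sub_distrib, ← Finset.mul_sum, i1, i2, sum_psi hpp, N_pow]
  split_ifs <;> simp_all <;> ring

theorem lp_gauss_phi {g : Eis} (hg : P0 g) (h : Eis) :
    gauss (lpPhi g) (g ^ 2) h = (N g : ℂ) * lpPhi g h := by
  refine P0.induction (Pr := fun g => gauss (lpPhi g) (g ^ 2) h = (N g : ℂ) * lpPhi g h)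
    ?_ (fun p x hp h1 hx hpx ih => ?_) hg
  · have := sum_psi (c := 1) one_ne_zero h
    simp only [gauss, lpPhi_one, one_pow, one_mul]
    simpa using this
  · have e : lpPhi (p * x) = fun m => lpLoc p m * lpPhi x m := funext (lpPhi_mul hp h1 hx hpx)
    have hc : IsCoprime p x := hp.coprime_iff_not_dvd.2 hpx
    rw [e, mul_pow, lp_gauss_crt (pow_ne_zero 2 hp.ne_zero) (pow_ne_zero 2 hx.ne_zero) hc.pow
      (lp_per_loc p) (lp_per_phi hx)]
    simp only [lpLoc_unit hc.symm.pow_left, lpPhi_unit hx _ hc.pow_left]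
    rw [lp_gauss_loc hp, ih, N_mul]
    push_cast; ring

/-- The kernel of the self-dual second moment. -/
noncomputable def lpK (j : ℕ) (c1 c2 m : Eis) : ℂ :=
  ∑ D ∈ divs c1, if D ∣ c2 ∧ D ^ 2 ∣ m then
    (N D : ℂ) * (chi j m (c1 / D) * conj (chi j m (c2 / D))) else 0

theorem lp_chi_mul_conj (j : ℕ) (m : Eis) {c : Eis} (hc : c ≠ 0) :
    chi j m c * conj (chi j m c) = cop c m := by
  unfold cop
  split_ifs with h
  · rw [mul_conj, normSq_eq_norm_sq, norm_chi j h]; simp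
  · rw [(chi_eq_zero j hc).2 h, zero_mul]

theorem lpK_eq (j : ℕ) {g x y : Eis} (hg : P0 g) (hx : P0 x) (hy : P0 y) (hgx : IsCoprime g x)
    (hxy : IsCoprime x (g * y)) (m : Eis) :
    lpK j (g * x) (g * y) m = chi j m x * (conj (chi j m y) * lpPhi g m) := by
  have h0 : g * x ≠ 0 := mul_ne_zero hg.ne_zero hx.ne_zero
  unfold lpK lpPhi
  rw [Finset.mul_sum, Finset.mul_sum]
  symm
  refine Finset.sum_subset_zero_on_sdiff (fun D hD => ?_) (fun D hD => ?_) fun D hD => ?_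
  · obtain ⟨a, b⟩ := (mem_divs hg.ne_zero).1 hD
    exact (mem_divs h0).2 ⟨a, b.mul_right x⟩
  · obtain ⟨h1, h2⟩ := Finset.mem_sdiff.1 hD
    obtain ⟨a, b⟩ := (mem_divs h0).1 h1
    rw [if_neg]
    rintro ⟨c, -⟩
    exact h2 ((mem_divs hg.ne_zero).2 ⟨a,
      ((hxy.of_isCoprime_of_dvd_right c).symm).dvd_of_dvd_mul_right b⟩)
  · obtain ⟨a, E, rfl⟩ := (mem_divs hg.ne_zero).1 hD
    have hD0 := a.ne_zero
    have hE : E ≠ 0 := right_ne_zero_of_mul hg.ne_zero
    rw [mul_assoc D E x, mul_assoc D E y, lp_mul_div hD0, lp_mul_div hD0, lp_mul_div hD0,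
      chi_mul_right j m hE hx.ne_zero, chi_mul_right j m hE hy.ne_zero, ← lp_chi_mul_conj j m hE]
    by_cases v : D ^ 2 ∣ m
    · rw [if_pos v, if_pos ⟨dvd_mul_right _ _, v⟩, map_mul]; ring
    · rw [if_neg v, if_neg fun c => v c.2]; simp

theorem lp_split {c1 c2 : Eis} (h1 : P0 c1) (h2 : P0 c2) : ∃ g x y, P0 g ∧ P0 x ∧ P0 y ∧
    c1 = g * x ∧ c2 = g * y ∧ IsCoprime g x ∧ IsCoprime g y ∧ IsCoprime x (g * y) := by
  obtain ⟨g, x, hg, hx, rfl, ⟨y, rfl⟩, hc, -⟩ := exists_gcd_P0 h1 h2.ne_zero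
  exact ⟨g, x, y, hg, hx, (P0.of_mul hg.1.1 h2).2.1, rfl, rfl, (P0.of_mul hg.1.1 h1).2.2,
    (P0.of_mul hg.1.1 h2).2.2, hc⟩

theorem lp_per_chi (j : ℕ) (c : Eis) : Per c fun m => chi j m c :=
  Per.of_congr fun _ _ h => chi_congr j h

theorem lp_per_K (j : ℕ) {c1 c2 : Eis} (h1 : P0 c1) (h2 : P0 c2) :
    Per (c1 * c2) (lpK j c1 c2) := by
  obtain ⟨g, x, y, hg, hx, hy, rfl, rfl, hgx, -, hxy⟩ := lp_split h1 h2
  rw [funext (lpK_eq j hg hx hy hgx hxy)]
  refine ((lp_per_chi j x).of_dvd ⟨g * g * y, by ring⟩).mul (Per.mul ?_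
    ((lp_per_phi hg).of_dvd ⟨x * y, by ring⟩))
  exact Per.of_congr fun a b h => by
    rw [chi_congr j ((show y ∣ g * x * (g * y) from ⟨g * x * g, by ring⟩).trans h)]

/-- The finite Fourier identity. -/
theorem lp_gauss_K {j j' : ℕ} (hj : 3 ∣ j + j') {c1 c2 : Eis} (h1 : P0 c1) (h2 : P0 c2)
    (h4 : (4 : Eis) ∣ c1 - c2) (h : Eis) :
    gauss (lpK j c1 c2) (c1 * c2) h =
      (ab c1 : ℂ) * ab c2 * (Gt j c1 * conj (Gt j c2)) * lpK j' c1 c2 h := by
  obtain ⟨g, x, y, hg, hx, hy, rfl, rfl, hgx, hgy, hxy⟩ := lp_split h1 h2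
  have hj' : 3 ∣ j' + j := by rwa [add_comm]
  have hxy' : IsCoprime x y := hxy.of_mul_right_right
  have e0 : g * x * (g * y) = x * (y * g ^ 2) := by ring
  have hK : lpK j (g * x) (g * y) = fun m => chi j m x * (chi j' m y * lpPhi g m) :=
    funext fun m => by rw [lpK_eq j hg hx hy hgx hxy, conj_chi hj m hy.ne_zero]
  have g2 : g ^ 2 ≠ 0 := pow_ne_zero 2 hg.ne_zero
  have pyg : Per (y * g ^ 2) fun m => chi j' m y * lpPhi g m :=
    ((lp_per_chi j' y).of_dvd (dvd_mul_right _ _)).mul ((lp_per_phi hg).of_dvd (dvd_mul_left _ _))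
  rw [hK, e0, lp_gauss_crt hx.ne_zero (mul_ne_zero hy.ne_zero g2)
    (hxy'.mul_right hgx.symm.pow_right) (lp_per_chi j x) pyg,
    lp_gauss_crt (F := fun m => chi j' (x * m) y) (G := fun m => lpPhi g (x * m)) hy.ne_zero g2
      hgy.symm.pow_right ((lp_per_chi j' y).comp_mul x) ((lp_per_phi hg).comp_mul x),
    lpK_eq j' hg hx hy hgx hxy, conj_chi hj' h hy.ne_zero]
  have gm : ∀ (k : ℕ) (u : Eis) {c : Eis}, P1 c → gauss (fun m => chi k (u * m) c) c h =
      chi k u c * gauss (fun m => chi k m c) c h := fun k u c hc => by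
    simp only [gauss, chi_mul_left k u _ hc, Finset.mul_sum, mul_assoc]
  simp only [← mul_assoc x, lpPhi_unit hg _ (hgx.symm.mul_left hgy.symm)]
  rw [gm j _ hx.1, gm j' _ hy.1, gauss_chi hj hx, gauss_chi hj' hy, lp_gauss_phi hg,
    Gt_mul j hg hx hgx, Gt_mul j hg hy hgy, sq, chi_mul_left j _ _ hx.1, chi_mul_left j _ _ hx.1,
    chi_mul_left j' _ _ hy.1, chi_mul_left j' _ _ hy.1, map_mul, map_mul, map_mul,
    conj_chi hj g hy.ne_zero, conj_chi hj y hg.ne_zero, chi_recip j hx.1 hg.1,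
    chi_recip j' hy.1 hg.1, chi_recip j' hx.1 hy.1, ab_mul, ab_mul]
  have h4' : (4 : Eis) ∣ x - y := by
    have c2 : IsCoprime (2 : Eis) g := prime_two.coprime_iff_not_dvd.2 hg.1.2
    have c4 : IsCoprime (4 : Eis) g := by
      rw [show (4 : Eis) = 2 ^ 2 by norm_num]; exact c2.pow_left
    exact c4.dvd_of_dvd_mul_left (by rwa [mul_sub])
  have r1 : Rq x y = quad (-1) y := by rw [Rq_congr h4' (y' := y) (by simp), Rq_self hy.1.2]
  have r2 : Rq x g * Rq y g = 1 := by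
    rw [Rq_congr h4' (y' := g) (by simp), ← sq, Rq_sq hy.1.2 hg.1.2]
  have r3 : quad (-1) y * quad (-1) y = 1 := by
    rw [← sq, quad_sq (isCoprime_one_left.neg_left)]
  have nG : ∀ {c}, P0 c → Gt j c * conj (Gt j c) = 1 := fun hc => by
    rw [mul_conj, normSq_eq_norm_sq, norm_Gt j hc]; simp
  have r4 : Gt j' y = quad (-1) y * conj (Gt j y) := by
    rw [← Gt_mul_Gt hj hy]; linear_combination (-Gt j' y) * nG hy
  have r5 : chi j y x * chi j' y x = 1 := by
    rw [← conj_chi hj y hx.ne_zero, lp_chi_mul_conj j y hx.ne_zero, cop, if_pos hxy'.symm]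
  have r6 : (N g : ℂ) = ab g * ab g := by rw [← ab_sq]; push_cast; ring
  rw [r1, r4, r6]
  push_cast
  set Z := chi j g x * chi j g x * chi j' g y * chi j' g y * chi j' h x * chi j h y * ab x * ab y *
    ab g * ab g * Gt j x * conj (Gt j y) * lpPhi g h with hZ
  linear_combination (Z * (quad (-1) y * quad (-1) y)) * r5 + Z * r3 -
    (Z * (Rq x g * Rq y g)) * nG hg - Z * r2

end Vale.Agent.P026
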