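import Vale.Agent.P026.Gauss

/-! Algebraic lemmas for Kubota's theorem. -/

namespace Vale.Agent.P026

open Eis Complex
open scoped Classical ComplexConjugate

theorem kb_shift {c d : Eis} (hc : (3 : Eis) ∣ c) (hd : Prim d) (y : Eis) :
    cub c (d + 3 * y * c) = cub c d := by
  obtain ⟨e, rfl⟩ := hc
  exact (cub_per hd ⟨-(y * e), by ring⟩ ⟨-(3 * y), by ring⟩).symm

theorem kb_core {a b c d x y : Eis} (det : a * d - b * c = 1) (hb : (3 : Eis) ∣ b)
    (hd : Prim d) (hx : (3 : Eis) ∣ x) (hy : Prim y) (h : IsCoprime x d) :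
    cub (x * a + y * c) (x * b + y * d) = cub x y * cub c d := by
  have hyd := hy.mul hd
  have h9 : (9 : Eis) ∣ x * b := by
    rw [show (9 : Eis) = 3 * 3 by norm_num]; exact mul_dvd_mul hx hb
  have hD : Prim (x * b + y * d) :=
    hyd.of_dvd_sub (by simpa using Dvd.dvd.trans ⟨3, by norm_num⟩ h9)
  have e1 : cub d (x * b + y * d) * cub (x * a + y * c) (x * b + y * d) =
      cub x (x * b + y * d) := by
    rw [← cub_mul_left _ _ hD.not_lam_dvd]
    exact cub_congr ⟨c, by linear_combination x * det⟩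
  have e2 : cub d (x * b + y * d) = cub x d * cub b d := by
    rw [cub_recip hd hD, ← cub_mul_left _ _ hd.not_lam_dvd]
    exact cub_congr ⟨y, by ring⟩
  have e3 : cub x (x * b + y * d) = cub x y * cub x d := by
    rw [← cub_mul_right _ hy.ne_zero hd.ne_zero]
    exact cub_per hD (by simpa using h9) (by simp)
  have e4 : cub b d * cub c d = 1 := by
    rw [← cub_mul_left _ _ hd.not_lam_dvd, ← cub_one_left hd.not_lam_dvd,
      ← cub_neg_left 1 hd.not_lam_dvd]
    exact cub_congr ⟨a, by linear_combination -det⟩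
  have e5 : cub x d ≠ 0 := fun h0 => (cub_eq_zero hd.ne_zero).1 h0 h
  rw [e2, e3] at e1
  apply mul_left_cancel₀ e5
  linear_combination cub c d * e1 - (cub x d * cub (x * a + y * c) (x * b + y * d)) * e4

theorem kb_exists_aux (a : Eis) {c : Eis} (hc : c ≠ 0) :
    ∃ y : Eis, IsCoprime y a ∧ ∀ p, Prime p → p ∣ c → ¬ p ∣ a → p ∣ y := by
  induction c using UniqueFactorizationMonoid.induction_on_prime with
  | h₁ => exact absurd rfl hc
  | h₂ u hu => exact ⟨1, isCoprime_one_left, fun p hp h _ =>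
      absurd (isUnit_of_dvd_unit h hu) hp.not_isUnit⟩
  | h₃ c q hc0 hq ih =>
    obtain ⟨y, hy, H⟩ := ih hc0
    by_cases hqa : q ∣ a
    · refine ⟨y, hy, fun p hp h hpa => ?_⟩
      rcases hp.dvd_or_dvd h with h | h
      · exact absurd (h.trans hqa) hpa
      · exact H p hp h hpa
    · refine ⟨q * y, (ga_cop hq hqa).symm.mul_left hy, fun p hp h hpa => ?_⟩
      rcases hp.dvd_or_dvd h with h | h
      · exact h.mul_right _
      · exact (H p hp h hpa).mul_left _

theorem kb_exists {a b c : Eis} (hab : IsCoprime a b) (hc : c ≠ 0) :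
    ∃ y : Eis, IsCoprime c (a + y * b) := by
  obtain ⟨y, hy, H⟩ := kb_exists_aux a hc
  refine ⟨y, isCoprime_of_prime_dvd (fun h => hc h.1) fun p hp h1 h2 => ?_⟩
  by_cases hpa : p ∣ a
  · rcases hp.dvd_or_dvd ((dvd_add_right hpa).1 h2) with h | h
    · exact hp.not_isUnit (hy.isUnit_of_dvd' h hpa)
    · exact hp.not_isUnit (hab.isUnit_of_dvd' hpa h)
  · exact hpa ((dvd_add_left ((H p hp h1 hpa).mul_right b)).1 h2)

theorem kb_gen {a b c d x y : Eis} (det : a * d - b * c = 1) (hb : (3 : Eis) ∣ b)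
    (hc : (3 : Eis) ∣ c) (hd : Prim d) (hx : (3 : Eis) ∣ x) (hy : Prim y) :
    cub (x * a + y * c) (x * b + y * d) = cub x y * cub c d := by
  by_cases h0 : x = 0
  · subst h0
    rw [zero_mul, zero_mul, zero_add, zero_add]
    by_cases h1 : y = 1
    · rw [h1, one_mul, one_mul, cub_one_right, one_mul]
    · have e : cub 0 y = 0 := (cub_eq_zero hy.ne_zero).2 fun h =>
        h1 (hy.eq_one_of_isUnit (isCoprime_zero_left.1 h))
      rw [cub_mul_right _ hy.ne_zero hd.ne_zero, cub_congr (a := y * c) (b := 0) (by simp), e,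
        zero_mul, zero_mul]
  · have hcop : IsCoprime d (3 * c) :=
      hd.coprime_three.mul_right ⟨a, -b, by linear_combination det⟩
    obtain ⟨t, ht⟩ := kb_exists hcop h0
    have hd' : Prim (d + t * (3 * c)) := hd.of_dvd_sub ⟨t * c, by ring⟩
    have e := kb_core (a := a) (b := b + 3 * t * a) (c := c) (d := d + t * (3 * c))
      (by linear_combination det) (dvd_add hb ⟨t * a, by ring⟩) hd' hx hy ht
    have hD : Prim (x * b + y * d) := (hy.mul hd).of_dvd_sub (by simpa using hx.mul_right b)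
    rw [show x * (b + 3 * t * a) + y * (d + t * (3 * c)) =
      x * b + y * d + 3 * t * (x * a + y * c) by ring,
      kb_shift (dvd_add (hx.mul_right a) (hc.mul_left y)) hD,
      show d + t * (3 * c) = d + 3 * t * c by ring, kb_shift hc hd] at e
    exact e

theorem kb_prim_iff {x y : Eis} (h : (3 : Eis) ∣ x - y) : Prim x ↔ Prim y :=
  ⟨fun hx => hx.of_dvd_sub (dvd_sub_comm.1 h), fun hy => hy.of_dvd_sub h⟩

theorem kb_dvd_iff {q x y : Eis} (h : q ∣ x - y) : q ∣ x ↔ q ∣ y :=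
  ⟨fun hx => by simpa using dvd_sub hx h, fun hy => by simpa using dvd_add h hy⟩

theorem kb_conj {z w : ℂ} (hz : ‖z‖ = 1) (h : z * w = 1) : conj z = w := by
  linear_combination (-conj z) * h + w * ga_mul_conj hz

theorem kb_kapS_one {A : Eis} (hA : Prim A) (q c d : Eis) :
    kapS A q c d = if (3 : Eis) ∣ c - d * (q % 3) ∧ Prim d then cub c d else 0 := by
  simp only [kapS, sig, if_pos hA, row, SL.inv_a, SL.inv_b, SL.inv_c, SL.inv_d, kap0, mul_one,
    neg_zero, mul_zero, zero_add, mul_neg, ← sub_eq_add_neg]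
  rw [cub_congr (a := c - d * (q % 3)) (b := c) (by simp)]

theorem kb_kapS_two {A : Eis} (hA : ¬ Prim A) (q c d : Eis) :
    kapS A q c d =
      if (3 : Eis) ∣ d ∧ Prim (c + d * (A % 3)) then cub d (c + d * (A % 3)) else 0 := by
  simp only [kapS, sig, if_neg hA, row, SL.inv_a, SL.inv_b, SL.inv_c, SL.inv_d, kap0, mul_one,
    neg_neg, mul_zero, zero_add, mul_neg, dvd_neg]
  split_ifs with h
  · exact cub_neg_left _ h.2.not_lam_dvd
  · rfl

theorem kb_nine {p d : Eis} (hp : Prim p) (hd : (3 : Eis) ∣ d) (x : Eis) :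
    (9 : Eis) ∣ (p - 1) * d * x := by
  rw [show (9 : Eis) = 3 * 3 by norm_num]; exact (mul_dvd_mul hp hd).mul_right x

/-- Number of multiples of d in a residue system. -/
theorem kb_count {d e : Eis} (hd : d ≠ 0) (he : e ≠ 0) :
    ∑ u ∈ res (d * e), (if d ∣ u then (1 : ℂ) else 0) = N e := by
  have hF : Per (d * e) fun u => if d ∣ u then (1 : ℂ) else 0 :=
    Per.of_congr fun x y h => by rw [kb_dvd_iff (dvd_of_mul_right_dvd h)]
  rw [sum_res_mul hd he hF]
  have e1 : ∀ u ∈ res d, ∑ v ∈ res e, (if d ∣ u + d * v then (1 : ℂ) else 0) =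
      if d ∣ u - 0 then (N e : ℂ) else 0 := by
    intro u _
    have : ∀ v, d ∣ u + d * v ↔ d ∣ u - 0 := fun v => kb_dvd_iff (by simp)
    simp only [this]
    rw [Finset.sum_const, nsmul_eq_mul, ← card_res he]
    split_ifs <;> simp
  rw [Finset.sum_congr rfl e1, ga_pick hd (F := fun _ => (N e : ℂ)) (fun _ _ => rfl) 0]

theorem kb_cop_sum {m : Eis} (hm : P1 m) (u : Eis) :
    cop u m = ∑ d ∈ divs m, if d ∣ u then mu0 d else 0 := by
  have key : ∀ u, u ≠ 0 → cop u m = ∑ d ∈ divs m, if d ∣ u then mu0 d else 0 := by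
    intro u hu
    rw [cop_eq_sum hm hu, ← Finset.sum_filter, ← Finset.sum_filter]
    refine Finset.sum_congr ?_ fun _ _ => rfl
    ext d
    simp only [Finset.mem_filter, mem_divs hu, mem_divs hm.ne_zero]
    tauto
  by_cases hu : u = 0
  · have e : cop u m = cop m m := by
      rw [hu, cop, cop, isCoprime_zero_right, isCoprime_self]
    rw [e, key m hm.ne_zero]
    refine Finset.sum_congr rfl fun d hd => ?_
    rw [if_pos ((mem_divs hm.ne_zero).1 hd).2, hu, if_pos (dvd_zero d)]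
  · exact key u hu

theorem kb_cub_cube {m : Eis} (hm : m ≠ 0) (u : Eis) : cub u (m ^ 3) = cop u m := by
  rw [cub_pow_right _ hm, cop]
  split_ifs with h
  · exact cub_cube h.symm
  · rw [(cub_eq_zero hm).2 fun h' => h h'.symm]; norm_num

theorem kb_gauss_cube {m : Eis} (hm : P1 m) :
    gauss (fun u => cub u (m ^ 3)) (m ^ 3) 0 =
      (N m : ℂ) ^ 3 * ∑ d ∈ divs m, mu0 d / (N d : ℂ) := by
  have h0 := hm.ne_zero
  simp only [gauss, zero_mul, psi_zero, mul_one, kb_cub_cube h0, kb_cop_sum hm]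
  rw [Finset.sum_comm, Finset.mul_sum]
  refine Finset.sum_congr rfl fun d hd => ?_
  obtain ⟨h1, e, he⟩ := (mem_divs h0).1 hd
  have hd0 := h1.ne_zero
  have he0 : e ≠ 0 := fun h => h0 (by rw [he, h, mul_zero])
  have e1 : m ^ 3 = d * (e * m ^ 2) := by rw [← mul_assoc, ← he]; ring
  have e2 := kb_count hd0 (mul_ne_zero he0 (pow_ne_zero 2 h0))
  have e3 : (N m : ℂ) ^ 3 = N d * N (e * m ^ 2) := by
    rw [← ofReal_mul, ← N_mul, ← e1, N_pow]; push_cast; ring
  have e4 : (N d : ℂ) ≠ 0 := by exact_mod_cast (N_pos hd0).ne'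
  rw [e3, ← e2, ← e1, Finset.mul_sum, Finset.sum_mul]
  refine Finset.sum_congr rfl fun u _ => ?_
  split_ifs
  · field_simp
  · simp

theorem kb_not_cube {x : Eis} (hx : P1 x) (h : ¬ ∃ m, P1 m ∧ x = m ^ 3) :
    ∃ p y : Eis, ∃ k : ℕ, Prime p ∧ P1 p ∧ P1 y ∧ ¬ p ∣ y ∧ ¬ 3 ∣ k ∧ x = p ^ k * y := by
  rcases cube_or hx with ⟨e, d, he, hd, rfl⟩ | ⟨p, y, k, hp, h1, hy, hpy, rfl⟩
  · have he1 : e ≠ 1 := fun h1 => h ⟨d, hd, by rw [h1, one_mul]⟩
    obtain ⟨p, hp, h1, e', rfl⟩ := bs_exists_prime he.1 he1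
    obtain ⟨-, he', hcop⟩ := P0.of_mul h1.1 he
    obtain ⟨j, d', hd', rfl⟩ := WfDvdMonoid.max_power_factor' hd.ne_zero hp.not_isUnit
    have hd1 : P1 d' := (h1.pow j).of_mul hd
    refine ⟨p, e' * d' ^ 3, 3 * j + 1, hp, h1, he'.1.mul (hd1.pow 3), fun hh => ?_, by omega,
      by ring⟩
    rcases hp.dvd_or_dvd hh with hh | hh
    · exact ga_not_cop hp hh hcop.symm
    · exact hd' (hp.dvd_of_dvd_pow hh)
  · exact ⟨p, y, 3 * k + 2, hp, h1, hy, hpy, by omega, by ring⟩

theorem kb_gauss_not_cube {x : Eis} (hx : P1 x) (h : ¬ ∃ m, P1 m ∧ x = m ^ 3) :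
    gauss (fun u => cub u x) x 0 = 0 := by
  obtain ⟨p, y, k, hp, h1, hy, hpy, hk, rfl⟩ := kb_not_cube hx h
  rw [ga_cub.gauss_mul (h1.pow k) hy (ga_cop hp hpy).symm.pow_left]
  simp only [cub_pow_right _ hp.ne_zero]
  rw [gauss_prime_pow hp h1 (by omega), if_pos (dvd_zero _), EuclideanDomain.zero_div,
    gauss_prime_zero hp h1 hk (dvd_zero p)]
  simp

end Vale.Agent.P026
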