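import Vale.Agent.P026.Gauss

/-! Multiplicative structure of the theta coefficients and of the sums Tsq, Tth. -/

namespace Vale.Agent.P026

open Eis Complex
open scoped Classical ComplexConjugate

theorem st_ab_one : ab 1 = 1 := by simp [ab]
theorem st_ab_le_N (x : Eis) : ab x ≤ N x := by
  by_cases h : x = 0
  · simp [h, ab]
  · rw [← ab_sq, sq]
    exact le_mul_of_one_le_right (ab_nonneg x) (one_le_ab h)
theorem st_alph_zero (o : Bool) : alph o 0 = 0 := if_neg fun h => P0.ne_zero h rfl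
theorem st_not_dvd {s p : Eis} (hs : Sm s) (hp : Prime p) (h1 : P1 p) : ¬ p ∣ s :=
  hp.coprime_iff_not_dvd.1 (hs.coprime h1).symm
theorem st_Sm_nine : Sm 9 := ⟨2, 4, by norm_num⟩
theorem st_cub_mul_conj {s x : Eis} (hs : Sm s) (hx : P1 x) : cub s x * conj (cub s x) = 1 := by
  rw [conj_cub, ← cub_cube (hs.coprime hx)]
  ring
theorem st_cub_cube {s e d : Eis} (hs : Sm s) (he : e ≠ 0) (hd : P1 d) :
    cub s (e * d ^ 3) = cub s e := by
  rw [cub_mul_right _ he (pow_ne_zero _ hd.ne_zero), cub_pow_right _ hd.ne_zero,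
    cub_cube (hs.coprime hd), mul_one]
/-- Reindexing a sum along a map that is injective on a set. -/
theorem st_hasSum_iff {α β : Type} {φ : α → β} {S : α → Prop} {f : β → ℂ} {x : ℂ}
    (hφ : ∀ a b, S a → S b → φ a = φ b → a = b) (hf : ∀ y, f y ≠ 0 → ∃ a, S a ∧ φ a = y) :
    HasSum (fun a => if S a then f (φ a) else 0) x ↔ HasSum f x := by
  have h1 : Function.Injective (fun a : {a | S a} => φ a) := fun a b h =>
    Subtype.ext (hφ _ _ a.2 b.2 h)
  rw [← h1.hasSum_iff (f := f) fun y hy => by_contra fun h =>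
    hy (let ⟨a, ha, e⟩ := hf y h; ⟨⟨a, ha⟩, e⟩)]
  exact (hasSum_subtype_iff_indicator (f := fun a => f (φ a)) (s := {a | S a})).symm

theorem Theta.C_nonneg (T : Theta) : 0 ≤ T.C := by
  have := (norm_nonneg _).trans (T.bound 1 0 1)
  rwa [st_ab_one, mul_one] at this
theorem st_tau_cube (T : Theta) (A q r : Eis) {d : Eis} (hd : P1 d) :
    T.tau A q (r * d ^ 3) = (ab d : ℂ) * T.tau A q r := by
  refine P1.induction (Pr := fun d => T.tau A q (r * d ^ 3) = (ab d : ℂ) * T.tau A q r) ?_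
    (fun p x hp h1 _ ih => ?_) hd
  · simp [st_ab_one]
  · rw [show r * (p * x) ^ 3 = r * x ^ 3 * p ^ 3 by ring, T.cube _ _ _ _ hp h1, ih, ab_mul]
    push_cast
    ring
theorem st_tau_sq (T : Theta) (A q : Eis) {s e : Eis} (hs : Sm s) (he : P0 e) :
    T.tau A q (s * e) = T.tau A q s * conj (cub 9 e) * cub s e * conj (g3 e) := by
  refine P0.induction (Pr := fun e =>
    T.tau A q (s * e) = T.tau A q s * conj (cub 9 e) * cub s e * conj (g3 e)) ?_
    (fun p x hp h1 hx hpx ih => ?_) he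
  · simp [cub_one_right, g3_one]
  · have h4 : conj (cub p x ^ 2) = cub x p := by
      rw [map_pow, conj_cub, ← pow_mul, cub_pow_four, cub_recip h1.1 hx.1.1]
    rw [show s * (p * x) = s * x * p by ring,
      T.one _ _ _ _ hp h1 (hp.not_dvd_mul (st_not_dvd hs hp h1) hpx), ih,
      g3_mul (P0.of_prime hp h1) hx (hp.coprime_iff_not_dvd.2 hpx),
      cub_mul_right _ hp.ne_zero hx.ne_zero, cub_mul_right _ hp.ne_zero hx.ne_zero,
      cub_mul_left _ _ h1.1.not_lam_dvd, map_mul, map_mul, map_mul, h4]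
    ring
theorem tau_struct (T : Theta) (A q : Eis) {s e d : Eis} (hs : Sm s) (he : P0 e) (hd : P1 d) :
    T.tau A q (s * e * d ^ 3) =
      T.tau A q s * conj (cub 9 e) * cub s e * conj (g3 e) * (ab d : ℂ) := by
  rw [st_tau_cube T A q _ hd, st_tau_sq T A q hs he, mul_comm]
theorem tau_supp (T : Theta) (A q : Eis) {r : Eis} (h : T.tau A q r ≠ 0) :
    ∃ s e d, Sm s ∧ P0 e ∧ P1 d ∧ r = s * e * d ^ 3 := by
  obtain ⟨s, x, hs, hx, rfl⟩ := exists_smooth (r := r) fun h0 => h (by rw [h0, T.zero])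
  rcases cube_or hx with ⟨e, d, he, hd, rfl⟩ | ⟨p, y, k, hp, h1, -, hy, rfl⟩
  · exact ⟨s, e, d, hs, he, hd, by ring⟩
  · refine absurd ?_ h
    rw [show s * (y * p ^ 2 * (p ^ 3) ^ k) = s * y * p ^ 2 * (p ^ k) ^ 3 by ring,
      st_tau_cube T A q _ (h1.pow k),
      T.sq _ _ _ _ hp h1 (hp.not_dvd_mul (st_not_dvd hs hp h1) hy), mul_zero]
theorem exists_r0 (T : Theta) : ∃ r0, Sm r0 ∧ T.tau 1 0 r0 ≠ 0 := by
  obtain ⟨r, hr⟩ := T.nonzero
  obtain ⟨s, e, d, hs, he, hd, rfl⟩ := tau_supp T 1 0 hr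
  refine ⟨s, hs, fun h => hr ?_⟩
  rw [tau_struct T 1 0 hs he hd, h]
  ring

theorem st_norm_sq (o : Bool) {F : Eis → ℂ} {B : ℝ} (hF : ∀ x, ‖F x‖ ≤ B) (Y t : ℝ) (e : Eis) :
    ‖alph o e * F e * W Y t e‖ ≤ B * (if e = 0 then 0 else N e ^ (0 : ℝ) * w (N e / Y)) := by
  split_ifs with h
  · simp [h, st_alph_zero]
  · rw [norm_mul, norm_mul, norm_W, Real.rpow_zero, one_mul]
    refine mul_le_mul_of_nonneg_right ?_ (w_pos _).le
    exact (mul_le_of_le_one_left (norm_nonneg _) (norm_alph_le o e)).trans (hF e)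
theorem st_summable_w (k : ℝ) {Y : ℝ} (hY : 0 < Y) :
    Summable (fun c : Eis => if c = 0 then 0 else N c ^ k * w (N c / Y)) := by
  refine (summable_w k hY).of_nonneg_of_le (fun c => ?_) fun c => ?_
  · split_ifs
    · exact le_rfl
    · exact mul_nonneg (Real.rpow_nonneg (N_nonneg c) _) (w_pos _).le
  · split_ifs
    · exact mul_nonneg (Real.rpow_nonneg (N_nonneg c) _) (w_pos _).le
    · exact le_rfl
theorem summable_Tsq (o : Bool) {F : Eis → ℂ} {B : ℝ} (hF : ∀ x, ‖F x‖ ≤ B) {Y : ℝ} (hY : 0 < Y)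
    (t : ℝ) : Summable (fun e : Eis => alph o e * F e * W Y t e) :=
  ((st_summable_w 0 hY).mul_left B).of_norm_bounded (st_norm_sq o hF Y t)
theorem summable_Tth (o : Bool) {F : Eis → ℂ} {B : ℝ} (hF : ∀ x, ‖F x‖ ≤ B) {Y : ℝ} (hY : 0 < Y)
    (t : ℝ) : Summable (fun p : Eis × Eis =>
      alph o p.1 * bet o p.2 * F (p.1 * p.2 ^ 3) * W Y t (p.1 * p.2 ^ 3)) := by
  have hB : 0 ≤ B := (norm_nonneg _).trans (hF 0)
  have h1 : Summable (fun c : Eis => ((N c ^ (1 : ℝ) * w (N c / Y) : ℝ) : ℂ)) :=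
    Complex.summable_ofReal.2 (summable_w 1 hY)
  have h2 : Summable (fun c : Eis => if (∃ p : Eis × Eis, (P0 p.1 ∧ P1 p.2) ∧ p.1 * p.2 ^ 3 = c)
      then ((N c ^ (1 : ℝ) * w (N c / Y) : ℝ) : ℂ) else 0) :=
    h1.norm.of_norm_bounded fun c => by
      split_ifs
      · exact le_rfl
      · rw [norm_zero]
        exact norm_nonneg _
  have h3 := ((st_hasSum_iff (φ := fun p : Eis × Eis => p.1 * p.2 ^ 3)
    (S := fun p => P0 p.1 ∧ P1 p.2) (fun a b ha hb h =>
      Prod.ext (cube_unique ha.1 hb.1 ha.2 hb.2 h).1 (cube_unique ha.1 hb.1 ha.2 hb.2 h).2)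
    (fun y hy => by_contra fun h => hy (if_neg h))).2 h2.hasSum).summable
  refine (h3.norm.mul_left B).of_norm_bounded fun p => ?_
  by_cases h : P0 p.1 ∧ P1 p.2
  · rw [if_pos h, if_pos ⟨p, h, rfl⟩, Complex.norm_real, Real.rpow_one,
      Real.norm_of_nonneg (mul_nonneg (N_nonneg _) (w_pos _).le), norm_mul, norm_mul, norm_mul,
      norm_W, ← mul_assoc, mul_comm B]
    refine mul_le_mul_of_nonneg_right (mul_le_mul ?_ (hF _) (norm_nonneg _) (N_nonneg _))
      (w_pos _).le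
    refine (mul_le_of_le_one_left (norm_nonneg _) (norm_alph_le o _)).trans
      ((norm_bet_le o _).trans ((st_ab_le_N _).trans (N_le_of_dvd
        (mul_ne_zero h.1.ne_zero (pow_ne_zero _ h.2.ne_zero)) ⟨p.1 * p.2 ^ 2, by ring⟩)))
  · have : alph o p.1 * bet o p.2 = 0 := by
      rcases not_and_or.1 h with h | h
      · rw [alph, if_neg h, zero_mul]
      · rw [bet, if_neg h, mul_zero]
    rw [if_neg h, this]
    simp
theorem Tsq_congr (o : Bool) {F G : Eis → ℂ} (h : ∀ e, P0 e → F e = G e) (Y t : ℝ) :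
    Tsq o F Y t = Tsq o G Y t := by
  refine tsum_congr fun e => ?_
  by_cases he : P0 e
  · rw [h e he]
  · simp [alph, he]
theorem Tth_congr (o : Bool) {F G : Eis → ℂ} (h : ∀ e, P1 e → F e = G e) (Y t : ℝ) :
    Tth o F Y t = Tth o G Y t := by
  refine tsum_congr fun p => ?_
  by_cases he : P0 p.1
  · by_cases hd : P1 p.2
    · rw [h _ (he.1.mul (hd.pow 3))]
    · simp [bet, hd]
  · simp [alph, he]
theorem Tsq_const_mul (o : Bool) (z : ℂ) (F : Eis → ℂ) (Y t : ℝ) :
    Tsq o (fun e => z * F e) Y t = z * Tsq o F Y t := by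
  rw [Tsq, Tsq, ← tsum_mul_left]
  exact tsum_congr fun e => by ring
theorem Tth_const_mul (o : Bool) (z : ℂ) (F : Eis → ℂ) (Y t : ℝ) :
    Tth o (fun e => z * F e) Y t = z * Tth o F Y t := by
  rw [Tth, Tth, ← tsum_mul_left]
  exact tsum_congr fun e => by ring
/-- Trivial bounds. -/
theorem Tsq_triv (A : ℝ) (hA : 1 ≤ A) : ∃ C : ℝ, 0 < C ∧ ∀ (o : Bool) (F : Eis → ℂ), Bd1 F →
    ∀ Y t : ℝ, 0 < Y → ‖Tsq o F Y t‖ ≤ C * (if Y ≤ 1 then Y ^ A else Y) := by
  obtain ⟨C1, h1, H1⟩ := tsum_w_le (k := 0) (by norm_num)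
  obtain ⟨C2, h2, H2⟩ := tsum_w_small 0 A
  refine ⟨C1 + C2, by positivity, fun o F hF Y t hY => ?_⟩
  have h : ‖Tsq o F Y t‖ ≤ ∑' c : Eis, (if c = 0 then 0 else N c ^ (0 : ℝ) * w (N c / Y)) :=
    tsum_of_norm_bounded (st_summable_w 0 hY).hasSum fun e => by
      simpa only [one_mul] using st_norm_sq o hF Y t e
  split_ifs with hY1
  · have := Real.rpow_pos_of_pos hY A
    nlinarith [H2 Y hY hY1]
  · have := H1 Y hY
    rw [zero_add, Real.rpow_one] at this
    nlinarith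
theorem st_fiber (o : Bool) {F : Eis → ℂ} {B : ℝ} (hF : ∀ x, ‖F x‖ ≤ B) {Y : ℝ} (hY : 0 < Y)
    (t : ℝ) {c : Eis} (hc : c ≠ 0) (z : ℂ) :
    HasSum (fun e : Eis => z * (alph o e * F e * W Y t (c * e)))
      (z * nit t c * Tsq o F (Y / N c) t) := by
  have h := (summable_Tsq o hF (div_pos hY (N_pos hc)) t).hasSum.mul_left (z * nit t c)
  refine (congrArg (HasSum · _) (funext fun e => ?_)).mp h
  by_cases he : e = 0
  · simp [he, st_alph_zero]
  · rw [W_mul Y t he hc]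
    ring
/-- Expanding the cube part. -/
theorem Tth_hasSum (o : Bool) {F : Eis → ℂ} (hF : Bd1 F) {Y : ℝ} (hY : 0 < Y) (t : ℝ) :
    HasSum (fun d : Eis => bet o d * nit t (d ^ 3) * Tsq o (fun e => F (e * d ^ 3)) (Y / N d ^ 3) t)
      (Tth o F Y t) := by
  have h := (Equiv.prodComm Eis Eis).hasSum_iff.2 (summable_Tth o hF hY t).hasSum
  refine h.prod_fiberwise fun d => ?_
  by_cases hd : P1 d
  · have h1 := st_fiber o (F := fun e => F (e * d ^ 3)) (fun x => hF _) hY t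
      (pow_ne_zero 3 hd.ne_zero) (bet o d)
    rw [N_pow] at h1
    refine (congrArg (HasSum · _) (funext fun e => ?_)).mp h1
    simp only [Function.comp, Equiv.prodComm_apply, Prod.swap, mul_comm (d ^ 3)]
    ring
  · simp [bet, hd]
theorem st_term_le {C A Y t : ℝ} (hC : 0 < C) (hA : 1 ≤ A) (hY : 0 < Y) (o : Bool) (d : Eis) {z : ℂ}
    (hz : d ≠ 0 → ‖z‖ ≤ C * (if Y / N d ^ 3 ≤ 1 then (Y / N d ^ 3) ^ A else Y / N d ^ 3)) :
    ‖bet o d * nit t (d ^ 3) * z‖ ≤ C * (if Y ≤ 1 then Y ^ A else Y) * N d ^ (-2 : ℝ) := by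
  have hb : 0 < (if Y ≤ 1 then Y ^ A else Y) := by
    split_ifs
    · exact Real.rpow_pos_of_pos hY A
    · exact hY
  by_cases hd : d = 0
  · have : bet o d = 0 := if_neg fun h => P1.ne_zero h hd
    rw [this, zero_mul, zero_mul, norm_zero]
    exact mul_nonneg (mul_pos hC hb).le (Real.rpow_nonneg (N_nonneg _) _)
  have h1 := one_le_N hd
  have h0 := N_pos hd
  have h3 : 1 ≤ N d ^ 3 := one_le_pow₀ h1
  have key : (if Y / N d ^ 3 ≤ 1 then (Y / N d ^ 3) ^ A else Y / N d ^ 3) ≤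
      (if Y ≤ 1 then Y ^ A else Y) / N d ^ 3 := by
    by_cases hY1 : Y ≤ 1
    · rw [if_pos hY1, if_pos ((div_le_self hY.le h3).trans hY1),
        Real.div_rpow hY.le (by positivity)]
      refine div_le_div_of_nonneg_left (Real.rpow_pos_of_pos hY A).le (by positivity) ?_
      simpa using Real.rpow_le_rpow_of_exponent_le h3 hA
    · rw [if_neg hY1]
      split_ifs with h
      · simpa using Real.rpow_le_rpow_of_exponent_ge (by positivity) h hA
      · exact le_rfl
  rw [norm_mul, norm_mul, norm_nit, mul_one, Real.rpow_neg h0.le, Real.rpow_two]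
  calc ‖bet o d‖ * ‖z‖ ≤ N d * (C * ((if Y ≤ 1 then Y ^ A else Y) / N d ^ 3)) :=
        mul_le_mul ((norm_bet_le o d).trans (st_ab_le_N d))
          ((hz hd).trans (mul_le_mul_of_nonneg_left key hC.le)) (norm_nonneg _) h0.le
    _ = _ := by field_simp
theorem Tth_triv (A : ℝ) (hA : 1 ≤ A) : ∃ C : ℝ, 0 < C ∧ ∀ (o : Bool) (F : Eis → ℂ), Bd1 F →
    ∀ Y t : ℝ, 0 < Y → ‖Tth o F Y t‖ ≤ C * (if Y ≤ 1 then Y ^ A else Y) := by
  obtain ⟨C, hC, H⟩ := Tsq_triv A hA
  have hs := summable_N_rpow (s := 2) (by norm_num)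
  have h0 : 0 ≤ ∑' c : Eis, N c ^ (-2 : ℝ) := tsum_nonneg fun c => Real.rpow_nonneg (N_nonneg c) _
  refine ⟨C * (1 + ∑' c : Eis, N c ^ (-2 : ℝ)), by positivity, fun o F hF Y t hY => ?_⟩
  have hb : 0 < (if Y ≤ 1 then Y ^ A else Y) := by
    split_ifs
    · exact Real.rpow_pos_of_pos hY A
    · exact hY
  have h := (Tth_hasSum o hF hY t).norm_le_of_bounded
    (hs.hasSum.mul_left (C * (if Y ≤ 1 then Y ^ A else Y))) fun d =>
      st_term_le hC hA hY o d fun hd =>
        H o _ (fun x => hF _) _ t (div_pos hY (pow_pos (N_pos hd) 3))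
  nlinarith [mul_pos hC hb]
/-- Moebius inversion for a sequence supported on odd primary elements. -/
theorem st_moebius {g : Eis → ℂ} {C : ℝ} (h0 : ∀ n, ¬ P1 n → g n = 0)
    (hg : ∀ n, ‖g n‖ ≤ C * N n ^ (-2 : ℝ)) :
    HasSum (fun p : Eis × Eis => mu0 p.1 * g (p.1 * p.2)) (g 1) := by
  have hs := summable_N_rpow (s := 2) (by norm_num)
  have h1 : Summable (fun p : Eis × Eis => mu0 p.1 * g (p.1 * p.2)) := by
    refine ((hs.mul_of_nonneg hs (fun c => Real.rpow_nonneg (N_nonneg c) _)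
      fun c => Real.rpow_nonneg (N_nonneg c) _).mul_left C).of_norm_bounded fun p => ?_
    rw [norm_mul, ← Real.mul_rpow (N_nonneg _) (N_nonneg _), ← N_mul]
    exact (mul_le_of_le_one_left (norm_nonneg _) (norm_mu0_le _)).trans (hg _)
  have h2 := ((Equiv.sigmaFiberEquiv fun p : Eis × Eis => p.1 * p.2).hasSum_iff.2
    h1.hasSum).sigma (g := fun n => if n = 1 then g 1 else 0) fun n => by
      by_cases hn : P1 n
      · have e : (if n = 1 then g 1 else 0) = ∑ d ∈ divs n, mu0 d * g n := by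
          rw [← Finset.sum_mul, sum_mu0_P1 hn]
          split_ifs with h <;> simp [h]
        have h3 : HasSum (fun d : Eis => if d ∣ n then mu0 d * g n else 0)
            (∑ d ∈ divs n, mu0 d * g n) := by
          rw [← Finset.sum_congr rfl fun d (hd : d ∈ divs n) =>
            (if_pos ((mem_divs hn.ne_zero).1 hd).2 :
              (if d ∣ n then mu0 d * g n else 0) = mu0 d * g n)]
          refine hasSum_sum_of_ne_finset_zero fun d hd => ?_
          split_ifs with h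
          · rw [show mu0 d = 0 from if_neg fun k => hd ((mem_divs hn.ne_zero).2 ⟨k, h⟩), zero_mul]
          · rfl
        have h4 : Function.Injective (fun a : {p : Eis × Eis // p.1 * p.2 = n} => a.1.1) := by
          rintro ⟨⟨a, b⟩, h⟩ ⟨⟨a', b'⟩, h'⟩ (rfl : a = a')
          obtain rfl : b = b' := mul_left_cancel₀
            (left_ne_zero_of_mul (h.trans_ne hn.ne_zero)) (h.trans h'.symm)
          rfl
        rw [e]
        refine (congrArg (HasSum · _) (funext fun a => ?_)).mp ((h4.hasSum_iff fun d hd =>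
          if_neg fun ⟨b, hb⟩ => hd ⟨⟨(d, b), hb.symm⟩, rfl⟩).2 h3)
        obtain ⟨⟨a, b⟩, rfl⟩ := a
        exact if_pos (dvd_mul_right _ _)
      · rw [if_neg fun h : n = 1 => hn (h ▸ P1.one)]
        refine (congrArg (HasSum · _) (funext fun a => ?_)).mp hasSum_zero
        obtain ⟨⟨a, b⟩, rfl⟩ := a
        exact ((congrArg (mu0 a * ·) (h0 _ hn)).trans (mul_zero _)).symm
  rw [← h2.unique (hasSum_ite_eq 1 (g 1))]
  exact h1.hasSum
/-- Removing the cube part. -/
theorem Tsq_hasSum (o : Bool) {F : Eis → ℂ} (hF : Bd1 F) {Y : ℝ} (hY : 0 < Y) (t : ℝ) :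
    HasSum (fun d : Eis =>
      mu0 d * bet o d * nit t (d ^ 3) * Tth o (fun e => F (e * d ^ 3)) (Y / N d ^ 3) t)
      (Tsq o F Y t) := by
  obtain ⟨C, hC, H⟩ := Tsq_triv 1 le_rfl
  have h := st_moebius (g := fun d =>
    bet o d * nit t (d ^ 3) * Tsq o (fun e => F (e * d ^ 3)) (Y / N d ^ 3) t)
    (fun n hn => by simp [bet, hn]) fun d => st_term_le hC le_rfl hY o d fun hd =>
      H o _ (fun x => hF _) _ t (div_pos hY (pow_pos (N_pos hd) 3))
  have e : bet o 1 * nit t (1 ^ 3) * Tsq o (fun e => F (e * 1 ^ 3)) (Y / N 1 ^ 3) t =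
      Tsq o F Y t := by simp [bet_one, nit]
  rw [e] at h
  refine h.prod_fiberwise fun d => ?_
  by_cases hd : P0 d
  · have h1 := (Tth_hasSum o (F := fun e => F (e * d ^ 3)) (fun x => hF _)
      (div_pos hY (pow_pos (N_pos hd.ne_zero) 3)) t).mul_left (mu0 d * bet o d * nit t (d ^ 3))
    refine (congrArg (HasSum · _) (funext fun c => ?_)).mp h1
    by_cases hc : c = 0
    · have : bet o 0 = 0 := if_neg fun h => P1.ne_zero h rfl
      simp [hc, this]
    · simp only [bet_mul o hd.1, mul_pow, N_mul, div_div, mul_assoc, mul_comm (c ^ 3),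
        nit_mul t (pow_ne_zero 3 hd.ne_zero) (pow_ne_zero 3 hc)]
      ring
  · simp [mu0, hd]

theorem lift_zero {r0 : Eis} (F : Eis → ℂ) : lift r0 F 0 = 0 :=
  if_neg fun h => h.2.ne_zero (EuclideanDomain.zero_div)
theorem lift_bd {r0 : Eis} {F : Eis → ℂ} (hF : Bd1 F) : Bd1 (lift r0 F) := fun x => by
  unfold lift
  split_ifs
  · rw [norm_mul, norm_mul, Complex.norm_conj]
    exact mul_le_one₀ (mul_le_one₀ (hF _) (norm_nonneg _) (norm_cub_le _ _)) (norm_nonneg _)
      (norm_cub_le _ _)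
  · simp
theorem st_lift {r0 : Eis} (hr : r0 ≠ 0) (F : Eis → ℂ) (x : Eis) :
    lift r0 F (r0 * x) = if P1 x then F x * cub 9 x * conj (cub r0 x) else 0 := by
  simp only [lift, mul_div_cancel_left₀ x hr, dvd_mul_right, true_and]
theorem lift_per {r0 q : Eis} (hr : Sm r0) {F : Eis → ℂ} (hF : Per q F) (hq : (72 : Eis) ∣ q) :
    Per (r0 * q) (lift r0 F) := by
  intro x y
  obtain ⟨k, rfl⟩ := hq
  by_cases h : r0 ∣ x
  · obtain ⟨x, rfl⟩ := h
    rw [mul_assoc, ← mul_add, st_lift hr.ne_zero, st_lift hr.ne_zero, hF]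
    by_cases hx : P1 x
    · have h18 : (18 : Eis) ∣ x - (x + 72 * k * y) := ⟨-(4 * k * y), by ring⟩
      rw [if_pos hx, if_pos (hx.of_dvd_sub ⟨12 * k * y, by ring⟩),
        ← cub_per_Sm hx.1 hr h18, ← cub_per_Sm hx.1 st_Sm_nine h18]
    · rw [if_neg hx, if_neg fun h => hx (h.of_dvd_sub ⟨-(12 * k * y), by ring⟩)]
  · rw [lift, lift, if_neg fun j => h ((dvd_add_left ⟨72 * k * y, mul_assoc _ _ _⟩).1 j.1),
      if_neg fun j => h j.1]
theorem lift_mul {r0 : Eis} (hr : Sm r0) (F : Eis → ℂ) {x : Eis} (hx : P1 x) :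
    lift r0 F (r0 * x) = F x * cub 9 x * conj (cub r0 x) := by
  rw [st_lift hr.ne_zero, if_pos hx]
/-- The primal sum is a sum over the coefficients at infinity. -/
theorem Tth_eq (T : Theta) (o : Bool) {r0 : Eis} (hr : Sm r0) {F : Eis → ℂ} (hF : Bd1 F)
    {Y : ℝ} (hY : 0 < Y) (t : ℝ) :
    ∑' r, T.tau 1 0 r * ang o r * lift r0 F r * W (N r0 * Y) t r =
      T.tau 1 0 r0 * ang o r0 * nit t r0 * Tth o F Y t := by
  refine ((st_hasSum_iff (φ := fun p : Eis × Eis => r0 * p.1 * p.2 ^ 3)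
    (S := fun p => P0 p.1 ∧ P1 p.2) (fun a b ha hb h => ?_) fun y hy => ?_).1 ?_).tsum_eq
  · have := cube_unique ha.1 hb.1 ha.2 hb.2
      (mul_left_cancel₀ hr.ne_zero (by simpa only [mul_assoc] using h))
    exact Prod.ext this.1 this.2
  · obtain ⟨s, e, d, hs, he, hd, e1⟩ := tau_supp T 1 0
      (left_ne_zero_of_mul (left_ne_zero_of_mul (left_ne_zero_of_mul hy)))
    have h1 : r0 ∣ y ∧ P1 (y / r0) := by_contra fun h =>
      right_ne_zero_of_mul (left_ne_zero_of_mul hy) (if_neg h)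
    have h2 := smooth_unique hr hs h1.2 (he.1.mul (hd.pow 3))
      ((EuclideanDomain.mul_div_cancel' hr.ne_zero h1.1).trans (e1.trans (mul_assoc _ _ _)))
    exact ⟨(e, d), ⟨he, hd⟩, by rw [e1, h2.1]⟩
  · refine (congrArg (HasSum · _) (funext fun p => ?_)).mp
      ((summable_Tth o hF hY t).hasSum.mul_left (T.tau 1 0 r0 * ang o r0 * nit t r0))
    obtain ⟨e, d⟩ := p
    by_cases he : P0 e
    · by_cases hd : P1 d
      · have hx := he.1.mul (hd.pow 3)
        simp only [he, hd, and_self, if_true]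
        rw [tau_struct T 1 0 hr he hd, mul_assoc r0, lift_mul hr F hx,
          W_mul _ t hx.ne_zero hr.ne_zero, mul_div_cancel_left₀ Y (N_pos hr.ne_zero).ne',
          st_cub_cube hr he.ne_zero hd, st_cub_cube st_Sm_nine he.ne_zero hd, ang_mul, ang_mul,
          ang_pow _ _ _ hd.ne_zero, alph, bet, if_pos he, if_pos hd]
        have h1 := st_cub_mul_conj hr he.1
        have h2 := st_cub_mul_conj st_Sm_nine he.1
        linear_combination (-(T.tau 1 0 r0 * ang o r0 * nit t r0 *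
          (conj (g3 e) * ang o e * ((ab d : ℂ) * ang o d ^ 3) * F (e * d ^ 3) *
            W Y t (e * d ^ 3)))) * (cub 9 e * conj (cub 9 e) * h1 + h2)
      · simp [bet, hd]
    · simp [alph, he]
/-- The dual sum in terms of Tsq. -/
theorem dual_hasSum (T : Theta) (A q : Eis) (o : Bool) {G : Eis → ℂ} {B : ℝ}
    (hG : ∀ x, ‖G x‖ ≤ B) {R : ℝ} (hR : 0 < R) (t : ℝ) :
    HasSum (fun p : Eis × Eis => if Sm p.1 then
        T.tau A q p.1 * ang o p.1 * bet o p.2 * nit t (p.1 * p.2 ^ 3) *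
          Tsq o (fun e => conj (cub 9 e) * cub p.1 e * G (p.1 * e * p.2 ^ 3))
            (R / (N p.1 * N p.2 ^ 3)) t else 0)
      (∑' r, T.tau A q r * ang o r * G r * W R t r) := by
  have hB : 0 ≤ B := (norm_nonneg _).trans (hG 0)
  have h1 : Summable (fun r => T.tau A q r * ang o r * G r * W R t r) := by
    refine ((summable_w 1 hR).mul_left (T.C * B)).of_norm_bounded fun r => ?_
    rw [norm_mul, norm_mul, norm_mul, norm_W, Real.rpow_one, ← mul_assoc, mul_right_comm T.C]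
    refine mul_le_mul_of_nonneg_right (mul_le_mul ?_ (hG r) (norm_nonneg _)
      (mul_nonneg T.C_nonneg (N_nonneg r))) (w_pos _).le
    exact (mul_le_of_le_one_right (norm_nonneg _) (norm_ang_le o r)).trans
      ((T.bound A q r).trans (mul_le_mul_of_nonneg_left (st_ab_le_N r) T.C_nonneg))
  have h2 := (st_hasSum_iff (φ := fun p : (Eis × Eis) × Eis => p.1.1 * p.2 * p.1.2 ^ 3)
    (S := fun p => Sm p.1.1 ∧ P0 p.2 ∧ P1 p.1.2) (fun a b ha hb h => by
      have k1 := smooth_unique ha.1 hb.1 (ha.2.1.1.mul (ha.2.2.pow 3))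
        (hb.2.1.1.mul (hb.2.2.pow 3)) (by simpa only [mul_assoc] using h)
      have k2 := cube_unique ha.2.1 hb.2.1 ha.2.2 hb.2.2 k1.2
      exact Prod.ext (Prod.ext k1.1 k2.2) k2.1) fun y hy => by
      obtain ⟨s, e, d, hs, he, hd, e1⟩ := tau_supp T A q
        (left_ne_zero_of_mul (left_ne_zero_of_mul (left_ne_zero_of_mul hy)))
      exact ⟨((s, d), e), ⟨hs, he, hd⟩, e1.symm⟩).2 h1.hasSum
  refine h2.prod_fiberwise fun p => ?_
  obtain ⟨s, d⟩ := p
  by_cases hs : Sm s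
  · by_cases hd : P1 d
    · have h3 := st_fiber o (F := fun e => conj (cub 9 e) * cub s e * G (s * e * d ^ 3)) (B := B)
        (fun x => by
          rw [norm_mul, norm_mul, Complex.norm_conj]
          exact (mul_le_of_le_one_left (norm_nonneg _)
            (mul_le_one₀ (norm_cub_le _ _) (norm_nonneg _) (norm_cub_le _ _))).trans (hG _))
        hR t (mul_ne_zero hs.ne_zero (pow_ne_zero 3 hd.ne_zero))
        (T.tau A q s * ang o s * bet o d)
      rw [N_mul, N_pow] at h3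
      simp only [hs, hd, true_and, and_true, if_true]
      refine (congrArg (HasSum · _) (funext fun e => ?_)).mp h3
      by_cases he : P0 e
      · rw [if_pos he, tau_struct T A q hs he hd, ang_mul, ang_mul, ang_pow _ _ _ hd.ne_zero,
          alph, bet, if_pos he, if_pos hd, mul_right_comm s e]
        ring
      · simp [alph, he]
    · simp [bet, hd]
  · simp [hs]

end Vale.Agent.P026
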