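import Vale.Agent.P026.LemPB

/-! Mellin representation of the exponential, reordering of the double sums. -/

namespace Vale.Agent.P026

open Eis Complex MeasureTheory
open scoped Classical ComplexConjugate

theorem lp_Gamma_le {s : ℂ} (hs : 0 < s.re) : ‖Gamma s‖ ≤ Real.Gamma s.re := by
  rw [Gamma_eq_integral hs, Real.Gamma_eq_integral hs, GammaIntegral]
  refine (norm_integral_le_integral_norm _).trans (le_of_eq ?_)
  refine setIntegral_congr_fun measurableSet_Ioi fun x hx => ?_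
  simp only [norm_mul, Complex.norm_real, Real.norm_of_nonneg (Real.exp_pos _).le,
    norm_cpow_eq_rpow_re_of_pos hx, sub_re, one_re]

theorem lp_Gamma_decay (n : ℕ) : ∀ {σ : ℝ}, 0 < σ → ∃ C : ℝ, 0 < C ∧ ∀ u : ℝ,
    ‖Gamma (σ + u * I)‖ * (1 + |u|) ^ n ≤ C := by
  induction n with
  | zero =>
    intro σ hσ
    refine ⟨Real.Gamma σ, Real.Gamma_pos_of_pos hσ, fun u => ?_⟩
    simpa using lp_Gamma_le (s := σ + u * I) (by simpa using hσ)
  | succ n ih =>
    intro σ hσ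
    obtain ⟨C, hC, h⟩ := ih (σ := σ + 1) (by linarith)
    refine ⟨(1 + 1 / σ) * C, by positivity, fun u => ?_⟩
    have h1 : σ ≤ ‖(σ : ℂ) + u * I‖ := by simpa using re_le_norm ((σ : ℂ) + u * I)
    have h2 : |u| ≤ ‖(σ : ℂ) + u * I‖ := by simpa using abs_im_le_norm ((σ : ℂ) + u * I)
    have h0 : (σ : ℂ) + u * I ≠ 0 := norm_pos_iff.1 (hσ.trans_le h1)
    have h3 := h u
    rw [show ((σ + 1 : ℝ) : ℂ) + u * I = σ + u * I + 1 by push_cast; ring, Gamma_add_one _ h0,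
      norm_mul] at h3
    have h4 : 1 + |u| ≤ (1 + 1 / σ) * ‖(σ : ℂ) + u * I‖ := by
      have : 1 ≤ 1 / σ * ‖(σ : ℂ) + u * I‖ := by
        rw [one_div, inv_mul_eq_div, one_le_div hσ]; exact h1
      linarith
    calc _ = (1 + |u|) * (‖Gamma (σ + u * I)‖ * (1 + |u|) ^ n) := by ring
      _ ≤ (1 + 1 / σ) * ‖(σ : ℂ) + u * I‖ * (‖Gamma (σ + u * I)‖ * (1 + |u|) ^ n) := by gcongr
      _ = (1 + 1 / σ) * (‖(σ : ℂ) + u * I‖ * ‖Gamma (σ + u * I)‖ * (1 + |u|) ^ n) := by ring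
      _ ≤ _ := by gcongr

theorem lp_Gamma_cont {σ : ℝ} (hσ : 0 < σ) : Continuous fun u : ℝ => Gamma (σ + u * I) := by
  refine continuous_iff_continuousAt.2 fun u => ?_
  refine ContinuousAt.comp (f := fun u : ℝ => (σ : ℂ) + u * I) (continuousAt_Gamma _ fun m e => ?_)
    (by fun_prop)
  have := congrArg re e
  simp at this
  have := Nat.cast_nonneg (α := ℝ) m
  linarith

theorem lp_Gamma_int {σ : ℝ} (hσ : 0 < σ) (A : ℕ) :
    Integrable fun u : ℝ => ‖Gamma (σ + u * I)‖ * (1 + |u|) ^ A := by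
  obtain ⟨C, hC, h⟩ := lp_Gamma_decay (A + 2) hσ
  refine (integrable_inv_one_add_sq.const_mul C).mono'
    (((lp_Gamma_cont hσ).norm.mul (by fun_prop)).aestronglyMeasurable)
    (Filter.Eventually.of_forall fun u => ?_)
  rw [Real.norm_of_nonneg (by positivity), ← div_eq_mul_inv, le_div_iff₀ (by positivity)]
  refine le_trans ?_ (h u)
  rw [pow_add, ← mul_assoc]
  gcongr
  nlinarith [abs_nonneg u, sq_abs u]

/-- The Mellin kernel. -/
noncomputable def lpE (σ y u : ℝ) : ℂ :=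
  Gamma (σ + u * I) * ((y ^ (-σ) : ℝ) : ℂ) * cexp (I * ((-u * Real.log y : ℝ) : ℂ))

theorem lp_norm_E (σ : ℝ) {y : ℝ} (hy : 0 ≤ y) (u : ℝ) :
    ‖lpE σ y u‖ = ‖Gamma (σ + u * I)‖ * y ^ (-σ) := by
  rw [lpE, norm_mul, norm_mul, norm_exp_I_mul_ofReal, mul_one, Complex.norm_real,
    Real.norm_of_nonneg (Real.rpow_nonneg hy _)]

theorem lp_int_E {σ : ℝ} (hσ : 0 < σ) {y : ℝ} (hy : 0 ≤ y) : Integrable (lpE σ y) := by
  refine ((lp_Gamma_int hσ 0).mul_const (y ^ (-σ))).mono' ?_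
    (Filter.Eventually.of_forall fun u => by simp [lp_norm_E σ hy])
  exact (((lp_Gamma_cont hσ).mul continuous_const).mul (by fun_prop)).aestronglyMeasurable

theorem lp_mellin {σ : ℝ} (hσ : 0 < σ) {y : ℝ} (hy : 0 < y) :
    ∫ u, lpE σ y u = 2 * Real.pi * (Real.exp (-y) : ℂ) := by
  have e : ∀ u : ℝ, mellin (fun x : ℝ => (Real.exp (-x) : ℂ)) (σ + u * I) = Gamma (σ + u * I) :=
    fun u => by rw [← GammaIntegral_eq_mellin, Gamma_eq_integral (by simpa using hσ)]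
  have h := mellinInv_mellin_eq σ (fun x : ℝ => (Real.exp (-x) : ℂ)) hy
    (by simpa only [MellinConvergent, smul_eq_mul, mul_comm] using
      GammaIntegral_convergent (s := σ) (by simpa using hσ))
    (by
      simp only [VerticalIntegrable, e]
      refine (lp_Gamma_int hσ 0).mono' (lp_Gamma_cont hσ).aestronglyMeasurable
        (Filter.Eventually.of_forall fun u => by simp))
    (by fun_prop)
  simp only [mellinInv, e, smul_eq_mul] at h
  have p : (Real.pi : ℂ) ≠ 0 := by exact_mod_cast Real.pi_ne_zero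
  rw [← h, real_smul]
  push_cast
  rw [← mul_assoc, mul_one_div_cancel (mul_ne_zero two_ne_zero p), one_mul]
  refine integral_congr_ae (Filter.Eventually.of_forall fun u => ?_)
  simp only [lpE]
  rw [cpow_def_of_ne_zero (by exact_mod_cast hy.ne'), Real.rpow_def_of_pos hy, ← ofReal_log hy.le,
    ofReal_exp, mul_assoc, ← Complex.exp_add, mul_comm]
  congr 2
  push_cast; ring

theorem lp_swap (K : ℝ) (F : Eis → Eis → ℝ) :
    ∑ h ∈ ball K, ∑ D ∈ lpD h, F h D =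
      ∑ D ∈ (ball K).filter P0, ∑ h ∈ ball (K / N D ^ 2), F (h * D ^ 2) D := by
  rw [Finset.sum_sigma', Finset.sum_sigma']
  symm
  refine Finset.sum_bij (fun x _ => ⟨x.2 * x.1 ^ 2, x.1⟩) ?_ ?_ ?_ fun _ _ => rfl
  · rintro ⟨D, h⟩ hx
    simp only [Finset.mem_sigma, Finset.mem_filter, mem_ball] at hx ⊢
    obtain ⟨⟨⟨D0, -⟩, hD⟩, h0, hK⟩ := hx
    have n0 : h * D ^ 2 ≠ 0 := mul_ne_zero h0 (pow_ne_zero 2 D0)
    refine ⟨⟨n0, ?_⟩, (lp_mem_D n0).2 ⟨hD, dvd_mul_left _ _⟩⟩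
    rwa [N_mul, N_pow, ← le_div_iff₀ (pow_pos (N_pos D0) 2)]
  · rintro ⟨D, h⟩ hx ⟨D', h'⟩ - e
    simp only [Finset.mem_sigma, Finset.mem_filter, mem_ball] at hx
    simp only [Sigma.mk.injEq, heq_eq_eq] at e ⊢
    obtain ⟨e1, rfl⟩ := e
    exact ⟨rfl, mul_right_cancel₀ (pow_ne_zero 2 hx.1.1.1) e1⟩
  · rintro ⟨h, D⟩ hx
    simp only [Finset.mem_sigma, mem_ball] at hx
    obtain ⟨⟨h0, hK⟩, hD'⟩ := hx
    obtain ⟨hD, h', rfl⟩ := (lp_mem_D h0).1 hD'
    refine ⟨⟨D, h'⟩, ?_, by simp only [mul_comm]⟩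
    simp only [Finset.mem_sigma, Finset.mem_filter, mem_ball]
    refine ⟨⟨⟨hD.ne_zero, le_trans (N_le_of_dvd h0 ?_) hK⟩, hD⟩, right_ne_zero_of_mul h0, ?_⟩
    · exact (dvd_pow_self D two_ne_zero).mul_right _
    · rwa [le_div_iff₀ (pow_pos (N_pos hD.ne_zero) 2), mul_comm, ← N_pow, ← N_mul]

theorem lp_tail {s : ℝ} (hs : 1 < s) : ∃ C : ℝ, 0 < C ∧ ∀ x K : ℝ, 0 < x →
    ∑ h ∈ ball K, ∑ _D ∈ lpD h, (if x < N h then N h ^ (-s) else 0) ≤ C * x ^ (1 - s) := by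
  obtain ⟨C, hC, h⟩ := tail_N_rpow hs
  have s2 := summable_N_rpow (s := 2) one_lt_two
  have z0 : 0 ≤ ∑' c : Eis, N c ^ (-2 : ℝ) := tsum_nonneg fun c => Real.rpow_nonneg (N_nonneg c) _
  refine ⟨C * (1 + ∑' c : Eis, N c ^ (-2 : ℝ)), by positivity, fun x K hx => ?_⟩
  rw [lp_swap K fun h _ => if x < N h then N h ^ (-s) else 0]
  have key : ∀ D ∈ (ball K).filter P0, ∑ h ∈ ball (K / N D ^ 2),
      (if x < N (h * D ^ 2) then N (h * D ^ 2) ^ (-s) else 0) ≤
        C * x ^ (1 - s) * N D ^ (-2 : ℝ) := fun D hD => by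
    have n := N_pos (Finset.mem_filter.1 hD).2.ne_zero
    have n2 := pow_pos n 2
    have e : ∀ h, (if x < N (h * D ^ 2) then N (h * D ^ 2) ^ (-s) else 0) =
        (if x / N D ^ 2 < N h then N h ^ (-s) else 0) * (N D ^ 2) ^ (-s) := fun h => by
      simp only [N_mul, N_pow, Real.mul_rpow (N_nonneg h) n2.le, div_lt_iff₀ n2, ite_mul, zero_mul]
    simp only [e, ← Finset.sum_mul]
    have sm : Summable fun c : Eis => if x / N D ^ 2 < N c then N c ^ (-s) else 0 :=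
      (summable_N_rpow hs).of_nonneg_of_le
        (fun c => by split_ifs; exacts [Real.rpow_nonneg (N_nonneg c) _, le_rfl])
        fun c => by split_ifs; exacts [le_rfl, Real.rpow_nonneg (N_nonneg c) _]
    have b := (sm.sum_le_tsum (ball (K / N D ^ 2)) fun c _ => by
      split_ifs; exacts [Real.rpow_nonneg (N_nonneg c) _, le_rfl]).trans (h _ (div_pos hx n2))
    refine (mul_le_mul_of_nonneg_right b (Real.rpow_nonneg n2.le _)).trans (le_of_eq ?_)
    rw [Real.div_rpow hx.le n2.le, mul_assoc, mul_assoc, div_mul_eq_mul_div, mul_div_assoc,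
      ← Real.rpow_sub n2, show -s - (1 - s) = -1 by ring, Real.rpow_neg_one, Real.rpow_neg n.le,
      Real.rpow_two]
  refine (Finset.sum_le_sum key).trans ?_
  rw [← Finset.mul_sum]
  have := s2.sum_le_tsum ((ball K).filter P0) fun c _ => Real.rpow_nonneg (N_nonneg c) _
  have x0 : 0 ≤ C * x ^ (1 - s) := by positivity
  nlinarith

end Vale.Agent.P026
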