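import Vale.Agent.P026.Geo2A

/-! Fundamental parallelogram, partition of unity, unfolding, multiplicity of boxes. -/

namespace Vale.Agent.P026

open Eis Complex MeasureTheory
open scoped Classical ComplexConjugate

theorem measurableSet_F9 : MeasurableSet F9 := geo2_meas_F9
theorem volume_F9 : volume F9 = ENNReal.ofReal V9 := geo2_vol_F9
theorem V9_pos : 0 < V9 := geo2_V9_pos
theorem norm_le_of_mem_F9 {z : ℂ} (hz : z ∈ F9) : ‖z‖ ≤ 18 := geo2_norm_le hz
theorem existsUnique_F9 (z : ℂ) : ∃! y : Eis, z + 9 * toC y ∈ F9 := geo2_unique z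
theorem tsum_F9_three (z : ℂ) :
    ∑' y : Eis, F9.indicator (fun _ => (1 : ENNReal)) (z + 3 * toC y) = 9 := geo2_tsum_three z
theorem lintegral_F9 {f : ℂ → ENNReal} (hf : Measurable f) :
    ∫⁻ z, f z = ∑' y : Eis, ∫⁻ z in F9, f (z + 9 * toC y) := geo2_lintegral hf
theorem integral_F9 {f : ℂ → ℂ} (hf : Integrable f) :
    HasSum (fun y : Eis => ∫ z in F9, f (z + 9 * toC y)) (∫ z, f z) := geo2_integral hf
theorem integral_eR (r : Eis) : ∫ z in F9, eR r z = if r = 0 then (V9 : ℂ) else 0 :=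
  geo2_integral_eR r
theorem measurableSet_box (D1 D2 : ℝ) : MeasurableSet (box D1 D2) :=
  measurableSet_slab.inter ((measurable_snd.snd measurableSet_Icc).inter
    ((show Measurable fun Q : HF => Q.2.1 / (Q.2.2 : ℂ) by fun_prop) measurableSet_F9))

theorem geo2_box (D1 D2 : ℝ) (f : HF → ENNReal) :
    ∫⁻ Q in box D1 D2, f Q = ∫⁻ Q, (box D1 D2).indicator f Q ∂nu := by
  rw [lintegral_indicator (measurableSet_box _ _), nu,
    Measure.restrict_restrict_of_subset fun Q hQ => hQ.1]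

theorem geo2_pt_box {D1 D2 D E : ℝ} (h : (D, E) ∈ DE) (z : ℂ) :
    pt z D E ∈ box D1 D2 ↔ D ∈ Set.Icc D1 D2 ∧ z ∈ F9 := by
  have : (pt z D E).2.1 / ((pt z D E).2.2 : ℂ) = z :=
    mul_div_cancel_left₀ z (ofReal_ne_zero.2 (ne_of_gt h.1))
  rw [box, Set.mem_ofPred_eq, this, and_iff_right (pt_mem_slab z h)]
  rfl

theorem lintegral_box (D1 D2 : ℝ) (hD : 0 < D1) {f : HF → ENNReal} (hf : Measurable f) :
    ∫⁻ Q in box D1 D2, f Q = ∫⁻ p in Set.Icc D1 D2 ×ˢ Set.Icc (1 : ℝ) 2,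
      ENNReal.ofReal p.1 * ∫⁻ z in F9, f (pt z p.1 p.2) := by
  have hm := hf.indicator (measurableSet_box D1 D2)
  have hS : MeasurableSet (Set.Icc D1 D2 ×ˢ Set.Icc (1 : ℝ) 2) :=
    measurableSet_Icc.prod measurableSet_Icc
  rw [geo2_box, ← measurePreserving_pt.lintegral_comp hm, lintegral_withDensity_eq_lintegral_mul _
    (by fun_prop) (g := fun p : ℂ × ℝ × ℝ => (box D1 D2).indicator f (pt p.1 p.2.1 p.2.2))
    (hm.comp measurable_pt), Measure.volume_eq_prod, ← Measure.prod_restrict,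
    lintegral_prod_symm' _ (by exact Measurable.mul (by fun_prop) (hm.comp measurable_pt)),
    ← Measure.restrict_restrict_of_subset (s := Set.Icc D1 D2 ×ˢ Set.Icc (1 : ℝ) 2) (t := DE)
      fun p hp => ⟨hD.trans_le hp.1.1, hp.2⟩, ← lintegral_indicator hS, Measure.restrict_univ]
  refine setLIntegral_congr_fun measurableSet_DE fun p hp => ?_
  simp only [Pi.mul_apply, Set.indicator_apply, geo2_pt_box hp, Set.mem_prod, and_iff_left hp.2]
  rw [lintegral_const_mul' _ _ ENNReal.ofReal_ne_top]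
  split_ifs with h
  · simp only [h, true_and, ← lintegral_indicator measurableSet_F9, Set.indicator_apply]
  · simp [h]

theorem geo2_hv {Q : HF} (hQ : Q ∈ slab) :
    0 < Q.1 ∧ ∀ x : Eis × Eis, N x.1 + N x.2 ≤ (Q.1 + Q.2.2) * hv Q x := by
  obtain ⟨A, B, D⟩ := Q
  obtain ⟨h1, h2, -⟩ := hQ
  refine ⟨(pos_iff_pos_of_mul_pos (by linarith [normSq_nonneg B])).2 h1, fun x => ?_⟩
  have e : (A + D) * hv (A, B, D) x = (A * D - normSq B) * (N x.1 + N x.2) +
      normSq (A * toC x.1 + conj B * toC x.2) + normSq (B * toC x.1 + D * toC x.2) := by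
    simp only [hv, hq, ← normSq_toC]
    generalize toC x.1 = c
    generalize toC x.2 = d
    simp [normSq_apply]
    ring
  have := mul_le_mul_of_nonneg_right h2 (add_nonneg (N_nonneg x.1) (N_nonneg x.2))
  dsimp only at this ⊢
  linarith [normSq_nonneg (A * toC x.1 + conj B * toC x.2),
    normSq_nonneg (B * toC x.1 + D * toC x.2)]

theorem geo2_exp_le {Q : HF} (hQ : Q ∈ slab) {t M : ℝ} (ht : 0 < t) (hM : Q.1 + Q.2.2 ≤ M)
    (x : Eis × Eis) : Real.exp (-(t * hv Q x)) ≤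
      Real.exp (-(t / M * N x.1)) * Real.exp (-(t / M * N x.2)) := by
  obtain ⟨h1, h2⟩ := geo2_hv hQ
  have h3 : 0 < Q.1 + Q.2.2 := add_pos h1 hQ.1
  have h4 : 0 ≤ hv Q x := nonneg_of_mul_nonneg_right
    ((add_nonneg (N_nonneg _) (N_nonneg _)).trans (h2 x)) h3
  have h5 := (div_le_iff₀' (h3.trans_le hM)).2 ((h2 x).trans (mul_le_mul_of_nonneg_right hM h4))
  rw [← Real.exp_add, Real.exp_le_exp, ← neg_add, ← mul_add, neg_le_neg_iff, div_mul_eq_mul_div,
    mul_div_assoc]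
  exact mul_le_mul_of_nonneg_left h5 ht.le

theorem geo2_summable {a : ℝ} (ha : 0 < a) :
    Summable fun x : Eis × Eis => Real.exp (-(a * N x.1)) * Real.exp (-(a * N x.2)) :=
  (summable_exp ha).mul_of_nonneg (summable_exp ha) (fun _ => (Real.exp_pos _).le)
    fun _ => (Real.exp_pos _).le

theorem summable_hv {Q : HF} (hQ : Q ∈ slab) {t : ℝ} (ht : 0 < t) :
    Summable (fun x : Eis × Eis => Real.exp (-(t * hv Q x))) :=
  (geo2_summable (div_pos ht (add_pos (geo2_hv hQ).1 hQ.1))).of_nonneg_of_le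
    (fun _ => (Real.exp_pos _).le) (geo2_exp_le hQ ht le_rfl)

theorem geo2_cont (x : Eis × Eis) : Continuous fun Q => hv Q x := by
  unfold hv hq; fun_prop

theorem measurable_Es (k : Eis → Eis → ℂ) (t : ℝ) : Measurable (Es k t) :=
  Measurable.tsum fun x => Continuous.measurable (by have := geo2_cont x; fun_prop)

theorem continuousOn_Es {k : Eis → Eis → ℂ} (hk : ∀ c d, ‖k c d‖ ≤ 1) {t : ℝ} (ht : 0 < t) :
    ContinuousOn (Es k t) slab := by
  refine continuousOn_of_locally_continuousOn fun Q0 h0 => ⟨{Q | Q.1 + Q.2.2 < Q0.1 + Q0.2.2 + 1},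
    isOpen_lt (by fun_prop) continuous_const, by simp, continuousOn_tsum
      (fun x => Continuous.continuousOn (by have := geo2_cont x; fun_prop))
      (geo2_summable (div_pos ht (add_pos (add_pos (geo2_hv h0).1 h0.1) one_pos))) fun x Q hQ => ?_⟩
  rw [norm_mul, norm_real, Real.norm_of_nonneg (Real.exp_pos _).le]
  exact (mul_le_of_le_one_left (Real.exp_pos _).le (hk _ _)).trans (geo2_exp_le hQ.1 ht hQ.2.le x)

theorem geo2_row (x : Eis × Eis) (g : SL) : row (row x g) g⁻¹ = x := by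
  have := g.det
  refine Prod.ext ?_ ?_ <;> simp only [row, SL.inv_a, SL.inv_b, SL.inv_c, SL.inv_d]
  · linear_combination x.1 * this
  · linear_combination x.2 * this

theorem Es_act (k : Eis → Eis → ℂ) (t : ℝ) (g : SL) (Q : HF) :
    Es k t (act g Q) = Es (fun c d => k (row (c, d) g⁻¹).1 (row (c, d) g⁻¹).2) t Q := by
  let e : Eis × Eis ≃ Eis × Eis := ⟨fun x => row x g, fun x => row x g⁻¹, fun x => geo2_row x g,
    fun x => by simpa only [inv_inv] using geo2_row x g⁻¹⟩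
  rw [Es, Es, eq_comm, ← e.tsum_eq]
  exact tsum_congr fun x => by simp only [e, Equiv.coe_fn_mk, Prod.mk.eta, geo2_row, hv_act]

theorem exists_beta : ∃ β, IsBeta β := by
  let u : HF → ENNReal := fun Q => ENNReal.ofReal (Real.exp (-(Q.1 + Q.2.2)))
  let U : HF → ENNReal := fun Q => ∑' g : G3, u (act g Q)
  have hu : Measurable u := by fun_prop
  have hU : Measurable U := Measurable.tsum fun g => hu.comp (continuous_act _).measurable
  have h0 : ∀ Q, u Q ≠ 0 := fun Q => (ENNReal.ofReal_pos.2 (Real.exp_pos _)).ne'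
  have h1 : ∀ Q, u Q ≤ U Q := fun Q => by
    simpa only [OneMemClass.coe_one, act_one] using ENNReal.le_tsum (f := fun g : G3 => u (act g Q)) 1
  have h2 : ∀ Q ∈ slab, U Q ≠ ⊤ := fun Q hQ => by
    have hs := ((summable_hv hQ one_pos).mul_of_nonneg (summable_hv hQ one_pos)
      (fun _ => (Real.exp_pos _).le) fun _ => (Real.exp_pos _).le).comp_injective
      (i := fun g : G3 => ((g.1.a, g.1.b), (g.1.c, g.1.d))) fun g h e => by
        simp only [Prod.mk.injEq] at e
        exact Subtype.ext (SL.ext e.1.1 e.1.2 e.2.1 e.2.2)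
    have hs' : Summable fun g : G3 => Real.exp (-((act g Q).1 + (act g Q).2.2)) :=
      hs.congr fun g => by
        rw [Function.comp, ← Real.exp_add, one_mul, one_mul, neg_add]; rfl
    simp only [U, u, ← ENNReal.ofReal_tsum_of_nonneg (fun _ => (Real.exp_pos _).le) hs']
    exact ENNReal.ofReal_ne_top
  have h3 : ∀ (h : G3) Q, U (act h Q) = U Q := fun h Q => by
    simp only [U, ← act_mul]
    exact (Equiv.mulRight h).tsum_eq fun g : G3 => u (act g Q)
  refine ⟨fun Q => u Q / U Q, hu.div hU, fun Q => ENNReal.div_le_of_le_mul (by simpa using h1 Q),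
    fun Q hQ => ENNReal.div_pos (h0 Q) (h2 Q hQ), fun Q hQ => ?_⟩
  simp only [h3, div_eq_mul_inv, ENNReal.tsum_mul_right]
  exact ENNReal.mul_inv_cancel (ne_bot_of_le_ne_bot (h0 Q) (h1 Q)) (h2 Q hQ)

theorem geo2_inv (g : SL) (Q : HF) : act g⁻¹ (act g Q) = Q := by
  rw [← act_mul, inv_mul_cancel, act_one]

theorem geo2_sum {β : HF → ENNReal} (hβ : IsBeta β) :
    ∀ᵐ Q ∂nu, ∑' g : G3, β (act (g : SL)⁻¹ Q) = 1 := by
  filter_upwards [ae_restrict_mem measurableSet_slab] with Q hQ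
  rw [← hβ.2.2.2 Q hQ]
  exact (Equiv.inv G3).tsum_eq fun g : G3 => β (act g Q)

theorem geo2_unfold {β : HF → ENNReal} (hβ : IsBeta β) {F : HF → ENNReal} (hF : Measurable F) :
    ∑' g : G3, ∫⁻ Q, β (act (g : SL)⁻¹ Q) * F Q ∂nu = ∫⁻ Q, F Q ∂nu := by
  rw [← lintegral_tsum (f := fun (g : G3) Q => β (act (g : SL)⁻¹ Q) * F Q)
    fun g => ((hβ.1.comp (continuous_act _).measurable).mul hF).aemeasurable]
  refine lintegral_congr_ae ?_
  filter_upwards [geo2_sum hβ] with Q hQ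
  rw [ENNReal.tsum_mul_right, hQ, one_mul]

theorem geo2_shift {β : HF → ENNReal} (hβ : IsBeta β) {F : HF → ENNReal} (hF : Measurable F)
    (g : SL) : ∫⁻ Q, β Q * F (act g Q) ∂nu = ∫⁻ Q, β (act g⁻¹ Q) * F Q ∂nu := by
  rw [← (measurePreserving_act g).lintegral_comp (f := fun Q => β (act g⁻¹ Q) * F Q)
    ((hβ.1.comp (continuous_act _).measurable).mul hF)]
  simp only [geo2_inv]

theorem lintegral_unfold {β : HF → ENNReal} (hβ : IsBeta β) {F : HF → ENNReal}
    (hF : Measurable F) : ∫⁻ Q, β Q * ∑' g : G3, F (act g Q) ∂nu = ∫⁻ Q, F Q ∂nu := by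
  simp only [← ENNReal.tsum_mul_left]
  rw [lintegral_tsum (f := fun (g : G3) Q => β Q * F (act g Q))
    fun g => (hβ.1.mul (hF.comp (continuous_act _).measurable)).aemeasurable, ← geo2_unfold hβ hF]
  exact tsum_congr fun g => geo2_shift hβ hF g

theorem integral_unfold {β : HF → ENNReal} (hβ : IsBeta β) {F : HF → ℂ} (hm : Measurable F)
    (hF : Integrable F nu) :
    Integrable (fun Q => ((β Q).toReal : ℂ) * ∑' g : G3, F (act g Q)) nu ∧
      ∫ Q, ((β Q).toReal : ℂ) * ∑' g : G3, F (act g Q) ∂nu = ∫ Q, F Q ∂nu := by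
  have hb : ∀ Q, β Q ≠ ⊤ := fun Q => ne_top_of_le_ne_top ENNReal.one_ne_top (hβ.2.1 Q)
  have he : ∀ Q (z : ℂ), ‖((β Q).toReal : ℂ) * z‖ₑ = β Q * ‖z‖ₑ := fun Q z => by
    rw [enorm_mul, ← ofReal_norm, norm_real, Real.norm_of_nonneg ENNReal.toReal_nonneg,
      ENNReal.ofReal_toReal (hb Q)]
  have hβm : Measurable fun Q => ((β Q).toReal : ℂ) := measurable_ofReal.comp hβ.1.ennreal_toReal
  have m1 : ∀ g : SL, Measurable fun Q => ((β (act g⁻¹ Q)).toReal : ℂ) * F Q := fun g =>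
    (hβm.comp (continuous_act _).measurable).mul hm
  have m2 : ∀ g : SL, Measurable fun Q => ((β Q).toReal : ℂ) * F (act g Q) := fun g =>
    hβm.mul (hm.comp (continuous_act _).measurable)
  have h1 := geo2_unfold hβ hm.enorm
  refine ⟨⟨(hβm.mul (Measurable.tsum fun g : G3 =>
    hm.comp (continuous_act _).measurable)).aestronglyMeasurable, ?_⟩, ?_⟩
  · refine lt_of_le_of_lt (lintegral_mono fun Q => ?_) ((lintegral_unfold hβ hm.enorm).trans_lt hF.2)
    rw [he]
    exact mul_le_mul_right enorm_tsum_le_tsum_enorm _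
  · simp only [← tsum_mul_left]
    rw [integral_tsum (fun g : G3 => (m2 g).aestronglyMeasurable)
      (by simp only [he, geo2_shift hβ hm.enorm, h1]; exact hF.2.ne)]
    have h2 : ∀ g : SL, ∫ Q, ((β Q).toReal : ℂ) * F (act g Q) ∂nu =
        ∫ Q, ((β (act g⁻¹ Q)).toReal : ℂ) * F Q ∂nu := fun g => by
      conv_rhs => rw [← (measurePreserving_act g).map_eq, integral_map
        (continuous_act g).measurable.aemeasurable (m1 g).aestronglyMeasurable]
      simp only [geo2_inv]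
    simp only [h2]
    rw [← integral_tsum (fun g : G3 => (m1 g).aestronglyMeasurable)
      (by simp only [he, h1]; exact hF.2.ne)]
    refine integral_congr_ae ?_
    filter_upwards [geo2_sum hβ] with Q hQ
    rw [tsum_mul_right, ← ofReal_tsum, ← ENNReal.tsum_toReal_eq fun g => hb _, hQ]
    simp

theorem geo2_card {α γ : Type*} [DecidableEq γ] (T : Finset α) (f : α → γ) {m n : ℝ} (hm : 0 ≤ m)
    (h1 : ∀ a ∈ T, ((T.filter (f · = f a)).card : ℝ) ≤ m) (h2 : ((T.image f).card : ℝ) ≤ n) :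
    (T.card : ℝ) ≤ n * m := by
  rw [Finset.card_eq_sum_card_image f T, Nat.cast_sum]
  refine (Finset.sum_le_card_nsmul _ _ m fun b hb => ?_).trans ?_
  · obtain ⟨a, ha, rfl⟩ := Finset.mem_image.1 hb
    exact h1 a ha
  · rw [nsmul_eq_mul]
    exact mul_le_mul_of_nonneg_right h2 hm

theorem geo2_mult {D1 D2 : ℝ} (hD : 0 < D1) {Q : HF} (hQ : Q ∈ box D1 D2) (T : Finset SL)
    (hT : ∀ h ∈ T, act h Q ∈ box D1 D2) :
    (T.card : ℝ) ≤ 16 * (1 + D2 ^ 2) * (16 * (1 + D2 / D1) * (16 * (1 + 18 ^ 2))) := by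
  obtain ⟨⟨h1, h2, -⟩, ⟨h3, h4⟩, -⟩ := hQ
  have hD2 : 0 < D2 := h1.trans_le h4
  set z := Q.2.1 / (Q.2.2 : ℂ)
  set E := Q.1 * Q.2.2 - normSq Q.2.1
  have hb : ∀ h ∈ T, Q.2.2 * normSq (toC h.c * z + toC h.d) + N h.c * E / Q.2.2 ≤ D2 := by
    intro h hh
    have := (hT h hh).2.1.2
    rwa [act_D, hv, eq_pt h1, hq_pt _ h1.ne', normSq_toC] at this
  refine geo2_card T (·.c) (by positivity) (fun h0 _ => geo2_card _ (·.d) (by positivity)
    (fun h1 hh1 => ?_) (card_disc_le (toC h0.c * z) (by positivity) _ fun d hd => ?_))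
    (card_disc_le 0 (by positivity) _ fun c hc => ?_)
  · obtain ⟨hh1, e1⟩ := Finset.mem_filter.1 hh1
    have key : ∀ h ∈ (T.filter (·.c = h0.c)).filter (·.d = h1.d), h = tr (h * h1⁻¹).b * h1 := by
      intro h hh
      simp only [Finset.mem_filter] at hh
      have hc := hh.1.2.trans e1.symm
      have d1 := h.det
      have d2 := h1.det
      rw [hc, hh.2] at d1
      refine SL.ext ?_ ?_ (by simp [tr, hc]) (by simp [tr, hh.2]) <;> simp [tr]
      · linear_combination (-h.a) * d2 + h1.a * d1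
      · linear_combination (-h.b) * d2 + h1.b * d1
    rw [← Finset.card_image_of_injOn (f := fun h => (h * h1⁻¹).b) fun h hh h' hh' e => by
      rw [key h hh, key h' hh']; exact congrArg (tr · * h1) e]
    refine card_disc_le ((act h1 Q).2.1 / ((act h1 Q).2.2 : ℂ)) (by positivity) _ fun y hy => ?_
    obtain ⟨h, hh, rfl⟩ := Finset.mem_image.1 hy
    have h5 := hT h (Finset.mem_filter.1 (Finset.mem_filter.1 hh).1).1
    obtain ⟨h6, h7, h8⟩ := (hT h1 hh1).1
    rw [key h hh, act_mul, eq_pt h6, act_tr_pt, geo2_pt_box ⟨h6, h7, h8⟩] at h5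
    rw [normSq_eq_norm_sq]
    exact pow_le_pow_left₀ (norm_nonneg _) (norm_le_of_mem_F9 h5.2) 2
  · obtain ⟨h, hh, rfl⟩ := Finset.mem_image.1 hd
    obtain ⟨hh, e⟩ := Finset.mem_filter.1 hh
    have := hb h hh
    rw [e] at this
    have h5 : 0 ≤ N h0.c * E / Q.2.2 := by have := N_nonneg h0.c; positivity
    rw [le_div_iff₀' hD]
    linarith [mul_le_mul_of_nonneg_right h3 (normSq_nonneg (toC h0.c * z + toC h.d))]
  · obtain ⟨h, hh, rfl⟩ := Finset.mem_image.1 hc
    have h5 := mul_nonneg h1.le (normSq_nonneg (toC h.c * z + toC h.d))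
    have h6 := (div_le_iff₀ h1).1 ((le_add_of_nonneg_left h5).trans (hb h hh))
    rw [zero_add, normSq_toC]
    nlinarith [mul_le_mul_of_nonneg_left h2 (N_nonneg h.c), mul_le_mul_of_nonneg_left h4 hD2.le]

/-- Bounded multiplicity of boxes. -/
theorem lintegral_box_le : ∃ C : ℝ, 0 < C ∧ ∀ β, IsBeta β → ∀ G : HF → ENNReal, Measurable G →
    (∀ g ∈ G3, ∀ᵐ Q ∂nu, G (act g Q) = G Q) → ∀ (s : SL) (D1 D2 : ℝ), 0 < D1 → D1 ≤ D2 →
      ∫⁻ Q in box D1 D2, G (act s Q) ≤
        ENNReal.ofReal (C * (1 + D2 ^ 2) * (1 + D2 / D1)) * ∫⁻ Q, β Q * G Q ∂nu := by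
  refine ⟨16 ^ 3 * (1 + 18 ^ 2), by positivity, fun β hβ G hG hi s D1 D2 hD _ => ?_⟩
  let F : HF → ENNReal := fun Q => (box D1 D2).indicator 1 (act s⁻¹ Q) * G Q
  have hF : Measurable F := ((measurable_one.indicator (measurableSet_box _ _)).comp
    (continuous_act _).measurable).mul hG
  have e : ∀ Q, (box D1 D2).indicator (fun Q => G (act s Q)) Q = F (act s Q) := fun Q => by
    simp only [F, geo2_inv, Set.indicator_apply, ite_mul, Pi.one_apply, one_mul, zero_mul]
  rw [geo2_box, lintegral_congr e, (measurePreserving_act s).lintegral_comp hF,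
    ← lintegral_unfold hβ hF, ← lintegral_const_mul' _ _ ENNReal.ofReal_ne_top]
  refine lintegral_mono_ae ?_
  filter_upwards [ae_all_iff.2 fun g : G3 => hi g g.2] with Q hQ
  simp only [F, hQ, ENNReal.tsum_mul_right, mul_left_comm (β Q)]
  refine mul_le_mul_left (ENNReal.summable.tsum_le_of_sum_le fun S => ?_) _
  simp only [Set.indicator_apply, Pi.one_apply, Finset.sum_boole]
  rcases (S.filter fun g : G3 => act s⁻¹ (act g Q) ∈ box D1 D2).eq_empty_or_nonempty with h | ⟨g0, h⟩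
  · simp [h]
  · rw [← Finset.card_image_of_injective _ (f := fun g : G3 => s⁻¹ * g * (s⁻¹ * g0)⁻¹)
      fun g g' e => Subtype.ext (by simpa using e), ← ENNReal.ofReal_natCast]
    refine ENNReal.ofReal_le_ofReal ((geo2_mult hD (Finset.mem_filter.1 h).2 _ fun k hk => ?_).trans
      (le_of_eq (by ring)))
    obtain ⟨g, hg, rfl⟩ := Finset.mem_image.1 hk
    rw [← act_mul s⁻¹, act_mul, geo2_inv, act_mul]
    exact (Finset.mem_filter.1 hg).2

end Vale.Agent.P026
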