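import Vale.Agent.P026.L2C

/-! Existence of the theta function as a mean square limit. -/

namespace Vale.Agent.P026

open Eis Complex MeasureTheory Filter Topology Set
open scoped Classical ComplexConjugate

theorem l2_enorm_kap {g : SL} (hg : g ∈ G3) (z : ℂ) : ‖conj (kap0 g.c g.d) * z‖ₑ = ‖z‖ₑ := by
  rw [← ofReal_norm, ← ofReal_norm, norm_mul, RCLike.norm_conj, norm_kap0_G3 hg, one_mul]

theorem l2T_sig (A q : Eis) (t : ℝ) (Q : HF) :
    l2T kap0 t (act (sig A q) Q) = l2T (kapS A q) t Q := by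
  unfold l2T; rw [Es_act]; rfl

theorem l2_box_lim {β : HF → ENNReal} (hβ : IsBeta β) {G : ℝ → HF → ENNReal}
    (hm : ∀ t, Measurable (G t))
    (hi : ∀ t, 0 < t → ∀ g ∈ G3, ∀ᵐ Q ∂nu, G t (act g Q) = G t Q)
    (hl : Tendsto (fun t => ∫⁻ Q, β Q * G t Q ∂nu) (𝓝[>] 0) (𝓝 0)) (s : SL) {D1 D2 : ℝ}
    (h1 : 0 < D1) (h2 : D1 ≤ D2) :
    Tendsto (fun t => ∫⁻ Q in box D1 D2, G t (act s Q)) (𝓝[>] 0) (𝓝 0) := by
  obtain ⟨C, -, hC⟩ := lintegral_box_le
  have h3 := ENNReal.Tendsto.const_mul (a := ENNReal.ofReal (C * (1 + D2 ^ 2) * (1 + D2 / D1))) hl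
    (Or.inr ENNReal.ofReal_ne_top)
  rw [mul_zero] at h3
  refine tendsto_of_tendsto_of_tendsto_of_le_of_le' tendsto_const_nhds h3
    (Eventually.of_forall fun _ => bot_le) ?_
  filter_upwards [self_mem_nhdsWithin] with t ht
  exact hC β hβ (G t) (hm t) (hi t ht) s D1 D2 h1 h2

theorem l2_enorm_split (a b : ℂ) {c : ℝ} (h0 : 0 ≤ c) (h1 : c ≤ 1) :
    ‖(c : ℂ) * a - b‖ₑ ^ 2 ≤ 2 * ‖a‖ₑ ^ 2 + 2 * ENNReal.ofReal (‖b‖ ^ 2) := by
  have h2 : ‖(c : ℂ) * a - b‖ ≤ ‖a‖ + ‖b‖ := by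
    refine le_trans (norm_sub_le _ _) ?_
    rw [norm_mul, Complex.norm_real, Real.norm_of_nonneg h0]
    have := mul_le_of_le_one_left (norm_nonneg a) h1
    linarith
  have h3 : ‖(c : ℂ) * a - b‖ ^ 2 ≤ 2 * ‖a‖ ^ 2 + 2 * ‖b‖ ^ 2 := by
    have := pow_le_pow_left₀ (norm_nonneg _) h2 2
    nlinarith [sq_nonneg (‖a‖ - ‖b‖)]
  rw [← ofReal_norm, ← ofReal_norm, ← ENNReal.ofReal_pow (norm_nonneg _),
    ← ENNReal.ofReal_pow (norm_nonneg _)]
  refine le_trans (ENNReal.ofReal_le_ofReal h3) ?_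
  rw [ENNReal.ofReal_add (by positivity) (by positivity), ENNReal.ofReal_mul (by norm_num),
    ENNReal.ofReal_mul (by norm_num)]
  simp

theorem exists_isTheta : ∃ θ, IsTheta θ := by
  obtain ⟨β, hβ⟩ := exists_beta
  obtain ⟨θ, hθm, hfin, hlim, u, hu⟩ := l2_limit hβ
  have aut : ∀ g ∈ G3, ∀ᵐ Q ∂nu, θ (act g Q) = conj (kap0 g.c g.d) * θ Q := by
    intro g hg
    filter_upwards [hu, (measurePreserving_act g).quasiMeasurePreserving.ae hu] with Q h1 h2
    simp only [l2T_act hg] at h2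
    exact tendsto_nhds_unique h2 (h1.const_mul _)
  have hconv : ∀ (s : SL) {D1 D2 : ℝ}, 0 < D1 → D1 ≤ D2 → Tendsto (fun t => ∫⁻ Q in box D1 D2,
      ‖l2T kap0 t (act s Q) - θ (act s Q)‖ₑ ^ 2) (𝓝[>] 0) (𝓝 0) := by
    intro s D1 D2 h1 h2
    refine l2_box_lim hβ (G := fun t Q => ‖l2T kap0 t Q - θ Q‖ₑ ^ 2) (fun t => ?_) ?_ hlim s h1 h2
    · have := l2T_meas kap0 t
      fun_prop
    · intro t _ g hg
      filter_upwards [aut g hg] with Q hQ
      rw [hQ, l2T_act hg, ← mul_sub, l2_enorm_kap hg]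
  refine ⟨θ, hθm, aut, ?_, ?_, ?_⟩
  · obtain ⟨C, hC0, hC⟩ := lintegral_box_le
    refine ⟨C * (∫⁻ Q, β Q * ‖θ Q‖ₑ ^ 2 ∂nu).toReal, fun s D1 D2 h1 h2 => ?_⟩
    refine le_trans (hC β hβ (fun Q => ‖θ Q‖ₑ ^ 2) (by fun_prop) ?_ s D1 D2 h1 h2) ?_
    · intro g hg
      filter_upwards [aut g hg] with Q hQ
      rw [hQ, l2_enorm_kap hg]
    · have hD2 : 0 < D2 := lt_of_lt_of_le h1 h2
      rw [← ENNReal.ofReal_toReal hfin.ne, ← ENNReal.ofReal_mul (by positivity),
        ENNReal.toReal_ofReal ENNReal.toReal_nonneg]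
      apply le_of_eq; congr 1; ring
  · intro A q D1 D2 h1 h2
    have := hconv (sig A q) h1 h2
    simp only [l2T_sig] at this
    exact this
  · intro A q p hp hp1 D1 D2 h1 h2
    set s := sig A q with hs
    have hprim : ¬ (p ∣ (row (0, 1) s⁻¹).1 ∧ p ∣ (row (0, 1) s⁻¹).2) := by
      rintro ⟨a1, a2⟩
      simp only [row, SL.inv_a, SL.inv_b, SL.inv_c, SL.inv_d, zero_mul, one_mul, zero_add,
        dvd_neg] at a1 a2
      apply hp.not_dvd_one
      rw [← s.det]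
      exact dvd_sub (a2.mul_right _) (a1.mul_left _)
    obtain ⟨l, hl, hl2, -⟩ := l2_exists_line hp hprim
    have hlin := l2_lin_eq hp hprim (l2_prim_Lam hp hl) hl2 kap0
    have hE : ∀ t Q, l2T (lin p l kap0) t (act s Q) = l2T (lin p (0, 1) (kapS A q)) t Q := by
      intro t Q
      unfold l2T
      rw [← hlin, Es_act]
      congr 2
      funext c d
      rw [l2_lin_row, ← row_mul, inv_mul_cancel, row_one]
      rfl
    have hG := l2_box_lim hβ (G := fun t Q => ENNReal.ofReal (l2G p t Q))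
      (fun t => (l2G_meas p t).ennreal_ofReal) (fun t ht g hg => by
        filter_upwards [l2_ae_slab] with Q hQ
        rw [l2G_inv hp ht hQ hg]) (l2G_lim hβ hp hp1) s h1 h2
    have h3 := (ENNReal.Tendsto.const_mul (a := 2) (hconv s h1 h2) (Or.inr (by simp))).add
      (ENNReal.Tendsto.const_mul (a := 2) hG (Or.inr (by simp)))
    simp only [mul_zero, add_zero] at h3
    refine tendsto_of_tendsto_of_tendsto_of_le_of_le' tendsto_const_nhds h3
      (Eventually.of_forall fun _ => bot_le) ?_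
    filter_upwards [self_mem_nhdsWithin] with t ht
    have hma : Measurable (act s) := (continuous_act s).measurable
    have m1 : Measurable fun Q => ‖l2T kap0 t (act s Q) - θ (act s Q)‖ₑ ^ 2 := by
      have := (l2T_meas kap0 t).comp hma
      have := hθm.comp hma
      fun_prop
    have m2 : Measurable fun Q => ENNReal.ofReal (l2G p t (act s Q)) :=
      ((l2G_meas p t).comp hma).ennreal_ofReal
    rw [← lintegral_const_mul _ m1, ← lintegral_const_mul _ m2,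
      ← lintegral_add_left (m1.const_mul _)]
    refine setLIntegral_mono' (measurableSet_box D1 D2) fun Q hQ => ?_
    have hN := N_nonneg p
    have hN' : ((N p + 1 : ℝ) : ℂ) ≠ 0 := by
      have : (0 : ℝ) < N p + 1 := by positivity
      exact_mod_cast this.ne'
    have e1 : ((t ^ (4 / 3 : ℝ) : ℝ) : ℂ) * Es (off p (kapS A q)) t Q -
        ((N p / (N p + 1) : ℝ) : ℂ) * θ (act s Q) =
        ((N p / (N p + 1) : ℝ) : ℂ) * (l2T kap0 t (act s Q) - θ (act s Q)) -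
          (l2T (lin p l kap0) t (act s Q) - l2T kap0 t (act s Q) / ((N p + 1 : ℝ) : ℂ)) := by
      rw [hE, hs, l2T_sig]
      unfold l2T
      rw [l2_Es_off p (adm_kapS A q).1 ht hQ.1]
      push_cast at hN' ⊢
      field_simp
      ring
    rw [e1]
    refine le_trans (l2_enorm_split _ _ (by positivity)
      (div_le_one_of_le₀ (by linarith) (by positivity))) ?_
    gcongr
    unfold l2G
    exact Finset.single_le_sum (f := fun l => ‖l2T (lin p l kap0) t (act s Q) -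
      l2T kap0 t (act s Q) / ((N p + 1 : ℝ) : ℂ)‖ ^ 2) (fun _ _ => by positivity) hl

end Vale.Agent.P026
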