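import Vale.Agent.P026.Count
import Vale.Agent.P026.PoisA

/-! Poisson summation for Gaussians on the Eisenstein lattice, and Milgram's formula. -/

namespace Vale.Agent.P026

open Eis Complex Filter Topology
open scoped Classical ComplexConjugate

/-- Coordinates. -/
def poisE1 : Eis ≃ ℤ × ℤ where
  toFun x := (x.a, x.b)
  invFun y := ⟨y.1, y.2⟩
  left_inv _ := rfl
  right_inv _ := rfl

/-- Dual coordinates. -/
def poisE2 : Eis ≃ ℤ × ℤ where
  toFun x := (x.b, x.a - x.b)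
  invFun y := ⟨y.2 + y.1, y.1⟩
  left_inv x := by ext <;> simp
  right_inv y := by ext <;> simp

theorem pois_eis {p q r : ℂ} {ρ : ℝ} (hρ : 0 < ρ) (hd : p * r - q ^ 2 = ρ) (hp : 0 < p.re)
    (h : q.re ^ 2 < p.re * r.re) (α β : ℂ) :
    ∑' x : Eis, cexp (-Real.pi * (p * x.a ^ 2 + 2 * q * x.a * x.b + r * x.b ^ 2)
        + 2 * Real.pi * (α * x.a + β * x.b))
      = ((1 / √ρ : ℝ) : ℂ) * ∑' y : Eis, cexp (-Real.pi / ρ * (r * (y.b + I * α) ^ 2
          - 2 * q * (y.b + I * α) * (y.a - y.b + I * β) + p * (y.a - y.b + I * β) ^ 2)) := by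
  have := poisA_two hρ hd hp h α β
  rw [← poisE1.tsum_eq, ← poisE2.tsum_eq] at this
  simpa [poisE1, poisE2] using this

theorem pois_N (x : Eis) : N x = (x.a : ℝ) ^ 2 - x.a * x.b + (x.b : ℝ) ^ 2 := by
  simp [N, nrm]

theorem poisson_coset {c : Eis} (hc : c ≠ 0) (x : Eis) {M : ℝ} (hM : 0 < M) :
    ∑' y : Eis, (Real.exp (-(Real.pi * N (x + c * y) / M)) : ℂ)
      = ((2 * M / (√3 * N c) : ℝ) : ℂ) * ∑' h : Eis, psi c (h * x) *
          (Real.exp (-(4 * Real.pi / 3 * M * N h / N c)) : ℂ) := by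
  have hN := N_pos hc
  set n := N c with hn
  set l : ℝ := n / M with hl
  have hl0 : 0 < l := div_pos hN hM
  set A : ℝ := ((x * cj c).a : ℝ) with hA
  set B : ℝ := ((x * cj c).b : ℝ) with hB
  have hρ : 0 < 3 * l ^ 2 / 4 := by positivity
  have key := pois_eis (p := (l : ℂ)) (q := ((-l / 2 : ℝ) : ℂ)) (r := (l : ℂ)) hρ
    (by push_cast; ring) (by simpa using hl0)
    (by simp only [ofReal_re]; nlinarith)
    ((-(2 * A - B) / (2 * M) : ℝ) : ℂ) ((-(2 * B - A) / (2 * M) : ℝ) : ℂ)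
  have hnc : (n : ℂ) ≠ 0 := by exact_mod_cast hN.ne'
  have hMc : (M : ℂ) ≠ 0 := by exact_mod_cast hM.ne'
  have hnx : A ^ 2 - A * B + B ^ 2 = N x * n := by
    rw [hA, hB, ← pois_N, N_mul, hn]; simp [N, nrm_cj]
  have e1 : ∀ y : Eis, (Real.exp (-(Real.pi * N (x + c * y) / M)) : ℂ)
      = cexp (-(Real.pi * N x / M : ℝ)) * cexp (-Real.pi * ((l : ℂ) * y.a ^ 2
        + 2 * ((-l / 2 : ℝ) : ℂ) * y.a * y.b + (l : ℂ) * y.b ^ 2)
        + 2 * Real.pi * (((-(2 * A - B) / (2 * M) : ℝ) : ℂ) * y.a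
          + ((-(2 * B - A) / (2 * M) : ℝ) : ℂ) * y.b)) := by
    intro y
    rw [← Complex.exp_add, Complex.ofReal_exp]
    congr 1
    have : N (x + c * y) = N x + n * ((y.a : ℝ) ^ 2 - y.a * y.b + (y.b : ℝ) ^ 2)
        + ((2 * A - B) * y.a + (2 * B - A) * y.b) := by
      rw [hn, hA, hB]; simp only [pois_N, add_a, add_b, mul_a, mul_b, cj_a, cj_b]
      push_cast; ring
    rw [this, hl]
    push_cast
    field_simp
    ring
  have e2 : ∀ h : Eis, psi c (h * x) * (Real.exp (-(4 * Real.pi / 3 * M * N h / n)) : ℂ)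
      = cexp (-(Real.pi * N x / M : ℝ)) * cexp (-Real.pi / ((3 * l ^ 2 / 4 : ℝ) : ℂ) *
        ((l : ℂ) * (h.b + I * ((-(2 * A - B) / (2 * M) : ℝ) : ℂ)) ^ 2
          - 2 * ((-l / 2 : ℝ) : ℂ) * (h.b + I * ((-(2 * A - B) / (2 * M) : ℝ) : ℂ))
            * (h.a - h.b + I * ((-(2 * B - A) / (2 * M) : ℝ) : ℂ))
          + (l : ℂ) * (h.a - h.b + I * ((-(2 * B - A) / (2 * M) : ℝ) : ℂ)) ^ 2)) := by
    intro h
    rw [psi, ← Complex.exp_add, Complex.ofReal_exp, ← Complex.exp_add]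
    congr 1
    have h1 : ((h * x * cj c).b : ℝ) = h.b * A + (h.a - h.b) * B := by
      rw [hA, hB, mul_assoc]; simp only [mul_b (x := h)]; push_cast; ring
    have h2 : N x = (A ^ 2 - A * B + B ^ 2) / n := by rw [hnx]; field_simp
    rw [h1, h2, pois_N h, ← hn, hl]
    push_cast
    have hI : I ^ 2 = -1 := I_sq
    field_simp
    linear_combination (12 * ((A : ℂ) ^ 2 - A * B + B ^ 2)) * hI
  have e3 : (1 / √(3 * l ^ 2 / 4) : ℝ) = 2 * M / (√3 * n) := by
    have : 3 * l ^ 2 / 4 = 3 * (l / 2) ^ 2 := by ring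
    rw [this, Real.sqrt_mul (by norm_num), Real.sqrt_sq (by positivity), hl]
    have : (0 : ℝ) < √3 := Real.sqrt_pos.2 (by norm_num)
    field_simp
  simp_rw [e1, e2, tsum_mul_left, key, e3]
  ring

theorem pois_bound {c : Eis} (hc : c ≠ 0) {F : Eis → ℂ} (hF : Per c F) (m : Eis) :
    ‖F m‖ ≤ ∑ x ∈ res c, ‖F x‖ := by
  rw [hF.congr (dvd_sub_mod c m)]
  exact Finset.single_le_sum (f := fun x => ‖F x‖) (fun _ _ => norm_nonneg _) (mod_mem_res hc m)

theorem pois_summable {F : Eis → ℂ} {B : ℝ} (hB : ∀ m, ‖F m‖ ≤ B) {a : ℝ} (ha : 0 < a) :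
    Summable (fun m : Eis => F m * (Real.exp (-(a * N m)) : ℂ)) := by
  refine Summable.of_norm_bounded ((summable_exp ha).mul_left B) (fun m => ?_)
  rw [norm_mul, Complex.norm_real, Real.norm_of_nonneg (Real.exp_pos _).le]
  exact mul_le_mul_of_nonneg_right (hB m) (Real.exp_pos _).le

theorem poisson_per {c : Eis} (hc : c ≠ 0) {F : Eis → ℂ} (hF : Per c F) {M : ℝ} (hM : 0 < M) :
    ∑' m : Eis, F m * (Real.exp (-(Real.pi * N m / M)) : ℂ)
      = ((2 * M / (√3 * N c) : ℝ) : ℂ) * ∑' h : Eis, gauss F c h *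
          (Real.exp (-(4 * Real.pi / 3 * M * N h / N c)) : ℂ) := by
  have hN := N_pos hc
  have hs : Summable (fun m : Eis => F m * (Real.exp (-(Real.pi * N m / M)) : ℂ)) := by
    have := pois_summable (pois_bound hc hF) (a := Real.pi / M) (div_pos Real.pi_pos hM)
    refine this.congr (fun m => ?_)
    congr 4; ring
  rw [tsum_res hc hs]
  have e1 : ∀ x ∈ res c, ∑' y : Eis, F (x + c * y) * (Real.exp (-(Real.pi * N (x + c * y) / M)) : ℂ)
      = ((2 * M / (√3 * N c) : ℝ) : ℂ) * ∑' h : Eis, F x * psi c (h * x) *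
          (Real.exp (-(4 * Real.pi / 3 * M * N h / N c)) : ℂ) := by
    intro x _
    simp_rw [hF x, mul_assoc (F x), tsum_mul_left, poisson_coset hc x hM]
    ring
  rw [Finset.sum_congr rfl e1, ← Finset.mul_sum, ← Summable.tsum_finsetSum]
  · congr 1
    refine tsum_congr (fun h => ?_)
    rw [gauss, Finset.sum_mul]
  · intro x _
    have := pois_summable (F := fun h => F x * psi c (h * x)) (B := ‖F x‖)
      (fun h => by rw [norm_mul, norm_psi, mul_one])
      (a := 4 * Real.pi / 3 * M / N c) (by have := Real.pi_pos; positivity)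
    refine this.congr (fun m => ?_)
    congr 4; ring

theorem pois_limit {c : Eis} (hc : c ≠ 0) {F : Eis → ℂ} (hF : Per c F) :
    Tendsto (fun e : ℝ => (e : ℂ) * ∑' m : Eis, F m * (Real.exp (-(Real.pi * e * N m)) : ℂ))
      (𝓝[>] 0) (𝓝 (((2 / (√3 * N c) : ℝ) : ℂ) * ∑ x ∈ res c, F x)) := by
  have hN := N_pos hc
  have hpi := Real.pi_pos
  obtain ⟨C, hC, hCle⟩ := tsum_exp_le
  set B := ∑ x ∈ res c, ‖F x‖ with hB
  have hB0 : 0 ≤ B := Finset.sum_nonneg (fun _ _ => norm_nonneg _)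
  have hg : ∀ h, ‖gauss F c h‖ ≤ B := by
    intro h
    refine (norm_sum_le _ _).trans (Finset.sum_le_sum (fun x _ => ?_))
    rw [norm_mul, norm_psi, mul_one]
  have hlim : Tendsto (fun e : ℝ => 2 / (√3 * N c) * (B * (C * (3 * N c / (4 * Real.pi)) * e)))
      (𝓝[>] 0) (𝓝 0) := by
    have : Tendsto (fun e : ℝ => 2 / (√3 * N c) * (B * (C * (3 * N c / (4 * Real.pi)) * e)))
        (𝓝 0) (𝓝 (2 / (√3 * N c) * (B * (C * (3 * N c / (4 * Real.pi)) * 0)))) :=
      Continuous.tendsto (by fun_prop) 0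
    simpa using this.mono_left nhdsWithin_le_nhds
  rw [tendsto_iff_norm_sub_tendsto_zero]
  refine squeeze_zero' (Eventually.of_forall (fun _ => norm_nonneg _)) ?_ hlim
  filter_upwards [self_mem_nhdsWithin] with e he
  have he0 : 0 < e := he
  have h1 := poisson_per hc hF (M := 1 / e) (by positivity)
  have e1 : ∀ m : Eis, -(Real.pi * e * N m) = -(Real.pi * N m / (1 / e)) := by
    intro m; field_simp
  set a : ℝ := 4 * Real.pi / 3 * (1 / e) / N c with ha
  have ha0 : 0 < a := by positivity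
  have e2 : ∀ m : Eis, -(4 * Real.pi / 3 * (1 / e) * N m / N c) = -(a * N m) := by
    intro m; rw [ha]; ring
  simp_rw [e2] at h1
  simp_rw [e1, h1]
  have hs := pois_summable hg ha0
  rw [hs.tsum_eq_add_tsum_ite 0]
  have e3 : gauss F c 0 = ∑ x ∈ res c, F x := by simp [gauss]
  have he' : (e : ℂ) ≠ 0 := by exact_mod_cast he0.ne'
  have e4 : (e : ℂ) * (((2 * (1 / e) / (√3 * N c) : ℝ) : ℂ) *
      (gauss F c 0 * (Real.exp (-(a * N 0)) : ℂ) + ∑' h : Eis,
        if h = 0 then 0 else gauss F c h * (Real.exp (-(a * N h)) : ℂ)))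
      - ((2 / (√3 * N c) : ℝ) : ℂ) * ∑ x ∈ res c, F x
      = ((2 / (√3 * N c) : ℝ) : ℂ) * ∑' h : Eis,
        if h = 0 then 0 else gauss F c h * (Real.exp (-(a * N h)) : ℂ) := by
    rw [e3, N_zero]; push_cast; field_simp; simp
  rw [e4, norm_mul, Complex.norm_real, Real.norm_of_nonneg (by positivity)]
  refine mul_le_mul_of_nonneg_left ?_ (by positivity)
  have hs2 : Summable (fun h : Eis => if h = 0 then 0 else Real.exp (-(a * N h))) := by
    refine Summable.of_nonneg_of_le (fun h => ?_) (fun h => ?_) (summable_exp ha0)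
    · split_ifs
      · exact le_rfl
      · exact (Real.exp_pos _).le
    · split_ifs
      · exact (Real.exp_pos _).le
      · exact le_rfl
  have h5 : ‖∑' h : Eis, if h = 0 then 0 else gauss F c h * (Real.exp (-(a * N h)) : ℂ)‖
      ≤ ∑' h : Eis, B * (if h = 0 then 0 else Real.exp (-(a * N h))) := by
    refine tsum_of_norm_bounded (hs2.mul_left B).hasSum (fun h => ?_)
    split_ifs
    · simp
    · rw [norm_mul, Complex.norm_real, Real.norm_of_nonneg (Real.exp_pos _).le]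
      exact mul_le_mul_of_nonneg_right (hg h) (Real.exp_pos _).le
  refine h5.trans ?_
  rw [tsum_mul_left]
  refine mul_le_mul_of_nonneg_left ((hCle a ha0).trans (le_of_eq ?_)) hB0
  rw [ha]; field_simp

theorem pois_res_two : res 2 = {0, -1, -om, -1 - om} := by
  ext x
  rw [mem_res (by decide), mod_def]
  simp only [Finset.mem_insert, Finset.mem_singleton, Eis.ext_iff, quo, nrm, sub_a, sub_b, mul_a,
    mul_b, cj_a, cj_b, ofNat_a, ofNat_b, zero_a, zero_b, neg_a, neg_b, one_a, one_b, om_a, om_b]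
  omega

/-- The phase of the dual sum in the limit. -/
noncomputable def poisF (c h : Eis) : ℂ := (-I) ^ (c * h ^ 2).b

theorem pois_per_F (c : Eis) : Per 2 (poisF c) := by
  intro x y
  have hI : (-I : ℂ) ≠ 0 := neg_ne_zero.2 I_ne_zero
  have e : c * (x + 2 * y) ^ 2 = c * x ^ 2 + 4 * (c * (x * y + y ^ 2)) := by ring
  have h4 : (-I : ℂ) ^ (4 : ℤ) = 1 := by
    rw [show (4 : ℤ) = ((4 : ℕ) : ℤ) from rfl, zpow_natCast]
    rw [show (4 : ℕ) = 2 * 2 from rfl, pow_mul, neg_sq, I_sq]; norm_num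
  rw [poisF, poisF, e, add_b, zpow_add₀ hI]
  have : (4 * (c * (x * y + y ^ 2))).b = 4 * (c * (x * y + y ^ 2)).b := by
    rw [mul_b]; simp
  rw [this, zpow_mul, h4, one_zpow, mul_one]

theorem pois_sum_F {c : Eis} (hc : ¬ (2 : Eis) ∣ c) : ∑ x ∈ res 2, poisF c x = 2 * Gam c := by
  rw [pois_res_two, Finset.sum_insert (by decide), Finset.sum_insert (by decide),
    Finset.sum_insert (by decide), Finset.sum_singleton, Gam, if_neg hc]
  have e0 : (c * (0 : Eis) ^ 2).b = 0 := by simp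
  have e1 : (c * (-1 : Eis) ^ 2).b = c.b := by simp
  have e2 : (c * (-om) ^ 2).b = -c.a := by simp [pow_two]
  have e3 : (c * (-1 - om) ^ 2).b = c.a - c.b := by simp [pow_two]
  simp only [poisF, e0, e1, e2, e3, zpow_zero]
  ring

theorem pois_phase (T : ℤ) (u : ℝ) :
    ‖cexp (I * ((-(2 * Real.pi * T * u) : ℝ) : ℂ)) - (-I) ^ T‖ ≤ 2 * Real.pi * |(T : ℝ)| * |u - 1 / 4| := by
  have e1 : (-I : ℂ) ^ T = cexp (I * ((-(2 * Real.pi * T * (1 / 4)) : ℝ) : ℂ)) := by
    have : (-I : ℂ) = cexp (-Real.pi / 2 * I) := Complex.exp_neg_pi_div_two_mul_I.symm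
    rw [this, ← Complex.exp_int_mul]
    congr 1; push_cast; ring
  have e2 : cexp (I * ((-(2 * Real.pi * T * u) : ℝ) : ℂ)) = cexp (I * ((-(2 * Real.pi * T * (1 / 4)) : ℝ) : ℂ))
      * cexp (I * ((-(2 * Real.pi * T * (u - 1 / 4)) : ℝ) : ℂ)) := by
    rw [← Complex.exp_add]; congr 1; push_cast; ring
  rw [e1, e2, ← mul_sub_one, norm_mul, Complex.norm_exp_I_mul_ofReal, one_mul]
  refine (Real.norm_exp_I_mul_ofReal_sub_one_le).trans (le_of_eq ?_)
  rw [Real.norm_eq_abs, abs_neg, abs_mul, abs_mul, abs_mul, abs_of_pos Real.pi_pos, abs_two]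

theorem pois_abs_b (x : Eis) : |(x.b : ℝ)| ≤ 2 * ab x := by
  have h1 : (x.b : ℝ) ^ 2 ≤ (2 * ab x) ^ 2 := by
    rw [mul_pow, ab_sq, pois_N]; nlinarith [sq_nonneg (2 * (x.a : ℝ) - x.b), sq_nonneg (x.b : ℝ)]
  exact abs_le_of_sq_le_sq' h1 (by have := ab_nonneg x; positivity) |> fun h => abs_le.2 h

theorem pois_moment : ∃ C : ℝ, 0 < C ∧ ∀ a : ℝ, 0 < a →
    Summable (fun h : Eis => N h * Real.exp (-(a * N h))) ∧
      ∑' h : Eis, N h * Real.exp (-(a * N h)) ≤ C / a ^ 2 := by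
  obtain ⟨C, hC, hCle⟩ := tsum_exp_le
  refine ⟨4 * C, by positivity, fun a ha => ?_⟩
  have ha2 : 0 < a / 2 := by positivity
  have hs2 : Summable (fun h : Eis => if h = 0 then 0 else Real.exp (-(a / 2 * N h))) := by
    refine Summable.of_nonneg_of_le (fun h => ?_) (fun h => ?_) (summable_exp ha2)
    · split_ifs
      · exact le_rfl
      · exact (Real.exp_pos _).le
    · split_ifs
      · exact (Real.exp_pos _).le
      · exact le_rfl
  have hle : ∀ h : Eis, N h * Real.exp (-(a * N h))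
      ≤ 2 / a * (if h = 0 then 0 else Real.exp (-(a / 2 * N h))) := by
    intro h
    split_ifs with h0
    · simp [h0]
    · have h1 : a / 2 * N h ≤ Real.exp (a / 2 * N h) := by
        linarith [Real.add_one_le_exp (a / 2 * N h)]
      have h2 : Real.exp (-(a / 2 * N h)) = Real.exp (a / 2 * N h) * Real.exp (-(a * N h)) := by
        rw [← Real.exp_add]; congr 1; ring
      rw [h2, ← mul_assoc]
      refine mul_le_mul_of_nonneg_right ?_ (Real.exp_pos _).le
      rw [div_mul_eq_mul_div, le_div_iff₀ ha]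
      linarith
  have hs : Summable (fun h : Eis => N h * Real.exp (-(a * N h))) :=
    Summable.of_nonneg_of_le (fun h => mul_nonneg (N_nonneg h) (Real.exp_pos _).le) hle
      (hs2.mul_left _)
  refine ⟨hs, (hs.tsum_le_tsum hle (hs2.mul_left _)).trans ?_⟩
  rw [tsum_mul_left]
  refine (mul_le_mul_of_nonneg_left (hCle _ ha2) (by positivity)).trans (le_of_eq ?_)
  field_simp; ring

theorem pois_dual {c : Eis} (hc : c ≠ 0) {e : ℝ} (he : 0 < e) :
    ∑' m : Eis, psi c (m ^ 2) * (Real.exp (-(Real.pi * e * N m)) : ℂ)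
      = ((1 / √(3 * e ^ 2 / 4 + 4 / N c) : ℝ) : ℂ) * ∑' h : Eis,
        cexp (I * ((-(2 * Real.pi * ((c * h ^ 2).b : ℤ) *
            (1 / (N c * (3 * e ^ 2 / 4 + 4 / N c)))) : ℝ) : ℂ)) *
          (Real.exp (-(Real.pi * (e / (3 * e ^ 2 / 4 + 4 / N c)) * N h)) : ℂ) := by
  have hN := N_pos hc
  set n := N c with hn
  have hρ : 0 < 3 * e ^ 2 / 4 + 4 / n := by positivity
  set ρ := 3 * e ^ 2 / 4 + 4 / n with hρd
  have hnc : (n : ℂ) ≠ 0 := by exact_mod_cast hN.ne'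
  have hρc : (ρ : ℂ) ≠ 0 := by exact_mod_cast hρ.ne'
  have hI : I ^ 2 = -1 := I_sq
  have hnab : (n : ℂ) = (c.a : ℂ) ^ 2 - c.a * c.b + (c.b : ℂ) ^ 2 := by
    rw [hn, pois_N]; push_cast; ring
  have key := pois_eis (p := (e : ℂ) + I * ((2 * c.b / n : ℝ) : ℂ))
    (q := ((-e / 2 : ℝ) : ℂ) + I * ((-2 * c.a / n : ℝ) : ℂ))
    (r := (e : ℂ) + I * ((2 * (c.a - c.b) / n : ℝ) : ℂ)) hρ
    (by
      rw [hρd]; push_cast; field_simp
      linear_combination (-64 * ((c.a : ℂ) ^ 2 - c.a * c.b + (c.b : ℂ) ^ 2)) * hI - 64 * hnab)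
    (by simpa [-ofReal_div, -ofReal_mul] using he)
    (by simp only [add_re, ofReal_re, mul_re, I_re, I_im, ofReal_im]; nlinarith) 0 0
  have e1 : ∀ m : Eis, psi c (m ^ 2) * (Real.exp (-(Real.pi * e * N m)) : ℂ)
      = cexp (-Real.pi * (((e : ℂ) + I * ((2 * c.b / n : ℝ) : ℂ)) * m.a ^ 2
        + 2 * (((-e / 2 : ℝ) : ℂ) + I * ((-2 * c.a / n : ℝ) : ℂ)) * m.a * m.b
        + ((e : ℂ) + I * ((2 * (c.a - c.b) / n : ℝ) : ℂ)) * m.b ^ 2)
        + 2 * Real.pi * (0 * m.a + 0 * m.b)) := by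
    intro m
    rw [psi, Complex.ofReal_exp, ← Complex.exp_add, ← hn, pois_N m]
    congr 1
    simp only [pow_two, mul_a, mul_b, cj_a, cj_b]
    push_cast
    field_simp
    ring
  have e2 : ∀ h : Eis, cexp (I * ((-(2 * Real.pi * ((c * h ^ 2).b : ℤ) * (1 / (n * ρ))) : ℝ) : ℂ)) *
          (Real.exp (-(Real.pi * (e / ρ) * N h)) : ℂ)
      = cexp (-Real.pi / ρ * (((e : ℂ) + I * ((2 * (c.a - c.b) / n : ℝ) : ℂ)) * (h.b + I * 0) ^ 2
          - 2 * (((-e / 2 : ℝ) : ℂ) + I * ((-2 * c.a / n : ℝ) : ℂ)) * (h.b + I * 0)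
            * (h.a - h.b + I * 0)
          + ((e : ℂ) + I * ((2 * c.b / n : ℝ) : ℂ)) * (h.a - h.b + I * 0) ^ 2)) := by
    intro h
    rw [Complex.ofReal_exp, ← Complex.exp_add, pois_N h]
    congr 1
    simp only [pow_two, mul_a, mul_b]
    push_cast
    field_simp
    ring
  simp_rw [e1, e2, key]

theorem milgram {c : Eis} (hc : ¬ (2 : Eis) ∣ c) :
    ∑ x ∈ res c, psi c (x ^ 2) = (ab c : ℂ) * Gam c := by
  have hc0 : c ≠ 0 := fun h => hc (h ▸ dvd_zero _)
  have hN := N_pos hc0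
  have hab := ab_pos hc0
  have hpi := Real.pi_pos
  have hper : Per c (fun x => psi c (x ^ 2)) := by
    intro x y
    exact psi_congr ⟨2 * x * y + c * y ^ 2, by ring⟩
  have L1 := pois_limit hc0 hper
  have L2 := pois_limit (c := 2) (by decide) (pois_per_F c)
  obtain ⟨C, hC, hmom⟩ := pois_moment
  set n := N c with hn
  set ρ : ℝ → ℝ := fun e => 3 * e ^ 2 / 4 + 4 / n with hρ
  have hρ0 : ∀ e, 0 < ρ e := fun e => by simp only [hρ]; positivity
  have hρc : Continuous ρ := by simp only [hρ]; fun_prop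
  have hη : Tendsto (fun e => e / ρ e) (𝓝[>] 0) (𝓝[>] 0) := by
    refine tendsto_nhdsWithin_iff.2 ⟨?_, ?_⟩
    · have : Tendsto (fun e => e / ρ e) (𝓝 0) (𝓝 (0 / ρ 0)) :=
        (continuous_id.div hρc (fun e => (hρ0 e).ne')).tendsto 0
      simpa using this.mono_left nhdsWithin_le_nhds
    · filter_upwards [self_mem_nhdsWithin] with e he
      exact div_pos he (hρ0 e)
  have hsq : Tendsto (fun e => ((√(ρ e) : ℝ) : ℂ)) (𝓝[>] 0) (𝓝 ((2 / ab c : ℝ) : ℂ)) := by
    have h1 : Tendsto (fun e => ((√(ρ e) : ℝ) : ℂ)) (𝓝 0) (𝓝 ((√(ρ 0) : ℝ) : ℂ)) :=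
      (Complex.continuous_ofReal.comp (Real.continuous_sqrt.comp hρc)).tendsto 0
    have h2 : √(ρ 0) = 2 / ab c := by
      have : ρ 0 = (2 / ab c) ^ 2 := by simp only [hρ]; rw [div_pow, ab_sq, ← hn]; ring
      rw [this, Real.sqrt_sq (by positivity)]
    rw [h2] at h1
    exact h1.mono_left nhdsWithin_le_nhds
  set ph : ℝ → Eis → ℂ := fun e h =>
    cexp (I * ((-(2 * Real.pi * ((c * h ^ 2).b : ℤ) * (1 / (n * ρ e))) : ℝ) : ℂ)) with hph
  have herr : Tendsto (fun e : ℝ => ((e / ρ e : ℝ) : ℂ) * ∑' h : Eis, (ph e h - poisF c h) *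
      (Real.exp (-(Real.pi * (e / ρ e) * N h)) : ℂ)) (𝓝[>] 0) (𝓝 0) := by
    have hlim : Tendsto (fun e : ℝ => 3 * ab c * C / (4 * Real.pi) * e) (𝓝[>] 0) (𝓝 0) := by
      have : Tendsto (fun e : ℝ => 3 * ab c * C / (4 * Real.pi) * e) (𝓝 0)
          (𝓝 (3 * ab c * C / (4 * Real.pi) * 0)) := Continuous.tendsto (by fun_prop) 0
      simpa using this.mono_left nhdsWithin_le_nhds
    rw [tendsto_zero_iff_norm_tendsto_zero]
    refine squeeze_zero' (Eventually.of_forall (fun _ => norm_nonneg _)) ?_ hlim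
    filter_upwards [self_mem_nhdsWithin] with e he
    have he0 : 0 < e := he
    have hr := hρ0 e
    have ha : 0 < Real.pi * (e / ρ e) := by positivity
    obtain ⟨hs, hle⟩ := hmom _ ha
    have hu : |1 / (n * ρ e) - 1 / 4| = 3 * e ^ 2 / (16 * ρ e) := by
      have : 1 / (n * ρ e) - 1 / 4 = -(3 * e ^ 2 / (16 * ρ e)) := by
        have h4 : n * ρ e = 3 * e ^ 2 / 4 * n + 4 := by simp only [hρ]; field_simp
        field_simp
        linarith
      rw [this, abs_neg, abs_of_nonneg (by positivity)]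
    have hb : ‖∑' h : Eis, (ph e h - poisF c h) * (Real.exp (-(Real.pi * (e / ρ e) * N h)) : ℂ)‖
        ≤ ∑' h : Eis, (4 * Real.pi * ab c * (3 * e ^ 2 / (16 * ρ e))) *
          (N h * Real.exp (-(Real.pi * (e / ρ e) * N h))) := by
      refine tsum_of_norm_bounded (hs.mul_left _).hasSum (fun h => ?_)
      rw [norm_mul, Complex.norm_real, Real.norm_of_nonneg (Real.exp_pos _).le, ← mul_assoc]
      refine mul_le_mul_of_nonneg_right ?_ (Real.exp_pos _).le
      refine (pois_phase _ _).trans ?_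
      have h1 := pois_abs_b (c * h ^ 2)
      rw [ab_mul, ab_pow, ab_sq] at h1
      rw [hu]
      have h2 : 0 ≤ 2 * Real.pi * (3 * e ^ 2 / (16 * ρ e)) := by positivity
      nlinarith [mul_le_mul_of_nonneg_left h1 h2]
    rw [norm_mul, Complex.norm_real, Real.norm_of_nonneg (by positivity)]
    rw [tsum_mul_left] at hb
    refine (mul_le_mul_of_nonneg_left (hb.trans (mul_le_mul_of_nonneg_left hle
      (by positivity))) (by positivity)).trans (le_of_eq ?_)
    field_simp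
    ring
  have L3 := hsq.mul ((L2.comp hη).add herr)
  have heq : ∀ᶠ e : ℝ in 𝓝[>] 0, ((√(ρ e) : ℝ) : ℂ) *
      (((fun e : ℝ => (e : ℂ) * ∑' m : Eis, poisF c m * (Real.exp (-(Real.pi * e * N m)) : ℂ)) ∘
        fun e => e / ρ e) e + ((e / ρ e : ℝ) : ℂ) * ∑' h : Eis, (ph e h - poisF c h) *
      (Real.exp (-(Real.pi * (e / ρ e) * N h)) : ℂ))
      = (e : ℂ) * ∑' m : Eis, psi c (m ^ 2) * (Real.exp (-(Real.pi * e * N m)) : ℂ) := by
    filter_upwards [self_mem_nhdsWithin] with e he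
    have he0 : 0 < e := he
    have hr := hρ0 e
    have ha : 0 < Real.pi * (e / ρ e) := by positivity
    have s1 := pois_summable (pois_bound (c := 2) (by decide) (pois_per_F c)) ha
    have s2 := pois_summable (F := ph e) (B := 1)
      (fun h => by simp only [hph]; rw [Complex.norm_exp_I_mul_ofReal]) ha
    rw [pois_dual hc0 he0, Function.comp_apply]
    simp_rw [sub_mul]
    rw [s2.tsum_sub s1]
    have h1 : ((√(ρ e) : ℝ) : ℂ) * ((e / ρ e : ℝ) : ℂ) = (e : ℂ) * ((1 / √(ρ e) : ℝ) : ℂ) := by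
      have h2 : 0 < √(ρ e) := Real.sqrt_pos.2 hr
      have h3 : √(ρ e) * (e / ρ e) = e * (1 / √(ρ e)) := by
        field_simp
        rw [Real.sq_sqrt hr.le]
      exact_mod_cast h3
    simp only [hph, hρ, ← hn] at h1 ⊢
    linear_combination (∑' h : Eis, cexp (I * ((-(2 * Real.pi * ((c * h ^ 2).b : ℤ) *
            (1 / (n * (3 * e ^ 2 / 4 + 4 / n)))) : ℝ) : ℂ)) *
          (Real.exp (-(Real.pi * (e / (3 * e ^ 2 / 4 + 4 / n)) * N h)) : ℂ)) * h1
  have hfin := tendsto_nhds_unique L1 (L3.congr' heq)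
  rw [pois_sum_F hc, add_zero] at hfin
  have hN2 : N (2 : Eis) = 4 := by rw [pois_N]; norm_num
  have h3 : ((√3 : ℝ) : ℂ) ≠ 0 := by exact_mod_cast (Real.sqrt_pos.2 (by norm_num : (0 : ℝ) < 3)).ne'
  have habc : ((ab c : ℝ) : ℂ) ≠ 0 := by exact_mod_cast hab.ne'
  rw [hN2, hn, ← ab_sq] at hfin
  push_cast at hfin
  field_simp at hfin
  linear_combination hfin / 4

end Vale.Agent.P026
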