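import Vale.Agent.P026.MelB

/-! The dual kernel and the transformed sum. -/

namespace Vale.Agent.P026

open Eis Complex MeasureTheory Filter Topology Set
open scoped ComplexConjugate

noncomputable section

/-- The kernel on the line two. -/
def melK2 (Y t v : ℝ) : ℂ := melK (fun τ => melg Y t ((2 : ℝ) + τ * I)) 2 v

/-- The dual kernel. -/
def melH (Y t y : ℝ) : ℂ :=
  ∫ v in Ioi (0 : ℝ), melK2 Y t v * ((v : ℂ)⁻¹ * ((v : ℂ) ^ (-2 : ℂ) • (kap (y * v⁻¹) : ℂ)))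

/-- Its Mellin transform. -/
def melP (Y t : ℝ) (u : ℂ) : ℂ := melg Y t u * melG (1 - u)

end

theorem melH_eq (Y t : ℝ) {σ y : ℝ} (hσ : σ < 1) (hy : 0 < y) :
    melH Y t y = ∫ τ : ℝ, melP Y t (σ + τ * I) * (y : ℂ) ^ (2 * (σ + τ * I) - 2) := by
  have h := (melK_fub (melg_int Y t σ) σ (melB_hasB hy (u := σ) (by simpa using hσ)).1).2.2
  have e : melH Y t y = ∫ v in Ioi (0 : ℝ), melK (fun τ => melg Y t (σ + τ * I)) σ v *
      ((v : ℂ)⁻¹ * ((v : ℂ) ^ (-2 : ℂ) • (kap (y * v⁻¹) : ℂ))) :=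
    setIntegral_congr_fun measurableSet_Ioi fun v hv => by
      simp only [melK2, melK_shift Y t (show σ ≤ 2 by linarith) hv]
  rw [e, h]
  refine integral_congr_ae (Eventually.of_forall fun τ => ?_)
  simp only [(melB_hasB hy (u := σ + τ * I) (by simpa using hσ)).2, melP]
  ring

theorem melC_weight {Y : ℝ} (hY : 0 < Y) (t : ℝ) {r : Eis} (hr : r ≠ 0) :
    ∫ v in Ioi (0 : ℝ), melK2 Y t v * ((v : ℂ)⁻¹ * (kap (ab r * v) : ℂ)) = W Y t r := by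
  have hy := ab_pos hr
  have h := (melK_fub (melg_int Y t 2) 2 (melB_hasA hy (u := (2 : ℝ)) (by simp)).1).2.2
  rw [show (∫ v in Ioi (0 : ℝ), melK2 Y t v * ((v : ℂ)⁻¹ * (kap (ab r * v) : ℂ))) = _ from h]
  have hl : Real.log (N r) = 2 * Real.log (ab r) := by
    rw [← ab_sq, Real.log_pow]
    norm_num
  have hπ : ((√Real.pi : ℝ) : ℂ) ≠ 0 := ofReal_ne_zero.2 (Real.sqrt_pos.2 Real.pi_pos).ne'
  have e : ∀ τ : ℝ, melg Y t ((2 : ℝ) + τ * I) *
      mellin (fun v : ℝ => (kap (ab r * v) : ℂ)) (2 * ((2 : ℝ) + τ * I)) =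
      cexp (((2 : ℝ) + τ * I + t * I) ^ 2 / 4 - ((2 : ℝ) + τ * I + t * I) * Real.log (N r / Y)) *
        (nit t r / (2 * (√Real.pi : ℝ))) := fun τ => by
    have hu : 0 < (((2 : ℝ) : ℂ) + τ * I).re := by simp
    rw [(melB_hasA hy hu).2, melg, melE, nit, cpow_def_of_ne_zero (ofReal_ne_zero.2 hy.ne'),
      ← ofReal_log hy.le, Real.log_div (N_pos hr).ne' hY.ne', hl, mul_assoc,
      mul_left_comm (melG _)⁻¹, inv_mul_cancel₀ (melG_ne hu), mul_one, div_mul_eq_mul_div,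
      ← mul_div_assoc, ← exp_add, ← exp_add]
    congr 2
    push_cast
    ring
  simp only [e]
  rw [integral_mul_const, melA_gauss, W, w]
  field_simp

theorem melC_summable {c : Eis → ℂ} {C D : ℝ} (h0 : c 0 = 0) (hc : ∀ r, ‖c r‖ ≤ C * ab r)
    (hD : 0 ≤ D) {s : ℂ} {h : Eis → ℝ → ℂ}
    (hn : ∀ r, r ≠ 0 → ∫ v in Ioi (0 : ℝ), ‖(v : ℂ) ^ s • h r v‖ = D * ab r ^ (-4 : ℝ)) :
    Summable fun r => ∫ v in Ioi (0 : ℝ), ‖(v : ℂ) ^ s • (c r * h r v)‖ := by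
  refine Summable.of_nonneg_of_le (fun r => integral_nonneg fun v => norm_nonneg _) (fun r => ?_)
    ((summable_N_rpow (s := 3 / 2) (by norm_num)).mul_left (C * D))
  by_cases hr : r = 0
  · subst hr
    simp [h0]
  have hy := ab_pos hr
  have e : ∀ v : ℝ, ‖(v : ℂ) ^ s • (c r * h r v)‖ = ‖c r‖ * ‖(v : ℂ) ^ s • h r v‖ := fun v => by
    simp only [smul_eq_mul, norm_mul]
    ring
  have e2 : N r ^ (-(3 / 2) : ℝ) = ab r * ab r ^ (-4 : ℝ) := by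
    rw [← ab_sq, ← Real.rpow_natCast, ← Real.rpow_mul hy.le, mul_comm (ab r),
      ← Real.rpow_add_one hy.ne']
    norm_num
  simp only [e]
  rw [integral_const_mul, hn r hr, e2]
  calc _ ≤ C * ab r * (D * ab r ^ (-4 : ℝ)) := by
        gcongr
        exact hc r
    _ = _ := by ring

theorem melC_conv {c : Eis → ℂ} (h0 : c 0 = 0) {s : ℂ} {h : Eis → ℝ → ℂ}
    (hh : ∀ r, r ≠ 0 → MellinConvergent (h r) s) (r : Eis) :
    MellinConvergent (fun v => c r * h r v) s := by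
  by_cases hr : r = 0
  · subst hr
    simp [h0, MellinConvergent]
  · exact (hh r hr).const_smul (c r)

theorem melC_cpow {v : ℝ} (hv : 0 < v) (s : ℝ) : (v : ℂ) ^ (s : ℂ) = ((v ^ s : ℝ) : ℂ) :=
  (ofReal_cpow hv.le s).symm

/-- The smooth sum in terms of the dual sequence. -/
theorem melC_dual {Y : ℝ} (hY : 0 < Y) (t : ℝ) {a b : Eis → ℂ} {Q Ca Cb : ℝ} {e : ℂ}
    (ha0 : a 0 = 0) (hb0 : b 0 = 0) (ha : ∀ r, ‖a r‖ ≤ Ca * ab r) (hb : ∀ r, ‖b r‖ ≤ Cb * ab r)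
    (hQ : 0 < Q) (hV : Vor a b Q e) :
    ∑' r, a r * W Y t r = e * ∑' r, b r * ((Q : ℂ)⁻¹ * melH Y t (ab r / Q)) := by
  have hA := melK_sum (melg_int Y t 2) 2 (h := fun r v => a r * (kap (ab r * v) : ℂ))
    (melC_conv ha0 fun r hr => (melB_hasA (ab_pos hr) (u := (2 : ℝ)) (by simp)).1)
    (melC_summable ha0 ha (norm_nonneg (melG 2)) fun r hr => by
      have hy := ab_pos hr
      rw [melB_norm_int]
      · have := (melB_hasA hy (u := (2 : ℝ)) (by simp)).2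
        rw [mellin] at this
        rw [this, norm_mul, norm_cpow_eq_rpow_re_of_pos hy, mul_comm]
        norm_num
      · intro v hv
        refine ⟨v ^ (3 : ℝ) * kap (ab r * v),
          mul_nonneg (Real.rpow_nonneg (le_of_lt hv) _) (kap_nonneg (mul_pos hy hv).le), ?_⟩
        rw [ofReal_mul, ← melC_cpow hv, smul_eq_mul]
        norm_num)
  have hB := melK_sum (melg_int Y t (-1 : ℝ)) (-1)
    (h := fun r v => b r * ((v : ℂ) ^ (-2 : ℂ) • (kap (ab r / Q * v⁻¹) : ℂ)))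
    (melC_conv hb0 fun r hr =>
      (melB_hasB (div_pos (ab_pos hr) hQ) (u := (-1 : ℝ)) (by simp)).1)
    (melC_summable (D := ‖melG 2‖ * Q ^ 4) hb0 hb (by positivity) fun r hr => by
      have hy := div_pos (ab_pos hr) hQ
      rw [melB_norm_int]
      · have := (melB_hasB hy (u := (-1 : ℝ)) (by simp)).2
        rw [mellin] at this
        rw [this, norm_mul, norm_cpow_eq_rpow_re_of_pos hy, Real.div_rpow (ab_nonneg r) hQ.le]
        norm_num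
        field_simp
      · intro v hv
        refine ⟨v ^ (-3 : ℝ) * (v ^ (-2 : ℝ) * kap (ab r / Q * v⁻¹)),
          mul_nonneg (Real.rpow_nonneg (le_of_lt hv) _) (mul_nonneg
            (Real.rpow_nonneg (le_of_lt hv) _) (kap_nonneg (mul_pos hy (inv_pos.2 hv)).le)), ?_⟩
        rw [ofReal_mul, ofReal_mul, ← melC_cpow hv, ← melC_cpow hv, smul_eq_mul, smul_eq_mul]
        norm_num)
  have eA : ∀ r, ∫ v in Ioi (0 : ℝ), melK (fun τ => melg Y t ((2 : ℝ) + τ * I)) 2 v *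
      ((v : ℂ)⁻¹ * (a r * (kap (ab r * v) : ℂ))) = a r * W Y t r := fun r => by
    by_cases hr : r = 0
    · simp [hr, ha0]
    rw [← melC_weight hY t hr, ← integral_const_mul]
    refine integral_congr_ae (Eventually.of_forall fun v => ?_)
    simp only [melK2]
    ring
  have eB : ∀ r, ∫ v in Ioi (0 : ℝ), melK (fun τ => melg Y t ((-1 : ℝ) + τ * I)) (-1) v *
      ((v : ℂ)⁻¹ * (b r * ((v : ℂ) ^ (-2 : ℂ) • (kap (ab r / Q * v⁻¹) : ℂ)))) =
      b r * melH Y t (ab r / Q) := fun r => by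
    rw [melH, ← integral_const_mul]
    refine setIntegral_congr_fun measurableSet_Ioi fun v hv => ?_
    simp only [melK2, melK_shift Y t (show (-1 : ℝ) ≤ 2 by norm_num) hv]
    ring
  simp only [eA] at hA
  simp only [eB] at hB
  have e3 : ∀ r, b r * ((Q : ℂ)⁻¹ * melH Y t (ab r / Q)) =
      (Q : ℂ)⁻¹ * (b r * melH Y t (ab r / Q)) := fun r => by ring
  simp only [e3]
  rw [tsum_mul_left, hA.tsum_eq, hB.tsum_eq, ← integral_const_mul, ← integral_const_mul]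
  refine setIntegral_congr_fun measurableSet_Ioi fun v hv => ?_
  have hv0 : (v : ℂ) ≠ 0 := ofReal_ne_zero.2 (ne_of_gt hv)
  have hQ0 : (Q : ℂ) ≠ 0 := ofReal_ne_zero.2 hQ.ne'
  have h1 := hV v hv
  have e4 : ∀ r, b r * ((v : ℂ) ^ (-2 : ℂ) • (kap (ab r / Q * v⁻¹) : ℂ)) =
      ((v : ℂ) ^ 2)⁻¹ * (b r * (kap (ab r * (1 / (Q * v))) : ℂ)) := fun r => by
    rw [show ab r / Q * v⁻¹ = ab r * (1 / (Q * v)) by field_simp, cpow_neg, cpow_two, smul_eq_mul]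
    ring
  simp only [e4, melK_shift Y t (show (-1 : ℝ) ≤ 2 by norm_num) hv]
  rw [tsum_mul_left]
  rw [Phi, Phi, mul_comm (v : ℂ), ← eq_div_iff hv0] at h1
  rw [h1]
  generalize melK (fun τ => melg Y t ((2 : ℝ) + τ * I)) 2 v = K
  generalize ∑' r, b r * (kap (ab r * (1 / (Q * v))) : ℂ) = S
  push_cast
  field_simp

theorem melP_meas (Y t σ : ℝ) : Measurable fun τ : ℝ => melP Y t (σ + τ * I) := by
  have h1 := (melg_diff Y t).continuous.measurable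
  have h2 := melG_meas
  unfold melP
  fun_prop

theorem melP_bound (m : ℕ) : ∃ C : ℝ, 0 < C ∧ ∀ Y t τ : ℝ, 0 < Y →
    ‖melP Y t ((1 / 2 - m : ℝ) + τ * I)‖ ≤
      C * (√Y * Y⁻¹ ^ m) * (Real.exp (-(τ + t) ^ 2 / 4) * (1 + |τ|) ^ (4 * m)) := by
  have hc0 := c0_pos
  have hπ : 0 < √Real.pi := Real.sqrt_pos.2 Real.pi_pos
  refine ⟨Real.exp ((1 / 2 - m : ℝ) ^ 2 / 4) / (2 * √Real.pi) * c0 ^ (-(4 * m) : ℝ) *
    (2 + m) ^ (4 * m), by positivity, fun Y t τ hY => ?_⟩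
  have hr : ∀ c : ℝ, 0 < c → c ≤ 2 → ‖Gamma (c - τ * I + m) * (Gamma (c + τ * I - m))⁻¹‖ ≤
      ((2 + m) * (1 + |τ|)) ^ (2 * m) := by
    intro c h1 h2
    have := melA_ratio (c + τ * I) (by simpa using h1) m
    rw [map_add, map_mul, conj_ofReal, conj_ofReal, conj_I, mul_neg, ← sub_eq_add_neg] at this
    refine this.trans (pow_le_pow_left₀ (by positivity) ?_ _)
    have h3 : ‖(c : ℂ) + τ * I‖ ≤ c + |τ| := (norm_add_le _ _).trans (by simp [abs_of_pos h1])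
    have hm : (0 : ℝ) ≤ m := Nat.cast_nonneg m
    nlinarith [abs_nonneg τ]
  have h1 := hr (5 / 6) (by norm_num) (by norm_num)
  have h2 := hr (7 / 6) (by norm_num) (by norm_num)
  have h0 : (c0 : ℂ) ≠ 0 := ofReal_ne_zero.2 c0_pos.ne'
  have e : melP Y t ((1 / 2 - m : ℝ) + τ * I) = melE Y t ((1 / 2 - m : ℝ) + τ * I) *
      (c0 : ℂ) ^ (((-(4 * m) : ℝ) : ℂ) + (4 * τ : ℝ) * I) *
      ((Gamma ((5 / 6 : ℝ) - τ * I + m) * (Gamma ((5 / 6 : ℝ) + τ * I - m))⁻¹) *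
      (Gamma ((7 / 6 : ℝ) - τ * I + m) * (Gamma ((7 / 6 : ℝ) + τ * I - m))⁻¹)) := by
    have a1 : (((-(4 * m) : ℝ) : ℂ) + (4 * τ : ℝ) * I) =
        (2 * ((1 / 2 - m : ℝ) + τ * I) + 2 / 3) +
          (-(2 * (1 - ((1 / 2 - m : ℝ) + τ * I))) - 2 / 3) := by
      push_cast
      ring
    have a2 : ((5 / 6 : ℝ) : ℂ) - τ * I + m = 1 - ((1 / 2 - m : ℝ) + τ * I) + 1 / 3 := by
      push_cast
      ring
    have a3 : ((7 / 6 : ℝ) : ℂ) - τ * I + m = 1 - ((1 / 2 - m : ℝ) + τ * I) + 2 / 3 := by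
      push_cast
      ring
    have a4 : ((5 / 6 : ℝ) : ℂ) + τ * I - m = (1 / 2 - m : ℝ) + τ * I + 1 / 3 := by
      push_cast
      ring
    have a5 : ((7 / 6 : ℝ) : ℂ) + τ * I - m = (1 / 2 - m : ℝ) + τ * I + 2 / 3 := by
      push_cast
      ring
    rw [a1, cpow_add _ _ h0, a2, a3, a4, a5, melP, melg, melG_inv, melG]
    ring
  have e2 : Real.exp ((1 / 2 - m : ℝ) ^ 2 / 4 + (1 / 2 - m) * Real.log Y) =
      Real.exp ((1 / 2 - m : ℝ) ^ 2 / 4) * (√Y * Y⁻¹ ^ m) := by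
    rw [Real.exp_add, mul_comm _ (Real.log Y), ← Real.rpow_def_of_pos hY, Real.rpow_sub hY,
      Real.rpow_natCast, Real.sqrt_eq_rpow, inv_pow, div_eq_mul_inv (Y ^ _)]
  have e3 : (((-(4 * m) : ℝ) : ℂ) + (4 * τ : ℝ) * I).re = -(4 * m) := by simp
  rw [e, norm_mul, norm_mul, norm_mul, norm_melE, norm_cpow_eq_rpow_re_of_pos hc0, e2, e3]
  calc _ ≤ Real.exp ((1 / 2 - m : ℝ) ^ 2 / 4) * (√Y * Y⁻¹ ^ m) / (2 * √Real.pi) *
        Real.exp (-(τ + t) ^ 2 / 4) * c0 ^ (-(4 * m) : ℝ) *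
        (((2 + m) * (1 + |τ|)) ^ (2 * m) * ((2 + m) * (1 + |τ|)) ^ (2 * m)) := by gcongr
    _ = _ := by
      rw [← pow_add, show 2 * m + 2 * m = 4 * m by ring, mul_pow]
      ring

theorem melH_bound (m : ℕ) : ∃ C : ℝ, 0 < C ∧ ∀ Y t y : ℝ, 0 < Y → 0 < y →
    ‖melH Y t y‖ ≤ C * (1 + |t|) ^ (4 * m) * (√Y * Y⁻¹ ^ m) * (y⁻¹ * y⁻¹ ^ (2 * m)) := by
  obtain ⟨C, hC, hb⟩ := melP_bound m
  have hJ : 0 ≤ ∫ x, melJ (4 * m) x := integral_nonneg (melJ_nonneg _)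
  refine ⟨C * ((∫ x, melJ (4 * m) x) + 1), by positivity, fun Y t y hY hy => ?_⟩
  have hm : (0 : ℝ) ≤ m := Nat.cast_nonneg m
  rw [melH_eq Y t (σ := 1 / 2 - m) (by linarith) hy]
  have hi := ((melJ_int (4 * m)).comp_add_right t).const_mul
    (C * (1 + |t|) ^ (4 * m) * (√Y * Y⁻¹ ^ m) * (y⁻¹ * y⁻¹ ^ (2 * m)))
  refine (norm_integral_le_of_norm_le hi (Eventually.of_forall fun τ => ?_)).trans ?_
  · have e : (2 * (((1 / 2 - m : ℝ) : ℂ) + τ * I) - 2).re = -((1 + 2 * m : ℕ) : ℝ) := by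
      simp
      ring
    rw [norm_mul, norm_cpow_eq_rpow_re_of_pos hy, e, Real.rpow_neg hy.le, Real.rpow_natCast,
      ← inv_pow, pow_add, pow_one]
    calc _ ≤ C * (√Y * Y⁻¹ ^ m) * ((1 + |t|) ^ (4 * m) * melJ (4 * m) (τ + t)) *
          (y⁻¹ * y⁻¹ ^ (2 * m)) := by
          gcongr
          exact (hb Y t τ hY).trans (mul_le_mul_of_nonneg_left (melJ_le _ τ t) (by positivity))
      _ = _ := by ring
  · rw [integral_const_mul, integral_add_right_eq_self]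
    calc _ ≤ C * (1 + |t|) ^ (4 * m) * (√Y * Y⁻¹ ^ m) * (y⁻¹ * y⁻¹ ^ (2 * m)) *
          ((∫ x, melJ (4 * m) x) + 1) := by
          gcongr
          linarith
      _ = _ := by ring

end Vale.Agent.P026
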