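import Vale.Agent.P026.Count

/-! Counting odd primary elements of given norm. -/

namespace Vale.Agent.P026

open Eis Complex
open scoped Classical ComplexConjugate

/-- The odd primary elements of norm n. -/
noncomputable def f2T (n : ℕ) : Finset Eis := (ball n).filter (fun c => P1 c ∧ nrm c = n)

theorem f2_mem {n : ℕ} {c : Eis} : c ∈ f2T n ↔ P1 c ∧ nrm c = n := by
  rw [f2T, Finset.mem_filter, mem_ball, and_iff_right_iff_imp]
  exact fun h => ⟨h.1.ne_zero, by rw [N, h.2]; exact le_of_eq (Int.cast_natCast n)⟩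

theorem f2_cnt {t : Eis} (ht : P1 t) {a : ℕ} (ha : nrm t = a) (n : ℕ) :
    ((f2T n).filter (t ∣ ·)).card = if a ∣ n then (f2T (n / a)).card else 0 := by
  have a0 : (a : ℤ) ≠ 0 := ha ▸ (nrm_pos ht.ne_zero).ne'
  split_ifs with h
  · obtain ⟨m, rfl⟩ := h
    rw [Nat.mul_div_cancel_left _ (Nat.pos_of_ne_zero (by exact_mod_cast a0))]
    refine (Finset.card_bij (fun c _ => t * c) (fun c hc => ?_)
      (fun c _ d _ h => mul_left_cancel₀ ht.ne_zero h) fun c hc => ?_).symm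
    · obtain ⟨h1, h2⟩ := f2_mem.1 hc
      exact Finset.mem_filter.2 ⟨f2_mem.2 ⟨ht.mul h1, by rw [nrm_mul, ha, h2, Nat.cast_mul]⟩,
        Dvd.intro _ rfl⟩
    · obtain ⟨h1, e, rfl⟩ := Finset.mem_filter.1 hc
      obtain ⟨h2, h3⟩ := f2_mem.1 h1
      rw [nrm_mul, ha, Nat.cast_mul] at h3
      exact ⟨e, f2_mem.2 ⟨ht.of_mul h2, mul_left_cancel₀ a0 h3⟩, rfl⟩
  · refine Finset.card_eq_zero.2 (Finset.eq_empty_of_forall_notMem fun c hc => h ?_)
    obtain ⟨h1, e, rfl⟩ := Finset.mem_filter.1 hc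
    have h3 := (f2_mem.1 h1).2
    rw [nrm_mul, ha] at h3
    exact Int.natCast_dvd_natCast.1 ⟨_, h3.symm⟩

theorem f2_nrm_nat (p : ℕ) : nrm (p : Eis) = p * p := by simp [nrm, sq]

theorem f2_cj_dvd {x y : Eis} (h : x ∣ y) : cj x ∣ cj y := by
  obtain ⟨e, rfl⟩ := h
  exact ⟨cj e, cj_mul _ _⟩

theorem f2_dich {p : ℕ} (hp : p.Prime) : Prime (p : Eis) ∨ ∃ π : Eis, Prime π ∧ nrm π = p := by
  have p0 : (p : Eis) ≠ 0 := fun h => hp.ne_zero (by simpa using congrArg Eis.a h)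
  have pu : ¬ IsUnit (p : Eis) := fun h => by
    rw [isUnit_iff_nrm, f2_nrm_nat] at h
    exact hp.one_lt.ne' (Nat.eq_one_of_mul_eq_one_right (by exact_mod_cast h))
  obtain ⟨π, h1, e, he⟩ := WfDvdMonoid.exists_irreducible_factor pu p0
  have h2 := f2_nrm_nat p
  rw [he, nrm_mul] at h2
  obtain ⟨a, ha⟩ := Int.eq_ofNat_of_zero_le (nrm_nonneg π)
  obtain ⟨b, hb⟩ := Int.eq_ofNat_of_zero_le (nrm_nonneg e)
  have h3 : a * b = p ^ 2 := by rw [ha, hb] at h2; rw [sq]; exact_mod_cast h2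
  obtain ⟨i, hi, rfl⟩ := (Nat.dvd_prime_pow hp).1 ⟨b, h3.symm⟩
  interval_cases i
  · exact absurd (isUnit_iff_nrm.2 (by simpa using ha)) h1.not_isUnit
  · exact Or.inr ⟨π, h1.prime, by simpa using ha⟩
  · have h4 : b = 1 := by
      rwa [mul_eq_left₀ (pow_ne_zero 2 hp.ne_zero)] at h3
    exact Or.inl (he ▸ (associated_mul_unit_right π e
      (isUnit_iff_nrm.2 (by rw [hb, h4]; rfl))).prime h1.prime)

theorem f2_mod (x : Eis) : nrm x % 3 ≠ 2 := by
  have e : nrm x = (x.a + x.b) ^ 2 - 3 * (x.a * x.b) := by rw [nrm]; ring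
  rw [e]
  generalize x.a + x.b = u
  generalize x.a * x.b = v
  obtain ⟨k, rfl | rfl | rfl⟩ : ∃ k, u = 3 * k ∨ u = 3 * k + 1 ∨ u = 3 * k + 2 := ⟨u / 3, by omega⟩
  all_goals
    ring_nf
    omega

theorem f2_not_prime {p : ℕ} (hp : p.Prime) (h : p % 3 = 1) : ¬ Prime (p : Eis) := by
  have := Fact.mk hp
  have := Fact.mk Nat.prime_three
  obtain ⟨u, hu⟩ := exists_prime_orderOf_dvd_card (G := (ZMod p)ˣ) 3 (by
    rw [ZMod.card_units]; omega)
  have h1 : (u : ZMod p) ^ 3 = 1 := by rw [← Units.val_pow_eq_pow_val, ← hu, pow_orderOf_eq_one]; rfl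
  have h2 : (u : ZMod p) - 1 ≠ 0 := fun h0 => by
    rw [Units.val_eq_one.1 (sub_eq_zero.1 h0), orderOf_one] at hu
    omega
  obtain ⟨x, hx⟩ := ZMod.intCast_surjective (u : ZMod p)
  have h3 : (p : ℤ) ∣ x ^ 2 + x + 1 := by
    rw [← ZMod.intCast_zmod_eq_zero_iff_dvd]
    push_cast
    rw [hx]
    exact mul_left_cancel₀ h2 (by linear_combination h1)
  intro hP
  have h4 : ((p : ℤ) : Eis) ∣ (⟨x, -1⟩ : Eis) * ⟨x + 1, 1⟩ := by
    rw [bs_int_dvd]
    simp only [mul_a, mul_b]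
    exact ⟨by simpa [sq, mul_add] using h3, by simp⟩
  rw [Int.cast_natCast] at h4
  have h5 : ¬ (p : ℤ) ∣ 1 := fun h => hp.one_lt.ne' (Nat.dvd_one.1 (Int.natCast_dvd_natCast.1 h))
  rcases hP.dvd_or_dvd h4 with h6 | h6
  · rw [← Int.cast_natCast, bs_int_dvd] at h6
    exact h5 (dvd_neg.1 h6.2)
  · rw [← Int.cast_natCast, bs_int_dvd] at h6
    exact h5 h6.2

theorem f2_dvd {p m : ℕ} {c : Eis} (hc : c ∈ f2T (p * m)) : (p : Eis) ∣ c * cj c := by
  rw [mul_cj, (f2_mem.1 hc).2]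
  push_cast
  exact Dvd.intro _ rfl

theorem f2_inert {p : ℕ} (hp : p.Prime) (h2 : p ≠ 2) (h : p % 3 = 2) (m : ℕ) :
    (f2T (p * m)).card = if p ∣ m then (f2T (m / p)).card else 0 := by
  have hP : Prime (p : Eis) := (f2_dich hp).resolve_right fun ⟨π, _, e⟩ => f2_mod π (by omega)
  have ho := hp.eq_two_or_odd.resolve_left h2
  have ht : P1 (-(p : Eis)) := ⟨bs_prim.2 (by simp; omega), by rw [bs_two_dvd]; simp; omega⟩
  have e := f2_cnt ht (a := p * p) (by simp [nrm, sq]) (p * m)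
  rw [Finset.filter_true_of_mem fun c hc => ?_] at e
  · simp only [e, Nat.mul_dvd_mul_iff_left hp.pos, Nat.mul_div_mul_left _ _ hp.pos]
  · rw [neg_dvd]
    refine (hP.dvd_or_dvd (f2_dvd hc)).elim id fun h => ?_
    have := f2_cj_dvd h
    rwa [cj_cj, show cj (p : Eis) = p by ext <;> simp] at this

theorem f2_odd {x : Eis} {p : ℕ} (ho : p % 2 = 1) (h : nrm x = p) : ¬ (2 : Eis) ∣ x := by
  rintro ⟨e, rfl⟩
  rw [nrm_mul, show nrm 2 = 4 by decide] at h
  omega

theorem f2_split {p : ℕ} (hp : p.Prime) (h : p % 3 = 1) (m : ℕ) :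
    (f2T (p * m)).card + (if p ∣ m then (f2T (m / p)).card else 0) = 2 * (f2T m).card := by
  obtain ⟨π₀, h1, h2⟩ := (f2_dich hp).resolve_left (f2_not_prime hp h)
  have ho := hp.eq_two_or_odd.resolve_left (by omega)
  obtain ⟨u, hu, h3⟩ := exists_prim_assoc (x := π₀) (by
    rintro ⟨e, rfl⟩
    rw [nrm_mul, show nrm lam = 3 by decide] at h2
    omega)
  obtain ⟨π, hπ⟩ : ∃ π, π = u * π₀ := ⟨_, rfl⟩
  have a1 : Prime π := hπ ▸ (associated_unit_mul_right π₀ u hu).prime h1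
  have a2 : nrm π = p := by rw [hπ, nrm_mul, isUnit_iff_nrm.1 hu, one_mul, h2]
  have a3 : P1 π := ⟨hπ ▸ h3, f2_odd ho a2⟩
  have a4 : nrm (cj π) = p := by rw [nrm_cj, a2]
  have a5 : P1 (cj π) := ⟨a3.1.cj, f2_odd ho a4⟩
  have a6 : π * cj π = p := by rw [mul_cj, a2, Int.cast_natCast]
  have a7 : IsCoprime π (cj π) := a1.irreducible.coprime_iff_not_dvd.2 fun ⟨e, he⟩ => by
    have b1 : nrm e = 1 := by
      rw [he, nrm_mul, a2] at a4
      exact (mul_eq_left₀ (by exact_mod_cast hp.ne_zero)).1 a4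
    have b2 := a3.1.eq_of_associated a5.1 (he ▸ associated_mul_unit_right π e (isUnit_iff_nrm.2 b1))
    have b3 : π.b = 0 := by have := congrArg Eis.b b2; simp at this; omega
    have b4 : π.a.natAbs * π.a.natAbs = p := by
      rw [nrm, b3] at a2
      have : (π.a.natAbs * π.a.natAbs : ℤ) = p := by rw [Int.natAbs_mul_self']; linarith
      exact_mod_cast this
    exact hp.prime.not_isSquare ⟨_, b4.symm⟩
  have e1 := f2_cnt a3 a2 (p * m)
  have e2 := f2_cnt a5 a4 (p * m)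
  have e3 := f2_cnt (a3.mul a5) (a := p * p) (by rw [nrm_mul, a2, a4, Nat.cast_mul]) (p * m)
  rw [if_pos (Dvd.intro _ rfl), Nat.mul_div_cancel_left _ hp.pos] at e1 e2
  simp only [Nat.mul_dvd_mul_iff_left hp.pos, Nat.mul_div_mul_left _ _ hp.pos] at e3
  have e4 := Finset.card_union_add_card_inter ((f2T (p * m)).filter (π ∣ ·))
    ((f2T (p * m)).filter (cj π ∣ ·))
  rw [← Finset.filter_or, ← Finset.filter_and, Finset.filter_true_of_mem fun c hc => ?_,
    Finset.filter_congr (q := fun c => π * cj π ∣ c) fun c _ =>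
      ⟨fun h => a7.mul_dvd h.1 h.2, fun h => ⟨dvd_of_mul_right_dvd h, dvd_of_mul_left_dvd h⟩⟩,
    e1, e2, e3] at e4
  · omega
  · have b1 := f2_dvd hc
    rw [← a6] at b1
    refine (a1.dvd_or_dvd (dvd_of_mul_right_dvd b1)).imp_right fun h => ?_
    have := f2_cj_dvd h
    rwa [cj_cj] at this

theorem f2_rec (f : ℕ → ℤ) (hf : ∀ a b, f (a * b) = f a * f b) {p m : ℕ} (hp : p.Prime)
    (hm : m ≠ 0) : ∑ d ∈ (p * m).divisors, f d +
      f p * (if p ∣ m then ∑ d ∈ (m / p).divisors, f d else 0) =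
      (1 + f p) * ∑ d ∈ m.divisors, f d := by
  have k : ∀ n : ℕ, n ≠ 0 → ∑ d ∈ (p * n).divisors.filter (p ∣ ·), f d =
      f p * ∑ d ∈ n.divisors, f d := fun n hn => by
    rw [Finset.mul_sum]
    refine (Finset.sum_bij (fun d _ => p * d) (fun d hd => ?_)
      (fun c _ d _ h => Nat.eq_of_mul_eq_mul_left hp.pos h) (fun d hd => ?_)
      fun d _ => (hf p d).symm).symm
    · exact Finset.mem_filter.2 ⟨Nat.mem_divisors.2 ⟨Nat.mul_dvd_mul_left p
        (Nat.dvd_of_mem_divisors hd), mul_ne_zero hp.ne_zero hn⟩, Dvd.intro _ rfl⟩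
    · obtain ⟨h1, e, rfl⟩ := Finset.mem_filter.1 hd
      exact ⟨e, Nat.mem_divisors.2 ⟨Nat.dvd_of_mul_dvd_mul_left hp.pos
        (Nat.dvd_of_mem_divisors h1), hn⟩, rfl⟩
  have e1 := Finset.sum_filter_add_sum_filter_not (p * m).divisors (p ∣ ·) f
  have e2 := Finset.sum_filter_add_sum_filter_not m.divisors (p ∣ ·) f
  have e3 : (p * m).divisors.filter (¬ p ∣ ·) = m.divisors.filter (¬ p ∣ ·) := by
    ext d
    simp only [Finset.mem_filter, Nat.mem_divisors]
    exact and_congr_left fun h => ⟨fun h1 => ⟨((Nat.coprime_comm.1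
      ((Nat.Prime.coprime_iff_not_dvd hp).2 h))).dvd_of_dvd_mul_left h1.1, hm⟩,
      fun h1 => ⟨h1.1.mul_left p, mul_ne_zero hp.ne_zero hm⟩⟩
  rw [k m hm, e3] at e1
  split_ifs with h
  · obtain ⟨n, rfl⟩ := h
    rw [k n (right_ne_zero_of_mul hm)] at e2
    rw [Nat.mul_div_cancel_left _ hp.pos]
    linear_combination e2 - e1
  · rw [Finset.sum_eq_zero fun d hd => absurd ((Finset.mem_filter.1 hd).2.trans
      (Nat.dvd_of_mem_divisors (Finset.mem_filter.1 hd).1)) h] at e2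
    linear_combination e2 - e1

theorem f2_card (n : ℕ) : Nat.Coprime n 6 →
    ((f2T n).card : ℤ) = ∑ d ∈ n.divisors, legendreSym 3 d := by
  induction n using Nat.strong_induction_on with
  | _ n ih =>
  intro hn
  rcases eq_or_ne n 1 with rfl | h1
  · have : f2T 1 = {1} := by
      ext c
      rw [f2_mem, Finset.mem_singleton]
      exact ⟨fun h => h.1.1.eq_one_of_isUnit (isUnit_iff_nrm.2 h.2), fun h => h ▸ ⟨P1.one, rfl⟩⟩
    simp [this]
  obtain ⟨p, hp, m, rfl⟩ := Nat.exists_prime_and_dvd h1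
  have m0 : m ≠ 0 := by rintro rfl; simp at hn
  have hm : Nat.Coprime m 6 := Nat.Coprime.coprime_mul_left hn
  have hp6 : Nat.Coprime p 6 := Nat.Coprime.coprime_mul_right hn
  have lt : m < p * m := lt_mul_of_one_lt_left (Nat.pos_of_ne_zero m0) hp.one_lt
  have i1 := ih m lt hm
  have i2 : (((if p ∣ m then (f2T (m / p)).card else 0 : ℕ)) : ℤ) =
      if p ∣ m then ∑ d ∈ (m / p).divisors, legendreSym 3 d else 0 := by
    split_ifs with h
    · exact ih _ ((Nat.div_le_self _ _).trans_lt lt) (hm.coprime_dvd_left (Nat.div_dvd_of_dvd h))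
    · rfl
  have R := f2_rec (fun d => legendreSym 3 d) (fun a b => by
    rw [Nat.cast_mul, legendreSym.mul]) hp m0
  have p2 : p ≠ 2 := by rintro rfl; exact absurd hp6 (by decide)
  have p3 : p % 3 ≠ 0 := fun h =>
    absurd (Nat.Coprime.coprime_dvd_left (Nat.dvd_of_mod_eq_zero h) hp6) (by decide)
  rw [← i1, ← i2] at R
  obtain h | h : p % 3 = 1 ∨ p % 3 = 2 := by omega
  · have l : legendreSym 3 p = 1 := by
      rw [legendreSym.mod, show (p : ℤ) % (3 : ℕ) = 1 by omega]; decide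
    have := congrArg (Nat.cast : ℕ → ℤ) (f2_split hp h m)
    rw [Nat.cast_add, Nat.cast_mul] at this
    simp only [l] at R
    linear_combination this - R
  · have l : legendreSym 3 p = -1 := by
      rw [legendreSym.mod, show (p : ℤ) % (3 : ℕ) = 2 by omega]; decide
    simp only [l] at R
    rw [f2_inert hp p2 h m]
    linear_combination -R

end Vale.Agent.P026
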