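import Vale.Agent.P026.Recip3A

/-! Cubic reciprocity and the periodicity of the cubic symbol in its lower entry. -/

namespace Vale.Agent.P026

open Eis Complex
open scoped Classical ComplexConjugate

theorem r3_cj_dvd {x y : Eis} (h : x ∣ y) : cj x ∣ cj y := by
  obtain ⟨z, rfl⟩ := h
  exact ⟨cj z, cj_mul x z⟩

theorem r3_prime_cj {p : Eis} (hp : Prime p) : Prime (cj p) := by
  refine ⟨fun h => hp.ne_zero ?_, fun h => hp.not_isUnit ?_, fun a b h => ?_⟩
  · rw [← cj_cj p, h]; rfl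
  · rwa [isUnit_iff_nrm, nrm_cj, ← isUnit_iff_nrm] at h
  · have h1 := r3_cj_dvd h
    rw [cj_cj, cj_mul] at h1
    rcases hp.dvd_or_dvd h1 with h2 | h2
    · exact Or.inl (cj_cj a ▸ r3_cj_dvd h2)
    · exact Or.inr (cj_cj b ▸ r3_cj_dvd h2)

theorem r3_eq_of_dvd {p q : Eis} (hp : Prime p) (h1 : Prim p) (hq : Prime q) (h2 : Prim q)
    (h : q ∣ p) : q = p := h2.eq_of_associated h1 (hq.associated_of_dvd hp h)

theorem r3_key {p q : Eis} (hp : Prime p) (h1 : Prim p) (hq : Prime q) (h2 : Prim q)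
    (ha : q ≠ p) (hb : q ≠ cj p) :
    cub q p * cub (cj q) p = cub p q * cub (cj p) q ^ 2 := by
  have hp' := r3_prime_cj hp
  have hq' := r3_prime_cj hq
  have h := r3_key0 hp' h1.cj hq h2 (by
      rw [nrm_cj, ← mul_cj]
      exact fun h => (hq.dvd_or_dvd h).elim (fun h => ha (r3_eq_of_dvd hp h1 hq h2 h))
        fun h => hb (r3_eq_of_dvd hp' h1.cj hq h2 h)) (by
      rw [← mul_cj]
      refine fun h => (hp'.dvd_or_dvd h).elim (fun h => hb (r3_eq_of_dvd hq h2 hp' h1.cj h).symm)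
        fun h => ha ?_
      rw [← cj_cj q, ← r3_eq_of_dvd hq' h2.cj hp' h1.cj h, cj_cj])
  rw [← cub_cj _ h1.cj.not_lam_dvd, cj_cj, nrm_cj, ← mul_cj, ← mul_cj, cj_mul, cj_cj,
    cub_mul_left _ _ h1.not_lam_dvd, cub_mul_left _ _ h2.not_lam_dvd,
    cub_mul_left _ _ h2.not_lam_dvd] at h
  linear_combination h

theorem r3_generic {p q : Eis} (hp : Prime p) (h1 : Prim p) (hq : Prime q) (h2 : Prim q)
    (hb : q ≠ cj p) : cub p q = cub q p := by
  by_cases ha : q = p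
  · rw [ha]
  have hb' : p ≠ cj q := fun h => hb (by rw [h, cj_cj])
  have k1 := r3_key hp h1 hq h2 ha hb
  have k2 := r3_key hq h2 hp h1 (Ne.symm ha) hb'
  have cop : ∀ {x y : Eis}, Prime x → Prim x → Prime y → Prim y → y ≠ x → cub x y ^ 3 = 1 :=
    fun hx hx' hy hy' h =>
      cub_cube ((hy.coprime_iff_not_dvd).2 fun e => h (r3_eq_of_dvd hx hx' hy hy' e)).symm
  have cA := cop hp h1 hq h2 ha
  have cB := cop (r3_prime_cj hp) h1.cj hq h2 hb
  have cC := cop hq h2 hp h1 (Ne.symm ha)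
  have cD := cop (r3_prime_cj hq) h2.cj hp h1 hb'
  generalize cub p q = A at *
  generalize cub (cj p) q = B at *
  generalize cub q p = C at *
  generalize cub (cj q) p = D at *
  have hDB : D * B = 1 := by
    have h : C * D * (D * B - 1) = 0 := by linear_combination -k1 - B * k2
    have hC : C ≠ 0 := fun e => by simp [e] at cC
    have hD : D ≠ 0 := fun e => by simp [e] at cD
    exact sub_eq_zero.1 ((mul_eq_zero.1 h).resolve_left (mul_ne_zero hC hD))
  linear_combination D * k2 - A * hDB + C * cD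

theorem r3_prime_left {p x : Eis} (hp : Prime p) (h1 : Prim p) (hx : Prim x) (h : ¬cj p ∣ x) :
    cub p x = cub x p := by
  refine Prim.induction (Pr := fun x => ¬cj p ∣ x → cub p x = cub x p) (fun _ => ?_)
    (fun q y hq h2 hy ih h => ?_) hx h
  · rw [cub_one_right, cub_one_left h1.not_lam_dvd]
  · rw [cub_mul_right _ hq.ne_zero hy.ne_zero, cub_mul_left _ _ h1.not_lam_dvd,
      ih fun e => h (e.mul_left _), r3_generic hp h1 hq h2 fun e => h (e ▸ dvd_mul_right _ _)]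

theorem r3_primes {p q : Eis} (hp : Prime p) (h1 : Prim p) (hq : Prime q) (h2 : Prim q) :
    cub p q = cub q p := by
  by_cases hb : q = cj p
  swap
  · exact r3_generic hp h1 hq h2 hb
  by_cases ha : q = p
  · rw [ha]
  have hb' : p = cj q := by rw [hb, cj_cj]
  have ht : Prim (-(p + q)) := by
    obtain ⟨a, ha⟩ := h1
    obtain ⟨b, hb⟩ := h2
    exact ⟨-1 - a - b, by linear_combination -ha - hb⟩
  have e1 := r3_prime_left hp h1 ht (by
    rw [← hb, dvd_neg, dvd_add_left dvd_rfl]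
    exact fun h => ha (r3_eq_of_dvd hp h1 hq h2 h))
  have e2 := r3_prime_left hq h2 ht (by
    rw [← hb', dvd_neg, dvd_add_right dvd_rfl]
    exact fun h => ha (r3_eq_of_dvd hq h2 hp h1 h).symm)
  have e3 : cub (-(p + q)) p = cub q p := by
    rw [cub_neg_left _ h1.not_lam_dvd]; exact cub_congr ⟨1, by ring⟩
  have e4 : cub (-(p + q)) q = cub p q := by
    rw [cub_neg_left _ h2.not_lam_dvd]; exact cub_congr ⟨1, by ring⟩
  have e5 : cub p (-(p + q)) = cub q (-(p + q)) := by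
    rw [← cub_neg_left q ht.not_lam_dvd]; exact cub_congr ⟨-1, by ring⟩
  rw [← e3, ← e4, ← e1, ← e2, e5]

theorem cub_recip {a c : Eis} (ha : Prim a) (hc : Prim c) : cub a c = cub c a := by
  refine Prim.induction (Pr := fun a => cub a c = cub c a) ?_ (fun p x hp h1 hx ih => ?_) ha
  · rw [cub_one_right, cub_one_left hc.not_lam_dvd]
  · rw [cub_mul_right _ hp.ne_zero hx.ne_zero, cub_mul_left _ _ hc.not_lam_dvd, ih]
    congr 1
    refine Prim.induction (Pr := fun c => cub p c = cub c p) ?_ (fun q y hq h2 hy ih => ?_) hc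
    · rw [cub_one_right, cub_one_left h1.not_lam_dvd]
    · rw [cub_mul_right _ hq.ne_zero hy.ne_zero, cub_mul_left _ _ h1.not_lam_dvd, ih,
        r3_primes hp h1 hq h2]

theorem r3_om_one {a : Eis} (ha : Prim a) (h : 9 ∣ nrm a - 1) : cub om a = 1 := by
  have h0 := nrm_nonneg a
  obtain ⟨k, hk⟩ : ∃ k : ℕ, ((nrm a).natAbs - 1) / 3 = 3 * k := ⟨((nrm a).natAbs - 1) / 9, by omega⟩
  have e : om ^ 3 = 1 := by decide
  rw [cub_om ha.not_lam_dvd, hk, pow_mul, ← map_pow, e, map_one, one_pow]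

theorem r3_om_nine (y : Eis) : cub om (1 + 9 * y) = 1 := by
  refine r3_om_one ⟨3 * y, by ring⟩ ⟨2 * y.a - y.b + 9 * nrm y, ?_⟩
  simp [nrm]; ring

theorem r3_lam_nine (y : Eis) : cub lam (1 + 9 * y) = 1 := by
  have ha : Prim (1 + 9 * y) := ⟨3 * y, by ring⟩
  have hb : Prim (1 + 3 * (2 + om) * y) := ⟨(2 + om) * y, by ring⟩
  have e : 1 + 9 * y - om = (1 - om) * (1 + 3 * (2 + om) * y) := by
    linear_combination (3 * y) * om_sq_add
  have e1 : cub (1 + 3 * (2 + om) * y) (1 + 9 * y) = 1 := by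
    rw [cub_recip hb ha, cub_congr (b := om) ⟨1 - om, by rw [e]; ring⟩]
    refine r3_om_one hb ⟨y.a - y.b + 3 * nrm y, ?_⟩
    simp [nrm]; ring
  have e2 : cub ((1 - om) * (1 + 3 * (2 + om) * y)) (1 + 9 * y) = 1 := by
    rw [← e, cub_congr (b := -om) ⟨1, by ring⟩, cub_neg_left _ ha.not_lam_dvd, r3_om_nine]
  have e3 : lam = om * (1 - om) := by decide
  rw [cub_mul_left _ _ ha.not_lam_dvd, e1, mul_one] at e2
  rw [e3, cub_mul_left _ _ ha.not_lam_dvd, e2, r3_om_nine, mul_one]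

theorem r3_nine {n a a' : Eis} (hn : ∀ y, cub n (1 + 9 * y) = 1) (ha : Prim a)
    (h9 : (9 : Eis) ∣ a - a') : cub n a = cub n a' := by
  obtain ⟨y, hy⟩ := ha
  obtain ⟨z, hz⟩ := h9
  have ha : Prim a := ⟨y, hy⟩
  have ha' : Prim a' := ⟨y - 3 * z, by linear_combination hy - hz⟩
  have e : a = 1 + 3 * y := by linear_combination hy
  have e1 : a * a ^ 2 = 1 + 9 * (y + 3 * y ^ 2 + 3 * y ^ 3) := by rw [e]; ring
  have e2 : a' * a ^ 2 = 1 + 9 * (y + 3 * y ^ 2 + 3 * y ^ 3 - z * a ^ 2) := by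
    linear_combination e1 - a ^ 2 * hz
  have h1 := hn (y + 3 * y ^ 2 + 3 * y ^ 3)
  have h2 := hn (y + 3 * y ^ 2 + 3 * y ^ 3 - z * a ^ 2)
  rw [← e1, cub_mul_right _ ha.ne_zero (ha.pow 2).ne_zero] at h1
  rw [← e2, cub_mul_right _ ha'.ne_zero (ha.pow 2).ne_zero] at h2
  linear_combination cub n a' * h1 - cub n a * h2

theorem r3_unit {u a a' : Eis} (hu : IsUnit u) (ha : Prim a) (h9 : (9 : Eis) ∣ a - a') :
    cub u a = cub u a' := by
  refine r3_nine (fun y => ?_) ha h9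
  have h : ¬lam ∣ 1 + 9 * y := Prim.not_lam_dvd ⟨3 * y, by ring⟩
  rcases isUnit_iff.1 hu with rfl | rfl | rfl | rfl | rfl | rfl <;>
    simp only [cub_neg_left _ h, cub_pow_left _ h, cub_one_left h, r3_om_nine, one_pow]

theorem r3_gen {n a a' : Eis} (ha : Prim a) (h9 : (9 : Eis) ∣ a - a') (h0 : n ≠ 0)
    (hn : ∀ p, Prime p → p ∣ n → p ∣ a - a') : cub n a = cub n a' := by
  have ha' : Prim a' := ha.of_dvd_sub (dvd_sub_comm.1 (Dvd.dvd.trans ⟨3, by norm_num⟩ h9))
  induction n using UniqueFactorizationMonoid.induction_on_prime with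
  | h₁ => exact absurd rfl h0
  | h₂ u hu => exact r3_unit hu ha h9
  | h₃ x p hx hp ih =>
    rw [cub_mul_left _ _ ha.not_lam_dvd, cub_mul_left _ _ ha'.not_lam_dvd,
      ih hx fun q hq h => hn q hq (h.mul_left _)]
    congr 1
    by_cases hl : lam ∣ p
    · obtain ⟨u, rfl⟩ := prime_lam.associated_of_dvd hp hl
      rw [cub_mul_left _ _ ha.not_lam_dvd, cub_mul_left _ _ ha'.not_lam_dvd,
        r3_unit u.isUnit ha h9, r3_nine r3_lam_nine ha h9]
    · obtain ⟨u, hu, h1⟩ := exists_prim_assoc hl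
      obtain ⟨v, hv⟩ := hu.exists_left_inv
      have e : p = v * (u * p) := by rw [← mul_assoc, hv, one_mul]
      rw [e, cub_mul_left _ _ ha.not_lam_dvd, cub_mul_left _ _ ha'.not_lam_dvd,
        r3_unit (IsUnit.of_mul_eq_one u hv) ha h9, cub_recip h1 ha, cub_recip h1 ha',
        cub_congr ((hu.mul_left_dvd).2 (hn p hp (dvd_mul_right _ _)))]

/-- The lower entry matters only modulo 9 and modulo the upper entry. -/
theorem cub_per {n a a' : Eis} (ha : Prim a) (h9 : (9 : Eis) ∣ a - a') (hn : n ∣ a - a') :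
    cub n a = cub n a' := by
  by_cases h0 : n = 0
  · rw [h0, zero_dvd_iff, sub_eq_zero] at hn
    rw [hn]
  · exact r3_gen ha h9 h0 fun p _ h => h.trans hn
/-- Radical version. -/
theorem cub_per_rad {n q a a' : Eis} (ha : Prim a) (k : ℕ) (hn : n ∣ q ^ k) (hq : q ≠ 0)
    (h : 9 * q ∣ a - a') : cub n a = cub n a' :=
  r3_gen ha ((dvd_mul_right _ _).trans h) (ne_zero_of_dvd_ne_zero (pow_ne_zero k hq) hn)
    fun _ hp hd => (hp.dvd_of_dvd_pow (hd.trans hn)).trans ((dvd_mul_left _ _).trans h)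
theorem cub_per_Sm {n a a' : Eis} (ha : Prim a) (hn : Sm n) (h : (18 : Eis) ∣ a - a') :
    cub n a = cub n a' := by
  obtain ⟨k, hk⟩ := hn
  exact r3_gen ha (Dvd.dvd.trans ⟨2, by norm_num⟩ h) (Sm.ne_zero ⟨k, hk⟩) fun _ hp hd =>
    (hp.dvd_of_dvd_pow (hd.trans hk)).trans (Dvd.dvd.trans ⟨3, by norm_num⟩ h)

end Vale.Agent.P026
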