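import Vale.Agent.P026.Kub

/-! Analytic lemmas for the asymptotics of the constant term. -/

namespace Vale.Agent.P026

open Eis Complex Filter Topology MeasureTheory
open scoped Classical ComplexConjugate

/-- Number of odd primary elements of norm at most R. -/
noncomputable def asA (R : ℝ) : ℝ := (((ball R).filter P1).card : ℝ)

theorem as_mono : Monotone asA := fun _ _ h => by
  unfold asA
  exact_mod_cast Finset.card_le_card (Finset.filter_subset_filter _ (ball_mono h))

theorem asA_nonneg (R : ℝ) : 0 ≤ asA R := Nat.cast_nonneg _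

theorem asA_le {R : ℝ} (hR : 0 ≤ R) : asA R ≤ 16 * R := by
  refine le_trans ?_ (card_ball_le hR)
  unfold asA
  exact_mod_cast Finset.card_filter_le _ _

theorem as_exp_le {x : ℝ} (hx : 0 < x) {m : Eis} (hm : m ≠ 0) :
    Real.exp (-(x * N m ^ 3)) ≤ x⁻¹ / N m ^ 2 := by
  have h1 := one_le_N hm
  have h2 : x * N m ^ 2 ≤ Real.exp (x * N m ^ 3) := by
    have a1 := Real.add_one_le_exp (x * N m ^ 3)
    have a2 : x * N m ^ 2 ≤ x * N m ^ 3 := by
      have : N m ^ 2 ≤ N m ^ 3 := pow_le_pow_right₀ h1 (by norm_num)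
      gcongr
    linarith
  rw [Real.exp_neg, div_eq_mul_inv, ← mul_inv]
  exact inv_anti₀ (by positivity) h2

theorem as_sum2 : Summable (fun m : Eis => (N m ^ 2)⁻¹) := by
  refine (summable_N_rpow (s := 2) (by norm_num)).congr fun m => ?_
  rw [Real.rpow_neg (N_nonneg m), Real.rpow_two]

/-- Summability under a bound by the inverse square of the norm. -/
theorem as_summable {h : Eis → ℂ} {K : ℝ} (hh : ∀ m, P1 m → ‖h m‖ ≤ K / N m ^ 2) :
    Summable (fun m => if P1 m then h m else 0) := by
  have hK : 0 ≤ K := by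
    have := hh 1 P1.one
    simp only [N_one, one_pow, div_one] at this
    exact (norm_nonneg _).trans this
  refine Summable.of_norm_bounded (as_sum2.mul_left K) fun m => ?_
  split_ifs with hm
  · exact hh m hm
  · rw [norm_zero]; positivity

theorem as_rep {x : ℝ} (hx : 0 < x) :
    ∑' m : Eis, (if P1 m then Real.exp (-(x * N m ^ 3)) else 0) =
      ∫ u in Set.Ioi (0 : ℝ), Real.exp (-u) * asA ((u / x) ^ (1 / 3 : ℝ)) := by
  set F : Eis → ℝ → ℝ := fun m u =>
    if P1 m then (Set.Ici (x * N m ^ 3)).indicator (fun u => Real.exp (-u)) u else 0 with hF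
  have hint : ∀ m, Integrable (F m) (volume.restrict (Set.Ioi (0 : ℝ))) := by
    intro m
    by_cases hm : P1 m
    · simp only [hF, hm, if_true]
      exact (integrableOn_exp_neg_Ioi 0).indicator measurableSet_Ici
    · simp only [hF, hm, if_false]
      exact integrable_zero _ _ _
  have hval : ∀ m, ∫ u in Set.Ioi (0 : ℝ), F m u =
      if P1 m then Real.exp (-(x * N m ^ 3)) else 0 := by
    intro m
    by_cases hm : P1 m
    · simp only [hF, hm, if_true]
      have hp : 0 < x * N m ^ 3 := by
        have := N_pos hm.ne_zero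
        positivity
      have : Set.Ioi (0 : ℝ) ∩ Set.Ici (x * N m ^ 3) = Set.Ici (x * N m ^ 3) :=
        Set.inter_eq_right.2 fun u hu => lt_of_lt_of_le hp hu
      rw [setIntegral_indicator measurableSet_Ici, this, integral_Ici_eq_integral_Ioi,
        integral_exp_neg_Ioi]
    · simp [hF, hm]
  have hnn : ∀ m u, 0 ≤ F m u := by
    intro m u
    simp only [hF]
    split_ifs
    · exact Set.indicator_nonneg (fun _ _ => (Real.exp_pos _).le) _
    · exact le_rfl
  have hsum : Summable fun m => ∫ u in Set.Ioi (0 : ℝ), ‖F m u‖ := by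
    simp only [fun m u => Real.norm_of_nonneg (hnn m u), hval]
    refine Summable.of_nonneg_of_le (fun m => ?_) (fun m => ?_) (as_sum2.mul_left x⁻¹)
    · split_ifs
      · positivity
      · exact le_rfl
    · split_ifs with hm
      · exact as_exp_le hx hm.ne_zero
      · positivity
  have h1 := integral_tsum_of_summable_integral_norm hint hsum
  simp only [hval] at h1
  rw [h1]
  refine setIntegral_congr_fun measurableSet_Ioi fun u hu => ?_
  have hu' : 0 < u := hu
  have hiff : ∀ m, P1 m → (N m ≤ (u / x) ^ (1 / 3 : ℝ) ↔ x * N m ^ 3 ≤ u) := by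
    intro m _
    rw [one_div, Real.le_rpow_inv_iff_of_pos (N_nonneg m) (by positivity) (by norm_num),
      le_div_iff₀ hx, mul_comm, show (3 : ℝ) = ((3 : ℕ) : ℝ) by norm_num, Real.rpow_natCast]
  rw [tsum_eq_sum (s := (ball ((u / x) ^ (1 / 3 : ℝ))).filter P1)]
  · unfold asA
    rw [mul_comm, ← nsmul_eq_mul, ← Finset.sum_const]
    refine Finset.sum_congr rfl fun m hm => ?_
    rw [Finset.mem_filter, mem_ball] at hm
    simp only [hF, hm.2, if_true]
    exact Set.indicator_of_mem ((hiff m hm.2).1 hm.1.2) _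
  · intro m hm
    simp only [hF]
    split_ifs with h
    · refine Set.indicator_of_notMem (fun h' => hm ?_) _
      rw [Finset.mem_filter, mem_ball]
      exact ⟨⟨h.ne_zero, (hiff m h).2 h'⟩, h⟩
    · rfl

/-- The basic sum over cubes with a weight. -/
noncomputable def asT (χ : Eis → ℂ) (x : ℝ) : ℂ :=
  ((x ^ (1 / 3 : ℝ) : ℝ) : ℂ) * ∑' m : Eis, if P1 m then χ m * ex (x * N m ^ 3) else 0

theorem as_T1 : ∃ κ : ℝ, 0 < κ ∧ Tendsto (asT 1) (𝓝[>] 0) (𝓝 (κ : ℂ)) ∧
    ∃ B : ℝ, ∀ x, 0 < x → ‖asT 1 x‖ ≤ B := by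
  obtain ⟨c, hc, hlim⟩ := tendsto_card_P1
  set G : ℝ → ℝ → ℝ := fun x u =>
    x ^ (1 / 3 : ℝ) * (Real.exp (-u) * asA ((u / x) ^ (1 / 3 : ℝ))) with hG
  have hT : ∀ x, 0 < x → asT 1 x = ((∫ u in Set.Ioi (0 : ℝ), G x u : ℝ) : ℂ) := by
    intro x hx
    simp only [hG]
    rw [integral_const_mul, ← as_rep hx, ofReal_mul, ofReal_tsum]
    unfold asT ex
    congr 1
    refine tsum_congr fun m => ?_
    split_ifs <;> simp
  have hI := Real.GammaIntegral_convergent (s := 4 / 3) (by norm_num)
  have hform : ∀ x u, 0 < x → 0 < u → G x u = Real.exp (-u) * u ^ ((4 / 3 : ℝ) - 1) *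
      (asA ((u / x) ^ (1 / 3 : ℝ)) / (u / x) ^ (1 / 3 : ℝ)) := by
    intro x u hx hu
    simp only [hG]
    rw [show (4 / 3 : ℝ) - 1 = 1 / 3 by norm_num, Real.div_rpow hu.le hx.le]
    have := Real.rpow_pos_of_pos hu (1 / 3)
    have := Real.rpow_pos_of_pos hx (1 / 3)
    field_simp
  have hbd : ∀ x, 0 < x → ∀ᵐ u ∂(volume.restrict (Set.Ioi (0 : ℝ))),
      ‖G x u‖ ≤ 16 * (Real.exp (-u) * u ^ ((4 / 3 : ℝ) - 1)) := by
    intro x hx
    filter_upwards [ae_restrict_mem measurableSet_Ioi] with u hu
    have hu' : 0 < u := hu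
    have hR : 0 < (u / x) ^ (1 / 3 : ℝ) := by positivity
    have h0 := asA_nonneg ((u / x) ^ (1 / 3 : ℝ))
    rw [hform x u hx hu', Real.norm_of_nonneg (by positivity), mul_comm]
    refine mul_le_mul_of_nonneg_right ?_ (by positivity)
    rw [div_le_iff₀ hR]
    exact asA_le hR.le
  refine ⟨Real.Gamma (4 / 3) * c, mul_pos (Real.Gamma_pos_of_pos (by norm_num)) hc, ?_,
    ∫ u in Set.Ioi (0 : ℝ), 16 * (Real.exp (-u) * u ^ ((4 / 3 : ℝ) - 1)), fun x hx => ?_⟩
  · have h1 : Tendsto (fun x => ∫ u in Set.Ioi (0 : ℝ), G x u) (𝓝[>] 0)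
        (𝓝 (∫ u in Set.Ioi (0 : ℝ), Real.exp (-u) * u ^ ((4 / 3 : ℝ) - 1) * c)) := by
      refine tendsto_integral_filter_of_dominated_convergence _ ?_ ?_ (hI.const_mul 16) ?_
      · refine Eventually.of_forall fun x => Measurable.aestronglyMeasurable ?_
        simp only [hG]
        refine measurable_const.mul (Measurable.mul (by fun_prop) (as_mono.measurable.comp ?_))
        fun_prop
      · filter_upwards [self_mem_nhdsWithin] with x hx using hbd x hx
      · filter_upwards [ae_restrict_mem measurableSet_Ioi] with u hu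
        have hu' : 0 < u := hu
        have a1 : Tendsto (fun x : ℝ => (u / x) ^ (1 / 3 : ℝ)) (𝓝[>] 0) atTop := by
          refine (tendsto_rpow_atTop (by norm_num)).comp ?_
          exact (tendsto_inv_nhdsGT_zero.const_mul_atTop hu').congr
            fun x => (div_eq_mul_inv u x).symm
        refine ((hlim.comp a1).const_mul (Real.exp (-u) * u ^ ((4 / 3 : ℝ) - 1))).congr' ?_
        filter_upwards [self_mem_nhdsWithin] with x hx
        exact (hform x u hx hu').symm
    rw [integral_mul_const, ← Real.Gamma_eq_integral (by norm_num)] at h1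
    refine ((continuous_ofReal.tendsto _).comp h1).congr' ?_
    filter_upwards [self_mem_nhdsWithin] with x hx
    exact (hT x hx).symm
  · rw [hT x hx, Complex.norm_real]
    exact norm_integral_le_of_norm_le (hI.const_mul 16) (hbd x hx)

theorem as_scale {b : ℝ} (hb : 0 < b) : Tendsto (fun x : ℝ => x * b) (𝓝[>] 0) (𝓝[>] 0) := by
  refine tendsto_nhdsWithin_iff.2 ⟨?_, ?_⟩
  · have : Tendsto (fun x : ℝ => x * b) (𝓝 0) (𝓝 (0 * b)) := tendsto_id.mul_const b
    rw [zero_mul] at this
    exact this.mono_left nhdsWithin_le_nhds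
  · filter_upwards [self_mem_nhdsWithin] with x hx
    exact mul_pos hx hb

/-- Passage to the limit in an absolutely convergent average of dilates. -/
theorem as_tann {a : Eis → ℂ} {b : Eis → ℝ} (ha : Summable fun d => ‖a d‖)
    (hb : ∀ d, a d ≠ 0 → 0 < b d) {V : ℝ → ℂ} {κ : ℂ} (hV : Tendsto V (𝓝[>] 0) (𝓝 κ))
    (hB : ∃ B : ℝ, ∀ x, 0 < x → ‖V x‖ ≤ B) :
    Tendsto (fun x => ∑' d, a d * V (x * b d)) (𝓝[>] 0) (𝓝 ((∑' d, a d) * κ)) ∧
      ∃ B : ℝ, ∀ x, 0 < x → ‖∑' d, a d * V (x * b d)‖ ≤ B := by
  obtain ⟨B, hB⟩ := hB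
  have hbd : ∀ x, 0 < x → ∀ d, ‖a d * V (x * b d)‖ ≤ ‖a d‖ * B := by
    intro x hx d
    by_cases h : a d = 0
    · simp [h]
    · rw [norm_mul]
      exact mul_le_mul_of_nonneg_left (hB _ (mul_pos hx (hb d h))) (norm_nonneg _)
  refine ⟨?_, _, fun x hx => tsum_of_norm_bounded (ha.mul_right B).hasSum (hbd x hx)⟩
  rw [← tsum_mul_right]
  refine tendsto_tsum_of_dominated_convergence (ha.mul_right B) (fun d => ?_) ?_
  · by_cases h : a d = 0
    · simp [h]
    · exact (hV.comp (as_scale (hb d h))).const_mul _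
  · filter_upwards [self_mem_nhdsWithin] with x hx using hbd x hx

/-- Rearrangement of a sum over divisors. -/
theorem as_conv {g h : Eis → ℂ} (hg : ∀ d, ‖g d‖ ≤ 1) (hg0 : ∀ d, ¬ P0 d → g d = 0) {K : ℝ}
    (hh : ∀ m, P1 m → ‖h m‖ ≤ K / N m ^ 2) :
    ∑' m, (if P1 m then (∑ d ∈ divs m, g d) * h m else 0) =
      ∑' d, g d * ∑' m, if P1 m then h (d * m) else 0 := by
  have hK : 0 ≤ K := by
    have := hh 1 P1.one
    simp only [N_one, one_pow, div_one] at this
    exact (norm_nonneg _).trans this
  obtain ⟨C, hC, hcard⟩ := card_divs_le (e := 1 / 2) (by norm_num)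
  set G : Eis → Eis → ℂ := fun m d => if P1 m ∧ d ∈ divs m then g d * h m else 0 with hG
  have hsupp : ∀ m, ∀ d ∉ divs m, G m d = 0 := fun m d hd => by simp [hG, hd]
  have hsum : Summable (Function.uncurry G) := by
    refine Summable.of_norm ?_
    rw [summable_prod_of_nonneg fun _ => norm_nonneg _]
    refine ⟨fun m => summable_of_ne_finset_zero (s := divs m) fun d hd => ?_, ?_⟩
    · simp [hsupp m d hd]
    · refine Summable.of_nonneg_of_le (fun m => tsum_nonneg fun _ => norm_nonneg _) (fun m => ?_)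
        ((summable_N_rpow (s := 3 / 2) (by norm_num)).mul_left (C * K))
      rw [tsum_eq_sum (s := divs m) fun d hd => by simp [hsupp m d hd]]
      by_cases hm : P1 m
      · have hN := N_pos hm.ne_zero
        have a1 : ∑ d ∈ divs m, ‖Function.uncurry G (m, d)‖ ≤ (divs m).card • (K / N m ^ 2) := by
          refine Finset.sum_le_card_nsmul _ _ _ fun d hd => ?_
          simp only [Function.uncurry_apply_pair, hG, hm, hd, and_self, if_true, norm_mul]
          calc ‖g d‖ * ‖h m‖ ≤ 1 * (K / N m ^ 2) :=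
                mul_le_mul (hg d) (hh m hm) (norm_nonneg _) zero_le_one
            _ = _ := one_mul _
        refine a1.trans ?_
        rw [nsmul_eq_mul]
        calc ((divs m).card : ℝ) * (K / N m ^ 2) ≤ C * N m ^ (1 / 2 : ℝ) * (K / N m ^ 2) :=
              mul_le_mul_of_nonneg_right (hcard m hm.ne_zero) (by positivity)
          _ = C * K * N m ^ (-(3 / 2) : ℝ) := by
              rw [show (-(3 / 2) : ℝ) = 1 / 2 - 2 by norm_num, Real.rpow_sub hN, Real.rpow_two]
              ring
      · have : ∀ d, ‖Function.uncurry G (m, d)‖ = 0 := fun d => by simp [hG, hm]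
        simp only [this, Finset.sum_const_zero]
        exact mul_nonneg (by positivity) (Real.rpow_nonneg (N_nonneg m) _)
  have h1 := hsum.tsum_comm
  have h2 : ∀ m, ∑' d, G m d = if P1 m then (∑ d ∈ divs m, g d) * h m else 0 := by
    intro m
    rw [tsum_eq_sum (hsupp m)]
    split_ifs with hm
    · rw [Finset.sum_mul]
      refine Finset.sum_congr rfl fun d hd => ?_
      simp only [hG, hm, hd, and_self, if_true]
    · simp [hG, hm]
  have h3 : ∀ d, ∑' m, G m d = g d * ∑' m, if P1 m then h (d * m) else 0 := by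
    intro d
    by_cases hd : P0 d
    · have hinj : Function.Injective fun m : Eis => d * m := mul_right_injective₀ hd.ne_zero
      rw [← tsum_mul_left, ← hinj.tsum_eq (f := fun m => G m d)]
      · refine tsum_congr fun m => ?_
        by_cases hm : P1 m
        · have hdm := hd.1.mul hm
          have : d ∈ divs (d * m) := (mem_divs hdm.ne_zero).2 ⟨hd, dvd_mul_right _ _⟩
          simp only [hG, hdm, this, hm, and_self, if_true]
        · have : ¬ P1 (d * m) := fun h' => hm (hd.1.of_mul h')
          simp [hG, this, hm]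
      · intro m hm
        rw [Function.mem_support] at hm
        have : P1 m ∧ d ∈ divs m := by
          by_contra h'
          exact hm (by simp only [hG, h', if_false])
        obtain ⟨e, he⟩ := ((mem_divs this.1.ne_zero).1 this.2).2
        exact ⟨e, he.symm⟩
    · simp [hG, hg0 d hd]
  simp only [h2, h3] at h1
  exact h1.symm

/-- Removing the multiples of a prime. -/
theorem as_off {p : Eis} (hp : P1 p) {h : Eis → ℂ} {K : ℝ}
    (hh : ∀ m, P1 m → ‖h m‖ ≤ K / N m ^ 2) :
    ∑' m, (if P1 m then (if p ∣ m then 0 else 1) * h m else 0) =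
      (∑' m, if P1 m then h m else 0) - ∑' m, if P1 m then h (p * m) else 0 := by
  have hs := as_summable hh
  have hs2 : Summable fun m => if P1 m then (if p ∣ m then h m else 0) else 0 := by
    refine as_summable (K := K) fun m hm => ?_
    split_ifs
    · exact hh m hm
    · rw [norm_zero]; exact (norm_nonneg _).trans (hh m hm)
  have hinj : Function.Injective fun m : Eis => p * m := mul_right_injective₀ hp.ne_zero
  have h1 : ∑' m, (if P1 m then h (p * m) else 0) =
      ∑' m, if P1 m then (if p ∣ m then h m else 0) else 0 := by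
    rw [← hinj.tsum_eq (f := fun m => if P1 m then (if p ∣ m then h m else 0) else 0)]
    · refine tsum_congr fun m => ?_
      by_cases hm : P1 m
      · simp [hm, hp.mul hm]
      · have : ¬ P1 (p * m) := fun h' => hm (hp.of_mul h')
        simp [hm, this]
    · intro m hm
      rw [Function.mem_support] at hm
      have : p ∣ m := by
        by_contra h'
        exact hm (by simp [h'])
      obtain ⟨e, he⟩ := this
      exact ⟨e, he.symm⟩
  rw [h1, ← hs.tsum_sub hs2]
  refine tsum_congr fun m => ?_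
  split_ifs <;> simp

end Vale.Agent.P026
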