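import Vale.Agent.P026.Defs

/-! Algebraic basics: norms, units, residue systems, additive characters, Moebius, decompositions. -/

namespace Vale.Agent.P026

open Eis Complex
open scoped Classical ComplexConjugate

theorem toC_inj : Function.Injective toC := fun x y h => by
  have h1 := congrArg Complex.re h
  have h2 := congrArg Complex.im h
  simp only [toC_re, toC_im] at h1 h2
  have h3 : (x.b : ℝ) = y.b := mul_right_cancel₀ (b := √3) (by positivity) (by linarith)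
  have h4 : (x.a : ℝ) = y.a := by linarith
  exact Eis.ext (by exact_mod_cast h4) (by exact_mod_cast h3)
theorem toC_cj (x : Eis) : toC (cj x) = conj (toC x) := by
  apply Complex.ext <;> simp <;> ring
theorem normSq_toC (x : Eis) : normSq (toC x) = N x := by
  have h3 : √3 * √3 = (3 : ℝ) := Real.mul_self_sqrt (by norm_num)
  simp only [normSq_apply, toC_re, toC_im, N, nrm]
  push_cast
  linear_combination ((x.b : ℝ) ^ 2 / 4) * h3
theorem norm_toC (x : Eis) : ‖toC x‖ = ab x := by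
  rw [ab, ← normSq_toC, Complex.norm_def]
theorem toC_lam : toC lam = (√3 : ℝ) * I := by
  apply Complex.ext <;> simp
theorem om_sq_add : om ^ 2 + om + 1 = 0 := by decide
theorem lam_sq : lam ^ 2 = -3 := by decide
theorem cj_mul (x y : Eis) : cj (x * y) = cj x * cj y := by
  ext <;> simp <;> ring
theorem cj_add (x y : Eis) : cj (x + y) = cj x + cj y := by
  ext <;> simp <;> ring
theorem cj_cj (x : Eis) : cj (cj x) = x := by
  ext <;> simp

theorem N_nonneg (x : Eis) : 0 ≤ N x :=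
  Int.cast_nonneg (nrm_nonneg x)
theorem N_mul (x y : Eis) : N (x * y) = N x * N y := by
  simp [N, nrm_mul]
theorem N_pow (x : Eis) (k : ℕ) : N (x ^ k) = N x ^ k := by
  induction k with
  | zero => simp [N, nrm]
  | succ k ih => rw [pow_succ, N_mul, ih, pow_succ]
@[simp] theorem N_zero : N 0 = 0 := by simp [N, nrm]
@[simp] theorem N_one : N 1 = 1 := by simp [N, nrm]
@[simp] theorem N_neg (x : Eis) : N (-x) = N x := by simp [N, nrm]
theorem N_intCast (n : ℤ) : N (n : Eis) = (n : ℝ) ^ 2 := by simp [N, nrm]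
theorem N_natCast (n : ℕ) : N (n : Eis) = (n : ℝ) ^ 2 := by simp [N, nrm]
theorem N_eq_zero {x : Eis} : N x = 0 ↔ x = 0 := by
  rw [N, Int.cast_eq_zero, nrm_eq_zero]
theorem N_pos {x : Eis} (h : x ≠ 0) : 0 < N x :=
  Int.cast_pos.2 (nrm_pos h)
theorem one_le_N {x : Eis} (h : x ≠ 0) : 1 ≤ N x := by
  unfold N
  exact_mod_cast nrm_pos h
theorem N_le_of_dvd {x y : Eis} (hy : y ≠ 0) (h : x ∣ y) : N x ≤ N y := by
  obtain ⟨z, rfl⟩ := h
  rw [N_mul]
  exact le_mul_of_one_le_right (N_nonneg x) (one_le_N (right_ne_zero_of_mul hy))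
theorem ab_nonneg (x : Eis) : 0 ≤ ab x :=
  Real.sqrt_nonneg _
theorem ab_sq (x : Eis) : ab x ^ 2 = N x :=
  Real.sq_sqrt (N_nonneg x)
theorem ab_mul (x y : Eis) : ab (x * y) = ab x * ab y := by
  rw [ab, N_mul, Real.sqrt_mul (N_nonneg x), ab, ab]
theorem ab_pow (x : Eis) (k : ℕ) : ab (x ^ k) = ab x ^ k := by
  rw [← norm_toC, map_pow, norm_pow, norm_toC]
theorem ab_pos {x : Eis} (h : x ≠ 0) : 0 < ab x :=
  Real.sqrt_pos.2 (N_pos h)
theorem one_le_ab {x : Eis} (h : x ≠ 0) : 1 ≤ ab x :=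
  Real.one_le_sqrt.2 (one_le_N h)
theorem isUnit_iff_nrm {u : Eis} : IsUnit u ↔ nrm u = 1 := by
  refine ⟨fun h => ?_, fun h => IsUnit.of_mul_eq_one (cj u) (by rw [mul_cj, h, Int.cast_one])⟩
  obtain ⟨v, hv⟩ := h.exists_right_inv
  exact Int.eq_one_of_mul_eq_one_right (nrm_nonneg u) (b := nrm v) (by rw [← nrm_mul, hv]; rfl)
theorem isUnit_iff {u : Eis} :
    IsUnit u ↔ u = 1 ∨ u = -1 ∨ u = om ∨ u = -om ∨ u = om ^ 2 ∨ u = -om ^ 2 := by
  rw [isUnit_iff_nrm]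
  constructor
  · obtain ⟨a, b⟩ := u
    intro h
    simp only [nrm] at h
    have : -1 ≤ a := by nlinarith [sq_nonneg (a - 2 * b), sq_nonneg (a + 1)]
    have : a ≤ 1 := by nlinarith [sq_nonneg (a - 2 * b), sq_nonneg (a - 1)]
    have : -1 ≤ b := by nlinarith [sq_nonneg (2 * a - b), sq_nonneg (b + 1)]
    have : b ≤ 1 := by nlinarith [sq_nonneg (2 * a - b), sq_nonneg (b - 1)]
    interval_cases a <;> interval_cases b <;> first | omega | decide
  · rintro (rfl | rfl | rfl | rfl | rfl | rfl) <;> decide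
theorem bs_int_dvd (n : ℤ) (x : Eis) : (n : Eis) ∣ x ↔ n ∣ x.a ∧ n ∣ x.b :=
  ⟨fun ⟨y, h⟩ => ⟨⟨y.a, by simp [h]⟩, y.b, by simp [h]⟩,
    fun ⟨⟨a, ha⟩, b, hb⟩ => ⟨⟨a, b⟩, by ext <;> simp [ha, hb]⟩⟩
theorem bs_two_dvd {x : Eis} : (2 : Eis) ∣ x ↔ 2 ∣ x.a ∧ 2 ∣ x.b := bs_int_dvd 2 x
theorem bs_prim {x : Eis} : Prim x ↔ 3 ∣ x.a - 1 ∧ 3 ∣ x.b := by
  simpa [Prim] using bs_int_dvd 3 (x - 1)
theorem bs_lam_dvd {x : Eis} : lam ∣ x ↔ 3 ∣ x.a + x.b :=
  ⟨fun ⟨y, h⟩ => ⟨y.a - y.b, by simp [h]; ring⟩,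
    fun ⟨k, hk⟩ => ⟨⟨2 * k - x.a, k - x.a⟩, by ext <;> simp <;> omega⟩⟩
theorem prime_two : Prime (2 : Eis) := by
  refine ⟨by decide, by rw [isUnit_iff_nrm]; decide, fun x y h => ?_⟩
  simp only [bs_two_dvd, mul_a, mul_b] at h ⊢
  have key : ∀ a b c d : ZMod 2, a * c - b * d = 0 ∧ a * d + b * c - b * d = 0 →
      (a = 0 ∧ b = 0) ∨ (c = 0 ∧ d = 0) := by decide
  have e : ∀ z : ℤ, (2 : ℤ) ∣ z ↔ (z : ZMod 2) = 0 := fun z =>
    (ZMod.intCast_zmod_eq_zero_iff_dvd z 2).symm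
  simp only [e] at h ⊢
  push_cast at h
  exact key _ _ _ _ h
theorem prime_lam : Prime lam := by
  refine ⟨by decide, by rw [isUnit_iff_nrm]; decide, fun x y h => ?_⟩
  simp only [bs_lam_dvd, mul_a, mul_b] at h ⊢
  refine Int.prime_three.dvd_or_dvd ?_
  obtain ⟨k, hk⟩ := h
  exact ⟨k + x.b * y.b, by linear_combination hk⟩

theorem mem_ball {K : ℝ} {x : Eis} : x ∈ ball K ↔ x ≠ 0 ∧ N x ≤ K := by
  simp [ball, N, and_comm]
theorem ball_mono {K L : ℝ} (h : K ≤ L) : ball K ⊆ ball L := fun _ hx =>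
  mem_ball.2 ⟨(mem_ball.1 hx).1, (mem_ball.1 hx).2.trans h⟩
theorem ball_eq_empty {K : ℝ} (h : K < 1) : ball K = ∅ :=
  Finset.eq_empty_of_forall_notMem fun x hx => by
    linarith [one_le_N (mem_ball.1 hx).1, (mem_ball.1 hx).2]
theorem mem_divs {n d : Eis} (hn : n ≠ 0) : d ∈ divs n ↔ P0 d ∧ d ∣ n := by
  rw [divs, Finset.mem_filter, mem_ball]
  exact ⟨fun h => h.2, fun h => ⟨⟨ne_zero_of_dvd_ne_zero hn h.2, N_le_of_dvd hn h.2⟩, h⟩⟩

/-! ### Primary elements -/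

theorem Prim.one : Prim 1 := by simp [Prim]
theorem Prim.mul {x y : Eis} (hx : Prim x) (hy : Prim y) : Prim (x * y) := by
  obtain ⟨a, ha⟩ := hx
  obtain ⟨b, hb⟩ := hy
  exact ⟨a * y + b, by linear_combination y * ha + hb⟩
theorem Prim.pow {x : Eis} (hx : Prim x) (k : ℕ) : Prim (x ^ k) := by
  induction k with
  | zero => simpa using Prim.one
  | succ k ih => rw [pow_succ]; exact ih.mul hx
theorem Prim.of_mul {x y : Eis} (hx : Prim x) (hxy : Prim (x * y)) : Prim y := by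
  obtain ⟨a, ha⟩ := hx
  obtain ⟨b, hb⟩ := hxy
  exact ⟨b - a * y, by linear_combination hb - y * ha⟩
theorem Prim.ne_zero {x : Eis} (hx : Prim x) : x ≠ 0 := by
  rintro rfl
  simp [bs_prim] at hx
theorem Prim.not_lam_dvd {x : Eis} (hx : Prim x) : ¬ lam ∣ x := by
  rw [bs_prim] at hx
  rw [bs_lam_dvd]
  omega
theorem Prim.coprime_three {x : Eis} (hx : Prim x) : IsCoprime x 3 := by
  obtain ⟨a, ha⟩ := hx
  exact ⟨1, -a, by linear_combination ha⟩
theorem Prim.cj {x : Eis} (hx : Prim x) : Prim (cj x) := by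
  simp only [bs_prim, cj_a, cj_b] at hx ⊢
  omega
theorem Prim.eq_one_of_isUnit {x : Eis} (hx : Prim x) (hu : IsUnit x) : x = 1 := by
  rcases isUnit_iff.1 hu with rfl | rfl | rfl | rfl | rfl | rfl <;>
    first | rfl | exact absurd (bs_prim.1 hx) (by decide)
theorem Prim.eq_of_associated {x y : Eis} (hx : Prim x) (hy : Prim y) (h : Associated x y) :
    x = y := by
  obtain ⟨u, rfl⟩ := h
  rw [(hx.of_mul hy).eq_one_of_isUnit u.isUnit, mul_one]
theorem Prim.of_dvd_sub {x y : Eis} (hx : Prim x) (h : (3 : Eis) ∣ y - x) : Prim y := by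
  have := dvd_add h hx
  rwa [sub_add_sub_cancel] at this
theorem exists_prim_assoc {x : Eis} (h : ¬ lam ∣ x) : ∃ u : Eis, IsUnit u ∧ Prim (u * x) := by
  rw [bs_lam_dvd] at h
  have : Prim (1 * x) ∨ Prim (-1 * x) ∨ Prim (om * x) ∨ Prim (-om * x) ∨ Prim (om ^ 2 * x) ∨
      Prim (-om ^ 2 * x) := by
    simp only [bs_prim, sq, mul_a, mul_b, neg_a, neg_b, one_a, one_b, om_a, om_b]
    have : x.a % 3 = 0 ∨ x.a % 3 = 1 ∨ x.a % 3 = 2 := by omega
    have : x.b % 3 = 0 ∨ x.b % 3 = 1 ∨ x.b % 3 = 2 := by omega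
    omega
  rcases this with h | h | h | h | h | h <;> exact ⟨_, isUnit_iff_nrm.2 (by decide), h⟩
theorem P1.one : P1 1 :=
  ⟨Prim.one, prime_two.not_dvd_one⟩
theorem P1.mul {x y : Eis} (hx : P1 x) (hy : P1 y) : P1 (x * y) :=
  ⟨hx.1.mul hy.1, fun h => (prime_two.dvd_or_dvd h).elim hx.2 hy.2⟩
theorem P1.pow {x : Eis} (hx : P1 x) (k : ℕ) : P1 (x ^ k) :=
  ⟨hx.1.pow k, fun h => hx.2 (prime_two.dvd_of_dvd_pow h)⟩
theorem P1.of_mul {x y : Eis} (hx : P1 x) (hxy : P1 (x * y)) : P1 y :=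
  ⟨hx.1.of_mul hxy.1, fun h => hxy.2 (h.mul_left x)⟩
theorem P1.ne_zero {x : Eis} (hx : P1 x) : x ≠ 0 :=
  hx.1.ne_zero
theorem P1.coprime_six {x : Eis} (hx : P1 x) : IsCoprime x 6 := by
  rw [show (6 : Eis) = 2 * 3 by norm_num]
  exact (prime_two.coprime_iff_not_dvd.2 hx.2).symm.mul_right hx.1.coprime_three
theorem P1.of_dvd_sub {x y : Eis} (hx : P1 x) (h : (6 : Eis) ∣ y - x) : P1 y :=
  ⟨hx.1.of_dvd_sub (Dvd.dvd.trans ⟨2, by norm_num⟩ h), fun h2 =>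
    hx.2 ((dvd_iff_dvd_of_dvd_sub (Dvd.dvd.trans ⟨3, by norm_num⟩ h)).1 h2)⟩
theorem P1.seven_le {x : Eis} (hx : P1 x) (h1 : x ≠ 1) : 7 ≤ N x := by
  unfold N
  obtain ⟨a, b⟩ := x
  obtain ⟨h3, h2⟩ := hx
  simp only [bs_prim, bs_two_dvd, ne_eq, Eis.ext_iff, one_a, one_b] at h3 h2 h1
  have : (7 : ℤ) ≤ nrm ⟨a, b⟩ := by
    by_contra h
    simp only [nrm] at h
    have : -3 < a := by nlinarith [sq_nonneg (a - 2 * b), sq_nonneg (a + 3)]
    have : a < 3 := by nlinarith [sq_nonneg (a - 2 * b), sq_nonneg (a - 3)]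
    have : -3 < b := by nlinarith [sq_nonneg (2 * a - b), sq_nonneg (b + 3)]
    have : b < 3 := by nlinarith [sq_nonneg (2 * a - b), sq_nonneg (b - 3)]
    omega
  exact_mod_cast this
theorem P0.one : P0 1 :=
  ⟨P1.one, squarefree_one⟩
theorem P0.ne_zero {x : Eis} (hx : P0 x) : x ≠ 0 :=
  hx.1.ne_zero
theorem P0.mul {x y : Eis} (hx : P0 x) (hy : P0 y) (h : IsCoprime x y) : P0 (x * y) :=
  ⟨hx.1.mul hy.1, squarefree_mul_iff.2 ⟨h.isRelPrime, hx.2, hy.2⟩⟩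
theorem P0.of_mul {x y : Eis} (hx : Prim x) (hxy : P0 (x * y)) :
    P0 x ∧ P0 y ∧ IsCoprime x y := by
  have h1 : P1 x := ⟨hx, fun h => hxy.1.2 (h.mul_right y)⟩
  obtain ⟨h2, h3, h4⟩ := squarefree_mul_iff.1 hxy.2
  exact ⟨⟨h1, h3⟩, ⟨h1.of_mul hxy.1, h4⟩, isRelPrime_iff_isCoprime.1 h2⟩
theorem P0.of_prime {p : Eis} (hp : Prime p) (h : P1 p) : P0 p :=
  ⟨h, hp.squarefree⟩
/-- Induction over primary elements. -/
theorem Prim.induction {Pr : Eis → Prop} (h1 : Pr 1)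
    (hm : ∀ p x, Prime p → Prim p → Prim x → Pr x → Pr (p * x)) {x : Eis} (hx : Prim x) :
    Pr x := by
  have key : ∀ y u : Eis, IsUnit u → Prim (u * y) → Pr (u * y) := by
    intro y
    induction y using UniqueFactorizationMonoid.induction_on_prime with
    | h₁ => exact fun u _ h => absurd (mul_zero u) h.ne_zero
    | h₂ y hy => exact fun u hu h => by rw [h.eq_one_of_isUnit (hu.mul hy)]; exact h1
    | h₃ a p _ hp ih =>
      intro u hu h
      obtain ⟨v, hv, hvp⟩ := exists_prim_assoc (x := p) fun k =>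
        h.not_lam_dvd ((k.mul_right a).mul_left u)
      obtain ⟨v, rfl⟩ := hv
      have e : u * (p * a) = (v * p) * (u * (v⁻¹ : Eisˣ) * a) := by
        linear_combination (-(u * p * a)) * v.mul_inv
      rw [e] at h ⊢
      exact hm _ _ ((associated_unit_mul_right p v v.isUnit).prime hp) hvp (hvp.of_mul h)
        (ih _ (hu.mul (v⁻¹).isUnit) (hvp.of_mul h))
  simpa using key x 1 isUnit_one (by simpa using hx)
/-- Induction over odd primary elements. -/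
theorem P1.induction {Pr : Eis → Prop} (h1 : Pr 1)
    (hm : ∀ p x, Prime p → P1 p → P1 x → Pr x → Pr (p * x)) {x : Eis} (hx : P1 x) :
    Pr x :=
  Prim.induction (Pr := fun x => P1 x → Pr x) (fun _ => h1) (fun p y hp h _ ih hpy =>
    have h' : P1 p := ⟨h, fun k => hpy.2 (k.mul_right y)⟩
    hm p y hp h' (h'.of_mul hpy) (ih (h'.of_mul hpy))) hx.1 hx
/-- Induction over squarefree odd primary elements. -/
theorem P0.induction {Pr : Eis → Prop} (h1 : Pr 1)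
    (hm : ∀ p x, Prime p → P1 p → P0 x → ¬ p ∣ x → Pr x → Pr (p * x)) {x : Eis} (hx : P0 x) :
    Pr x :=
  Prim.induction (Pr := fun x => P0 x → Pr x) (fun _ => h1) (fun p y hp h _ ih hpy =>
    have h' := P0.of_mul h hpy
    hm p y hp h'.1.1 h'.2.1 (hp.coprime_iff_not_dvd.1 h'.2.2) (ih h'.2.1)) hx.1.1 hx
theorem bs_exists_prime {x : Eis} (hx : P1 x) : x ≠ 1 → ∃ p, Prime p ∧ P1 p ∧ p ∣ x :=
  P1.induction (Pr := fun x => x ≠ 1 → ∃ p, Prime p ∧ P1 p ∧ p ∣ x) (fun h => absurd rfl h)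
    (fun p _ hp h _ _ _ => ⟨p, hp, h, dvd_mul_right _ _⟩) hx
/-- The primary gcd of two elements of P0. -/
theorem exists_gcd_P0 {x y : Eis} (hx : P0 x) (hy : y ≠ 0) :
    ∃ g x' : Eis, P0 g ∧ P0 x' ∧ x = g * x' ∧ g ∣ y ∧ IsCoprime x' y ∧
      ∀ e, e ∣ x → e ∣ y → e ∣ g := by
  obtain ⟨u, hu, hg⟩ := exists_prim_assoc (x := EuclideanDomain.gcd x y) fun h =>
    hx.1.1.not_lam_dvd (h.trans (EuclideanDomain.gcd_dvd_left x y))
  obtain ⟨x', e⟩ := hu.mul_left_dvd.2 (EuclideanDomain.gcd_dvd_left x y)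
  have h : ∀ e, e ∣ x → e ∣ y → e ∣ u * EuclideanDomain.gcd x y := fun e h1 h2 =>
    (EuclideanDomain.dvd_gcd h1 h2).mul_left u
  obtain ⟨h1, h2, h3⟩ := P0.of_mul hg (e ▸ hx)
  exact ⟨_, x', h1, h2, e, hu.mul_left_dvd.2 (EuclideanDomain.gcd_dvd_right x y),
    isRelPrime_iff_isCoprime.1 fun d k1 k2 =>
      h3.isUnit_of_dvd' (h d (k1.trans (Dvd.intro_left _ e.symm)) k2) k1, h⟩

/-! ### Angles, weights -/

theorem norm_ang_le (o : Bool) (x : Eis) : ‖ang o x‖ ≤ 1 := by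
  have : ‖ang o x‖ = ab x / ab x := by
    cases o <;> simp [ang, norm_toC, abs_of_nonneg (ab_nonneg x)]
  exact this.trans_le (div_self_le_one _)
theorem norm_ang (o : Bool) {x : Eis} (hx : x ≠ 0) : ‖ang o x‖ = 1 := by
  cases o <;> simp [ang, norm_toC, abs_of_nonneg (ab_nonneg x), (ab_pos hx).ne']
theorem ang_mul (o : Bool) (x y : Eis) : ang o (x * y) = ang o x * ang o y := by
  cases o <;> simp [ang, ab_mul, div_mul_div_comm]
theorem ang_pow (o : Bool) (x : Eis) (k : ℕ) (hx : x ≠ 0) : ang o (x ^ k) = ang o x ^ k := by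
  cases o <;> simp [ang, ab_pow, div_pow]
theorem ang_one (o : Bool) : ang o 1 = 1 := by
  cases o <;> simp [ang, ab]
theorem ang_not (o : Bool) (x : Eis) : ang (!o) x = conj (ang o x) := by
  cases o <;> simp [ang]
theorem norm_nit (t : ℝ) (c : Eis) : ‖nit t c‖ = 1 :=
  Complex.norm_exp_I_mul_ofReal _
theorem nit_mul (t : ℝ) {c d : Eis} (hc : c ≠ 0) (hd : d ≠ 0) :
    nit t (c * d) = nit t c * nit t d := by
  rw [nit, nit, nit, ← Complex.exp_add, N_mul, Real.log_mul (N_pos hc).ne' (N_pos hd).ne']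
  congr 1
  push_cast
  ring
theorem nit_add (t s : ℝ) (c : Eis) : nit (t + s) c = nit t c * nit s c := by
  rw [nit, nit, nit, ← Complex.exp_add]
  congr 1
  push_cast
  ring
theorem norm_W (Y t : ℝ) (c : Eis) : ‖W Y t c‖ = w (N c / Y) := by
  rw [W, norm_mul, norm_nit, mul_one, Complex.norm_real, Real.norm_eq_abs]
  exact abs_of_pos (Real.exp_pos _)
theorem W_mul (Y t : ℝ) {c d : Eis} (hc : c ≠ 0) (hd : d ≠ 0) :
    W Y t (d * c) = nit t d * W (Y / N d) t c := by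
  rw [W, W, nit_mul t hd hc, N_mul, div_div_eq_mul_div, mul_comm (N c)]
  ring
theorem norm_bet_le (o : Bool) (d : Eis) : ‖bet o d‖ ≤ ab d := by
  unfold bet
  split_ifs
  · rw [norm_mul, norm_pow, Complex.norm_real, Real.norm_eq_abs, abs_of_nonneg (ab_nonneg d)]
    exact mul_le_of_le_one_right (ab_nonneg d) (pow_le_one₀ (norm_nonneg _) (norm_ang_le o d))
  · simpa using ab_nonneg d
theorem bet_mul (o : Bool) {d e : Eis} (hd : P1 d) : bet o (d * e) = bet o d * bet o e := by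
  unfold bet
  by_cases he : P1 e
  · rw [if_pos (hd.mul he), if_pos hd, if_pos he, ab_mul, ang_mul]
    push_cast
    ring
  · rw [if_neg fun h => he (hd.of_mul h), if_neg he, mul_zero]
theorem bet_one (o : Bool) : bet o 1 = 1 := by
  simp [bet, P1.one, ang_one, ab]

/-! ### Moebius function and decompositions -/

theorem mu0_one : mu0 1 = 1 := by
  simp [mu0, P0.one]
theorem norm_mu0_le (c : Eis) : ‖mu0 c‖ ≤ 1 := by
  unfold mu0
  split_ifs <;> simp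
theorem mu0_ne_zero {c : Eis} : mu0 c ≠ 0 ↔ P0 c := by
  unfold mu0
  split_ifs with h <;> simp [h]
theorem mu0_sq {c : Eis} (hc : P0 c) : mu0 c * mu0 c = 1 := by
  rw [mu0, if_pos hc, ← mul_pow]
  simp
theorem conj_mu0 (c : Eis) : conj (mu0 c) = mu0 c := by
  unfold mu0
  split_ifs <;> simp
theorem mu0_prime {p : Eis} (hp : Prime p) (h : P1 p) : mu0 p = -1 := by
  rw [mu0, if_pos (P0.of_prime hp h),
    UniqueFactorizationMonoid.card_factors_of_irreducible hp.irreducible, pow_one]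
theorem mu0_mul {x y : Eis} (hx : P0 x) : mu0 (x * y) = mu0 x * mu0 y * cop x y := by
  by_cases h : P0 (x * y)
  · obtain ⟨-, hy, hc⟩ := P0.of_mul hx.1.1 h
    rw [mu0, mu0, mu0, cop, if_pos h, if_pos hx, if_pos hy, if_pos hc.symm, mul_one, ← pow_add,
      Multiset.card_eq_card_of_rel (UniqueFactorizationMonoid.factors_mul hx.ne_zero hy.ne_zero),
      Multiset.card_add]
  · rw [mu0, if_neg h]
    by_cases hy : P0 y
    · rw [cop, if_neg fun hc => h (hx.mul hy hc.symm), mul_zero]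
    · rw [show mu0 y = 0 from if_neg hy, mul_zero, zero_mul]
/-- Basic Moebius identity. -/
theorem sum_mu0 {n : Eis} (hn : n ≠ 0) :
    ∑ d ∈ divs n, mu0 d = if (∀ p, Prime p → P1 p → ¬ p ∣ n) then 1 else 0 := by
  split_ifs with h
  · rw [Finset.sum_eq_single_of_mem 1 ((mem_divs hn).2 ⟨P0.one, one_dvd n⟩), mu0_one]
    intro d hd h1
    obtain ⟨p, h2, h3, h4⟩ := bs_exists_prime ((mem_divs hn).1 hd).1.1 h1
    exact absurd (h4.trans ((mem_divs hn).1 hd).2) (h p h2 h3)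
  push Not at h
  obtain ⟨p, hp, h1, hpn⟩ := h
  have : ∑ d ∈ divs n with ¬ p ∣ d, -mu0 d = ∑ d ∈ divs n with p ∣ d, mu0 d := by
    refine Finset.sum_bij (fun d _ => p * d) (fun d hd => ?_)
      (fun d _ d' _ e => mul_left_cancel₀ hp.ne_zero e) (fun d hd => ?_) fun d hd => ?_
    · rw [Finset.mem_filter, mem_divs hn] at hd ⊢
      have hc := hp.coprime_iff_not_dvd.2 hd.2
      exact ⟨⟨(P0.of_prime hp h1).mul hd.1.1 hc, hc.mul_dvd hpn hd.1.2⟩, dvd_mul_right _ _⟩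
    · rw [Finset.mem_filter, mem_divs hn] at hd
      obtain ⟨⟨h2, h3⟩, d, rfl⟩ := hd
      obtain ⟨-, h4, h5⟩ := P0.of_mul h1.1 h2
      exact ⟨d, Finset.mem_filter.2 ⟨(mem_divs hn).2 ⟨h4, (dvd_mul_left d p).trans h3⟩,
        hp.coprime_iff_not_dvd.1 h5⟩, rfl⟩
    · rw [mu0_mul (P0.of_prime hp h1), mu0_prime hp h1, cop,
        if_pos (hp.coprime_iff_not_dvd.2 (Finset.mem_filter.1 hd).2).symm]
      ring
  rw [← Finset.sum_filter_add_sum_filter_not _ (p ∣ ·), ← this, Finset.sum_neg_distrib,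
    neg_add_cancel]
/-- Detecting coprimality of an odd primary c with an arbitrary nonzero l. -/
theorem cop_eq_sum {c l : Eis} (hc : P1 c) (hl : l ≠ 0) :
    cop l c = ∑ d ∈ divs l, if d ∣ c then mu0 d else 0 := by
  have hg : EuclideanDomain.gcd c l ≠ 0 := fun h => hl (EuclideanDomain.gcd_eq_zero_iff.1 h).2
  have e : {d ∈ divs l | d ∣ c} = divs (EuclideanDomain.gcd c l) := by
    ext d
    rw [Finset.mem_filter, mem_divs hl, mem_divs hg]
    exact ⟨fun h => ⟨h.1.1, EuclideanDomain.dvd_gcd h.2 h.1.2⟩, fun h =>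
      ⟨⟨h.1, h.2.trans (EuclideanDomain.gcd_dvd_right c l)⟩,
        h.2.trans (EuclideanDomain.gcd_dvd_left c l)⟩⟩
  rw [← Finset.sum_filter, e, sum_mu0 hg, cop, ← EuclideanDomain.gcd_isUnit_iff]
  refine if_congr ⟨fun h p hp _ k => hp.not_isUnit (isUnit_of_dvd_unit k h), fun h => ?_⟩ rfl rfl
  obtain ⟨u, hu, h1⟩ := exists_prim_assoc (x := EuclideanDomain.gcd c l) fun h =>
    hc.1.not_lam_dvd (h.trans (EuclideanDomain.gcd_dvd_left c l))
  by_contra h2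
  obtain ⟨p, h3, h4, h5⟩ := bs_exists_prime ⟨h1, fun k => hc.2 ((hu.dvd_mul_left.1 k).trans
    (EuclideanDomain.gcd_dvd_left c l))⟩ fun k => h2 (IsUnit.of_mul_eq_one_right u k)
  exact h p h3 h4 (hu.dvd_mul_left.1 h5)
theorem sum_mu0_P1 {n : Eis} (hn : P1 n) : ∑ d ∈ divs n, mu0 d = if n = 1 then 1 else 0 := by
  rw [sum_mu0 hn.ne_zero]
  refine if_congr ⟨fun h => by_contra fun h1 => ?_, fun h p hp _ => h ▸ hp.not_dvd_one⟩ rfl rfl
  obtain ⟨p, h2, h3, h4⟩ := bs_exists_prime hn h1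
  exact h p h2 h3 h4
/-- An explicit list containing S0. -/
def bsT : Finset Eis :=
  ((Finset.range 9 ×ˢ Finset.range 9).image fun p => (⟨p.1 - 4, p.2 - 4⟩ : Eis)).filter
    fun s => nrm s = 1 ∨ nrm s = 3 ∨ nrm s = 4 ∨ nrm s = 12
theorem bs_S0_subset : S0 ⊆ bsT := fun ⟨a, b⟩ hs => by
  have h := (Finset.mem_filter.1 hs).2
  have h' : a ^ 2 - a * b + b ^ 2 ≤ 12 := by
    simp only [nrm] at h
    omega
  have : -5 < a := by nlinarith [sq_nonneg (a - 2 * b), sq_nonneg (a + 5)]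
  have : a < 5 := by nlinarith [sq_nonneg (a - 2 * b), sq_nonneg (a - 5)]
  have : -5 < b := by nlinarith [sq_nonneg (2 * a - b), sq_nonneg (b + 5)]
  have : b < 5 := by nlinarith [sq_nonneg (2 * a - b), sq_nonneg (b - 5)]
  refine Finset.mem_filter.2 ⟨Finset.mem_image.2 ⟨((a + 4).toNat, (b + 4).toNat), ?_, ?_⟩, h⟩
  · simp only [Finset.mem_product, Finset.mem_range]
    omega
  · ext <;> simp only <;> omega
theorem card_S0 : S0.card ≤ 24 :=
  (Finset.card_le_card bs_S0_subset).trans (by decide +kernel)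
theorem S0_spec {s : Eis} (hs : s ∈ S0) : s ∣ 6 ∧ s ≠ 0 ∧ N s ≤ 12 := by
  have h := mem_ball.1 (Finset.mem_filter.1 hs).1
  have key : ∀ s ∈ bsT, (6 : Eis) % s = 0 := by decide +kernel
  exact ⟨EuclideanDomain.mod_eq_zero.1 (key s (bs_S0_subset hs)), h⟩
theorem bs_exists_sq {h : Eis} : h ≠ 0 → ∃ d l, Squarefree d ∧ h = d * l ^ 2 := by
  induction h using UniqueFactorizationMonoid.induction_on_prime with
  | h₁ => exact fun h => absurd rfl h
  | h₂ y hy => exact fun _ => ⟨y, 1, hy.squarefree, by simp⟩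
  | h₃ a p ha hp ih =>
    obtain ⟨d, l, hd, rfl⟩ := ih ha
    intro _
    by_cases h : p ∣ d
    · obtain ⟨d, rfl⟩ := h
      exact ⟨d, p * l, hd.of_mul_right, by ring⟩
    · exact ⟨p * d, l, squarefree_mul_iff.2
        ⟨(hp.coprime_iff_not_dvd.2 h).isRelPrime, hp.squarefree, hd⟩, by ring⟩
theorem bs_split (p : Eis) (hp : Prime p) {d : Eis} (hd : Squarefree d) :
    ∃ t e, (t = 1 ∨ t = p) ∧ d = t * e ∧ ¬ p ∣ e := by
  by_cases h : p ∣ d
  · obtain ⟨e, rfl⟩ := h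
    exact ⟨p, e, Or.inr rfl, rfl, fun h => hp.not_isUnit (hd p (mul_dvd_mul_left p h))⟩
  · exact ⟨1, d, Or.inl rfl, (one_mul d).symm, h⟩
theorem bs_pow_inj {p x y : Eis} (hp : Prime p) (hx : ¬ p ∣ x) (hy : ¬ p ∣ y) {a b : ℕ}
    (h : p ^ a * x = p ^ b * y) : a = b := by
  have key : ∀ {x y : Eis} {a b : ℕ}, ¬ p ∣ x → p ^ a * x = p ^ b * y → b ≤ a := by
    intro x y a b hx h
    by_contra hc
    obtain ⟨c, rfl⟩ := Nat.exists_eq_add_of_lt (not_le.1 hc)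
    exact hx ⟨p ^ c * y, mul_left_cancel₀ (pow_ne_zero a hp.ne_zero) (by rw [h]; ring)⟩
  exact le_antisymm (key hy h.symm) (key hx h)
theorem bs_dvd {s s' k k' l l' : Eis} (hk : P0 k) {m : ℕ} (hm : 2 ≤ m) (hl : l ≠ 0) (hl' : l' ≠ 0)
    (hs : ∀ p, p ∣ k → Prime p → ¬ p ∣ s ∧ ¬ p ∣ s') (h : s * k * l ^ m = s' * k' * l' ^ m) :
    k ∣ k' := by
  refine P0.induction (Pr := fun x => x ∣ k → x ∣ k') (fun _ => one_dvd _)
    (fun p x hp _ _ hpx ih hd => (hp.coprime_iff_not_dvd.2 hpx).mul_dvd ?_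
      (ih ((dvd_mul_left x p).trans hd))) hk dvd_rfl
  have hpk := (dvd_mul_right p x).trans hd
  obtain ⟨h1, h2⟩ := hs p hpk hp
  obtain ⟨k, rfl⟩ := hpk
  obtain ⟨a, l, h3, rfl⟩ := WfDvdMonoid.max_power_factor hl hp.irreducible
  obtain ⟨b, l', h4, rfl⟩ := WfDvdMonoid.max_power_factor hl' hp.irreducible
  by_contra h5
  have := bs_pow_inj hp (x := s * k * l ^ m) (y := s' * k' * l' ^ m) (a := m * a + 1) (b := m * b)
    (hp.not_dvd_mul (hp.not_dvd_mul h1 fun h => hp.not_isUnit (hk.2 p (mul_dvd_mul_left p h)))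
      fun h => h3 (hp.dvd_of_dvd_pow h))
    (hp.not_dvd_mul (hp.not_dvd_mul h2 h5) fun h => h4 (hp.dvd_of_dvd_pow h))
    (by linear_combination h)
  have := Nat.le_of_dvd one_pos ((Nat.dvd_add_right (dvd_mul_right m a)).1
    (this ▸ dvd_mul_right m b))
  omega
/-- Kernel decomposition. -/
theorem exists_kernel {h : Eis} (hh : h ≠ 0) :
    ∃ s ∈ S0, ∃ k l : Eis, P0 k ∧ l ≠ 0 ∧ h = s * k * l ^ 2 := by
  obtain ⟨d, l, hd, rfl⟩ := bs_exists_sq hh
  obtain ⟨t, d, ht, rfl, h1⟩ := bs_split lam prime_lam hd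
  obtain ⟨t', d, ht', rfl, h2⟩ := bs_split 2 prime_two hd.of_mul_right
  obtain ⟨u, hu, h3⟩ := exists_prim_assoc (x := d) fun h => h1 (h.mul_left t')
  obtain ⟨u, rfl⟩ := hu
  have h4 : nrm (t * t' * (u⁻¹ : Eisˣ)) = 1 ∨ nrm (t * t' * (u⁻¹ : Eisˣ)) = 3 ∨
      nrm (t * t' * (u⁻¹ : Eisˣ)) = 4 ∨ nrm (t * t' * (u⁻¹ : Eisˣ)) = 12 := by
    rw [nrm_mul, isUnit_iff_nrm.1 (u⁻¹).isUnit, mul_one]
    rcases ht with rfl | rfl <;> rcases ht' with rfl | rfl <;> decide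
  refine ⟨t * t' * (u⁻¹ : Eisˣ), Finset.mem_filter.2 ⟨mem_ball.2 ⟨fun h => ?_, ?_⟩, h4⟩, u * d, l,
    ⟨⟨h3, fun h => h2 (u.isUnit.dvd_mul_left.1 h)⟩,
      hd.of_mul_right.of_mul_right.squarefree_of_dvd (u.isUnit.mul_left_dvd.2 dvd_rfl)⟩,
    fun h => hh (by rw [h]; ring), by linear_combination (-(t * t' * d * l ^ 2)) * u.inv_mul⟩
  · rw [← nrm_eq_zero] at h
    omega
  · unfold N
    exact_mod_cast (by omega : nrm (t * t' * (u⁻¹ : Eisˣ)) ≤ 12)
/-- The kernel is unique. -/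
theorem kernel_unique {s s' k k' l l' : Eis} (hs : s ∈ S0) (hs' : s' ∈ S0) (hk : P0 k)
    (hk' : P0 k') (hl : l ≠ 0) (h : s * k * l ^ 2 = s' * k' * l' ^ 2) : k = k' := by
  have hl' : l' ≠ 0 := fun h0 => mul_ne_zero (mul_ne_zero (S0_spec hs).2.1 hk.ne_zero)
    (pow_ne_zero 2 hl) (by rw [h, h0]; ring)
  have c : ∀ {s s' k : Eis}, s ∈ S0 → s' ∈ S0 → P0 k → ∀ p, p ∣ k → Prime p →
      ¬ p ∣ s ∧ ¬ p ∣ s' := fun hs hs' hk p h hp =>
    ⟨fun h' => hp.not_isUnit (hk.1.coprime_six.isUnit_of_dvd' h (h'.trans (S0_spec hs).1)),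
      fun h' => hp.not_isUnit (hk.1.coprime_six.isUnit_of_dvd' h (h'.trans (S0_spec hs').1))⟩
  exact hk.1.1.eq_of_associated hk'.1.1 (associated_of_dvd_dvd
    (bs_dvd hk (by norm_num) hl hl' (c hs hs' hk) h)
    (bs_dvd hk' (by norm_num) hl' hl (c hs' hs hk') h.symm))
theorem Sm.ne_zero {r : Eis} (h : Sm r) : r ≠ 0 :=
  h.elim fun k hk => ne_zero_of_dvd_ne_zero (pow_ne_zero k (by decide)) hk
theorem Sm.coprime {r x : Eis} (h : Sm r) (hx : P1 x) : IsCoprime r x :=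
  h.elim fun _ hk => (hx.coprime_six.pow_right.of_isCoprime_of_dvd_right hk).symm
theorem exists_smooth {r : Eis} (hr : r ≠ 0) : ∃ s x : Eis, Sm s ∧ P1 x ∧ r = s * x := by
  obtain ⟨a, x, h1, rfl⟩ := WfDvdMonoid.max_power_factor hr prime_lam.irreducible
  obtain ⟨b, x, h2, rfl⟩ :=
    WfDvdMonoid.max_power_factor (right_ne_zero_of_mul hr) prime_two.irreducible
  obtain ⟨u, hu, h3⟩ := exists_prim_assoc (x := x) fun h => h1 (h.mul_left _)
  obtain ⟨u, rfl⟩ := hu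
  refine ⟨lam ^ a * 2 ^ b * (u⁻¹ : Eisˣ), u * x, ⟨a + b, ?_⟩,
    ⟨h3, fun h => h2 (u.isUnit.dvd_mul_left.1 h)⟩,
    by linear_combination (-(lam ^ a * 2 ^ b * x)) * u.inv_mul⟩
  rw [(u⁻¹).isUnit.mul_right_dvd, pow_add]
  exact mul_dvd_mul (pow_dvd_pow_of_dvd ⟨-2 * lam, by decide⟩ a)
    (pow_dvd_pow_of_dvd ⟨3, by norm_num⟩ b)
theorem smooth_unique {s s' x x' : Eis} (hs : Sm s) (hs' : Sm s') (hx : P1 x) (hx' : P1 x')
    (h : s * x = s' * x') : s = s' ∧ x = x' := by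
  obtain rfl : x = x' := hx.1.eq_of_associated hx'.1 (associated_of_dvd_dvd
    ((hs'.coprime hx).symm.dvd_of_dvd_mul_left (h ▸ dvd_mul_left x s))
    ((hs.coprime hx').symm.dvd_of_dvd_mul_left (h ▸ dvd_mul_left x' s')))
  exact ⟨mul_right_cancel₀ hx.ne_zero h, rfl⟩
theorem cube_unique {e e' d d' : Eis} (he : P0 e) (he' : P0 e') (hd : P1 d) (hd' : P1 d')
    (h : e * d ^ 3 = e' * d' ^ 3) : e = e' ∧ d = d' := by
  have c : ∀ {k : Eis} (p : Eis), p ∣ k → Prime p → ¬ p ∣ 1 ∧ ¬ p ∣ 1 := fun p _ hp =>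
    ⟨hp.not_dvd_one, hp.not_dvd_one⟩
  obtain rfl : e = e' := he.1.1.eq_of_associated he'.1.1 (associated_of_dvd_dvd
    (bs_dvd he (m := 3) (by norm_num) hd.ne_zero hd'.ne_zero c (by simpa using h))
    (bs_dvd he' (m := 3) (by norm_num) hd'.ne_zero hd.ne_zero c (by simpa using h.symm)))
  have h3 := mul_left_cancel₀ he.ne_zero h
  exact ⟨rfl, hd.1.eq_of_associated hd'.1 (associated_of_dvd_dvd
    ((UniqueFactorizationMonoid.pow_dvd_pow_iff_dvd three_ne_zero).1 h3.dvd)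
    ((UniqueFactorizationMonoid.pow_dvd_pow_iff_dvd three_ne_zero).1 h3.symm.dvd))⟩
theorem cube_or {x : Eis} (hx : P1 x) :
    (∃ e d, P0 e ∧ P1 d ∧ x = e * d ^ 3) ∨
      (∃ p y : Eis, ∃ k : ℕ, Prime p ∧ P1 p ∧ P1 y ∧ ¬ p ∣ y ∧ x = y * p ^ 2 * (p ^ 3) ^ k) := by
  induction x using WellFounded.induction (wellFounded_dvdNotUnit (α := Eis)) with
  | _ x ih =>
  by_cases h1 : x = 1
  · exact Or.inl ⟨1, 1, P0.one, P1.one, by simp [h1]⟩
  obtain ⟨p, hp, hp1, hpx⟩ := bs_exists_prime hx h1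
  obtain ⟨m, y, hy, rfl⟩ := WfDvdMonoid.max_power_factor hx.ne_zero hp.irreducible
  have hy1 := (hp1.pow m).of_mul hx
  have hm : m ≠ 0 := by
    rintro rfl
    exact hy (by simpa using hpx)
  rcases ih y ⟨hy1.ne_zero, p ^ m, fun h => hp.not_isUnit ((isUnit_pow_iff hm).1 h), mul_comm _ _⟩
    hy1 with ⟨e, d, he, hd, rfl⟩ | ⟨q, z, k, hq, hq1, hz, hqz, rfl⟩
  · obtain ⟨j, rfl | rfl | rfl⟩ : ∃ j, m = 3 * j ∨ m = 3 * j + 1 ∨ m = 3 * j + 2 :=
      ⟨m / 3, by omega⟩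
    · exact Or.inl ⟨e, d * p ^ j, he, hd.mul (hp1.pow j), by ring⟩
    · exact Or.inl ⟨p * e, d * p ^ j, (P0.of_prime hp hp1).mul he
        (hp.coprime_iff_not_dvd.2 fun h => hy (h.mul_right _)), hd.mul (hp1.pow j), by ring⟩
    · exact Or.inr ⟨p, _, j, hp, hp1, hy1, hy, by ring⟩
  · refine Or.inr ⟨q, z * p ^ m, k, hq, hq1, hz.mul (hp1.pow m), fun h => ?_, by ring⟩
    have := (hq.associated_of_dvd hp (hq.dvd_of_dvd_pow ((hq.dvd_or_dvd h).resolve_left hqz))).symm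
    exact hy (((this.dvd.pow two_ne_zero).mul_left z).mul_right _)

end Vale.Agent.P026
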