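import Vale.Agent.P026.CStepA

/-! The quadratic family bound for the dual sums. -/

namespace Vale.Agent.P026

open Eis Complex
open scoped Classical ComplexConjugate

theorem cs_num {δ R R' H K0 n : ℝ} (hδ : 0 < δ) (hδ' : δ ≤ 1 / 2) (hR : 1 ≤ R) (hR' : 0 < R')
    (hRR : R' ≤ R) (hH : 1 ≤ H) (hK0 : 0 < K0) :
    (R ^ δ * R ^ 2 / H) ^ δ * (√(R ^ δ * R ^ 2 / H / max 1 K0) * R' ^ 2 +
        √R' * R' * (R ^ δ * R ^ 2 / H) + (R ^ δ * R ^ 2 / H) ^ 3) +
      n ^ 2 * R' ^ (1 + 2 * δ) * (R ^ δ * R ^ 2 / H * √(R ^ δ * R ^ 2 / H)) * (K0 * √K0) ≤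
    (R ^ δ) ^ 6 * R ^ 2 * (R / √(H * max 1 K0) + R ^ (3 / 2 : ℝ) / H + R ^ 4 / H ^ 3
      + n ^ 2 * K0 ^ (3 / 2 : ℝ) * R ^ 2 / H ^ (3 / 2 : ℝ)) := by
  have hR0 : 0 < R := by linarith
  have hH0 : 0 < H := by linarith
  have hm : 0 < max 1 K0 := lt_max_of_lt_left one_pos
  have h32 : ∀ x : ℝ, 0 < x → x ^ (3 / 2 : ℝ) = x * √x := by
    intro x hx
    rw [Real.sqrt_eq_rpow, show (3 / 2 : ℝ) = 1 + 1 / 2 by norm_num, Real.rpow_add hx,
      Real.rpow_one]
  have hL : 1 ≤ R ^ δ := Real.one_le_rpow hR hδ.le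
  have hLR : R ^ δ ≤ R := by
    simpa using Real.rpow_le_rpow_of_exponent_le hR (show δ ≤ 1 by linarith)
  have b1 : (R ^ δ * R ^ 2 / H) ^ δ ≤ (R ^ δ) ^ 3 := by
    rw [← Real.rpow_natCast (R ^ δ), ← Real.rpow_mul hR0.le, mul_comm δ, Real.rpow_mul hR0.le,
      Real.rpow_natCast]
    refine Real.rpow_le_rpow (by positivity) ((div_le_self (by positivity) hH).trans ?_) hδ.le
    nlinarith [mul_le_mul_of_nonneg_right hLR (sq_nonneg R)]
  have b2 : R' ^ (1 + 2 * δ) ≤ R * (R ^ δ) ^ 2 := by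
    refine (Real.rpow_le_rpow hR'.le hRR (by linarith)).trans (le_of_eq ?_)
    rw [Real.rpow_add hR0, Real.rpow_one, mul_comm 2 δ, Real.rpow_mul hR0.le, Real.rpow_two]
  rw [h32 R hR0, h32 K0 hK0, h32 H hH0]
  generalize (R ^ δ * R ^ 2 / H) ^ δ = a at b1 ⊢
  generalize R' ^ (1 + 2 * δ) = b at b2 ⊢
  generalize R ^ δ = L at *
  generalize max 1 K0 = m at *
  have hL0 : 0 < L := by linarith
  have hsL : √L ≤ L := Real.sqrt_le_iff.2 ⟨hL0.le, by nlinarith⟩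
  have hL3 : L ≤ L ^ 3 := le_self_pow₀ hL (by norm_num)
  have e1 : √(L * R ^ 2 / H / m) = √L * R / √(H * m) := by
    rw [div_div, Real.sqrt_div (by positivity), Real.sqrt_mul hL0.le, Real.sqrt_sq hR0.le]
  have e2 : √(L * R ^ 2 / H) = √L * R / √H := by
    rw [Real.sqrt_div (by positivity), Real.sqrt_mul hL0.le, Real.sqrt_sq hR0.le]
  rw [e1, e2]
  have c1 : √L * R / √(H * m) * R' ^ 2 + √R' * R' * (L * R ^ 2 / H) + (L * R ^ 2 / H) ^ 3 ≤
      L ^ 3 * R ^ 2 * (R / √(H * m) + R * √R / H + R ^ 4 / H ^ 3) := by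
    calc _ ≤ L ^ 3 * R / √(H * m) * R ^ 2 + √R * R * (L ^ 3 * R ^ 2 / H) +
          (L * R ^ 2 / H) ^ 3 := by gcongr; exact hsL.trans hL3
      _ = _ := by ring
  have c2 : n ^ 2 * b * (L * R ^ 2 / H * (√L * R / √H)) * (K0 * √K0) ≤
      L ^ 6 * R ^ 2 * (n ^ 2 * (K0 * √K0) * R ^ 2 / (H * √H)) := by
    calc _ ≤ n ^ 2 * (R * L ^ 2) * (L * R ^ 2 / H * (L ^ 3 * R / √H)) * (K0 * √K0) := by
          gcongr; exact hsL.trans hL3
      _ = _ := by field_simp
  have c3 := mul_le_mul b1 c1 (by positivity) (by positivity)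
  calc _ ≤ L ^ 3 * (L ^ 3 * R ^ 2 * (R / √(H * m) + R * √R / H + R ^ 4 / H ^ 3)) +
        L ^ 6 * R ^ 2 * (n ^ 2 * (K0 * √K0) * R ^ 2 / (H * √H)) := add_le_add c3 c2
    _ = _ := by ring

/-- Reduction to the second moments by reciprocity. -/
theorem cs_red (F : Eis → ℂ) (R H τ : ℝ) :
    ∑ h ∈ (ball H).filter P0, ‖Tsq false (fun c => F c * quad c h) R τ‖ ^ 2 ≤
      ∑ i ∈ res 4, QQ 0 (fun c => alph false c * F c * Rq c i * W R τ c) H := by
  have h4 : (4 : Eis) ≠ 0 := by decide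
  refine le_trans ?_ (Finset.sum_le_sum fun i _ => le_QQ 0 _ H)
  rw [Finset.sum_comm]
  refine le_trans (Finset.sum_le_sum fun h hh => ?_) (Finset.sum_le_sum_of_subset_of_nonneg
    (Finset.filter_subset P0 _) fun h _ _ => Finset.sum_nonneg fun i _ => sq_nonneg _)
  have hP := (Finset.mem_filter.1 hh).2
  refine le_trans (le_of_eq ?_) (Finset.single_le_sum
    (f := fun i => ‖∑' c, alph false c * F c * Rq c i * W R τ c * chi 0 h c‖ ^ 2)
    (fun i _ => sq_nonneg _) (mod_mem_res h4 h))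
  refine congrArg (fun z : ℂ => ‖z‖ ^ 2) (tsum_congr fun c => ?_)
  by_cases hc : alph false c = 0
  · simp [hc]
  · beta_reduce
    rw [quad_recip (alph_ne_zero hc).1.2 hP.1.2, chi_zero_eq,
      Rq_congr (x := c) (x' := c) (by simp) (dvd_sub_mod 4 h)]
    ring

theorem cstep (T : Theta) {e : ℝ} (he : 0 < e) : ∃ (C : ℝ) (A : ℕ), 0 < C ∧
    ∀ (q : Eis) (F : Eis → ℂ), q ≠ 0 → Per q F → Bd1 F → ∀ R H K0 τ : ℝ, 0 < R → 1 ≤ H → 0 < K0 →
      ∑ h ∈ (ball H).filter P0, ‖Tsq false (fun c => F c * quad c h) R τ‖ ^ 2 ≤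
        C * (1 + |τ|) ^ A * H * R ^ (1 + e) *
          (1 + R / √(H * max 1 K0) + R ^ (3 / 2 : ℝ) / H + R ^ 4 / H ^ 3
            + N q ^ 2 * K0 ^ (3 / 2 : ℝ) * R ^ 2 / H ^ (3 / 2 : ℝ)) := by
  obtain ⟨δ, hδ, hδ', hδe⟩ : ∃ δ : ℝ, 0 < δ ∧ δ ≤ 1 / 2 ∧ δ * 8 ≤ e :=
    ⟨min (1 / 2) (e / 8), lt_min (by norm_num) (by positivity), min_le_left _ _, by
      linarith [min_le_right (1 / 2) (e / 8)]⟩
  obtain ⟨C1, A, hC1, h1⟩ := cs_core T hδ hδ'
  obtain ⟨J, hJ⟩ := exists_nat_ge (2 / δ)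
  obtain ⟨C2, hC2, h2⟩ := lemP2 hδ hδ' A (J + 2) (by omega)
  obtain ⟨C3, hC3, h3⟩ := Tsq_triv (1 + e) (by linarith)
  have h4 : (4 : Eis) ≠ 0 := by decide
  have hN4 : N 4 = 16 := by rw [show (4 : Eis) = ((4 : ℕ) : Eis) by simp, N_natCast]; norm_num
  refine ⟨16 * C3 ^ 2 + 16 * (C2 * (2 + 256 * C1)), A, by positivity,
    fun q F hq hP hB R H K0 τ hR hH hK0 => ?_⟩
  have hH0 : 0 < H := by linarith
  have hq0 := N_nonneg q
  have ht : 1 ≤ (1 + |τ|) ^ A := one_le_pow₀ (by linarith [abs_nonneg τ])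
  have hm : 0 < max 1 K0 := lt_max_of_lt_left one_pos
  obtain ⟨Br, hBr⟩ : ∃ Br, Br = R / √(H * max 1 K0) + R ^ (3 / 2 : ℝ) / H + R ^ 4 / H ^ 3
      + N q ^ 2 * K0 ^ (3 / 2 : ℝ) * R ^ 2 / H ^ (3 / 2 : ℝ) := ⟨_, rfl⟩
  have hBr0 : 0 ≤ Br := by rw [hBr]; positivity
  have hp : 0 < R ^ (1 + e) := Real.rpow_pos_of_pos hR _
  rw [show 1 + R / √(H * max 1 K0) + R ^ (3 / 2 : ℝ) / H + R ^ 4 / H ^ 3
      + N q ^ 2 * K0 ^ (3 / 2 : ℝ) * R ^ 2 / H ^ (3 / 2 : ℝ) = 1 + Br by rw [hBr]; ring]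
  have hM : 0 ≤ (1 + |τ|) ^ A * H * R ^ (1 + e) * (1 + Br) := by positivity
  by_cases hR1 : R ≤ 1
  · have p : ∀ h ∈ (ball H).filter P0, ‖Tsq false (fun c => F c * quad c h) R τ‖ ^ 2 ≤
        C3 ^ 2 * R ^ (1 + e) := by
      intro h _
      have k := h3 false (fun c => F c * quad c h) (fun c => by
        rw [norm_mul]; exact mul_le_one₀ (hB c) (norm_nonneg _) (norm_quad_le _ _)) R τ hR
      rw [if_pos hR1] at k
      have k2 : R ^ (1 + e) ≤ 1 := Real.rpow_le_one hR.le hR1 (by linarith)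
      refine (pow_le_pow_left₀ (norm_nonneg _) k 2).trans ?_
      rw [mul_pow]
      exact mul_le_mul_of_nonneg_left (by nlinarith) (sq_nonneg _)
    refine (Finset.sum_le_card_nsmul _ _ _ p).trans ?_
    rw [nsmul_eq_mul]
    have hcard : (((ball H).filter P0).card : ℝ) ≤ 16 * H :=
      le_trans (by exact_mod_cast Finset.card_filter_le _ _) (card_ball_le hH0.le)
    refine (mul_le_mul_of_nonneg_right hcard (by positivity)).trans ?_
    have q1 : H * R ^ (1 + e) ≤ (1 + |τ|) ^ A * H * R ^ (1 + e) * (1 + Br) := by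
      rw [mul_assoc _ H]
      exact (le_mul_of_one_le_left (by positivity) ht).trans
        (le_mul_of_one_le_right (by positivity) (by linarith))
    have q2 := mul_le_mul_of_nonneg_left q1 (by positivity : 0 ≤ 16 * C3 ^ 2)
    have q3 := mul_nonneg (by positivity : 0 ≤ 16 * (C2 * (2 + 256 * C1))) hM
    nlinarith
  have hR1' : 1 ≤ R := (not_le.1 hR1).le
  have hL : 1 ≤ R ^ δ := Real.one_le_rpow hR1' hδ.le
  have p : ∀ i ∈ res 4, QQ 0 (fun c => alph false c * F c * Rq c i * W R τ c) H ≤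
      C2 * (2 + 256 * C1) * ((1 + |τ|) ^ A * H * R ^ (1 + e) * (1 + Br)) := by
    intro i _
    have k := h2 0 0 (by simp) (fun c => alph false c * F c * Rq c i)
      (fun c hc => alph_ne_zero (left_ne_zero_of_mul (left_ne_zero_of_mul hc)))
      (fun c => by
        rw [norm_mul, norm_mul]
        exact mul_le_one₀ (mul_le_one₀ (norm_alph_le _ _) (norm_nonneg _) (hB c)) (norm_nonneg _)
          (norm_Rq_le _ _))
      R H (R ^ δ) τ (256 * C1 * ((R ^ δ) ^ 6 * R ^ 2 * Br)) hR hH0 (by linarith) (by positivity)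
      (fun i' R' t' hR2 hR3 => by
        have hR' : 0 < R' := by linarith
        have e1 : (fun c => alph false c * F c * Rq c i * cls 4 i' c * Gt 0 c * W R' t' c) =
            fun c => alph false c * (F c * Rq c i * cls 4 i' c * Gam c) * W R' t' c := by
          funext c
          by_cases hc : alph false c = 0
          · simp [hc]
          · rw [Gt_zero (alph_ne_zero hc)]; ring
        have k1 := h1 (4 * q) (fun c => F c * Rq c i * cls 4 i' c * Gam c) (mul_ne_zero h4 hq)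
          ((((hP.of_dvd (dvd_mul_left q 4)).mul (Per.of_congr fun x y hxy =>
            Rq_congr ((dvd_mul_right 4 q).trans hxy) (by simp))).mul
            ((per_cls 4 i').of_dvd (dvd_mul_right 4 q))).mul
            (Per.of_congr fun x y hxy => Gam_congr ((dvd_mul_right 4 q).trans hxy)))
          (fun c => by
            have hcls : ‖cls 4 i' c‖ ≤ 1 := by unfold cls; split_ifs <;> simp
            rw [norm_mul, norm_mul, norm_mul]
            exact mul_le_one₀ (mul_le_one₀ (mul_le_one₀ (hB c) (norm_nonneg _) (norm_Rq_le _ _))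
              (norm_nonneg _) hcls) (norm_nonneg _) (norm_Gam_le _))
          R' (R ^ δ * R ^ 2 / H) K0 t' hR' (by positivity) hK0
        rw [e1]
        refine k1.trans ((mul_le_mul_of_nonneg_left
          (cs_num hδ hδ' hR1' hR' hR3 hH hK0) (by positivity)).trans ?_)
        have b : R / √(H * max 1 K0) + R ^ (3 / 2 : ℝ) / H + R ^ 4 / H ^ 3
            + N (4 * q) ^ 2 * K0 ^ (3 / 2 : ℝ) * R ^ 2 / H ^ (3 / 2 : ℝ) ≤ 256 * Br := by
          have : 0 ≤ R / √(H * max 1 K0) + R ^ (3 / 2 : ℝ) / H + R ^ 4 / H ^ 3 := by positivity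
          rw [N_mul, hN4, hBr]
          calc _ = R / √(H * max 1 K0) + R ^ (3 / 2 : ℝ) / H + R ^ 4 / H ^ 3 +
                256 * (N q ^ 2 * K0 ^ (3 / 2 : ℝ) * R ^ 2 / H ^ (3 / 2 : ℝ)) := by ring
            _ ≤ _ := by linarith
        calc _ ≤ C1 * (1 + |t'|) ^ A * ((R ^ δ) ^ 6 * R ^ 2 * (256 * Br)) := by gcongr
          _ = _ := by ring)
    refine k.trans ?_
    have b1 : (R ^ 2 / H) ^ δ ≤ (R ^ δ) ^ 2 := by
      rw [← Real.rpow_natCast (R ^ δ), ← Real.rpow_mul hR.le, mul_comm δ, Real.rpow_mul hR.le,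
        Real.rpow_natCast]
      exact Real.rpow_le_rpow (by positivity) (div_le_self (by positivity) hH) hδ.le
    have b2 : R ^ 3 * (R ^ δ) ^ (1 - ((J + 2 : ℕ) : ℝ)) ≤ R := by
      rw [← Real.rpow_mul hR.le, ← Real.rpow_natCast, ← Real.rpow_add hR]
      refine (Real.rpow_le_rpow_of_exponent_le hR1' ?_).trans (Real.rpow_one R).le
      rw [div_le_iff₀ hδ] at hJ
      push_cast
      nlinarith
    have b3 : R * (R ^ δ) ^ 8 ≤ R ^ (1 + e) := by
      rw [Real.rpow_add hR, Real.rpow_one, ← Real.rpow_natCast, ← Real.rpow_mul hR.le]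
      exact mul_le_mul_of_nonneg_left
        (Real.rpow_le_rpow_of_exponent_le hR1' (by exact_mod_cast hδe)) hR.le
    have b4 : R ≤ R ^ (1 + e) := (le_mul_of_one_le_right hR.le (one_le_pow₀ hL)).trans b3
    generalize (R ^ δ) ^ (1 - ((J + 2 : ℕ) : ℝ)) = y at b2 ⊢
    generalize (R ^ 2 / H) ^ δ = x at b1 ⊢
    generalize R ^ δ = L at *
    generalize R ^ (1 + e) = Z at *
    have b5 : H / R * x * (256 * C1 * (L ^ 6 * R ^ 2 * Br)) ≤ 256 * C1 * (H * Z * Br) := by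
      calc _ ≤ H / R * L ^ 2 * (256 * C1 * (L ^ 6 * R ^ 2 * Br)) := by gcongr
        _ = 256 * C1 * (H * (R * L ^ 8) * Br) := by field_simp
        _ ≤ _ := by gcongr
    have b6 : H * R ≤ H * Z := mul_le_mul_of_nonneg_left b4 hH0.le
    have b7 : R ≤ H * R := le_mul_of_one_le_left hR.le hH
    have b8 : H * R + H / R * x * (256 * C1 * (L ^ 6 * R ^ 2 * Br)) + R ^ 3 * y ≤
        (2 + 256 * C1) * (H * Z * (1 + Br)) := by
      have r1 : 0 ≤ H * Z * Br := by positivity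
      have r2 : 0 ≤ C1 * (H * Z) := by positivity
      nlinarith
    calc _ ≤ C2 * (1 + |τ|) ^ A * ((2 + 256 * C1) * (H * Z * (1 + Br))) :=
          mul_le_mul_of_nonneg_left b8 (by positivity)
      _ = _ := by ring
  refine (cs_red F R H τ).trans ((Finset.sum_le_card_nsmul _ _ _ p).trans ?_)
  rw [nsmul_eq_mul, card_res h4, hN4]
  have q3 := mul_nonneg (by positivity : 0 ≤ 16 * C3 ^ 2) hM
  nlinarith

end Vale.Agent.P026
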