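import Vale.Agent.P026.Resid

/-! Auxiliary lattice point counts. -/

namespace Vale.Agent.P026

open Eis Complex Filter Topology
open scoped Classical ComplexConjugate

theorem cntA_Icc (t : ℝ) {ρ : ℝ} (hρ : 0 ≤ ρ) :
    ((Finset.Icc ⌈t - ρ⌉ ⌊t + ρ⌋).card : ℝ) ≤ 2 * ρ + 1 := by
  rw [Int.card_Icc]
  have h1 := Int.le_ceil (t - ρ)
  have h2 := Int.floor_le (t + ρ)
  rcases le_total 0 (⌊t + ρ⌋ + 1 - ⌈t - ρ⌉) with h | h
  · have : (((⌊t + ρ⌋ + 1 - ⌈t - ρ⌉).toNat : ℤ) : ℝ) = ((⌊t + ρ⌋ + 1 - ⌈t - ρ⌉ : ℤ) : ℝ) := by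
      rw [Int.toNat_of_nonneg h]
    push_cast at this
    rw [this]
    linarith
  · rw [Int.toNat_of_nonpos h]
    simp only [Nat.cast_zero]
    linarith

theorem cntA_disc (z : ℂ) {R : ℝ} (s : Finset Eis)
    (hs : ∀ d ∈ s, normSq (z + toC d) ≤ R) :
    (s.card : ℝ) ≤ (4 * √R + 1) * (2.31 * √R + 1) := by
  have h3 : √3 * √3 = (3 : ℝ) := Real.mul_self_sqrt (by norm_num)
  have h3' : (1.732 : ℝ) ≤ √3 := Real.le_sqrt_of_sq_le (by norm_num)
  have hr := Real.sqrt_nonneg R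
  set r := √R with hrd
  have hmap : ∀ d ∈ s, (fun d : Eis => (2 * d.a - d.b, d.b)) d ∈
      Finset.Icc ⌈-2 * z.re - 2 * r⌉ ⌊-2 * z.re + 2 * r⌋ ×ˢ
        Finset.Icc ⌈-2 * z.im / √3 - 1.155 * r⌉ ⌊-2 * z.im / √3 + 1.155 * r⌋ := by
    intro d hd
    have h := hs d hd
    rw [normSq_apply] at h
    simp only [add_re, add_im, toC_re, toC_im] at h
    have a1 : |z.re + ((d.a : ℝ) - d.b / 2)| ≤ r :=
      Real.abs_le_sqrt (by nlinarith [mul_self_nonneg (z.im + (d.b : ℝ) * √3 / 2)])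
    have a2 : |z.im + (d.b : ℝ) * √3 / 2| ≤ r :=
      Real.abs_le_sqrt (by nlinarith [mul_self_nonneg (z.re + ((d.a : ℝ) - d.b / 2))])
    rw [abs_le] at a1 a2
    have e : (d.b : ℝ) = -2 * z.im / √3 + 2 / √3 * (z.im + (d.b : ℝ) * √3 / 2) := by
      field_simp
      ring
    have e2 : 2 / √3 ≤ (1.155 : ℝ) := by
      rw [div_le_iff₀ (by linarith)]
      linarith
    have e3 : (0 : ℝ) ≤ 2 / √3 := by positivity
    simp only [Finset.mem_product, Finset.mem_Icc, Int.ceil_le, Int.le_floor]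
    push_cast
    refine ⟨⟨by linarith [a1.1], by linarith [a1.2]⟩, ?_, ?_⟩
    · rw [e]
      nlinarith [mul_le_mul_of_nonneg_left a2.1 e3, mul_le_mul_of_nonneg_right e2 hr]
    · nth_rewrite 1 [e]
      nlinarith [mul_le_mul_of_nonneg_left a2.2 e3, mul_le_mul_of_nonneg_right e2 hr]
  have hinj : Set.InjOn (fun d : Eis => (2 * d.a - d.b, d.b)) s := by
    intro x _ y _ h
    simp only [Prod.mk.injEq] at h
    ext <;> omega
  have hc := Finset.card_le_card_of_injOn _ hmap hinj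
  rw [Finset.card_product] at hc
  have hc' := (Nat.cast_le (α := ℝ)).2 hc
  push_cast at hc'
  have b1 := cntA_Icc (-2 * z.re) (ρ := 2 * r) (by linarith)
  have b2 := cntA_Icc (-2 * z.im / √3) (ρ := 1.155 * r) (by linarith)
  refine hc'.trans (mul_le_mul (by linarith) (by linarith) (Nat.cast_nonneg _) (by linarith))

/-- The norm form on the real plane. -/
def cntF (x : Fin 2 → ℝ) : ℝ := x 0 ^ 2 - x 0 * x 1 + x 1 ^ 2

theorem cntA_card (R : ℝ) (hR : 0 ≤ R) :
    (Nat.card ({x ∈ (Set.univ : Set (Fin 2 → ℝ)) | cntF x ≤ R} ∩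
      (Submodule.span ℤ (Set.range (Pi.basisFun ℝ (Fin 2))) : Submodule ℤ (Fin 2 → ℝ)) :
        Set (Fin 2 → ℝ)) : ℝ) = (ball R).card + 1 := by
  have h0 : (0 : Eis) ∉ ball R := by simp [mem_ball]
  have : ((ball R).card + 1 : ℝ) = ((insert 0 (ball R)).card : ℕ) := by
    rw [Finset.card_insert_of_notMem h0]
    push_cast
    ring
  rw [this, Nat.cast_inj, ← Nat.card_eq_finsetCard]
  symm
  have hN : ∀ z : Eis, cntF ![(z.a : ℝ), (z.b : ℝ)] = N z := by
    intro z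
    simp [cntF, N, nrm]
  refine Nat.card_congr (Equiv.ofBijective (fun z => ⟨![(z.1.a : ℝ), (z.1.b : ℝ)], ?_, ?_⟩) ⟨?_, ?_⟩)
  · refine ⟨Set.mem_univ _, ?_⟩
    rw [hN]
    rcases Finset.mem_insert.1 z.2 with h | h
    · rw [h, N_zero]
      exact hR
    · exact (mem_ball.1 h).2
  · rw [SetLike.mem_coe, Module.Basis.mem_span_iff_repr_mem]
    intro i
    fin_cases i
    · exact ⟨z.1.a, by simp⟩
    · exact ⟨z.1.b, by simp⟩
  · intro x y h
    have h' := congrArg Subtype.val h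
    have h1 := congrFun h' 0
    have h2 := congrFun h' 1
    simp only [Matrix.cons_val_zero, Matrix.cons_val_one, Int.cast_inj] at h1 h2
    exact Subtype.ext (Eis.ext h1 h2)
  · rintro ⟨x, ⟨-, hx1⟩, hx2⟩
    rw [SetLike.mem_coe, Module.Basis.mem_span_iff_repr_mem] at hx2
    obtain ⟨a, ha⟩ := hx2 0
    obtain ⟨b, hb⟩ := hx2 1
    simp only [eq_intCast, Pi.basisFun_repr] at ha hb
    have hx : ![(a : ℝ), (b : ℝ)] = x := by
      funext i
      fin_cases i
      · exact ha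
      · exact hb
    refine ⟨⟨⟨a, b⟩, ?_⟩, Subtype.ext hx⟩
    by_cases h : (⟨a, b⟩ : Eis) = 0
    · rw [h]
      exact Finset.mem_insert_self _ _
    · refine Finset.mem_insert_of_mem (mem_ball.2 ⟨h, ?_⟩)
      rw [← hN]
      simp only
      rw [hx]
      exact hx1

theorem cntA_tendsto : ∃ c : ℝ, 0 < c ∧
    Tendsto (fun R : ℝ => ((ball R).card : ℝ) / R) atTop (𝓝 c) := by
  have hcont : Continuous cntF := by
    unfold cntF
    fun_prop
  have hb : Bornology.IsBounded {x ∈ (Set.univ : Set (Fin 2 → ℝ)) | cntF x ≤ 1} := by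
    refine (Metric.isBounded_closedBall (x := (0 : Fin 2 → ℝ)) (r := 2)).subset ?_
    rintro x ⟨-, hx⟩
    rw [mem_closedBall_zero_iff, pi_norm_le_iff_of_nonneg (by norm_num)]
    unfold cntF at hx
    intro i
    rw [Real.norm_eq_abs, abs_le]
    fin_cases i
    · change -2 ≤ x 0 ∧ x 0 ≤ 2
      constructor <;> nlinarith [sq_nonneg (x 0 - 2 * x 1), sq_nonneg (x 0 + 1), sq_nonneg (x 0 - 1)]
    · change -2 ≤ x 1 ∧ x 1 ≤ 2
      constructor <;> nlinarith [sq_nonneg (2 * x 0 - x 1), sq_nonneg (x 1 + 1), sq_nonneg (x 1 - 1)]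
  have hm : MeasurableSet {x ∈ (Set.univ : Set (Fin 2 → ℝ)) | cntF x ≤ 1} := by
    simp only [Set.mem_univ, true_and]
    exact (isClosed_le hcont continuous_const).measurableSet
  have hcv : Convex ℝ {x ∈ (Set.univ : Set (Fin 2 → ℝ)) | cntF x ≤ 1} := by
    rintro x ⟨-, hx⟩ y ⟨-, hy⟩ a b ha hb hab
    refine ⟨Set.mem_univ _, ?_⟩
    unfold cntF at *
    simp only [Pi.add_apply, Pi.smul_apply, smul_eq_mul]
    obtain rfl : b = 1 - a := by linarith
    have h1 : 0 ≤ (x 0 - y 0) ^ 2 - (x 0 - y 0) * (x 1 - y 1) + (x 1 - y 1) ^ 2 := by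
      nlinarith [sq_nonneg (2 * (x 0 - y 0) - (x 1 - y 1)), sq_nonneg (x 1 - y 1)]
    nlinarith [mul_nonneg (mul_nonneg ha hb) h1, mul_le_mul_of_nonneg_left hx ha,
      mul_le_mul_of_nonneg_left hy hb]
  have h := ZLattice.covolume.tendsto_card_le_div
    (Submodule.span ℤ (Set.range (Pi.basisFun ℝ (Fin 2)))) (X := Set.univ)
    (fun _ _ _ _ => Set.mem_univ _) (F := cntF)
    (fun x r _ => by simp only [cntF, Pi.smul_apply, smul_eq_mul, Fintype.card_fin]; ring) hb hm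
    (hcv.addHaar_frontier _)
  have h2 := h.sub (tendsto_inv_atTop_zero (𝕜 := ℝ))
  rw [sub_zero] at h2
  refine ⟨_, ?_, h2.congr' ?_⟩
  rotate_left
  · filter_upwards [eventually_gt_atTop 0] with R hR
    rw [cntA_card R hR.le]
    field_simp
    ring
  · refine div_pos ?_ (ZLattice.covolume_pos _ _)
    refine ENNReal.toReal_pos ?_ hb.measure_lt_top.ne
    refine ((isOpen_lt hcont (continuous_const (y := (1 : ℝ)))).measure_pos MeasureTheory.volume
      ⟨0, by simp [cntF]⟩).trans_le (MeasureTheory.measure_mono ?_) |>.ne'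
    exact fun x hx => ⟨Set.mem_univ _, le_of_lt hx⟩

theorem cntA_dvd {d : Eis} (hd : d ≠ 0) (R : ℝ) :
    ((ball R).filter (d ∣ ·)).card = (ball (R / N d)).card := by
  symm
  refine Finset.card_bij (fun y _ => d * y) ?_ ?_ ?_
  · intro y hy
    rw [mem_ball] at hy
    rw [Finset.mem_filter, mem_ball, N_mul]
    refine ⟨⟨mul_ne_zero hd hy.1, ?_⟩, dvd_mul_right _ _⟩
    have := (le_div_iff₀ (N_pos hd)).1 hy.2
    linarith
  · intro x _ y _ h
    exact mul_left_cancel₀ hd h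
  · intro x hx
    rw [Finset.mem_filter, mem_ball] at hx
    obtain ⟨⟨h1, h2⟩, y, rfl⟩ := hx
    refine ⟨y, mem_ball.2 ⟨right_ne_zero_of_mul h1, ?_⟩, rfl⟩
    rw [le_div_iff₀ (N_pos hd)]
    rw [N_mul] at h2
    linarith

theorem cntA_unit {u : Eis} : u ∈ ball 1 ↔ IsUnit u := by
  rw [mem_ball, isUnit_iff_nrm]
  constructor
  · rintro ⟨h1, h2⟩
    have h3 := one_le_N h1
    have : N u = 1 := le_antisymm h2 h3
    unfold N at this
    exact_mod_cast this
  · intro h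
    refine ⟨fun h0 => ?_, ?_⟩
    · rw [h0] at h
      simp [nrm] at h
    · unfold N
      rw [h]
      simp

theorem cntA_N_unit {u : Eis} (hu : IsUnit u) : N u = 1 := by
  unfold N
  rw [isUnit_iff_nrm.1 hu]
  simp

theorem cntA_units (R : ℝ) :
    (ball 1).card * ((ball R).filter P1).card
      = ((ball R).filter (fun x => ¬ (lam ∣ x ∨ (2 : Eis) ∣ x))).card := by
  rw [← Finset.card_product]
  refine Finset.card_bij (fun y _ => y.1 * y.2) ?_ ?_ ?_
  · rintro ⟨u, x⟩ h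
    simp only [Finset.mem_product, Finset.mem_filter, cntA_unit] at h
    obtain ⟨hu, hx, hp⟩ := h
    rw [mem_ball] at hx
    simp only [Finset.mem_filter, mem_ball, N_mul, cntA_N_unit hu, one_mul, hu.dvd_mul_left]
    exact ⟨⟨mul_ne_zero hu.ne_zero hx.1, hx.2⟩, not_or.2 ⟨hp.1.not_lam_dvd, hp.2⟩⟩
  · rintro ⟨u, x⟩ h ⟨u', x'⟩ h' e
    simp only [Finset.mem_product, Finset.mem_filter, cntA_unit] at h h' e
    have hx : x = x' := by
      refine h.2.2.1.eq_of_associated h'.2.2.1 ?_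
      exact (associated_unit_mul_left x u h.1).symm.trans
        (e ▸ associated_unit_mul_left x' u' h'.1)
    subst hx
    rw [mul_right_cancel₀ h.2.2.ne_zero e]
  · intro y hy
    rw [Finset.mem_filter, mem_ball, not_or] at hy
    obtain ⟨⟨h0, h1⟩, h2, h3⟩ := hy
    obtain ⟨u, hu, hp⟩ := exists_prim_assoc h2
    obtain ⟨v, hv⟩ := hu.exists_left_inv
    refine ⟨(v, u * y), ?_, by simp only; rw [← mul_assoc, hv, one_mul]⟩
    simp only [Finset.mem_product, Finset.mem_filter, cntA_unit]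
    refine ⟨IsUnit.of_mul_eq_one u hv, mem_ball.2 ⟨hp.ne_zero, ?_⟩, hp, ?_⟩
    · rwa [N_mul, cntA_N_unit hu, one_mul]
    · rwa [hu.dvd_mul_left]

theorem cntA_incl (R : ℝ) :
    ((ball 1).card : ℝ) * ((ball R).filter P1).card
      = (ball R).card - (ball (R / 3)).card - (ball (R / 4)).card + (ball (R / 12)).card := by
  have n3 : N lam = 3 := by norm_num [N, nrm]
  have n4 : N 2 = 4 := by norm_num [N, nrm]
  have n12 : N (lam * 2) = 12 := by rw [N_mul, n3, n4]; norm_num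
  have hc : IsCoprime lam 2 := ⟨lam, 2, by
    have := lam_sq
    linear_combination this⟩
  have h1 := cntA_units R
  have h2 := Finset.card_filter_add_card_filter_not (s := ball R)
    (fun x => lam ∣ x ∨ (2 : Eis) ∣ x)
  have h3 := Finset.card_union_add_card_inter ((ball R).filter (lam ∣ ·))
    ((ball R).filter ((2 : Eis) ∣ ·))
  rw [← Finset.filter_or, ← Finset.filter_and] at h3
  have h4 : (ball R).filter (fun x => lam ∣ x ∧ (2 : Eis) ∣ x) = (ball R).filter (lam * 2 ∣ ·) := by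
    refine Finset.filter_congr fun x _ => ⟨fun h => hc.mul_dvd h.1 h.2, fun h => ?_⟩
    exact ⟨dvd_of_mul_right_dvd h, dvd_of_mul_left_dvd h⟩
  rw [h4, cntA_dvd prime_lam.ne_zero, cntA_dvd prime_two.ne_zero,
    cntA_dvd (mul_ne_zero prime_lam.ne_zero prime_two.ne_zero), n3, n4, n12] at h3
  have h1' := congrArg (Nat.cast : ℕ → ℝ) h1
  have h2' := congrArg (Nat.cast : ℕ → ℝ) h2
  have h3' := congrArg (Nat.cast : ℕ → ℝ) h3
  push_cast at h1' h2' h3'
  linarith

end Vale.Agent.P026
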