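import Vale.Agent.P026.Eis

/-! Definitions shared by all files of the P026 development. -/

namespace Vale.Agent.P026

open Eis Complex
open scoped Classical ComplexConjugate

noncomputable section

/-- The norm as a real number. -/
def N (x : Eis) : ℝ := (nrm x : ℝ)
/-- The absolute value. -/
def ab (x : Eis) : ℝ := √(N x)

/-- Nonzero elements of norm at most K. -/
def ball (K : ℝ) : Finset Eis := (finite_nrm_le K).toFinset.filter (· ≠ 0)
/-- A complete system of residues modulo c (for c ≠ 0). -/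
def res (c : Eis) : Finset Eis := (finite_nrm_le (N c)).toFinset.filter (fun x => x % c = x)

/-- Primary: congruent to 1 modulo 3. -/
def Prim (c : Eis) : Prop := (3 : Eis) ∣ c - 1
/-- Primary and odd. -/
def P1 (c : Eis) : Prop := Prim c ∧ ¬ (2 : Eis) ∣ c
/-- Primary, odd and squarefree. -/
def P0 (c : Eis) : Prop := P1 c ∧ Squarefree c
/-- Divides a power of 6. -/
def Sm (r : Eis) : Prop := ∃ k : ℕ, r ∣ 6 ^ k
/-- F is periodic modulo q. -/
def Per (q : Eis) (F : Eis → ℂ) : Prop := ∀ x y : Eis, F (x + q * y) = F x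
/-- F is bounded by 1. -/
def Bd1 (F : Eis → ℂ) : Prop := ∀ x, ‖F x‖ ≤ 1
/-- Indicator of coprimality to D. -/
def cop (D c : Eis) : ℂ := if IsCoprime c D then 1 else 0
/-- Indicator of the class i modulo q. -/
def cls (q i c : Eis) : ℂ := if q ∣ c - i then 1 else 0
/-- Moebius function restricted to primary odd squarefree elements. -/
def mu0 (c : Eis) : ℂ :=
  if P0 c then (-1) ^ Multiset.card (UniqueFactorizationMonoid.factors c) else 0
/-- The finite set of P0 divisors of n (for n ≠ 0). -/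
def divs (n : Eis) : Finset Eis := (ball (N n)).filter (fun d => P0 d ∧ d ∣ n)
/-- The twenty four elements u, u λ, 2 u, 2 u λ (u a unit). -/
def S0 : Finset Eis := (ball 12).filter (fun s => nrm s = 1 ∨ nrm s = 3 ∨ nrm s = 4 ∨ nrm s = 12)

/-- Additive character x ↦ exp (2 π i Tr (x / (λ c))) modulo c. -/
def psi (c x : Eis) : ℂ :=
  cexp (2 * Real.pi * I * ((((x * cj c).b : ℝ) / N c : ℝ) : ℂ))
/-- eR r z = exp (2 π i Tr (r z / (9 λ))); it is 9 O-periodic in z. -/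
def eR (r : Eis) (z : ℂ) : ℂ :=
  cexp (2 * Real.pi * I * ((2 * (toC r * z / (9 * toC lam)).re : ℝ) : ℂ))

/-- Cubic residue symbol at a prime p. -/
def cubP (p a : Eis) : ℂ :=
  if p ∣ a then 0
  else if p ∣ a ^ (((nrm p).natAbs - 1) / 3) - 1 then 1
  else if p ∣ a ^ (((nrm p).natAbs - 1) / 3) - om then toC om
  else toC (om ^ 2)
/-- Quadratic residue symbol at a prime p. -/
def quadP (p a : Eis) : ℂ :=
  if p ∣ a then 0 else if p ∣ a ^ (((nrm p).natAbs - 1) / 2) - 1 then 1 else -1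
/-- Cubic symbol (a / c)₃. -/
def cub (a c : Eis) : ℂ := ((UniqueFactorizationMonoid.factors c).map (fun p => cubP p a)).prod
/-- Quadratic symbol (a / c)₂. -/
def quad (a c : Eis) : ℂ := ((UniqueFactorizationMonoid.factors c).map (fun p => quadP p a)).prod
/-- chi 0 is the quadratic symbol, chi 1 and chi 2 are the two sextic symbols. -/
def chi (j : ℕ) (a c : Eis) : ℂ := cub a c ^ j * quad a c

/-- Gauss sum of f modulo c at frequency h. -/
def gauss (f : Eis → ℂ) (c h : Eis) : ℂ := ∑ x ∈ res c, f x * psi c (h * x)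
/-- Normalised cubic Gauss sum. -/
def g3 (c : Eis) : ℂ := gauss (fun x => cub x c) c 1 / (ab c : ℂ)
/-- Normalised Gauss sum of chi j. -/
def Gt (j : ℕ) (c : Eis) : ℂ := gauss (fun x => chi j x c) c 1 / (ab c : ℂ)
/-- The sign of the quadratic Gauss sum. -/
def Gam (c : Eis) : ℂ :=
  if (2 : Eis) ∣ c then 0 else (1 + (-I) ^ c.b + (-I) ^ (c.a - c.b) + (-I) ^ (-c.a)) / 2
/-- The quadratic reciprocity sign. -/
def Rq (x y : Eis) : ℂ := Gam (x * y) * conj (Gam x) * conj (Gam y)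

/-- Angular factor x / |x| or its conjugate. -/
def ang (o : Bool) (x : Eis) : ℂ := (if o then toC x else conj (toC x)) / (ab x : ℂ)
/-- Squarefree part of the theta coefficients. -/
def alph (o : Bool) (e : Eis) : ℂ := if P0 e then conj (g3 e) * ang o e else 0
/-- Cube part of the theta coefficients. -/
def bet (o : Bool) (d : Eis) : ℂ := if P1 d then (ab d : ℂ) * ang o d ^ 3 else 0

/-- The weight exp (- log ^ 2 x). -/
def w (x : ℝ) : ℝ := Real.exp (-(Real.log x) ^ 2)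
/-- N c ^ (i t). -/
def nit (t : ℝ) (c : Eis) : ℂ := cexp (I * ((t * Real.log (N c) : ℝ) : ℂ))
/-- The weight w (N c / Y) N c ^ (i t). -/
def W (Y t : ℝ) (c : Eis) : ℂ := (w (N c / Y) : ℂ) * nit t c

/-- Sum of the squarefree theta coefficients. -/
def Tsq (o : Bool) (F : Eis → ℂ) (Y t : ℝ) : ℂ := ∑' e : Eis, alph o e * F e * W Y t e
/-- Sum of all (odd primary) theta coefficients. -/
def Tth (o : Bool) (F : Eis → ℂ) (Y t : ℝ) : ℂ :=
  ∑' p : Eis × Eis, alph o p.1 * bet o p.2 * F (p.1 * p.2 ^ 3) * W Y t (p.1 * p.2 ^ 3)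

/-- The self-dual second moment. -/
def QQ (j : ℕ) (a : Eis → ℂ) (K : ℝ) : ℝ :=
  ∑ h ∈ ball K, ∑ D ∈ (divs h).filter (fun D => D ^ 2 ∣ h),
    N D * ‖∑' c : Eis, a (D * c) * chi j h c‖ ^ 2

/-- Moebius side of the bootstrap. -/
def AA (Xi : Eis → ℂ) (D0 : Eis) (Y M t : ℝ) : ℝ :=
  QQ 2 (fun c => mu0 c * Xi c * cop D0 c * W Y t c) M
/-- Theta side of the bootstrap. -/
def BB (Xi : Eis → ℂ) (D0 : Eis) (Y K t : ℝ) : ℝ :=
  ∑ h ∈ ball K, ‖Tsq true (fun c => Xi c * cop D0 c * chi 1 h c) Y t‖ ^ 2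
/-- The bootstrap hypothesis with exponent f for the modulus q. -/
def HH (q : Eis) (f : ℝ) : Prop :=
  ∃ (C : ℝ) (A : ℕ), ∀ Xi : Eis → ℂ, Per q Xi → Bd1 Xi → ∀ Y M t : ℝ, 0 < Y → 0 < M →
    AA Xi 1 Y M t ≤ C * (1 + |t|) ^ A * (M + Y ^ (19 / 16 : ℝ)) * Y ^ (1 + f)

/-- The Bessel type integral. -/
def kk (y : ℝ) : ℝ := ∫ u in Set.Ioi (0 : ℝ), u ^ (-(2 / 3) : ℝ) * Real.exp (-u - y ^ 2 / u)
/-- The constant 2 π / (9 √3). -/
def c0 : ℝ := 2 * Real.pi / (9 * √3)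
/-- The kernel of the Voronoi identity. -/
def kap (y : ℝ) : ℝ := y ^ (2 / 3 : ℝ) * kk (c0 * y)
/-- The series attached to a coefficient sequence. -/
def Phi (a : Eis → ℂ) (v : ℝ) : ℂ := (v : ℂ) * ∑' r : Eis, a r * (kap (ab r * v) : ℂ)
/-- The Voronoi identity between the sequences a and b. -/
def Vor (a b : Eis → ℂ) (Q : ℝ) (e : ℂ) : Prop :=
  ∀ v : ℝ, 0 < v → Phi a v = e * Phi b (1 / (Q * v))

/-- Normalised pair (A, q). -/
def Nrmd (A q : Eis) : Prop := Prim A ∨ (lam ∣ A ∧ Prim q)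
/-- The multiplier attached to a normalised pair. -/
def kz (A q : Eis) : ℂ := if Prim A then cub q A else cub A q
/-- The admissible inverses δ. -/
def IsDel (A q d : Eis) : Prop :=
  if Prim A then 9 * q ∣ d * A - 1 else (q ∣ d * A - 1 ∧ (9 : Eis) ∣ d)

/-- What the analytic part uses about the cubic theta function. tau A q is the coefficient
sequence at the cusp A / q, and tau 1 0 the sequence at infinity. -/
structure Theta where
  tau : Eis → Eis → Eis → ℂ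
  C : ℝ
  zero : ∀ A q, tau A q 0 = 0
  bound : ∀ A q r, ‖tau A q r‖ ≤ C * ab r
  congr : ∀ A q A' q', (3 : Eis) ∣ A - A' → (3 : Eis) ∣ q - q' → tau A q = tau A' q'
  cube : ∀ A q r p, Prime p → P1 p → tau A q (r * p ^ 3) = (ab p : ℂ) * tau A q r
  sq : ∀ A q r p, Prime p → P1 p → ¬ p ∣ r → tau A q (r * p ^ 2) = 0
  one : ∀ A q r p, Prime p → P1 p → ¬ p ∣ r →
    tau A q (r * p) = conj (cub 9 p) * cub r p * conj (g3 p) * tau A q r
  nonzero : ∃ r, tau 1 0 r ≠ 0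
  vor : ∀ (o : Bool) (A q d : Eis), q ≠ 0 → IsCoprime A q → Nrmd A q → IsDel A q d →
    Vor (fun r => tau 1 0 r * ang o r * psi (9 * q) (r * A))
      (fun r => tau A q r * ang (!o) r * psi (9 * q) (-(r * d))) (N q) (kz A q * ang o q ^ 2)

/-- Kubota's symbol on rows (c, d) ≡ (0, 1) modulo 3, extended by zero. -/
def kap0 (c d : Eis) : ℂ := if (3 : Eis) ∣ c ∧ Prim d then cub c d else 0

/-- Matrices of determinant one over the Eisenstein integers. -/
@[ext] structure SL where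
  a : Eis
  b : Eis
  c : Eis
  d : Eis
  det : a * d - b * c = 1

instance : One SL := ⟨⟨1, 0, 0, 1, by ring⟩⟩
instance : Mul SL := ⟨fun g h => ⟨g.a * h.a + g.b * h.c, g.a * h.b + g.b * h.d,
  g.c * h.a + g.d * h.c, g.c * h.b + g.d * h.d, by
    linear_combination (h.a * h.d - h.b * h.c) * g.det + h.det⟩⟩
instance : Inv SL := ⟨fun g => ⟨g.d, -g.b, -g.c, g.a, by linear_combination g.det⟩⟩

@[simp] theorem SL.one_a : (1 : SL).a = 1 := rfl
@[simp] theorem SL.one_b : (1 : SL).b = 0 := rfl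
@[simp] theorem SL.one_c : (1 : SL).c = 0 := rfl
@[simp] theorem SL.one_d : (1 : SL).d = 1 := rfl
@[simp] theorem SL.mul_a (g h : SL) : (g * h).a = g.a * h.a + g.b * h.c := rfl
@[simp] theorem SL.mul_b (g h : SL) : (g * h).b = g.a * h.b + g.b * h.d := rfl
@[simp] theorem SL.mul_c (g h : SL) : (g * h).c = g.c * h.a + g.d * h.c := rfl
@[simp] theorem SL.mul_d (g h : SL) : (g * h).d = g.c * h.b + g.d * h.d := rfl
@[simp] theorem SL.inv_a (g : SL) : (g⁻¹).a = g.d := rfl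
@[simp] theorem SL.inv_b (g : SL) : (g⁻¹).b = -g.b := rfl
@[simp] theorem SL.inv_c (g : SL) : (g⁻¹).c = -g.c := rfl
@[simp] theorem SL.inv_d (g : SL) : (g⁻¹).d = g.a := rfl

instance : Group SL where
  mul_assoc g h k := by ext <;> simp <;> ring
  one_mul g := by ext <;> simp
  mul_one g := by ext <;> simp
  inv_mul_cancel g := by
    have := g.det
    refine SL.ext ?_ ?_ ?_ ?_ <;> simp only [SL.mul_a, SL.mul_b, SL.mul_c, SL.mul_d, SL.inv_a,
      SL.inv_b, SL.inv_c, SL.inv_d, SL.one_a, SL.one_b, SL.one_c, SL.one_d]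
    · linear_combination this
    · ring
    · ring
    · linear_combination this

instance : Countable SL :=
  (show Function.Injective (fun g : SL => (g.a, g.b, g.c, g.d)) from
    fun x y h => by
      simp only [Prod.mk.injEq] at h
      exact SL.ext h.1 h.2.1 h.2.2.1 h.2.2.2).countable

/-- The principal congruence subgroup of level three. -/
def G3 : Subgroup SL where
  carrier := {g | Prim g.a ∧ (3 : Eis) ∣ g.b ∧ (3 : Eis) ∣ g.c ∧ Prim g.d}
  one_mem' := by simp [Prim]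
  mul_mem' := by
    rintro g h ⟨⟨a, ha⟩, ⟨b, hb⟩, ⟨c, hc⟩, ⟨d, hd⟩⟩ ⟨⟨a', ha'⟩, ⟨b', hb'⟩, ⟨c', hc'⟩, ⟨d', hd'⟩⟩
    refine ⟨⟨a * h.a + a' + b * h.c, ?_⟩, ⟨g.a * b' + b * h.d, ?_⟩, ⟨c * h.a + g.d * c', ?_⟩,
      ⟨c * h.b + d * h.d + d', ?_⟩⟩ <;> simp only [SL.mul_a, SL.mul_b, SL.mul_c, SL.mul_d]
    · linear_combination h.a * ha + ha' + h.c * hb
    · linear_combination g.a * hb' + h.d * hb
    · linear_combination h.a * hc + g.d * hc'
    · linear_combination h.b * hc + h.d * hd + hd'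
  inv_mem' := by
    rintro g ⟨ha, hb, hc, hd⟩
    exact ⟨hd, by simpa using hb, by simpa using hc, ha⟩

theorem mem_G3 {g : SL} :
    g ∈ G3 ↔ Prim g.a ∧ (3 : Eis) ∣ g.b ∧ (3 : Eis) ∣ g.c ∧ Prim g.d := Iff.rfl

/-- Right action on rows. -/
def row (x : Eis × Eis) (g : SL) : Eis × Eis := (x.1 * g.a + x.2 * g.c, x.1 * g.b + x.2 * g.d)
/-- Translation matrix. -/
def tr (y : Eis) : SL := ⟨1, y, 0, 1, by ring⟩
/-- The cusp representative attached to a pair (A, q). -/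
def sig (A q : Eis) : SL :=
  if Prim A then ⟨1, 0, q % 3, 1, by ring⟩ else ⟨A % 3, -1, 1, 0, by ring⟩
/-- Kubota's symbol transported to the cusp. -/
def kapS (A q : Eis) (c d : Eis) : ℂ :=
  kap0 (row (c, d) (sig A q)⁻¹).1 (row (c, d) (sig A q)⁻¹).2
/-- Kubota Gauss sum. -/
def gK (k : Eis → Eis → ℂ) (r c : Eis) : ℂ := ∑ d ∈ res (9 * c), k c d * psi (9 * c) (r * d)
/-- Restriction of k to first coordinates not divisible by p. -/
def off (p : Eis) (k : Eis → Eis → ℂ) (c d : Eis) : ℂ := if p ∣ c then 0 else k c d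
/-- Restriction of k to the line of l modulo p. -/
def lin (p : Eis) (l : Eis × Eis) (k : Eis → Eis → ℂ) (c d : Eis) : ℂ :=
  if p ∣ c * l.2 - d * l.1 then k c d else 0
/-- Bounded by one and periodic along d ↦ d + 9 b c. -/
def Adm (k : Eis → Eis → ℂ) : Prop :=
  (∀ c d, ‖k c d‖ ≤ 1) ∧ (∀ c d b, k c (d + 9 * b * c) = k c d)

/-- Binary Hermitian forms (A, B, D). -/
abbrev HF : Type := ℝ × ℂ × ℝ
/-- Value of the form at (c, d). -/
def hq (Q : HF) (c d : ℂ) : ℝ :=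
  Q.1 * normSq c + 2 * (Q.2.1 * c * conj d).re + Q.2.2 * normSq d
/-- Action of a complex matrix on forms. -/
def actC (a b c d : ℂ) (Q : HF) : HF :=
  (hq Q a b, (Q.1 : ℂ) * a * conj c + Q.2.1 * a * conj d + conj Q.2.1 * b * conj c
    + (Q.2.2 : ℂ) * b * conj d, hq Q c d)
/-- Left action of SL on forms. -/
def act (g : SL) (Q : HF) : HF := actC (toC g.a) (toC g.b) (toC g.c) (toC g.d) Q
/-- Value at a row of Eisenstein integers. -/
def hv (Q : HF) (x : Eis × Eis) : ℝ := hq Q (toC x.1) (toC x.2)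
/-- Positive forms with determinant between 1 and 2. -/
def slab : Set HF :=
  {Q | 0 < Q.2.2 ∧ 1 ≤ Q.1 * Q.2.2 - normSq Q.2.1 ∧ Q.1 * Q.2.2 - normSq Q.2.1 ≤ 2}
/-- Lebesgue measure on the slab. -/
def nu : MeasureTheory.Measure HF := MeasureTheory.volume.restrict slab
/-- The form with coordinates (z, D, Δ). -/
def pt (z : ℂ) (D E : ℝ) : HF := (D * normSq z + E / D, (D : ℂ) * z, D)
/-- Fundamental parallelogram of 9 O. -/
def F9 : Set ℂ :=
  {z | ∃ x y : ℝ, x ∈ Set.Ico (0 : ℝ) 1 ∧ y ∈ Set.Ico (0 : ℝ) 1 ∧ z = 9 * ((x : ℂ) + y * toC om)}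
/-- Its area. -/
def V9 : ℝ := 81 * √3 / 2
/-- The parameter domain for (D, Δ). -/
def DE : Set (ℝ × ℝ) := Set.Ioi 0 ×ˢ Set.Icc 1 2
/-- A box in the slab. -/
def box (D1 D2 : ℝ) : Set HF :=
  {Q | Q ∈ slab ∧ Q.2.2 ∈ Set.Icc D1 D2 ∧ Q.2.1 / (Q.2.2 : ℂ) ∈ F9}
/-- The smoothed Eisenstein series. -/
def Es (k : Eis → Eis → ℂ) (t : ℝ) (Q : HF) : ℂ :=
  ∑' x : Eis × Eis, k x.1 x.2 * (Real.exp (-(t * hv Q x)) : ℂ)
/-- The sum whose limit as t → 0 is a residue. -/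
def Rs (k : Eis → Eis → ℂ) (r : Eis) (f : ℝ → ℂ) (t : ℝ) : ℂ :=
  ((t ^ (1 / 3 : ℝ) : ℝ) : ℂ) * ∑' c : Eis, gK k r c / (N c : ℂ) * f (t * N c)

/-- The test function produced by a Fourier coefficient at the point (D, Δ). -/
def fk (a D E : ℝ) (y : ℝ) : ℂ := ((D⁻¹ * Real.exp (-(y * E / D) - a ^ 2 / (y * D)) : ℝ) : ℂ)
/-- The exponential test function. -/
def ex (y : ℝ) : ℂ := (Real.exp (-y) : ℂ)
/-- A fixed averaged test function. -/
def phi0 (y : ℝ) : ℂ := ∫ p in Set.Icc (1 : ℝ) 2 ×ˢ Set.Icc (1 : ℝ) 2, (p.1 : ℂ) * fk 1 p.1 p.2 y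
/-- Partition of unity for the action of G3 on the slab. -/
def IsBeta (β : HF → ENNReal) : Prop :=
  Measurable β ∧ (∀ Q, β Q ≤ 1) ∧ (∀ Q ∈ slab, 0 < β Q) ∧ ∀ Q ∈ slab, ∑' g : G3, β (act g Q) = 1
/-- Convergence of the normalised series to f in mean square on every box. -/
def Conv (k : Eis → Eis → ℂ) (f : HF → ℂ) : Prop :=
  ∀ D1 D2 : ℝ, 0 < D1 → D1 ≤ D2 →
    Filter.Tendsto (fun t : ℝ => ∫⁻ Q in box D1 D2,
      ‖((t ^ (4 / 3 : ℝ) : ℝ) : ℂ) * Es k t Q - f Q‖ₑ ^ 2) (nhdsWithin 0 (Set.Ioi 0)) (nhds 0)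
/-- The cubic theta function as a mean square limit. -/
structure IsTheta (θ : HF → ℂ) : Prop where
  meas : Measurable θ
  aut : ∀ g ∈ G3, ∀ᵐ Q ∂nu, θ (act g Q) = conj (kap0 g.c g.d) * θ Q
  bd : ∃ C : ℝ, ∀ (s : SL) (D1 D2 : ℝ), 0 < D1 → D1 ≤ D2 →
    ∫⁻ Q in box D1 D2, ‖θ (act s Q)‖ₑ ^ 2 ≤ ENNReal.ofReal (C * (1 + D2 ^ 2) * (1 + D2 / D1))
  conv : ∀ A q, Conv (kapS A q) (fun Q => θ (act (sig A q) Q))
  conv_off : ∀ A q p, Prime p → P1 p →
    Conv (off p (kapS A q)) (fun Q => ((N p / (N p + 1) : ℝ) : ℂ) * θ (act (sig A q) Q))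
/-- The Fourier coefficients of the theta function. -/
structure IsCoef (θ : HF → ℂ) (tau : Eis → Eis → Eis → ℂ) : Prop where
  zero : ∀ A q, tau A q 0 = 0
  bound : ∃ C : ℝ, ∀ A q r, ‖tau A q r‖ ≤ C * ab r
  congr : ∀ A q A' q', (3 : Eis) ∣ A - A' → (3 : Eis) ∣ q - q' → tau A q = tau A' q'
  cube : ∀ A q r p, Prime p → P1 p → tau A q (r * p ^ 3) = (ab p : ℂ) * tau A q r
  sq : ∀ A q r p, Prime p → P1 p → ¬ p ∣ r → tau A q (r * p ^ 2) = 0
  one : ∀ A q r p, Prime p → P1 p → ¬ p ∣ r →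
    tau A q (r * p) = conj (cub 9 p) * cub r p * conj (g3 p) * tau A q r
  shape : ∀ A q r, r ≠ 0 → ∀ᵐ p ∂(MeasureTheory.volume.restrict DE),
    ∫ z in F9, θ (act (sig A q) (pt z p.1 p.2)) * conj (eR r z) =
      (V9 : ℂ) * (tau A q r / (ab r : ℂ)) *
        ((p.2 ^ (-(2 / 3) : ℝ) * kap (ab r * (√p.2 / p.1)) : ℝ) : ℂ)
  const : ∃ l : ℂ, l ≠ 0 ∧ ∀ᵐ p ∂(MeasureTheory.volume.restrict DE),
    ∫ z in F9, θ (pt z p.1 p.2) = l * ((p.1 ^ (-(2 / 3) : ℝ) * p.2 ^ (-(1 / 3) : ℝ) : ℝ) : ℂ)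
/-- Transport of a function on odd primary elements to the progression r0 times those. -/
def lift (r0 : Eis) (F : Eis → ℂ) (r : Eis) : ℂ :=
  if r0 ∣ r ∧ P1 (r / r0) then F (r / r0) * cub 9 (r / r0) * conj (cub r0 (r / r0)) else 0

end

end Vale.Agent.P026
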