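import Vale.Agent.P026.DualA

/-! The Voronoi identity for the twisted family. -/

namespace Vale.Agent.P026

open Eis Complex
open scoped Classical ComplexConjugate

/-- The identity for one twist, with the inverse of the twist in the dual function. -/
theorem du_one (T : Theta) (o : Bool) {S : Finset Eis} {c : Eis → ℂ} {A d : Eis → Eis}
    {A0 q h n : Eis} (hq : q ≠ 0) (hS : ∀ y ∈ S, IsCoprime (A y) q ∧ Nrmd (A y) q ∧
      IsDel (A y) q (d y) ∧ (3 : Eis) ∣ A y - A0) (hh : P0 h) (hhq : IsCoprime h q)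
    (hn : 9 * q ∣ h * n - 1) : ∃ e : ℂ, ‖e‖ ≤ 1 ∧
      Vor (fun r => T.tau 1 0 r * ang o r * (∑ y ∈ S, c y * psi (9 * q) (r * A y)) * chi 1 r h)
        (fun r => T.tau A0 q r * ang (!o) r *
          (∑ y ∈ S, c y * kz (A y) q * psi (9 * q) (-(r * (d y * n ^ 2)))) * quad r h)
        (N h * N q) e := by
  have hp := hh.1.1
  have h0 := hh.ne_zero
  have h9q : 9 * q ≠ 0 := mul_ne_zero du_nine_ne hq
  obtain ⟨m, hm⟩ := du_exists_inv ((du_cop_nine hp).mul_right hhq).symm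
  obtain ⟨g, hg, hg'⟩ := du_inv hh
  have hab : (ab h : ℂ) ≠ 0 := by exact_mod_cast (ab_pos h0).ne'
  have hG : Gt 2 h ≠ 0 := by
    rw [← norm_ne_zero_iff, norm_Gt 2 hh]
    exact one_ne_zero
  refine ⟨(Gt 2 h)⁻¹ * ang o (h * q) ^ 2 * cub 9 h * cub q h ^ 2 * quad (-1) h * Gt 0 h, ?_, ?_⟩
  · simp only [norm_mul, norm_inv, norm_pow, norm_Gt _ hh, norm_ang o (mul_ne_zero h0 hq),
      norm_cub hhq.symm, inv_one, one_pow, one_mul, mul_one]
    exact mul_le_one₀ (norm_cub_le _ _) (norm_nonneg _) (norm_quad_le _ _)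
  rw [← N_mul]
  refine du_Vor_sum (S ×ˢ res h) (fun p => c p.1 * chi 2 p.2 h / (ab h * Gt 2 h))
    (fun p => cub 9 h * cub p.2 h * cub q h ^ 2 * kz (A p.1) q * ang o (h * q) ^ 2)
    (fun p r => T.tau 1 0 r * ang o r * psi (9 * (h * q)) (r * (9 * p.2 * q + A p.1 * h)))
    (fun p r => T.tau A0 q r * ang (!o) r *
      psi (9 * (h * q)) (-(r * (9 * q * (g p.2 * m ^ 2) + h * (d p.1 * n ^ 2)))))
    (fun p => du_gr T _ _ _ _ _) (fun p => du_gr T _ _ _ _ _) (N_pos (mul_ne_zero h0 hq))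
    (fun p hp' hc => ?_) (fun r => ?_) (fun r => ?_)
  · obtain ⟨h1, h2, h3, h4⟩ := hS p.1 (Finset.mem_product.1 hp').1
    have ha : IsCoprime p.2 h := by
      by_contra ha
      exact hc (by rw [(chi_eq_zero 2 h0).2 ha, mul_zero, zero_div])
    obtain ⟨k1, k2, k3, k4, k5, k6⟩ := du_big h1 h2 h3 hp hhq (hg _ ha) hm hn
    have k7 := T.vor o _ _ _ (mul_ne_zero h0 hq) k1 k2 k5
    have k8 : (3 : Eis) ∣ 9 * p.2 * q + A p.1 * h - A0 := by
      have := dvd_add k3 h4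
      rwa [sub_add_sub_cancel] at this
    rwa [k6, T.congr _ _ A0 q k8 k4] at k7
  · have k1 := gauss_chi (j := 2) (j' := 1) (by norm_num) hh r
    have k2 : chi 1 r h = ∑ a ∈ res h, chi 2 a h * psi h (r * a) / (ab h * Gt 2 h) := by
      unfold gauss at k1
      rw [← Finset.sum_div, k1]
      field_simp
    rw [k2, Finset.sum_product, mul_assoc, Finset.sum_mul_sum, Finset.mul_sum]
    refine Finset.sum_congr rfl fun y _ => ?_
    rw [Finset.mul_sum]
    refine Finset.sum_congr rfl fun a _ => ?_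
    rw [show 9 * (h * q) = h * (9 * q) by ring,
      show r * (9 * a * q + A y * h) = 9 * q * (r * a) + h * (r * A y) by ring,
      du_psi_split h0 h9q]
    ring
  · have k1 := hg' r m (du_cop_of_inv hm)
    have k2 : ∀ y a, c y * chi 2 a h / (ab h * Gt 2 h) *
        (cub 9 h * cub a h * cub q h ^ 2 * kz (A y) q * ang o (h * q) ^ 2) *
        (T.tau A0 q r * ang (!o) r *
          psi (9 * (h * q)) (-(r * (9 * q * (g a * m ^ 2) + h * (d y * n ^ 2))))) =
        (cub 9 h * cub q h ^ 2 * ang o (h * q) ^ 2 * T.tau A0 q r * ang (!o) r / (ab h * Gt 2 h)) *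
          ((c y * kz (A y) q * psi (9 * q) (-(r * (d y * n ^ 2)))) *
            (chi 2 a h * cub a h * psi h (-(r * (g a * m ^ 2))))) := by
      intro y a
      rw [show 9 * (h * q) = h * (9 * q) by ring,
        show -(r * (9 * q * (g a * m ^ 2) + h * (d y * n ^ 2))) =
          9 * q * (-(r * (g a * m ^ 2))) + h * (-(r * (d y * n ^ 2))) by ring,
        du_psi_split h0 h9q]
      ring
    rw [Finset.sum_product]
    simp only [k2, ← Finset.mul_sum, ← Finset.sum_mul]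
    rw [k1]
    field_simp

theorem V0F (T : Theta) (o : Bool) {q0 q1 : Eis} (hq0 : q0 ≠ 0) (h9 : (9 : Eis) ∣ q1)
    (h1 : q1 ∣ q0) (hs : Eis) {F : Eis → ℂ} (hP : Per q0 F) (hB : Bd1 F)
    (cov : ∀ s, q1 ∣ s - 1 → IsCoprime s q0 → ∃ ξ : ℂ, ‖ξ‖ = 1 ∧ ∀ r, F (r * s) = ξ * F r) :
    ∃ (I : Finset (Eis × Eis)) (Fi Fs : Eis × Eis → Eis → ℂ),
      (I.card : ℝ) ≤ 9 * ((ball (N q0)).filter (· ∣ q0)).card ∧
      (∀ r, F r = ∑ i ∈ I, Fi i r) ∧
      ∀ i ∈ I, i.2 ∣ q0 ∧ (∀ r, ‖Fi i r‖ ≤ ab q0) ∧ (∀ r, ‖Fs i r‖ ≤ ab q0) ∧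
        Per (9 * q0) (Fs i) ∧
        ∀ h, P0 h → IsCoprime h q0 → q1 ∣ h - hs → ∃ e : ℂ, ‖e‖ ≤ 1 ∧
          Vor (fun r => T.tau 1 0 r * ang o r * Fi i r * chi 1 r h)
            (fun r => T.tau i.1 i.2 r * ang (!o) r * Fs i r * quad r h) (N h * N i.2) e := by
  choose A q hc hn hq hy using du_pair hq0
  choose d hd using fun y => exists_del (hc y) (hn y)
  have hq' : ∀ y, q y ≠ 0 := fun y => ne_zero_of_dvd_ne_zero hq0 (hq y)
  obtain ⟨h', hh'⟩ : ∃ h', IsCoprime h' q0 ∧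
      ∀ h, IsCoprime h q0 → q1 ∣ h - hs → q1 ∣ h * h' - 1 := by
    by_cases hex : ∃ h, IsCoprime h q0 ∧ q1 ∣ h - hs
    · obtain ⟨h0, k1, k2⟩ := hex
      obtain ⟨b, hb⟩ := du_exists_inv k1
      refine ⟨b, du_cop_of_inv hb, fun h _ k3 => ?_⟩
      have := dvd_add ((dvd_sub k3 k2).mul_right b) (h1.trans hb)
      rwa [show (h - hs - (h0 - hs)) * b + (h0 * b - 1) = h * b - 1 by ring] at this
    · exact ⟨1, isCoprime_one_left, fun h k1 k2 => absurd ⟨h, k1, k2⟩ hex⟩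
  have trans : ∀ s y y', (9 : Eis) ∣ s - 1 → IsCoprime s q0 → q0 ∣ y' - s * y →
      (A y' % 3, q y') = (A y % 3, q y) ∧ kz (A y') (q y) = kz (A y) (q y) * cub (q y) s ∧
        9 * q y ∣ d y' * s - d y := by
    rintro s y y' k1 k2 ⟨z, hz⟩
    have k3 : 9 * q y ∣ A y * s + 9 * q y * z - A y * s := ⟨z, by ring⟩
    obtain ⟨k4, k5⟩ := du_kz_mul (hn y) k1 k3
    have k6 : IsCoprime (A y * s + 9 * q y * z) (q y) := by
      rw [show 9 * q y * z = 9 * z * q y by ring]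
      exact ((hc y).mul_left (k2.of_isCoprime_of_dvd_right (hq y))).add_mul_right_left _
    obtain ⟨k7, k8⟩ := du_unique (hc y') (hn y') k6 (du_nrmd (hn y) k4 (by simp)) (hq' y')
      (mul_right_cancel₀ hq0 (by
        linear_combination q y' * s * hy y - q y * hy y' + 9 * q y * q y' * hz))
    have k9 := hd y'
    rw [k7, k8] at k9
    rw [k7, k8, mod_eq_of_dvd_sub k4]
    exact ⟨rfl, k5, du_del_mul (hn y) k4 k3 (hd y) k9⟩
  let c : Eis → ℂ := fun y => gauss F q0 (-y) / (N q0 : ℂ)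
  let S : Eis × Eis → Finset Eis := fun i => (res q0).filter fun y => (A y % 3, q y) = i
  have hl1 : ∀ (i : Eis × Eis) (f : Eis → ℂ), (∀ y, ‖f y‖ ≤ ‖c y‖) → ‖∑ y ∈ S i, f y‖ ≤ ab q0 :=
    fun i f hf => ((norm_sum_le _ _).trans (Finset.sum_le_sum fun y _ => hf y)).trans
      ((Finset.sum_le_sum_of_subset_of_nonneg (Finset.filter_subset _ _)
        fun _ _ _ => norm_nonneg _).trans (fourier_l1 hq0 hB))
  refine ⟨(res q0).image fun y => (A y % 3, q y),
    fun i r => ∑ y ∈ S i, c y * psi (9 * i.2) (r * A y),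
    fun i r => ∑ y ∈ S i, c y * kz (A y) i.2 * psi (9 * i.2) (-(r * (d y * h' ^ 2))),
    ?_, fun r => ?_, fun i hi => ?_⟩
  · have h3 : (3 : Eis) ≠ 0 := fun h => du_nine_ne (by linear_combination 3 * h)
    have k1 : ((res q0).image fun y => (A y % 3, q y)) ⊆
        res 3 ×ˢ (ball (N q0)).filter (· ∣ q0) := by
      intro i hi
      obtain ⟨y, -, rfl⟩ := Finset.mem_image.1 hi
      exact Finset.mem_product.2 ⟨mod_mem_res h3 _, Finset.mem_filter.2
        ⟨mem_ball.2 ⟨hq' y, N_le_of_dvd hq0 (hq y)⟩, hq y⟩⟩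
    have k2 : (((res 3 ×ˢ (ball (N q0)).filter (· ∣ q0)).card : ℕ) : ℝ) =
        9 * ((ball (N q0)).filter (· ∣ q0)).card := by
      have k3 := N_natCast 3
      rw [Finset.card_product, Nat.cast_mul, card_res h3]
      norm_num at k3
      rw [k3]
    rw [← k2]
    exact_mod_cast Finset.card_le_card k1
  · rw [fourier_inv hq0 hP r, ← Finset.sum_fiberwise_of_maps_to
      (g := fun y => (A y % 3, q y)) fun y hy => Finset.mem_image_of_mem _ hy]
    refine Finset.sum_congr rfl fun i _ => Finset.sum_congr rfl fun y hy' => ?_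
    rw [← (Finset.mem_filter.1 hy').2, du_psi_pair hq0 (hq y) (hy y)]
  obtain ⟨y0, -, rfl⟩ := Finset.mem_image.1 hi
  refine ⟨hq y0, fun r => hl1 _ _ fun y => ?_, fun r => hl1 _ _ fun y => ?_, ?_,
    fun h k1 k2 k3 => ?_⟩
  · rw [norm_mul, norm_psi, mul_one]
  · rw [norm_mul, norm_mul, norm_psi, mul_one]
    exact mul_le_of_le_one_right (norm_nonneg _) (du_norm_kz _ _)
  · refine Per.of_congr fun r r' hr => Finset.sum_congr rfl fun y _ => ?_
    rw [psi_congr (y := -(r' * (d y * h' ^ 2)))]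
    have := (((mul_dvd_mul_left 9 (hq y0)).trans hr).mul_right (d y * h' ^ 2)).neg_right
    rwa [show -((r - r') * (d y * h' ^ 2)) = -(r * (d y * h' ^ 2)) - -(r' * (d y * h' ^ 2)) by ring]
      at this
  have k4 : IsCoprime h (q y0) := k2.of_isCoprime_of_dvd_right (hq y0)
  obtain ⟨n, hn'⟩ := du_exists_inv ((du_cop_nine k1.1.1).mul_right k4)
  obtain ⟨e, he, hV⟩ := du_one T o (S := S (A y0 % 3, q y0)) (c := c) (A := A) (d := d)
    (A0 := A y0 % 3) (hq' y0) (fun y hy' => by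
      have k5 := Prod.mk.inj (Finset.mem_filter.1 hy').2
      rw [← k5.1, ← k5.2]
      exact ⟨hc y, hn y, hd y, dvd_sub_mod _ _⟩) k1 k4 hn'
  have hs1 : q1 ∣ (h * h') ^ 2 - 1 := by
    have := (hh'.2 h k2 k3).mul_right (h * h' + 1)
    rwa [show (h * h' - 1) * (h * h' + 1) = (h * h') ^ 2 - 1 by ring] at this
  have hs2 : IsCoprime ((h * h') ^ 2) q0 := (k2.mul_left hh'.1).pow_left
  obtain ⟨ξ, hξ, hξ'⟩ := cov _ hs1 hs2
  have hcub := norm_cub (hs2.of_isCoprime_of_dvd_right (hq y0)).symm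
  have hcub' : cub (q y0) ((h * h') ^ 2) ≠ 0 := by
    rw [← norm_ne_zero_iff, hcub]
    exact one_ne_zero
  have key : ∀ r, ∑ y ∈ S (A y0 % 3, q y0),
      c y * kz (A y) (q y0) * psi (9 * q y0) (-(r * (d y * n ^ 2))) =
      ξ / cub (q y0) ((h * h') ^ 2) * ∑ y ∈ S (A y0 % 3, q y0),
        c y * kz (A y) (q y0) * psi (9 * q y0) (-(r * (d y * h' ^ 2))) := by
    intro r
    have hper : Per q0 fun y => if (A y % 3, q y) = (A y0 % 3, q y0) then
        c y * kz (A y) (q y0) * psi (9 * q y0) (-(r * (d y * h' ^ 2))) else 0 := by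
      refine Per.of_congr fun y' y hyy => ?_
      obtain ⟨t1, t2, t3⟩ := trans 1 y y' (by simp) isCoprime_one_left (by rwa [one_mul])
      rw [t1]
      split_ifs with t4
      · rw [← (Prod.mk.inj t4).2, t2, cub_one_right, mul_one]
        simp only [c]
        rw [du_per_gauss q0 F hyy, psi_congr (y := -(r * (d y * h' ^ 2)))]
        have := (t3.mul_left (r * h' ^ 2)).neg_right
        rwa [show -(r * h' ^ 2 * (d y' * 1 - d y)) =
          -(r * (d y' * h' ^ 2)) - -(r * (d y * h' ^ 2)) by ring] at this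
      · rfl
    simp only [S]
    rw [Finset.sum_filter, Finset.sum_filter, ← sum_res_affine hq0 hper hs2 0, Finset.mul_sum]
    refine Finset.sum_congr rfl fun y _ => ?_
    obtain ⟨t1, t2, t3⟩ := trans _ y ((h * h') ^ 2 * y + 0) (h9.trans hs1) hs2 (by simp)
    rw [t1]
    split_ifs with t4
    · have t5 := (Prod.mk.inj t4).2
      rw [← t5] at hn' hcub' ⊢
      rw [t2, psi_congr (y := -(r * (d ((h * h') ^ 2 * y + 0) * h' ^ 2)))]
      · simp only [c]
        rw [du_gauss_cov hq0 hP hs2 hξ' y]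
        field_simp
      · have := dvd_sub (t3.mul_left (r * n ^ 2))
          (hn'.mul_left (r * d ((h * h') ^ 2 * y + 0) * h' ^ 2 * (h * n + 1)))
        generalize d ((h * h') ^ 2 * y + 0) = D at this ⊢
        rwa [show r * n ^ 2 * (D * (h * h') ^ 2 - d y) - r * D * h' ^ 2 * (h * n + 1) * (h * n - 1) =
          -(r * (d y * n ^ 2)) - -(r * (D * h' ^ 2)) by ring] at this
    · rw [mul_zero]
  refine ⟨e * (ξ / cub (q y0) ((h * h') ^ 2)), ?_, fun v hv => ?_⟩
  · rw [norm_mul, norm_div, hξ, hcub, div_one, mul_one]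
    exact he
  · rw [hV v hv, mul_assoc e, ← du_Phi_mul (ξ / _)]
    congr 2
    funext r
    rw [key]
    ring

end Vale.Agent.P026
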