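import Vale.Agent.P026.Kub
import Vale.Agent.P026.Kap

/-! Auxiliary lemmas for the twisted Voronoi identity: linearity and normalised pairs. -/

namespace Vale.Agent.P026

open Eis Complex
open scoped Classical ComplexConjugate

/-- Linear growth. -/
def DuGr (a : Eis → ℂ) : Prop := ∃ C : ℝ, ∀ r, ‖a r‖ ≤ C * ab r

theorem DuGr.summable {a : Eis → ℂ} (h : DuGr a) {v : ℝ} (hv : 0 < v) :
    Summable (fun r : Eis => a r * (kap (ab r * v) : ℂ)) := by
  obtain ⟨C, hC⟩ := h
  refine Summable.of_norm_bounded ((summable_kap 1 hv).mul_left C) fun r => ?_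
  have h1 := kap_nonneg (mul_nonneg (ab_nonneg r) hv.le)
  rw [norm_mul, Complex.norm_real, Real.norm_of_nonneg h1, pow_one, ← mul_assoc]
  exact mul_le_mul_of_nonneg_right (hC r) h1

theorem du_gr (T : Theta) (A q : Eis) (o : Bool) (c : Eis) (x : Eis → Eis) :
    DuGr (fun r => T.tau A q r * ang o r * psi c (x r)) := by
  refine ⟨T.C, fun r => ?_⟩
  rw [norm_mul, norm_mul, norm_psi, mul_one]
  exact (mul_le_of_le_one_right (norm_nonneg _) (norm_ang_le o r)).trans (T.bound A q r)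

theorem du_Phi_sum {ι : Type} (S : Finset ι) (c : ι → ℂ) (a : ι → Eis → ℂ)
    (ha : ∀ j, DuGr (a j)) {v : ℝ} (hv : 0 < v) :
    Phi (fun r => ∑ j ∈ S, c j * a j r) v = ∑ j ∈ S, c j * Phi (a j) v := by
  unfold Phi
  simp only [Finset.sum_mul, mul_assoc]
  rw [Summable.tsum_finsetSum fun j _ => ((ha j).summable hv).mul_left (c j), Finset.mul_sum]
  refine Finset.sum_congr rfl fun j _ => ?_
  rw [tsum_mul_left]
  ring

theorem du_Phi_mul (e : ℂ) (a : Eis → ℂ) (v : ℝ) : Phi (fun r => e * a r) v = e * Phi a v := by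
  unfold Phi
  simp only [mul_assoc]
  rw [tsum_mul_left]
  ring

theorem du_Vor_sum {ι : Type} (S : Finset ι) (c e : ι → ℂ) (a b : ι → Eis → ℂ)
    (ha : ∀ j, DuGr (a j)) (hb : ∀ j, DuGr (b j)) {Q : ℝ} (hQ : 0 < Q)
    (h : ∀ j ∈ S, c j ≠ 0 → Vor (a j) (b j) Q (e j)) {a' b' : Eis → ℂ} {e' : ℂ}
    (h1 : ∀ r, a' r = ∑ j ∈ S, c j * a j r) (h2 : ∀ r, ∑ j ∈ S, c j * e j * b j r = e' * b' r) :
    Vor a' b' Q e' := by
  intro v hv
  rw [← du_Phi_mul, ← funext h2, funext h1, du_Phi_sum S c a ha hv,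
    du_Phi_sum S _ b hb (by positivity)]
  refine Finset.sum_congr rfl fun j hj => ?_
  by_cases hc : c j = 0
  · simp [hc]
  · rw [h j hj hc v hv, mul_assoc]

theorem du_lam_three : lam ∣ 3 := ⟨-lam, by linear_combination lam_sq⟩

theorem du_cop_nine {x : Eis} (hx : Prim x) : IsCoprime x 9 := by
  have := hx.coprime_three.mul_right hx.coprime_three
  rwa [show (3 : Eis) * 3 = 9 by norm_num] at this

theorem du_prim_iff {A B : Eis} (h : (3 : Eis) ∣ B - A) : Prim B ↔ Prim A :=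
  ⟨fun hB => hB.of_dvd_sub (by rwa [← dvd_neg, neg_sub]), fun hA => hA.of_dvd_sub h⟩

theorem du_nrmd {A q B Q : Eis} (hn : Nrmd A q) (h : (3 : Eis) ∣ B - A) (h' : (3 : Eis) ∣ Q - q) :
    Nrmd B Q := by
  rcases hn with hA | ⟨hA, hq⟩
  · exact Or.inl (hA.of_dvd_sub h)
  · refine Or.inr ⟨?_, hq.of_dvd_sub h'⟩
    have := dvd_add (du_lam_three.trans h) hA
    rwa [sub_add_cancel] at this

theorem du_prim_q {A q : Eis} (hn : Nrmd A q) (hA : ¬ Prim A) : Prim q :=
  (hn.resolve_left hA).2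

theorem du_pair {q0 : Eis} (hq0 : q0 ≠ 0) (y : Eis) :
    ∃ A q, IsCoprime A q ∧ Nrmd A q ∧ q ∣ q0 ∧ 9 * y * q = A * q0 := by
  obtain ⟨A, q, g, h1, h2, h3⟩ := UniqueFactorizationMonoid.exists_reduced_factors' (9 * y) q0 hq0
  have hc : IsCoprime A q := h1.isCoprime
  have key : ∀ u : Eis, IsUnit u → Nrmd (u * A) (u * q) →
      ∃ A q, IsCoprime A q ∧ Nrmd A q ∧ q ∣ q0 ∧ 9 * y * q = A * q0 := fun u hu hn =>
    ⟨u * A, u * q, (isCoprime_mul_unit_left hu _ _).2 hc, hn,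
      (hu.mul_left_dvd).2 ⟨g, by rw [← h3, mul_comm]⟩, by rw [← h2, ← h3]; ring⟩
  by_cases hl : lam ∣ A
  · have hq : ¬ lam ∣ q := fun h => prime_lam.not_isUnit (hc.isUnit_of_dvd' hl h)
    obtain ⟨u, hu, hp⟩ := exists_prim_assoc hq
    exact key u hu (Or.inr ⟨hl.mul_left u, hp⟩)
  · obtain ⟨u, hu, hp⟩ := exists_prim_assoc hl
    exact key u hu (Or.inl hp)

theorem du_unique {A q A' q' : Eis} (hc : IsCoprime A q) (hn : Nrmd A q) (hc' : IsCoprime A' q')
    (hn' : Nrmd A' q') (hq : q ≠ 0) (h : A * q' = A' * q) : A = A' ∧ q = q' := by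
  have h1 : q ∣ q' := hc.symm.dvd_of_dvd_mul_left ⟨A', by rw [h, mul_comm]⟩
  have h2 : q' ∣ q := hc'.symm.dvd_of_dvd_mul_left ⟨A, by rw [← h, mul_comm]⟩
  have h3 := associated_of_dvd_dvd h1 h2
  have h4 : Associated A A' := by
    obtain ⟨u, rfl⟩ := h3
    exact ⟨u, mul_right_cancel₀ hq (by rw [← h]; ring)⟩
  by_cases hA : Prim A
  · have hA' : Prim A' := by
      rcases hn' with h5 | ⟨h5, -⟩
      · exact h5
      · exact absurd (h5.trans h4.symm.dvd) hA.not_lam_dvd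
    have h5 := hA.eq_of_associated hA' h4
    subst h5
    exact ⟨rfl, (mul_left_cancel₀ hA.ne_zero h).symm⟩
  · have hA' : ¬ Prim A' := fun h5 => h5.not_lam_dvd ((hn.resolve_left hA).1.trans h4.dvd)
    have h5 := (du_prim_q hn hA).eq_of_associated (du_prim_q hn' hA') h3
    subst h5
    exact ⟨mul_right_cancel₀ hq h, rfl⟩

theorem du_nine_ne : (9 : Eis) ≠ 0 := fun h => by
  have := congrArg Eis.a h
  simp at this

theorem du_psi_pair {q0 y A q : Eis} (hq0 : q0 ≠ 0) (hq : q ∣ q0) (h : 9 * y * q = A * q0)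
    (r : Eis) : psi q0 (r * y) = psi (9 * q) (r * A) := by
  obtain ⟨k, rfl⟩ := hq
  have hq := left_ne_zero_of_mul hq0
  have hk := right_ne_zero_of_mul hq0
  have h1 : 9 * y = A * k := mul_right_cancel₀ hq (by rw [h]; ring)
  rw [← psi_mul_left hk (9 * q), ← psi_mul_left du_nine_ne (q * k)]
  congr 1
  · ring
  · linear_combination r * h1

theorem du_norm_kz (A q : Eis) : ‖kz A q‖ ≤ 1 := by
  unfold kz
  split_ifs <;> exact norm_cub_le _ _

/-- Multiplying the numerator by an element congruent to one modulo nine. -/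
theorem du_kz_mul {A q B s : Eis} (hn : Nrmd A q) (hs : (9 : Eis) ∣ s - 1)
    (h : 9 * q ∣ B - A * s) : (3 : Eis) ∣ B - A ∧ kz B q = kz A q * cub q s := by
  have h39 : (3 : Eis) ∣ 9 := ⟨3, by norm_num⟩
  have h9 : (9 : Eis) ∣ B - A * s := (dvd_mul_right _ _).trans h
  have hq : q ∣ B - A * s := (dvd_mul_left _ _).trans h
  have hs' : Prim s := h39.trans hs
  have h3 : (3 : Eis) ∣ B - A := by
    have := dvd_add h9 (hs.mul_left A)
    rw [show B - A * s + A * (s - 1) = B - A by ring] at this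
    exact h39.trans this
  refine ⟨h3, ?_⟩
  unfold kz
  by_cases hA : Prim A
  · rw [if_pos hA, if_pos ((du_prim_iff h3).2 hA), cub_per ((du_prim_iff h3).2 hA) h9 hq,
      cub_mul_right _ hA.ne_zero hs'.ne_zero]
  · have hp := du_prim_q hn hA
    rw [if_neg hA, if_neg (mt (du_prim_iff h3).1 hA), cub_congr hq,
      cub_mul_left _ _ hp.not_lam_dvd, cub_recip hs' hp]

theorem du_del_mul {A q B s d d' : Eis} (hn : Nrmd A q) (h3 : (3 : Eis) ∣ B - A)
    (h : 9 * q ∣ B - A * s) (hd : IsDel A q d) (hd' : IsDel B q d') : 9 * q ∣ d' * s - d := by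
  have key : ∀ m : Eis, m ∣ B - A * s → m ∣ d * A - 1 → m ∣ d' * B - 1 → m ∣ d' * s - d := by
    intro m h1 h2 h4
    have := dvd_sub (dvd_sub (h4.mul_left d) (h2.mul_left (d' * s))) (h1.mul_left (d * d'))
    rwa [show d * (d' * B - 1) - d' * s * (d * A - 1) - d * d' * (B - A * s) = d' * s - d by ring]
      at this
  unfold IsDel at hd hd'
  by_cases hA : Prim A
  · rw [if_pos hA] at hd
    rw [if_pos ((du_prim_iff h3).2 hA)] at hd'
    exact key _ h hd hd'
  · rw [if_neg hA] at hd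
    rw [if_neg (mt (du_prim_iff h3).1 hA)] at hd'
    exact (du_cop_nine (du_prim_q hn hA)).symm.mul_dvd (dvd_sub (hd'.2.mul_right s) hd.2)
      (key _ ((dvd_mul_left _ _).trans h) hd.1 hd'.1)

/-- The pair attached to a product of a fraction modulo `h` and a fraction modulo `9 q`. -/
theorem du_big {A q d h a b m n : Eis} (hc : IsCoprime A q) (hn : Nrmd A q) (hd : IsDel A q d)
    (hh : Prim h) (hq : IsCoprime h q) (hab : h ∣ a * b - 1) (hm : h ∣ 9 * q * m - 1)
    (hn' : 9 * q ∣ h * n - 1) :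
    IsCoprime (9 * a * q + A * h) (h * q) ∧ Nrmd (9 * a * q + A * h) (h * q) ∧
      (3 : Eis) ∣ 9 * a * q + A * h - A ∧ (3 : Eis) ∣ h * q - q ∧
      IsDel (9 * a * q + A * h) (h * q) (9 * q * (b * m ^ 2) + h * (d * n ^ 2)) ∧
      kz (9 * a * q + A * h) (h * q) = cub 9 h * cub a h * cub q h ^ 2 * kz A q := by
  have h3 : (3 : Eis) ∣ 9 * a * q + A * h - A := by
    obtain ⟨c, hc⟩ := hh
    exact ⟨3 * a * q + A * c, by linear_combination A * hc⟩
  have h3' : (3 : Eis) ∣ h * q - q := by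
    obtain ⟨c, hc⟩ := hh
    exact ⟨c * q, by linear_combination q * hc⟩
  have hDh : h ∣ (9 * q * (b * m ^ 2) + h * (d * n ^ 2)) * (9 * a * q + A * h) - 1 := by
    obtain ⟨c1, h1⟩ := hab
    obtain ⟨c2, h2⟩ := hm
    exact ⟨(9 * q * m) ^ 2 * c1 + (9 * q * m + 1) * c2 + 9 * q * (b * m ^ 2) * A +
      d * n ^ 2 * (9 * a * q + A * h), by
        linear_combination (9 * q * m) ^ 2 * h1 + (9 * q * m + 1) * h2⟩
  have hDq : ∀ k : Eis, k ∣ 9 * q → k ∣ d * A - 1 →
      k ∣ (9 * q * (b * m ^ 2) + h * (d * n ^ 2)) * (9 * a * q + A * h) - 1 := by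
    intro k h1 h2
    have h4 := dvd_add (dvd_add (h1.mul_right (b * m ^ 2 * (9 * a * q + A * h) + h * d * n ^ 2 * a))
      (h2.mul_left ((h * n) ^ 2))) ((h1.trans hn').mul_left (h * n + 1))
    rwa [show 9 * q * (b * m ^ 2 * (9 * a * q + A * h) + h * d * n ^ 2 * a) +
      (h * n) ^ 2 * (d * A - 1) + (h * n + 1) * (h * n - 1) =
      (9 * q * (b * m ^ 2) + h * (d * n ^ 2)) * (9 * a * q + A * h) - 1 by ring] at h4
  have hBh : h ∣ 9 * a * q + A * h - 9 * a * q := ⟨A, by ring⟩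
  have hBq : q ∣ 9 * a * q + A * h - A * h := ⟨9 * a, by ring⟩
  have hcub : cub (9 * a * q + A * h) h = cub 9 h * cub a h * cub q h := by
    rw [cub_congr hBh, cub_mul_left _ _ hh.not_lam_dvd, cub_mul_left _ _ hh.not_lam_dvd]
  refine ⟨IsCoprime.mul_right ?_ ?_, du_nrmd hn h3 h3', h3, h3', ?_, ?_⟩
  · obtain ⟨c, hc⟩ := hDh
    exact ⟨9 * q * (b * m ^ 2) + h * (d * n ^ 2), -c, by linear_combination hc⟩
  · rw [add_comm]
    exact (hc.mul_left hq).add_mul_right_left _
  · unfold IsDel at hd ⊢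
    by_cases hA : Prim A
    · rw [if_pos hA] at hd
      rw [if_pos ((du_prim_iff h3).2 hA), mul_left_comm]
      exact ((du_cop_nine hh).mul_right hq).mul_dvd hDh (hDq _ dvd_rfl hd)
    · rw [if_neg hA] at hd
      rw [if_neg (mt (du_prim_iff h3).1 hA)]
      refine ⟨hq.mul_dvd hDh (hDq _ (dvd_mul_left _ _) hd.1), dvd_add ?_ ?_⟩
      · exact ⟨q * (b * m ^ 2), by ring⟩
      · exact (hd.2.mul_right _).mul_left _
  · unfold kz
    by_cases hA : Prim A
    · have hB := (du_prim_iff h3).2 hA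
      rw [if_pos hA, if_pos hB, cub_mul_left _ _ hB.not_lam_dvd, cub_recip hh hB, hcub,
        cub_per hB ⟨a * q, by ring⟩ hBq, cub_mul_right _ hA.ne_zero hh.ne_zero]
      ring
    · have hp := du_prim_q hn hA
      rw [if_neg hA, if_neg (mt (du_prim_iff h3).1 hA), cub_mul_right _ hh.ne_zero hp.ne_zero, hcub,
        cub_congr hBq, cub_mul_left _ _ hp.not_lam_dvd, cub_recip hh hp]
      ring

theorem du_psi_split {h k : Eis} (hh : h ≠ 0) (hk : k ≠ 0) (x y : Eis) :
    psi (h * k) (k * x + h * y) = psi h x * psi k y := by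
  rw [psi_add, psi_mul_left hk, mul_comm h k, psi_mul_left hh]

theorem du_exists_inv {a c : Eis} (h : IsCoprime a c) : ∃ b, c ∣ a * b - 1 := by
  obtain ⟨u, v, h⟩ := h
  exact ⟨u, -v, by linear_combination h⟩

theorem du_cop_of_inv {a b c : Eis} (h : c ∣ a * b - 1) : IsCoprime b c := by
  obtain ⟨v, h⟩ := h
  exact ⟨a, -v, by linear_combination h⟩

/-- Inversion modulo `h`, and the resulting quadratic Gauss sum. -/
theorem du_inv {h : Eis} (hh : P0 h) : ∃ g : Eis → Eis,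
    (∀ a, IsCoprime a h → h ∣ a * g a - 1) ∧ ∀ x m, IsCoprime m h →
      ∑ a ∈ res h, chi 2 a h * cub a h * psi h (-(x * (g a * m ^ 2))) =
        quad (-1) h * quad x h * (ab h : ℂ) * Gt 0 h := by
  have h2 := hh.1.2
  have hex : ∀ a, ∃ b, (IsCoprime a h → h ∣ a * b - 1) ∧ (¬ IsCoprime a h → b = a) := by
    intro a
    by_cases ha : IsCoprime a h
    · obtain ⟨b, hb⟩ := du_exists_inv ha
      exact ⟨b, fun _ => hb, fun h => absurd ha h⟩
    · exact ⟨a, fun h => absurd h ha, fun _ => rfl⟩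
  choose g hg hg' using hex
  refine ⟨g, hg, fun x m hm => ?_⟩
  have hcong : ∀ a b, h ∣ a - b → IsCoprime a h → IsCoprime b h := by
    rintro a b ⟨c, hc⟩ ha
    have := ha.add_mul_left_left (-c)
    rwa [show a + h * -c = b by linear_combination hc] at this
  have hinj : ∀ a b, h ∣ g a - g b → h ∣ a - b := by
    intro a b hab
    by_cases ha : IsCoprime a h <;> by_cases hb : IsCoprime b h
    · have := dvd_sub (dvd_sub ((hg a ha).mul_left b) ((hg b hb).mul_left a)) (hab.mul_left (a * b))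
      rwa [show b * (a * g a - 1) - a * (b * g b - 1) - a * b * (g a - g b) = a - b by ring] at this
    · rw [hg' b hb] at hab
      exact absurd (hcong _ _ hab (du_cop_of_inv (hg a ha))) hb
    · rw [hg' a ha, ← dvd_neg, neg_sub] at hab
      exact absurd (hcong _ _ hab (du_cop_of_inv (hg b hb))) ha
    · rwa [hg' a ha, hg' b hb] at hab
  have hper : Per h (fun b => chi 0 b h * psi h (-(x * m ^ 2) * b)) :=
    (Per.of_congr fun _ _ hab => chi_congr 0 hab).mul (per_psi h _)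
  have h3 := sum_res_reindex hh.ne_zero hper g hinj
  have h4 := gauss_chi (j := 0) (j' := 0) (by norm_num) hh (-(x * m ^ 2))
  unfold gauss at h4
  rw [h4, chi_zero_eq, ← neg_one_mul, quad_mul_left _ _ h2, quad_mul_left _ _ h2,
    quad_pow_left _ h2, quad_sq hm, mul_one] at h3
  rw [← h3]
  refine Finset.sum_congr rfl fun a _ => ?_
  rw [chi_zero_eq, show -1 * (x * m ^ 2) * g a = -(x * (g a * m ^ 2)) by ring]
  congr 1
  by_cases ha : IsCoprime a h
  · have h5 : quad a h * quad (g a) h = 1 := by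
      rw [← quad_mul_left _ _ h2, quad_congr (hg a ha), quad_one_left h2]
    have h6 := quad_sq ha
    have h7 := cub_cube ha
    unfold chi
    linear_combination quad a h * h7 + quad (g a) h * h6 - quad a h * h5
  · rw [hg' a ha, (quad_eq_zero hh.ne_zero).2 ha, (cub_eq_zero hh.ne_zero).2 ha, mul_zero]

/-- Covariance of the Fourier coefficients. -/
theorem du_gauss_cov {q0 s : Eis} (hq0 : q0 ≠ 0) {F : Eis → ℂ} (hP : Per q0 F)
    (hs : IsCoprime s q0) {ξ : ℂ} (h : ∀ r, F (r * s) = ξ * F r) (y : Eis) :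
    gauss F q0 (-y) = ξ * gauss F q0 (-(s * y + 0)) := by
  unfold gauss
  rw [← sum_res_affine hq0 (hP.mul (per_psi q0 (-y))) hs 0, Finset.mul_sum]
  refine Finset.sum_congr rfl fun x _ => ?_
  rw [add_zero, add_zero, mul_comm s x, h, mul_assoc]
  congr 3
  ring

theorem du_per_gauss (q0 : Eis) (F : Eis → ℂ) {y y' : Eis} (h : q0 ∣ y - y') :
    gauss F q0 (-y) = gauss F q0 (-y') := by
  unfold gauss
  refine Finset.sum_congr rfl fun x _ => ?_
  rw [psi_congr (y := -y' * x)]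
  have := (h.mul_right x).neg_right
  rwa [show -((y - y') * x) = -y * x - -y' * x by ring] at this

end Vale.Agent.P026
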