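import Mathlib

/-! Eisenstein integers a + b ω with ω ^ 2 + ω + 1 = 0: ring structure, norm, Euclidean division. -/

namespace Vale.Agent.P026

@[ext] structure Eis where
  a : ℤ
  b : ℤ
  deriving DecidableEq

namespace Eis

instance : Zero Eis := ⟨⟨0, 0⟩⟩
instance : One Eis := ⟨⟨1, 0⟩⟩
instance : Add Eis := ⟨fun x y => ⟨x.a + y.a, x.b + y.b⟩⟩
instance : Neg Eis := ⟨fun x => ⟨-x.a, -x.b⟩⟩
instance : Sub Eis := ⟨fun x y => ⟨x.a - y.a, x.b - y.b⟩⟩
instance : Mul Eis := ⟨fun x y => ⟨x.a * y.a - x.b * y.b, x.a * y.b + x.b * y.a - x.b * y.b⟩⟩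
instance : NatCast Eis := ⟨fun n => ⟨n, 0⟩⟩
instance : IntCast Eis := ⟨fun n => ⟨n, 0⟩⟩
instance : SMul ℕ Eis := ⟨fun n x => ⟨n * x.a, n * x.b⟩⟩
instance : SMul ℤ Eis := ⟨fun n x => ⟨n * x.a, n * x.b⟩⟩

@[simp] theorem zero_a : (0 : Eis).a = 0 := rfl
@[simp] theorem zero_b : (0 : Eis).b = 0 := rfl
@[simp] theorem one_a : (1 : Eis).a = 1 := rfl
@[simp] theorem one_b : (1 : Eis).b = 0 := rfl
@[simp] theorem add_a (x y : Eis) : (x + y).a = x.a + y.a := rfl
@[simp] theorem add_b (x y : Eis) : (x + y).b = x.b + y.b := rfl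
@[simp] theorem neg_a (x : Eis) : (-x).a = -x.a := rfl
@[simp] theorem neg_b (x : Eis) : (-x).b = -x.b := rfl
@[simp] theorem sub_a (x y : Eis) : (x - y).a = x.a - y.a := rfl
@[simp] theorem sub_b (x y : Eis) : (x - y).b = x.b - y.b := rfl
@[simp] theorem mul_a (x y : Eis) : (x * y).a = x.a * y.a - x.b * y.b := rfl
@[simp] theorem mul_b (x y : Eis) : (x * y).b = x.a * y.b + x.b * y.a - x.b * y.b := rfl
@[simp] theorem natCast_a (n : ℕ) : (n : Eis).a = n := rfl
@[simp] theorem natCast_b (n : ℕ) : (n : Eis).b = 0 := rfl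
@[simp] theorem intCast_a (n : ℤ) : (n : Eis).a = n := rfl
@[simp] theorem intCast_b (n : ℤ) : (n : Eis).b = 0 := rfl
@[simp] theorem nsmul_a (n : ℕ) (x : Eis) : (n • x).a = n * x.a := rfl
@[simp] theorem nsmul_b (n : ℕ) (x : Eis) : (n • x).b = n * x.b := rfl
@[simp] theorem zsmul_a (n : ℤ) (x : Eis) : (n • x).a = n * x.a := rfl
@[simp] theorem zsmul_b (n : ℤ) (x : Eis) : (n • x).b = n * x.b := rfl

instance : CommRing Eis where
  add_assoc x y z := by ext <;> simp <;> ring
  zero_add x := by ext <;> simp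
  add_zero x := by ext <;> simp
  add_comm x y := by ext <;> simp <;> ring
  neg_add_cancel x := by ext <;> simp
  sub_eq_add_neg x y := by ext <;> simp <;> ring
  nsmul n x := n • x
  nsmul_zero x := by ext <;> simp
  nsmul_succ n x := by ext <;> simp <;> ring
  zsmul n x := n • x
  zsmul_zero' x := by ext <;> simp
  zsmul_succ' n x := by ext <;> simp <;> ring
  zsmul_neg' n x := by ext <;> simp [Int.negSucc_eq] <;> ring
  mul_assoc x y z := by ext <;> simp <;> ring
  one_mul x := by ext <;> simp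
  mul_one x := by ext <;> simp
  zero_mul x := by ext <;> simp
  mul_zero x := by ext <;> simp
  left_distrib x y z := by ext <;> simp <;> ring
  right_distrib x y z := by ext <;> simp <;> ring
  mul_comm x y := by ext <;> simp <;> ring
  natCast_zero := by ext <;> simp
  natCast_succ n := by ext <;> simp
  intCast_ofNat n := by ext <;> simp
  intCast_negSucc n := by ext <;> simp [Int.negSucc_eq]

@[simp] theorem ofNat_a (n : ℕ) [n.AtLeastTwo] : (ofNat(n) : Eis).a = ofNat(n) := rfl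
@[simp] theorem ofNat_b (n : ℕ) [n.AtLeastTwo] : (ofNat(n) : Eis).b = 0 := rfl

/-- The cube root of unity ω. -/
def om : Eis := ⟨0, 1⟩
/-- λ = 1 + 2 ω = √(-3). -/
def lam : Eis := ⟨1, 2⟩
/-- Complex conjugate. -/
def cj (x : Eis) : Eis := ⟨x.a - x.b, -x.b⟩
/-- The norm, as an integer. -/
def nrm (x : Eis) : ℤ := x.a ^ 2 - x.a * x.b + x.b ^ 2

@[simp] theorem om_a : om.a = 0 := rfl
@[simp] theorem om_b : om.b = 1 := rfl
@[simp] theorem lam_a : lam.a = 1 := rfl
@[simp] theorem lam_b : lam.b = 2 := rfl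
@[simp] theorem cj_a (x : Eis) : (cj x).a = x.a - x.b := rfl
@[simp] theorem cj_b (x : Eis) : (cj x).b = -x.b := rfl

theorem nrm_nonneg (x : Eis) : 0 ≤ nrm x := by
  unfold nrm; nlinarith [sq_nonneg (2 * x.a - x.b), sq_nonneg x.b]

theorem nrm_mul (x y : Eis) : nrm (x * y) = nrm x * nrm y := by
  simp only [nrm, mul_a, mul_b]; ring

theorem nrm_eq_zero {x : Eis} : nrm x = 0 ↔ x = 0 := by
  constructor
  · intro h
    unfold nrm at h
    have hb : x.b = 0 := by nlinarith [sq_nonneg (2 * x.a - x.b), sq_nonneg x.b]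
    have ha : x.a = 0 := by
      rw [hb] at h; nlinarith [sq_nonneg x.a]
    ext <;> simp [ha, hb]
  · rintro rfl; simp [nrm]

theorem nrm_pos {x : Eis} (h : x ≠ 0) : 0 < nrm x :=
  lt_of_le_of_ne (nrm_nonneg x) (fun h' => h (nrm_eq_zero.1 h'.symm))

theorem mul_cj (x : Eis) : x * cj x = (nrm x : Eis) := by
  ext
  · simp only [mul_a, cj_a, cj_b, intCast_a, nrm]; ring
  · simp only [mul_b, cj_a, cj_b, intCast_b]; ring

theorem nrm_cj (x : Eis) : nrm (cj x) = nrm x := by
  simp only [nrm, cj_a, cj_b]; ring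

/-- Rounded quotient. -/
def quo (x y : Eis) : Eis :=
  ⟨(2 * (x * cj y).a + nrm y) / (2 * nrm y), (2 * (x * cj y).b + nrm y) / (2 * nrm y)⟩

theorem nrm_rem_lt (x : Eis) {y : Eis} (hy : y ≠ 0) : nrm (x - y * quo x y) < nrm y := by
  have hn := nrm_pos hy
  set n := nrm y with hn'
  set u := (x * cj y).a
  set v := (x * cj y).b
  have key : nrm (x - y * quo x y) * n
      = nrm (⟨u - n * (quo x y).a, v - n * (quo x y).b⟩ : Eis) := by
    rw [hn', ← nrm_cj y, ← nrm_mul]
    congr 1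
    have : (x - y * quo x y) * cj y = x * cj y - (nrm y : Eis) * quo x y := by
      rw [← mul_cj]; ring
    rw [this, nrm_cj]
    ext <;> simp [u, v]
  have h2n : 0 < 2 * n := by omega
  have a1 := Int.emod_nonneg (2 * u + n) h2n.ne'
  have a2 := Int.emod_lt_of_pos (2 * u + n) h2n
  have a3 := Int.mul_ediv_add_emod (2 * u + n) (2 * n)
  have b1 := Int.emod_nonneg (2 * v + n) h2n.ne'
  have b2 := Int.emod_lt_of_pos (2 * v + n) h2n
  have b3 := Int.mul_ediv_add_emod (2 * v + n) (2 * n)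
  have qa : (quo x y).a = (2 * u + n) / (2 * n) := rfl
  have qb : (quo x y).b = (2 * v + n) / (2 * n) := rfl
  set r := u - n * (quo x y).a
  set s := v - n * (quo x y).b
  have hr1 : -n ≤ 2 * r := by simp only [r, qa]; nlinarith
  have hr2 : 2 * r ≤ n := by simp only [r, qa]; nlinarith
  have hs1 : -n ≤ 2 * s := by simp only [s, qb]; nlinarith
  have hs2 : 2 * s ≤ n := by simp only [s, qb]; nlinarith
  have h1 : (2 * r) ^ 2 ≤ n ^ 2 := sq_le_sq' hr1 hr2
  have h2 : (2 * s) ^ 2 ≤ n ^ 2 := sq_le_sq' hs1 hs2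
  have h3 : nrm (⟨r, s⟩ : Eis) < n * n := by
    simp only [nrm]; nlinarith [sq_nonneg (r + s)]
  rw [← key] at h3
  exact lt_of_mul_lt_mul_right h3 hn.le

instance : Nontrivial Eis := ⟨⟨0, 1, by decide⟩⟩

instance : EuclideanDomain Eis where
  quotient := quo
  quotient_zero x := by ext <;> simp [quo, nrm]
  remainder x y := x - y * quo x y
  quotient_mul_add_remainder_eq x y := by ring
  r x y := (nrm x).natAbs < (nrm y).natAbs
  r_wellFounded := (measure (fun x : Eis => (nrm x).natAbs)).wf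
  remainder_lt x y hy := by
    have := nrm_rem_lt x hy
    have h0 := nrm_nonneg (x - y * quo x y)
    omega
  mul_left_not_lt x y hy := by
    have h1 := nrm_pos hy
    have h2 := nrm_nonneg x
    have h3 : nrm x ≤ nrm (x * y) := by rw [nrm_mul]; nlinarith
    omega

theorem div_def (x y : Eis) : x / y = quo x y := rfl
theorem mod_def (x y : Eis) : x % y = x - y * quo x y := rfl

instance : Countable Eis :=
  (show Function.Injective (fun x : Eis => (x.a, x.b)) from
    fun x y h => by ext <;> simp_all).countable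

/-- The embedding in ℂ, ω ↦ (-1 + √3 i) / 2. -/
noncomputable def toC : Eis →+* ℂ where
  toFun x := ⟨(x.a : ℝ) - (x.b : ℝ) / 2, (x.b : ℝ) * √3 / 2⟩
  map_one' := by apply Complex.ext <;> simp
  map_zero' := by apply Complex.ext <;> simp
  map_add' x y := by apply Complex.ext <;> simp <;> ring
  map_mul' x y := by
    have h3 : √3 * √3 = (3 : ℝ) := Real.mul_self_sqrt (by norm_num)
    apply Complex.ext
    · simp; linear_combination ((x.b : ℝ) * y.b / 4) * h3
    · simp; ring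

@[simp] theorem toC_re (x : Eis) : (toC x).re = (x.a : ℝ) - (x.b : ℝ) / 2 := rfl
@[simp] theorem toC_im (x : Eis) : (toC x).im = (x.b : ℝ) * √3 / 2 := rfl

theorem finite_nrm_le (K : ℝ) : {x : Eis | (nrm x : ℝ) ≤ K}.Finite := by
  obtain ⟨n, hn⟩ := exists_nat_ge K
  have hinj : Function.Injective (fun x : Eis => (x.a, x.b)) := fun x y h => by ext <;> simp_all
  refine Set.Finite.of_finite_image (f := fun x : Eis => (x.a, x.b)) ?_ hinj.injOn
  refine ((Set.finite_Icc (-(2 * n + 1 : ℤ)) (2 * n + 1)).prod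
    (Set.finite_Icc (-(2 * n + 1 : ℤ)) (2 * n + 1))).subset ?_
  rintro _ ⟨x, hx, rfl⟩
  have h : nrm x ≤ n := by
    have : (nrm x : ℝ) ≤ n := le_trans hx hn
    exact_mod_cast this
  unfold nrm at h
  simp only [Set.mem_prod, Set.mem_Icc]
  refine ⟨⟨?_, ?_⟩, ?_, ?_⟩
  · nlinarith [sq_nonneg (x.a - 2 * x.b), sq_nonneg (x.a + 1)]
  · nlinarith [sq_nonneg (x.a - 2 * x.b), sq_nonneg (x.a - 1)]
  · nlinarith [sq_nonneg (2 * x.a - x.b), sq_nonneg (x.b + 1)]
  · nlinarith [sq_nonneg (2 * x.a - x.b), sq_nonneg (x.b - 1)]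

end Eis

end Vale.Agent.P026
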