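import Vale.Agent.P026.Geo2

/-! Auxiliary facts for the Fourier file: uniqueness and a Gaussian integral. -/

namespace Vale.Agent.P026

open Eis Complex MeasureTheory
open scoped Classical ComplexConjugate

/-- A square integrable function orthogonal to all characters pulled back from the torus
vanishes, if the pull back map has a measurable left inverse. -/
theorem fourA_torus {X : Type*} [MeasurableSpace X] {μ : Measure X} [IsFiniteMeasure μ]
    {φ : X → UnitAddTorus (Fin 2)} {ψ : UnitAddTorus (Fin 2) → X} (hφ : Measurable φ)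
    (hψ : Measurable ψ) (hid : ∀ᵐ z ∂μ, ψ (φ z) = z) {f : X → ℂ} (hf : MemLp f 2 μ)
    (h : ∀ n : Fin 2 → ℤ, ∫ z, f z * conj (UnitAddTorus.mFourier n (φ z)) ∂μ = 0) :
    ∀ᵐ z ∂μ, f z = 0 := by
  set ν : Measure (UnitAddTorus (Fin 2)) := μ.map φ with hν
  have hφm : MeasurePreserving φ μ ν := ⟨hφ, rfl⟩
  have hψm : MeasurePreserving ψ ν μ := by
    refine ⟨hψ, ?_⟩
    rw [hν, Measure.map_map hψ hφ]
    have : (ψ ∘ φ) =ᵐ[μ] id := hid
    rw [Measure.map_congr this, Measure.map_id]
  have hF : MemLp (f ∘ ψ) 2 ν := hf.comp_measurePreserving hψm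
  have hd := (ContinuousMap.toLp_denseRange ℂ ν ℂ (p := 2) (by simp)).topologicalClosure_map_submodule
    (UnitAddTorus.span_mFourier_closure_eq_top (d := Fin 2))
  rw [← Submodule.dense_iff_topologicalClosure_eq_top] at hd
  have hz : hF.toLp _ = 0 := by
    refine Dense.eq_zero_of_inner_right (𝕜 := ℂ) hd ?_
    intro v hv
    obtain ⟨g, hg, rfl⟩ := hv
    induction hg using Submodule.span_induction with
    | mem g hg =>
      obtain ⟨n, rfl⟩ := hg
      rw [L2.inner_def]
      have e1 : ∀ᵐ t ∂ν, inner ℂ ((ContinuousMap.toLp (E := ℂ) 2 ν ℂ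
          (UnitAddTorus.mFourier n) : Lp ℂ 2 ν) t) ((hF.toLp _ : Lp ℂ 2 ν) t)
          = f (ψ t) * conj (UnitAddTorus.mFourier n t) := by
        filter_upwards [ContinuousMap.coeFn_toLp (p := 2) (𝕜 := ℂ) ν (UnitAddTorus.mFourier n),
          hF.coeFn_toLp] with t h1 h2
        rw [h1, h2]
        simp
      refine (integral_congr_ae e1).trans ?_
      have hm : AEStronglyMeasurable (fun t => f (ψ t) * conj (UnitAddTorus.mFourier n t)) ν :=
        hF.aestronglyMeasurable.mul
          (Complex.continuous_conj.comp (UnitAddTorus.mFourier n).continuous).aestronglyMeasurable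
      rw [hν, integral_map hφ.aemeasurable hm, ← h n]
      refine integral_congr_ae ?_
      filter_upwards [hid] with z hz
      rw [hz]
    | zero => simp
    | add g g' _ _ h1 h2 => rw [map_add, inner_add_left, h1, h2, add_zero]
    | smul a g _ h1 => rw [map_smul, inner_smul_left, h1, mul_zero]
  have h0 : ∀ᵐ t ∂ν, f (ψ t) = 0 := by
    have h1 := hF.coeFn_toLp
    rw [hz] at h1
    filter_upwards [h1, Lp.coeFn_zero ℂ 2 ν] with t h2 h3
    rw [h3] at h2
    exact h2.symm
  have h1 := hφm.quasiMeasurePreserving.ae h0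
  filter_upwards [h1, hid] with z h2 h3
  rwa [h3] at h2

/-- The phase of eR in real coordinates. -/
theorem fourA_phase (r : Eis) (z : ℂ) :
    2 * (toC r * z / (9 * toC lam)).re
      = r.b * (z.re / 9 + z.im / (9 * √3)) + (r.a - r.b) * (2 * z.im / (9 * √3)) := by
  have h3 : √3 * √3 = (3 : ℝ) := Real.mul_self_sqrt (by norm_num)
  have hp : (0 : ℝ) < √3 := by positivity
  have e : toC r * z / (9 * toC lam) = toC r * z * (-I) * ((1 / (9 * √3) : ℝ) : ℂ) := by
    rw [toC_lam]
    have : ((√3 : ℝ) : ℂ) ≠ 0 := by exact_mod_cast hp.ne'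
    push_cast
    field_simp
    rw [I_sq]; ring
  rw [e, re_mul_ofReal]
  simp only [mul_re, mul_im, neg_re, neg_im, I_re, I_im, toC_re, toC_im]
  field_simp
  linear_combination (0 : ℝ) * h3

theorem fourA_unique {f : ℂ → ℂ} (hf : MemLp f 2 (volume.restrict F9))
    (h : ∀ r : Eis, ∫ z in F9, f z * conj (eR r z) = 0) :
    ∀ᵐ z ∂(volume.restrict F9), f z = 0 := by
  have : IsFiniteMeasure (volume.restrict F9) :=
    ⟨by rw [Measure.restrict_apply_univ, volume_F9]; exact ENNReal.ofReal_lt_top⟩
  have hp : (0 : ℝ) < √3 := by positivity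
  let X : ℂ → ℝ := fun z => z.re / 9 + z.im / (9 * √3)
  let Y : ℂ → ℝ := fun z => 2 * z.im / (9 * √3)
  let φ : ℂ → UnitAddTorus (Fin 2) := fun z => ![(X z : UnitAddCircle), (Y z : UnitAddCircle)]
  let ψ : UnitAddTorus (Fin 2) → ℂ := fun t =>
    9 * ((((AddCircle.measurableEquivIco (1 : ℝ) 0 (t 0)).1 : ℝ) : ℂ)
      + (((AddCircle.measurableEquivIco (1 : ℝ) 0 (t 1)).1 : ℝ) : ℂ) * toC om)
  have hX : Continuous X := by fun_prop
  have hY : Continuous Y := by fun_prop
  have hφ : Measurable φ := by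
    refine measurable_pi_lambda _ (fun i => ?_)
    fin_cases i
    · exact AddCircle.measurable_mk'.comp hX.measurable
    · exact AddCircle.measurable_mk'.comp hY.measurable
  have hψ : Measurable ψ := by
    have h0 : ∀ i : Fin 2, Measurable (fun t : UnitAddTorus (Fin 2) =>
        (((AddCircle.measurableEquivIco (1 : ℝ) 0 (t i)).1 : ℝ) : ℂ)) := fun i =>
      Complex.measurable_ofReal.comp (measurable_subtype_coe.comp
        ((AddCircle.measurableEquivIco (1 : ℝ) 0).measurable.comp (measurable_pi_apply i)))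
    exact ((h0 0).add ((h0 1).mul_const _)).const_mul _
  refine fourA_torus hφ hψ ?_ hf ?_
  · filter_upwards [ae_restrict_mem measurableSet_F9] with z hz
    obtain ⟨x, y, hx, hy, rfl⟩ := hz
    have e1 : X (9 * ((x : ℂ) + y * toC om)) = x := by
      simp only [X, mul_re, mul_im, add_re, add_im, ofReal_re, ofReal_im, toC_re, toC_im, om_a,
        om_b, re_ofNat, im_ofNat]
      push_cast
      field_simp
      ring
    have e2 : Y (9 * ((x : ℂ) + y * toC om)) = y := by
      simp only [Y, mul_re, mul_im, add_re, add_im, ofReal_re, ofReal_im, toC_re, toC_im, om_a,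
        om_b, re_ofNat, im_ofNat]
      push_cast
      field_simp
      ring
    have e3 : ∀ u : ℝ, u ∈ Set.Ico (0 : ℝ) 1 →
        (AddCircle.measurableEquivIco (1 : ℝ) 0 (u : UnitAddCircle)).1 = u := fun u hu =>
      AddCircle.equivIco_coe_of_mem (p := (1 : ℝ)) (a := 0) (by simpa using hu)
    simp only [ψ, φ, e1, e2, Matrix.cons_val_zero, Matrix.cons_val_one, e3 x hx, e3 y hy]
  · intro n
    rw [← h ⟨n 0 + n 1, n 0⟩]
    refine integral_congr_ae (Filter.Eventually.of_forall fun z => ?_)
    have : UnitAddTorus.mFourier n (φ z) = eR ⟨n 0 + n 1, n 0⟩ z := by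
      simp only [UnitAddTorus.mFourier, ContinuousMap.coe_mk, Fin.prod_univ_two, φ,
        Matrix.cons_val_zero, Matrix.cons_val_one, fourier_coe_apply]
      rw [eR, fourA_phase, ← Complex.exp_add]
      congr 1
      simp only [X, Y]
      push_cast
      ring
    simp only [this]

/-- The Gaussian times a character, in the form of the library. -/
theorem fourA_gauss_form (r : Eis) (a : ℝ) (z : ℂ) :
    (Real.exp (-(a * normSq z)) : ℂ) * conj (eR r z)
      = cexp (-(a : ℂ) * ‖z‖ ^ 2 + (-(4 * Real.pi * I)) *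
          (inner ℝ (conj (toC r / (9 * toC lam))) z : ℝ)) := by
  rw [eR, ← Complex.exp_conj, Complex.ofReal_exp, ← Complex.exp_add, Complex.inner,
    Complex.normSq_eq_norm_sq]
  congr 1
  have e : (z * conj (conj (toC r / (9 * toC lam)))).re = (toC r * z / (9 * toC lam)).re := by
    rw [conj_conj]; congr 1; ring
  rw [e]
  simp only [map_mul, conj_ofReal, conj_I, map_ofNat]
  push_cast
  ring

theorem fourA_gauss_int (r : Eis) {a : ℝ} (ha : 0 < a) :
    Integrable (fun z : ℂ => (Real.exp (-(a * normSq z)) : ℂ) * conj (eR r z)) := by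
  simp only [fourA_gauss_form]
  exact GaussianFourier.integrable_cexp_neg_mul_sq_norm_add (by simpa using ha) _ _

theorem fourA_gauss (r : Eis) {a : ℝ} (ha : 0 < a) :
    ∫ z : ℂ, (Real.exp (-(a * normSq z)) : ℂ) * conj (eR r z)
      = ((Real.pi / a * Real.exp (-((c0 * ab r) ^ 2 / a)) : ℝ) : ℂ) := by
  simp only [fourA_gauss_form]
  rw [GaussianFourier.integral_cexp_neg_mul_sq_norm_add (by simpa using ha)]
  have hp : (0 : ℝ) < √3 := by positivity
  have h1 : ‖conj (toC r / (9 * toC lam))‖ = ab r / (9 * √3) := by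
    rw [RCLike.norm_conj, norm_div, norm_mul, norm_toC, toC_lam, norm_mul, norm_I, norm_real,
      Real.norm_of_nonneg hp.le]
    simp
  rw [h1, finrank_real_complex, ofReal_mul, Complex.ofReal_exp]
  have h2 : ((2 : ℕ) : ℂ) / 2 = 1 := by norm_num
  rw [h2, cpow_one]
  congr 1
  · push_cast; ring
  · congr 1
    have : ((√3 : ℝ) : ℂ) ≠ 0 := by exact_mod_cast hp.ne'
    have ha' : (a : ℂ) ≠ 0 := by exact_mod_cast ha.ne'
    rw [c0]
    push_cast
    field_simp
    rw [I_sq]; ring

end Vale.Agent.P026
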