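import Vale.Agent.P026.KubA

/-! Kubota's symbol, the symbols at the cusps and their Gauss sums. -/

namespace Vale.Agent.P026

open Eis Complex
open scoped Classical ComplexConjugate

theorem row_mul (x : Eis × Eis) (g h : SL) : row x (g * h) = row (row x g) h := by
  refine Prod.ext ?_ ?_ <;> simp only [row, SL.mul_a, SL.mul_b, SL.mul_c, SL.mul_d] <;> ring
theorem row_one (x : Eis × Eis) : row x 1 = x := by
  refine Prod.ext ?_ ?_ <;> simp [row]
theorem norm_kap0_le (c d : Eis) : ‖kap0 c d‖ ≤ 1 := by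
  unfold kap0
  split_ifs
  · exact norm_cub_le c d
  · simp
theorem norm_kap0_G3 {g : SL} (hg : g ∈ G3) : ‖kap0 g.c g.d‖ = 1 := by
  rw [kap0, if_pos ⟨hg.2.2.1, hg.2.2.2⟩]
  exact norm_cub ⟨-g.b, g.a, by linear_combination g.det⟩
theorem kap0_ne_zero {c d : Eis} (h : kap0 c d ≠ 0) : ∃ g ∈ G3, g.c = c ∧ g.d = d := by
  unfold kap0 at h
  split_ifs at h with h1
  · obtain ⟨u, v, huv⟩ : IsCoprime c d := by
      by_contra h2
      exact h ((cub_eq_zero h1.2.ne_zero).2 h2)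
    obtain ⟨⟨e, he⟩, ⟨f, hf⟩⟩ := h1
    refine ⟨⟨v + u * c, u * (d - 1), c, d, by linear_combination huv⟩,
      ⟨⟨-(v * f), ?_⟩, ⟨u * f, ?_⟩, ⟨e, he⟩, ⟨f, hf⟩⟩, rfl, rfl⟩
    · show v + u * c - 1 = 3 * -(v * f)
      linear_combination huv - v * hf
    · show u * (d - 1) = 3 * (u * f)
      linear_combination u * hf
  · exact absurd rfl h
/-- Kubota's theorem. -/
theorem kap0_row {g : SL} (hg : g ∈ G3) (x : Eis × Eis) :
    kap0 (row x g).1 (row x g).2 = kap0 x.1 x.2 * kap0 g.c g.d := by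
  obtain ⟨ha, hb, hc, hd⟩ := mem_G3.1 hg
  have e1 : (3 : Eis) ∣ x.1 * g.a + x.2 * g.c ↔ (3 : Eis) ∣ x.1 := kb_dvd_iff (by
    rw [show x.1 * g.a + x.2 * g.c - x.1 = x.1 * (g.a - 1) + x.2 * g.c by ring]
    exact dvd_add (Dvd.dvd.mul_left ha _) (hc.mul_left _))
  have e2 : Prim (x.1 * g.b + x.2 * g.d) ↔ Prim x.2 := kb_prim_iff (by
    rw [show x.1 * g.b + x.2 * g.d - x.2 = x.1 * g.b + x.2 * (g.d - 1) by ring]
    exact dvd_add (hb.mul_left _) (Dvd.dvd.mul_left hd _))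
  simp only [row, kap0, e1, e2]
  rw [if_pos (And.intro hc hd)]
  split_ifs with h
  · exact kb_gen g.det hb hc hd h.1 h.2
  · rw [zero_mul]
theorem kb_conj_tr (s : SL) (t : Eis) : (s * tr t * s⁻¹).a = 1 - s.a * s.c * t ∧
    (s * tr t * s⁻¹).b = s.a ^ 2 * t ∧ (s * tr t * s⁻¹).c = -(s.c * t) * s.c ∧
    (s * tr t * s⁻¹).d = 1 + s.a * s.c * t := by
  have := s.det
  simp only [tr, SL.mul_a, SL.mul_b, SL.mul_c, SL.mul_d, SL.inv_a, SL.inv_b, SL.inv_c, SL.inv_d]
  refine ⟨?_, ?_, ?_, ?_⟩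
  · linear_combination this
  · ring
  · ring
  · linear_combination this
theorem conj_tr_mem (s : SL) (y : Eis) : s * tr (9 * y) * s⁻¹ ∈ G3 := by
  obtain ⟨ha, hb, hc, hd⟩ := kb_conj_tr s (9 * y)
  rw [mem_G3, ha, hb, hc, hd]
  exact ⟨⟨-(3 * s.a * s.c * y), by ring⟩, ⟨3 * s.a ^ 2 * y, by ring⟩, ⟨-(3 * s.c ^ 2 * y), by ring⟩,
    ⟨3 * s.a * s.c * y, by ring⟩⟩
theorem kb_kap0_conj_tr (s : SL) (y : Eis) :
    kap0 (s * tr (9 * y) * s⁻¹).c (s * tr (9 * y) * s⁻¹).d = 1 := by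
  obtain ⟨-, -, h3, h4⟩ := mem_G3.1 (conj_tr_mem s y)
  obtain ⟨-, -, hc, hd⟩ := kb_conj_tr s (9 * y)
  rw [kap0, if_pos (And.intro h3 h4)]
  rw [hd] at h4
  rw [hc, hd, cub_mul_left _ _ h4.not_lam_dvd,
    cub_per (a' := 1) h4 ⟨s.a * s.c * y, by ring⟩ ⟨-s.a, by ring⟩,
    cub_per (a' := 1) h4 ⟨s.a * s.c * y, by ring⟩ ⟨s.a * (9 * y), by ring⟩, cub_one_right,
    cub_one_right, one_mul]
theorem kap0_conj_tr (A q y : Eis) :
    kap0 (sig A q * tr (9 * y) * (sig A q)⁻¹).c (sig A q * tr (9 * y) * (sig A q)⁻¹).d = 1 :=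
  kb_kap0_conj_tr _ y
theorem sig_congr {A q A' q' : Eis} (hA : (3 : Eis) ∣ A - A') (hq : (3 : Eis) ∣ q - q') :
    sig A q = sig A' q' := by
  simp only [sig, kb_prim_iff hA, mod_eq_of_dvd_sub hA, mod_eq_of_dvd_sub hq]
theorem sig_one_zero : sig 1 0 = 1 := by
  rw [sig, if_pos Prim.one]
  ext <;> simp
theorem kapS_one_zero : kapS 1 0 = kap0 := by
  funext c d
  rw [kapS, sig_one_zero, inv_one, row_one]
theorem adm_kapS (A q : Eis) : Adm (kapS A q) := by
  refine ⟨fun c d => norm_kap0_le _ _, fun c d b => ?_⟩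
  have e : row (c, d + 9 * b * c) (sig A q)⁻¹ =
      row (row (c, d) (sig A q)⁻¹) (sig A q * tr (9 * b) * (sig A q)⁻¹) := by
    rw [← row_mul, ← mul_assoc, ← mul_assoc, inv_mul_cancel, one_mul, row_mul]
    congr 1
    refine Prod.ext ?_ ?_ <;> simp only [row, tr] <;> ring
  rw [kapS, e, kap0_row (conj_tr_mem _ _), kap0_conj_tr, mul_one, kapS]
theorem adm_kap0 : Adm kap0 := kapS_one_zero ▸ adm_kapS 1 0
theorem adm_off (p : Eis) {k : Eis → Eis → ℂ} (hk : Adm k) : Adm (off p k) := by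
  refine ⟨fun c d => ?_, fun c d b => ?_⟩
  · unfold off
    split_ifs
    · simp
    · exact hk.1 c d
  · rw [off, off, hk.2]
theorem kapS_mul_left (A q : Eis) {p : Eis} (hp : Prim p) (c d : Eis) :
    kapS A q (p * c) d = cub d p * kapS A q c d := by
  have h3 : ∀ t, (3 : Eis) ∣ p * c + t - (c + t) := fun t => by
    rw [show p * c + t - (c + t) = (p - 1) * c by ring]; exact Dvd.dvd.mul_right hp c
  by_cases hA : Prim A
  · rw [kb_kapS_one hA, kb_kapS_one hA]
    simp only [sub_eq_add_neg, kb_dvd_iff (h3 _)]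
    split_ifs with h
    · rw [cub_mul_left _ _ h.2.not_lam_dvd, cub_recip hp h.2]
    · rw [mul_zero]
  · rw [kb_kapS_two hA, kb_kapS_two hA]
    simp only [kb_prim_iff (h3 _)]
    split_ifs with h
    · rw [← cub_mul_right _ hp.ne_zero h.2.ne_zero]
      refine (cub_per (hp.mul h.2) ?_ ⟨(p - 1) * (A % 3), by ring⟩).symm
      rw [show p * (c + d * (A % 3)) - (p * c + d * (A % 3)) = (p - 1) * d * (A % 3) by ring]
      exact kb_nine hp h.1 _
    · rw [mul_zero]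
theorem kapS_mul_right (A q : Eis) {p : Eis} (hp : Prim p) (c d : Eis) :
    kapS A q c (p * d) = cub c p * kapS A q c d := by
  have h3 : (3 : Eis) ∣ p * d - d := by
    rw [show p * d - d = (p - 1) * d by ring]; exact Dvd.dvd.mul_right hp d
  by_cases hA : Prim A
  · rw [kb_kapS_one hA, kb_kapS_one hA]
    have h4 : (3 : Eis) ∣ c - p * d * (q % 3) - (c - d * (q % 3)) := by
      rw [show c - p * d * (q % 3) - (c - d * (q % 3)) = (p * d - d) * -(q % 3) by ring]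
      exact h3.mul_right _
    simp only [kb_dvd_iff h4, kb_prim_iff h3]
    split_ifs with h
    · rw [cub_mul_right _ hp.ne_zero h.2.ne_zero]
    · rw [mul_zero]
  · rw [kb_kapS_two hA, kb_kapS_two hA]
    have h4 : (3 : Eis) ∣ c + p * d * (A % 3) - (c + d * (A % 3)) := by
      rw [show c + p * d * (A % 3) - (c + d * (A % 3)) = (p * d - d) * (A % 3) by ring]
      exact h3.mul_right _
    simp only [kb_dvd_iff h3, kb_prim_iff h4]
    split_ifs with h
    · have h5 := (kb_prim_iff h4).2 h.2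
      rw [cub_mul_left _ _ h5.not_lam_dvd, cub_recip hp h5,
        cub_congr (a := c + p * d * (A % 3)) (b := c) ⟨d * (A % 3), by ring⟩]
      congr 1
      refine cub_per h5 ?_ ⟨(p - 1) * (A % 3), by ring⟩
      rw [show c + p * d * (A % 3) - (c + d * (A % 3)) = (p - 1) * d * (A % 3) by ring]
      exact kb_nine hp h.1 _
    · rw [mul_zero]
/-- The matrix attached to a normalised pair. -/
theorem exists_mat {A q d : Eis} (hq : q ≠ 0) (hc : IsCoprime A q) (hn : Nrmd A q)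
    (hd : IsDel A q d) : ∃ g : SL, g.a = A ∧ g.c = q ∧ g.d = d ∧ g * (sig A q)⁻¹ ∈ G3 ∧
      conj (kap0 (g * (sig A q)⁻¹).c (g * (sig A q)⁻¹).d) = kz A q := by
  by_cases hA : Prim A
  · rw [IsDel, if_pos hA] at hd
    obtain ⟨b, hb⟩ := hd
    have hdA : Prim (A * d) := ⟨3 * q * b, by linear_combination hb⟩
    have hd1 : Prim d := hA.of_mul hdA
    have h3 : (3 : Eis) ∣ q - d * (q % 3) := by
      rw [show q - d * (q % 3) = (q - q % 3) - (d - 1) * (q % 3) by ring]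
      exact dvd_sub (dvd_sub_mod 3 q) (Dvd.dvd.mul_right hd1 _)
    refine ⟨⟨A, 9 * b, q, d, by linear_combination hb⟩, rfl, rfl, rfl, ?_, ?_⟩
    · simp only [mem_G3, sig, if_pos hA, SL.mul_a, SL.mul_b, SL.mul_c, SL.mul_d, SL.inv_a,
        SL.inv_b, SL.inv_c, SL.inv_d, mul_one, neg_zero, mul_zero, zero_add, mul_neg,
        ← sub_eq_add_neg]
      exact ⟨hA.of_dvd_sub ⟨-(3 * b * (q % 3)), by ring⟩, ⟨3 * b, by ring⟩, h3, hd1⟩
    · show conj (kapS A q q d) = _
      rw [kb_kapS_one hA, if_pos (And.intro h3 hd1), kz, if_pos hA]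
      refine kb_conj (norm_cub ⟨-(9 * b), A, by linear_combination hb⟩) ?_
      rw [← cub_mul_right _ hd1.ne_zero hA.ne_zero,
        cub_per (a' := 1) (hd1.mul hA) ⟨q * b, by linear_combination hb⟩
          ⟨9 * b, by linear_combination hb⟩, cub_one_right]
  · rw [IsDel, if_neg hA] at hd
    obtain ⟨⟨b, hb⟩, e, he⟩ := hd
    have hq1 : Prim q := (hn.resolve_left hA).2
    have hb1 : Prim (-b) :=
      hq1.of_mul ⟨-(3 * e * A), by linear_combination hb - A * he⟩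
    have h3 : (3 : Eis) ∣ d := ⟨3 * e, by linear_combination he⟩
    have h4 : Prim (q + d * (A % 3)) := hq1.of_dvd_sub (by simpa using h3.mul_right _)
    refine ⟨⟨A, b, q, d, by linear_combination hb⟩, rfl, rfl, rfl, ?_, ?_⟩
    · simp only [mem_G3, sig, if_neg hA, SL.mul_a, SL.mul_b, SL.mul_c, SL.mul_d, SL.inv_a,
        SL.inv_b, SL.inv_c, SL.inv_d, mul_one, neg_neg, mul_zero, zero_add, mul_neg, dvd_neg]
      refine ⟨hb1, ?_, h3, h4⟩
      rw [show A + b * (A % 3) = (A - A % 3) - (-b - 1) * (A % 3) by ring]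
      exact dvd_sub (dvd_sub_mod 3 A) (Dvd.dvd.mul_right hb1 _)
    · show conj (kapS A q q d) = _
      rw [kb_kapS_two hA, if_pos (And.intro h3 h4), kz, if_neg hA,
        cub_per (a' := q) h4 ⟨e * (A % 3), by rw [he]; ring⟩ ⟨A % 3, by ring⟩]
      refine kb_conj (norm_cub ⟨A, -b, by linear_combination hb⟩) ?_
      rw [← cub_mul_left _ _ hq1.not_lam_dvd, cub_congr (b := 1) ⟨b, hb⟩,
        cub_one_left hq1.not_lam_dvd]
theorem kb_cop_nine {x : Eis} (hx : Prim x) : IsCoprime x 9 := by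
  rw [show (9 : Eis) = 3 * 3 by norm_num]
  exact hx.coprime_three.mul_right hx.coprime_three
theorem exists_del {A q : Eis} (hc : IsCoprime A q) (hn : Nrmd A q) : ∃ d, IsDel A q d := by
  by_cases hA : Prim A
  · obtain ⟨u, v, h⟩ := (kb_cop_nine hA).mul_right hc
    exact ⟨u, by rw [IsDel, if_pos hA]; exact ⟨-v, by linear_combination h⟩⟩
  · obtain ⟨u, v, h⟩ := (kb_cop_nine (hn.resolve_left hA).2).symm.mul_left hc
    exact ⟨9 * u, by
      rw [IsDel, if_neg hA]; exact ⟨⟨-v, by linear_combination h⟩, dvd_mul_right _ _⟩⟩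

theorem kb_N_nine (c : Eis) : N (9 * c) = 81 * N c := by
  rw [N_mul, show (9 : Eis) = ((9 : ℕ) : Eis) by norm_num, N_natCast]; norm_num
theorem kb_nine_ne {c : Eis} (hc : c ≠ 0) : 9 * c ≠ 0 := mul_ne_zero (by decide) hc
theorem norm_gK_le {k : Eis → Eis → ℂ} (hk : Adm k) (r : Eis) {c : Eis} (hc : c ≠ 0) :
    ‖gK k r c‖ ≤ 81 * N c := by
  rw [← kb_N_nine, ← card_res (kb_nine_ne hc)]
  refine (norm_sum_le _ _).trans ?_
  refine (Finset.sum_le_card_nsmul _ _ 1 fun d _ => ?_).trans (by simp)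
  rw [norm_mul, norm_psi, mul_one]
  exact hk.1 c d
theorem gK_off (p : Eis) (k : Eis → Eis → ℂ) (r c : Eis) :
    gK (off p k) r c = if p ∣ c then 0 else gK k r c := by
  unfold gK off
  split_ifs <;> simp
theorem kb_per {k : Eis → Eis → ℂ} (hk : Adm k) (c : Eis) : Per (9 * c) (k c) := fun x y => by
  rw [← hk.2 c x y]; congr 1; ring
theorem kb_mul (A q : Eis) {p c : Eis} (hp : Prim p) (hc0 : c ≠ 0) (hc : IsCoprime p c) (r : Eis) :
    gK (kapS A q) (r * p) c = conj (cub c p) * gK (kapS A q) r c := by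
  have e := sum_res_affine (kb_nine_ne hc0) ((kb_per (adm_kapS A q) c).mul (per_psi (9 * c) r))
    ((kb_cop_nine hp).mul_right hc) 0
  unfold gK
  rw [← e, Finset.mul_sum]
  refine Finset.sum_congr rfl fun d _ => ?_
  rw [add_zero, kapS_mul_right A q hp, mul_assoc r]
  linear_combination (-(kapS A q c d * psi (9 * c) (r * (p * d)))) * ga_mul_conj (norm_cub hc.symm)
theorem kb_split (A q : Eis) {p c : Eis} (hp : Prim p) (hc0 : c ≠ 0) (hc : IsCoprime p c)
    (r : Eis) : gK (kapS A q) r (p * c) =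
      cub 9 p * cub c p ^ 2 * gauss (fun u => cub u p) p r * gK (kapS A q) r c := by
  have h0 := hp.ne_zero
  have h9 := kb_nine_ne hc0
  have hl := hp.not_lam_dvd
  have hF := (kb_per (adm_kapS A q) (p * c)).mul (per_psi (9 * (p * c)) r)
  unfold gK gauss
  rw [show 9 * (p * c) = p * (9 * c) by ring] at hF ⊢
  rw [sum_res_crt h0 h9 ((kb_cop_nine hp).mul_right hc) hF, mul_assoc, Finset.sum_mul_sum,
    Finset.mul_sum]
  refine Finset.sum_congr rfl fun u _ => ?_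
  rw [Finset.mul_sum]
  refine Finset.sum_congr rfl fun v _ => ?_
  have e1 : cub (9 * c * u + p * v) p = cub 9 p * cub c p * cub u p := by
    rw [← cub_mul_left _ _ hl, ← cub_mul_left _ _ hl]; exact cub_congr (by simp)
  have e2 : kapS A q c (9 * c * u + p * v) = cub c p * kapS A q c v := by
    rw [← kapS_mul_right A q hp, add_comm, kb_per (adm_kapS A q) c]
  have e3 : psi (p * (9 * c)) (r * (9 * c * u + p * v)) = psi p (r * u) * psi (9 * c) (r * v) := by
    rw [show r * (9 * c * u + p * v) = 9 * c * (r * u) + p * (r * v) by ring, psi_add,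
      psi_mul_left h9, mul_comm p (9 * c), psi_mul_left h0]
  rw [kapS_mul_left A q hp, e1, e2, e3]; ring
theorem gK_prime_pow (A q : Eis) {p c : Eis} (hp : Prime p) (h1 : P1 p) (hc : ¬ p ∣ c) (k : ℕ)
    (r : Eis) : gK (kapS A q) r (p ^ k * c) =
      cub 9 p ^ k * gauss (fun u => cub u p ^ k) (p ^ k) r * gK (kapS A q) (r * p ^ k) c := by
  have hc0 : c ≠ 0 := fun h => hc (h ▸ dvd_zero p)
  have hcop : IsCoprime (p ^ k) c := (ga_cop hp hc).symm.pow_left
  rw [kb_split A q (h1.1.pow k) hc0 hcop, kb_mul A q (h1.1.pow k) hc0 hcop, conj_cub]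
  simp only [cub_pow_right _ hp.ne_zero]
  ring
theorem gK_mul_prime (A q : Eis) {p c : Eis} (hp : Prime p) (h1 : P1 p) (hc : ¬ p ∣ c) (r : Eis) :
    gK (kapS A q) (r * p) c = conj (cub c p) * gK (kapS A q) r c :=
  kb_mul A q h1.1 (fun h : c = 0 => hc (h ▸ dvd_zero p)) (ga_cop hp hc).symm r
theorem kb_count_eq {s : Eis} (h : ∀ d, Prim d → IsCoprime d s → cub s d = 1) :
    gK kap0 0 s = (((res (9 * s)).filter fun d => kap0 s d = 1).card : ℂ) := by
  rw [gK, Finset.card_filter]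
  push_cast
  refine Finset.sum_congr rfl fun d _ => ?_
  rw [zero_mul, psi_zero, mul_one]
  split_ifs with h1
  · exact h1
  · unfold kap0 at h1 ⊢
    split_ifs at h1 ⊢ with h2
    · exact (cub_eq_zero h2.2.ne_zero).2 fun h3 => h1 (h d h2.2 h3.symm)
    · rfl
theorem kb_real {s : Eis} (hs : s ≠ 0) : ∃ n : ℕ, gK kap0 0 s = n := by
  by_cases h : ∀ d, Prim d → IsCoprime d s → cub s d = 1
  · exact ⟨_, kb_count_eq h⟩
  · push Not at h
    obtain ⟨d, hd, hc, hne⟩ := h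
    have e := kb_mul 1 0 hd hs hc 0
    rw [zero_mul, kapS_one_zero] at e
    have h2 : (conj (cub s d) - 1) * gK kap0 0 s = 0 := by linear_combination -e
    refine ⟨0, ?_⟩
    rw [(mul_eq_zero.1 h2).resolve_left (sub_ne_zero.2 fun h3 => hne ?_), Nat.cast_zero]
    simpa using congrArg conj h3
theorem kb_pos : 0 < (gK kap0 0 27).re := by
  have h : ∀ d, Prim d → cub 27 d = 1 := fun d hd => by
    rw [show (27 : Eis) = 3 ^ 3 by norm_num, cub_pow_left _ hd.not_lam_dvd,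
      cub_cube hd.coprime_three.symm]
  rw [kb_count_eq fun d hd _ => h d hd, natCast_re, Nat.cast_pos, Finset.card_pos]
  refine ⟨1 % (9 * 27), Finset.mem_filter.2 ⟨mod_mem_res (by decide) 1, ?_⟩⟩
  have hd : Prim (1 % (9 * 27)) := Prim.one.of_dvd_sub (dvd_sub_comm.1
    (Dvd.dvd.trans ⟨81, by norm_num⟩ (dvd_sub_mod (9 * 27) 1)))
  rw [kap0, if_pos (And.intro ⟨9, by norm_num⟩ hd), h _ hd]
/-- The constant term. -/
theorem gK_zero : ∃ wS : Eis → ℝ, (∀ s, 0 ≤ wS s) ∧ (∀ s, wS s ≤ 81 * N s) ∧ 0 < wS 27 ∧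
    (∀ s m, Sm s → P1 m →
      gK kap0 0 (s * m ^ 3) = (wS s : ℂ) * ((N m : ℂ) ^ 3 * ∑ d ∈ divs m, mu0 d / (N d : ℂ))) ∧
    (∀ s x, Sm s → P1 x → (¬ ∃ m, P1 m ∧ x = m ^ 3) → gK kap0 0 (s * x) = 0) := by
  refine ⟨fun s => if s = 0 then 0 else (gK kap0 0 s).re, fun s => ?_, fun s => ?_, ?_,
    fun s m hs hm => ?_, fun s x hs hx h => ?_⟩
  · beta_reduce
    split_ifs with hs
    · exact le_rfl
    · obtain ⟨n, hn⟩ := kb_real hs
      rw [hn, natCast_re]; exact Nat.cast_nonneg n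
  · beta_reduce
    split_ifs with hs
    · have := N_nonneg s; positivity
    · exact (re_le_norm _).trans (norm_gK_le adm_kap0 0 hs)
  · beta_reduce
    rw [if_neg (by decide)]; exact kb_pos
  · beta_reduce
    obtain ⟨n, hn⟩ := kb_real hs.ne_zero
    have e := kb_split 1 0 (hm.1.pow 3) hs.ne_zero (hs.coprime hm).symm.pow_left 0
    rw [kapS_one_zero, kb_gauss_cube hm, kb_cub_cube hm.ne_zero, kb_cub_cube hm.ne_zero, cop, cop,
      if_pos (kb_cop_nine hm.1), if_pos (hs.coprime hm).symm, hn] at e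
    rw [if_neg hs.ne_zero, mul_comm s, e, hn, natCast_re]
    push_cast; ring
  · have e := kb_split 1 0 hx.1 hs.ne_zero (hs.coprime hx).symm 0
    rw [kapS_one_zero, kb_gauss_not_cube hx h] at e
    rw [mul_comm s, e]; ring

end Vale.Agent.P026
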