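import Vale.Agent.P026.Geo2
import Vale.Agent.P026.Kub
import Vale.Agent.P026.FourA

/-! Fourier coefficients of the smoothed Eisenstein series, and Fourier uniqueness. -/

namespace Vale.Agent.P026

open Eis Complex MeasureTheory
open scoped Classical ComplexConjugate

theorem four_cont_pt (D E : ℝ) : Continuous (fun z : ℂ => pt z D E) := by
  unfold pt
  have := Complex.continuous_normSq
  fun_prop

theorem integrableOn_Es {k : Eis → Eis → ℂ} (hk : ∀ c d, ‖k c d‖ ≤ 1) {t D E : ℝ} (ht : 0 < t)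
    (h : (D, E) ∈ DE) : IntegrableOn (fun z => Es k t (pt z D E)) F9 := by
  have hc : Continuous (fun z => Es k t (pt z D E)) :=
    (continuousOn_Es hk ht).comp_continuous (four_cont_pt D E) (fun z => pt_mem_slab z h)
  refine (hc.continuousOn.integrableOn_compact (isCompact_closedBall (0 : ℂ) 18)).mono_set ?_
  intro z hz
  simpa using norm_le_of_mem_F9 hz

theorem four_hv (z : ℂ) {D : ℝ} (hD : D ≠ 0) (E : ℝ) (x : Eis × Eis) :
    hv (pt z D E) x = D * normSq (toC x.1 * z + toC x.2) + N x.1 * E / D := by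
  rw [hv, hq_pt z hD, normSq_toC]

theorem four_cont_hv (D E : ℝ) (hD : D ≠ 0) (x : Eis × Eis) :
    Continuous (fun z : ℂ => hv (pt z D E) x) := by
  simp only [four_hv _ hD]
  have := Complex.continuous_normSq
  fun_prop

theorem four_int_cont {g : ℂ → ℂ} (hg : Continuous g) : IntegrableOn g F9 := by
  refine (hg.continuousOn.integrableOn_compact (isCompact_closedBall (0 : ℂ) 18)).mono_set ?_
  intro z hz
  simpa using norm_le_of_mem_F9 hz

/-- The single terms. -/
noncomputable def fourT (k : Eis → Eis → ℂ) (t D E : ℝ) (r : Eis) (x : Eis × Eis) (z : ℂ) : ℂ :=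
  k x.1 x.2 * (Real.exp (-(t * hv (pt z D E) x)) : ℂ) * conj (eR r z)

theorem four_hasSum {k : Eis → Eis → ℂ} (hk : ∀ c d, ‖k c d‖ ≤ 1) {t D E : ℝ} (ht : 0 < t)
    (h : (D, E) ∈ DE) (r : Eis) :
    HasSum (fun x : Eis × Eis => ∫ z in F9, fourT k t D E r x z)
      (∫ z in F9, Es k t (pt z D E) * conj (eR r z)) := by
  have hD : 0 < D := h.1
  have hcT : ∀ x, Continuous (fourT k t D E r x) := fun x => by
    unfold fourT
    have h1 := four_cont_hv D E hD.ne' x
    have h2 : Continuous (fun z => conj (eR r z)) :=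
      Complex.continuous_conj.comp (continuous_eR r)
    exact (continuous_const.mul (Complex.continuous_ofReal.comp (by fun_prop))).mul h2
  have hbd : ∀ x z, ‖fourT k t D E r x z‖ ≤ Real.exp (-(t * hv (pt z D E) x)) := fun x z => by
    rw [fourT, norm_mul, norm_mul, RCLike.norm_conj, norm_eR, mul_one, norm_real,
      Real.norm_of_nonneg (Real.exp_pos _).le]
    exact mul_le_of_le_one_left (Real.exp_pos _).le (hk _ _)
  have hG := (integrableOn_Es (k := fun _ _ => 1) (fun _ _ => by simp) ht h).norm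
  have hs : Summable (fun x : Eis × Eis => ∫ z in F9, ‖fourT k t D E r x z‖) := by
    refine summable_of_sum_le (c := ∫ z in F9, ‖Es (fun _ _ => 1) t (pt z D E)‖)
      (fun x => integral_nonneg fun z => norm_nonneg _) (fun s => ?_)
    rw [← integral_finsetSum _ (fun x _ => (four_int_cont (hcT x)).norm)]
    refine integral_mono (integrable_finsetSum _ (fun x _ => (four_int_cont (hcT x)).norm)) hG
      (fun z => ?_)
    have h1 := summable_hv (pt_mem_slab z h) ht
    have h2 : Es (fun _ _ => 1) t (pt z D E)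
        = ((∑' x : Eis × Eis, Real.exp (-(t * hv (pt z D E) x)) : ℝ) : ℂ) := by
      rw [Es, ofReal_tsum]; simp only [one_mul]
    show ∑ x ∈ s, ‖fourT k t D E r x z‖ ≤ ‖Es (fun _ _ => 1) t (pt z D E)‖
    rw [h2, norm_real, Real.norm_of_nonneg (tsum_nonneg fun x => (Real.exp_pos _).le)]
    exact (Finset.sum_le_sum fun x _ => hbd x z).trans
      (h1.sum_le_tsum s fun x _ => (Real.exp_pos _).le)
  have key := hasSum_integral_of_summable_integral_norm (μ := volume.restrict F9)
    (fun x => four_int_cont (hcT x)) hs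
  have e : ∀ z, ∑' x : Eis × Eis, fourT k t D E r x z = Es k t (pt z D E) * conj (eR r z) :=
    fun z => by rw [Es, ← tsum_mul_right]; rfl
  simpa only [e] using key

theorem four_zero (k : Eis → Eis → ℂ) (t : ℝ) {D : ℝ} (hD : D ≠ 0) (E : ℝ) (r d : Eis) :
    ∫ z in F9, fourT k t D E r (0, d) z =
      k 0 d * (Real.exp (-(t * D * N d)) : ℂ) * (if r = 0 then (V9 : ℂ) else 0) := by
  have e : ∀ z, fourT k t D E r (0, d) z
      = k 0 d * (Real.exp (-(t * D * N d)) : ℂ) * eR (-r) z := fun z => by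
    rw [fourT, four_hv z hD, eR_neg]
    simp only [map_zero, zero_mul, zero_add, N_zero, zero_div, add_zero, normSq_toC, mul_assoc]
  simp only [e]
  rw [integral_const_mul, integral_eR]
  simp only [neg_eq_zero]

/-- One residue class, unfolded. -/
theorem four_class {k : Eis → Eis → ℂ} (hk : Adm k) {t D : ℝ} (ht : 0 < t) (hD : 0 < D) (E : ℝ)
    (r : Eis) {c : Eis} (hc : c ≠ 0) (d : Eis) :
    ∑' b : Eis, ∫ z in F9, fourT k t D E r (c, d + 9 * c * b) z =
      k c d * psi (9 * c) (r * d) * ((Real.exp (-(t * (N c * E / D))) *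
        (Real.pi / (t * D * N c) * Real.exp (-((c0 * ab r) ^ 2 / (t * D * N c)))) : ℝ) : ℂ) := by
  have hN := N_pos hc
  have ha : 0 < t * D * N c := by positivity
  have hcc : toC c ≠ 0 := fun h0 => hc (toC_inj (by rw [h0, map_zero]))
  set u : ℂ := toC d / toC c with hu
  set g : ℂ → ℂ := fun z => (Real.exp (-(t * D * N c * normSq z)) : ℂ) * conj (eR r z) with hg
  set K : ℂ := k c d * psi (9 * c) (r * d) * (Real.exp (-(t * (N c * E / D))) : ℂ) with hK
  have hgi : Integrable g := fourA_gauss_int r ha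
  have hgu : Integrable (fun z => g (z + u)) := hgi.comp_add_right u
  have e : ∀ b z, fourT k t D E r (c, d + 9 * c * b) z = K * g (z + 9 * toC b + u) := by
    intro b z
    have e1 : k c (d + 9 * c * b) = k c d := by
      rw [← hk.2 c d b]; congr 1; ring
    have e2 : normSq (toC c * z + toC (d + 9 * c * b)) = N c * normSq (z + 9 * toC b + u) := by
      rw [← normSq_toC, ← normSq_mul]
      congr 1
      rw [hu, map_add, map_mul, map_mul, map_ofNat]
      field_simp
      ring
    have e3 : psi (9 * c) (r * d) * conj (psi (9 * c) (r * d)) = 1 := by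
      rw [mul_conj, normSq_eq_norm_sq, norm_psi]; simp
    rw [fourT, four_hv z hD.ne', hK, hg]
    simp only
    rw [e1, e2, eR_add, eR_add, eR_nine, hu, eR_div hc, mul_one, map_mul]
    have e4 : Real.exp (-(t * (D * (N c * normSq (z + 9 * toC b + toC d / toC c)) + N c * E / D)))
        = Real.exp (-(t * (N c * E / D))) *
          Real.exp (-(t * D * N c * normSq (z + 9 * toC b + toC d / toC c))) := by
      rw [← Real.exp_add]; congr 1; ring
    rw [e4, ofReal_mul]
    linear_combination (-(k c d * (Real.exp (-(t * (N c * E / D))) : ℂ) *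
      (Real.exp (-(t * D * N c * normSq (z + 9 * toC b + toC d / toC c))) : ℂ) *
        conj (eR r z))) * e3
  simp only [e, integral_const_mul]
  rw [tsum_mul_left, (integral_F9 hgu).tsum_eq, integral_add_right_eq_self g u, hg,
    fourA_gauss r ha, hK, ofReal_mul (Real.exp _)]
  ring

/-- The Fourier coefficients. -/
theorem four_coef {k : Eis → Eis → ℂ} (hk : Adm k) {t D E : ℝ} (ht : 0 < t) (h : (D, E) ∈ DE)
    (r : Eis) :
    ((t ^ (4 / 3 : ℝ) : ℝ) : ℂ) * ∫ z in F9, Es k t (pt z D E) * conj (eR r z) =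
      (if r = 0 then ((t ^ (4 / 3 : ℝ) * V9 : ℝ) : ℂ) *
          ∑' d : Eis, k 0 d * (Real.exp (-(t * D * N d)) : ℂ) else 0)
        + Real.pi * Rs k r (fk (c0 * ab r) D E) t := by
  have hD : 0 < D := h.1
  have hS := four_hasSum hk.1 ht h r
  have hs := hS.summable
  rw [← hS.tsum_eq, hs.tsum_prod, hs.prod.tsum_eq_add_tsum_ite 0, mul_add]
  congr 1
  · simp only [four_zero k t hD.ne']
    rw [tsum_mul_right]
    split_ifs
    · push_cast; ring
    · simp
  · rw [Rs, ← tsum_mul_left, ← tsum_mul_left, ← tsum_mul_left]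
    refine tsum_congr fun c => ?_
    split_ifs with hc
    · subst hc; simp
    · have hN := N_pos hc
      have h9 : (9 : Eis) * c ≠ 0 := mul_ne_zero (by decide) hc
      rw [tsum_res h9 (hs.prod_factor c)]
      simp only [four_class hk ht hD E r hc]
      rw [← Finset.sum_mul, ← gK, fk]
      have e1 : t ^ (4 / 3 : ℝ) = t * t ^ (1 / 3 : ℝ) := by
        rw [show (4 / 3 : ℝ) = 1 + 1 / 3 by norm_num, Real.rpow_add ht, Real.rpow_one]
      have e2 : Real.exp (-(t * N c * E / D) - (c0 * ab r) ^ 2 / (t * N c * D))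
          = Real.exp (-(t * (N c * E / D))) * Real.exp (-((c0 * ab r) ^ 2 / (t * D * N c))) := by
        rw [← Real.exp_add]; congr 1; ring
      have e3 : t ^ (4 / 3 : ℝ) * (Real.exp (-(t * (N c * E / D))) *
          (Real.pi / (t * D * N c) * Real.exp (-((c0 * ab r) ^ 2 / (t * D * N c)))))
          = Real.pi * (t ^ (1 / 3 : ℝ) * ((N c)⁻¹ * (D⁻¹ *
            Real.exp (-(t * N c * E / D) - (c0 * ab r) ^ 2 / (t * N c * D))))) := by
        rw [e1, e2]; field_simp
      have e4 := congrArg (fun y : ℝ => (y : ℂ)) e3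
      simp only [ofReal_mul (t ^ (4 / 3 : ℝ)), ofReal_mul Real.pi, ofReal_mul (t ^ (1 / 3 : ℝ)),
        ofReal_mul (N c)⁻¹, ofReal_inv (N c)] at e4
      rw [div_eq_mul_inv (gK k r c)]
      linear_combination gK k r c * e4

/-- The integral of the absolute series over the parallelogram. -/
theorem four_abs {t : ℝ} (ht : 0 < t) : ∃ C : ℝ, 0 < C ∧ ∀ D E : ℝ, (D, E) ∈ DE →
    ∫⁻ z in F9, ∑' x : Eis × Eis,
      (if x = 0 then 0 else ENNReal.ofReal (Real.exp (-(t * hv (pt z D E) x))))
      ≤ ENNReal.ofReal (C * (D⁻¹ + 1)) := by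
  obtain ⟨C, hC, hCb⟩ := tsum_exp_le
  have hV := V9_pos
  have hpi := Real.pi_pos
  refine ⟨V9 * C / t + Real.pi * 81 * C / t ^ 2, by positivity, fun D E h => ?_⟩
  have hD : 0 < D := h.1
  have hE : 1 ≤ E := h.2.1
  let k : Eis → Eis → ℂ := fun c d => if (c, d) = 0 then 0 else 1
  have hk : Adm k := by
    refine ⟨fun c d => ?_, fun c d b => ?_⟩
    · simp only [k]; split_ifs <;> simp
    · by_cases hc : c = 0
      · subst hc; simp
      · simp [k, hc]
  let G : ℂ → ℝ := fun z => ∑' x : Eis × Eis,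
    (if x = 0 then 0 else Real.exp (-(t * hv (pt z D E) x)))
  have hnn : ∀ z (x : Eis × Eis),
      0 ≤ (if x = 0 then 0 else Real.exp (-(t * hv (pt z D E) x))) := fun z x => by
    split_ifs
    · exact le_rfl
    · exact (Real.exp_pos _).le
  have hG : ∀ z, Es k t (pt z D E) = (G z : ℂ) := fun z => by
    rw [Es, ofReal_tsum]
    refine tsum_congr fun x => ?_
    simp only [k, Prod.mk.eta]
    split_ifs <;> simp
  have hGi : IntegrableOn G F9 := by
    have := (integrableOn_Es hk.1 ht h).re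
    simp only [hG, RCLike.re_to_complex, ofReal_re] at this
    exact this
  have e1 : ∀ z, ∑' x : Eis × Eis,
      (if x = 0 then 0 else ENNReal.ofReal (Real.exp (-(t * hv (pt z D E) x))))
      = ENNReal.ofReal (G z) := fun z => by
    have hs : Summable (fun x : Eis × Eis =>
        (if x = 0 then 0 else Real.exp (-(t * hv (pt z D E) x)))) := by
      refine Summable.of_nonneg_of_le (hnn z) (fun x => ?_) (summable_hv (pt_mem_slab z h) ht)
      split_ifs
      · exact (Real.exp_pos _).le
      · exact le_rfl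
    rw [ENNReal.ofReal_tsum_of_nonneg (hnn z) hs]
    refine tsum_congr fun x => ?_
    split_ifs <;> simp
  simp only [e1]
  rw [← ofReal_integral_eq_lintegral_ofReal hGi
    (Filter.Eventually.of_forall fun z => tsum_nonneg (hnn z))]
  refine ENNReal.ofReal_le_ofReal ?_
  have key := four_coef hk ht h 0
  have e0 : ∀ z, eR 0 z = 1 := fun z => by simp [eR]
  simp only [e0, map_one, mul_one, hG, if_true] at key
  rw [integral_complex_ofReal] at key
  have ht4 : 0 < t ^ (4 / 3 : ℝ) := Real.rpow_pos_of_pos ht _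
  have ht1 : 0 < t ^ (1 / 3 : ℝ) := Real.rpow_pos_of_pos ht _
  have e2 : t ^ (4 / 3 : ℝ) = t * t ^ (1 / 3 : ℝ) := by
    rw [show (4 / 3 : ℝ) = 1 + 1 / 3 by norm_num, Real.rpow_add ht, Real.rpow_one]
  have hsum : ∀ a : ℝ, 0 < a →
      Summable (fun c : Eis => (if c = 0 then 0 else Real.exp (-(a * N c)))) := fun a ha => by
    refine Summable.of_nonneg_of_le (fun c => ?_) (fun c => ?_) (summable_exp ha)
    · split_ifs
      · exact le_rfl
      · exact (Real.exp_pos _).le
    · split_ifs
      · exact (Real.exp_pos _).le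
      · exact le_rfl
  have b1 : ‖∑' d : Eis, k 0 d * (Real.exp (-(t * D * N d)) : ℂ)‖ ≤ C / (t * D) := by
    refine le_trans (tsum_of_norm_bounded (hsum (t * D) (by positivity)).hasSum fun d => ?_)
      (hCb _ (by positivity))
    by_cases hd : d = 0
    · subst hd; simp [k]
    · simp only [k, Prod.mk_eq_zero, true_and, hd, if_false, one_mul, norm_real,
        Real.norm_of_nonneg (Real.exp_pos _).le, le_refl]
  have b2 : ‖∑' c : Eis, gK k 0 c / (N c : ℂ) * fk (c0 * ab 0) D E (t * N c)‖
      ≤ 81 * D⁻¹ * (C / (t * E / D)) := by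
    have ha : 0 < t * E / D := by positivity
    refine le_trans (tsum_of_norm_bounded ((hsum _ ha).mul_left (81 * D⁻¹)).hasSum fun c => ?_) ?_
    · by_cases hc : c = 0
      · subst hc; simp
      · have hN := N_pos hc
        have h0 : ab 0 = 0 := by simp [ab]
        rw [if_neg hc, norm_mul, norm_div, norm_real, Real.norm_of_nonneg hN.le, fk, norm_real,
          Real.norm_of_nonneg (by positivity), h0]
        have h1 : ‖gK k 0 c‖ / N c ≤ 81 := by
          rw [div_le_iff₀ hN]; exact norm_gK_le hk 0 hc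
        have h2 : -(t * N c * E / D) - (c0 * 0) ^ 2 / (t * N c * D) = -(t * E / D * N c) := by
          ring
        rw [h2, mul_assoc]
        exact mul_le_mul_of_nonneg_right h1 (by positivity)
    · rw [tsum_mul_left]
      exact mul_le_mul_of_nonneg_left (hCb _ ha) (by positivity)
  have b3 : t ^ (4 / 3 : ℝ) * ∫ z in F9, G z ≤ t ^ (4 / 3 : ℝ) * V9 * (C / (t * D))
      + Real.pi * (t ^ (1 / 3 : ℝ) * (81 * D⁻¹ * (C / (t * E / D)))) := by
    have h1 : t ^ (4 / 3 : ℝ) * ∫ z in F9, G z
        ≤ ‖((t ^ (4 / 3 : ℝ) : ℝ) : ℂ) * ((∫ z in F9, G z : ℝ) : ℂ)‖ := by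
      rw [← ofReal_mul, norm_real]; exact le_abs_self _
    refine h1.trans ?_
    rw [key]
    refine (norm_add_le _ _).trans (add_le_add ?_ ?_)
    · rw [norm_mul, norm_real, Real.norm_of_nonneg (by positivity)]
      exact mul_le_mul_of_nonneg_left b1 (by positivity)
    · rw [norm_mul, norm_real, Real.norm_of_nonneg hpi.le, Rs, norm_mul, norm_real,
        Real.norm_of_nonneg ht1.le]
      exact mul_le_mul_of_nonneg_left (mul_le_mul_of_nonneg_left b2 ht1.le) hpi.le
  have b4 : t ^ (4 / 3 : ℝ) * V9 * (C / (t * D))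
      + Real.pi * (t ^ (1 / 3 : ℝ) * (81 * D⁻¹ * (C / (t * E / D))))
      = t ^ (4 / 3 : ℝ) * (V9 * C / t * D⁻¹ + Real.pi * 81 * C / t ^ 2 / E) := by
    rw [e2]; field_simp
  rw [b4] at b3
  refine (le_of_mul_le_mul_left b3 ht4).trans ?_
  have b5 : Real.pi * 81 * C / t ^ 2 / E ≤ Real.pi * 81 * C / t ^ 2 :=
    div_le_self (by positivity) hE
  have b6 : 0 ≤ V9 * C / t := by positivity
  have b7 : 0 ≤ Real.pi * 81 * C / t ^ 2 * D⁻¹ := by positivity
  nlinarith

/-- The absolute series is integrable against the weight used in the unfolding. -/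
theorem lintegral_abs_lt_top {t t' : ℝ} (ht : 0 < t) (ht' : 0 < t') :
    ∫⁻ Q, F9.indicator (fun _ => (1 : ENNReal)) (Q.2.1 / (Q.2.2 : ℂ)) *
      ENNReal.ofReal (Real.exp (-(t' * Q.2.2))) *
        ∑' x : Eis × Eis, (if x = 0 then 0 else ENNReal.ofReal (Real.exp (-(t * hv Q x)))) ∂nu
      < ⊤ := by
  obtain ⟨C, hC, hCb⟩ := four_abs ht
  rw [← measurePreserving_pt.map_eq]
  refine (lintegral_map_le _ _).trans_lt ?_
  refine (lintegral_withDensity_le_lintegral_mul _ (by fun_prop) _).trans_lt ?_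
  rw [Measure.volume_eq_prod, ← Measure.prod_restrict, ← Measure.prod_swap]
  refine (lintegral_map_le _ _).trans_lt ?_
  refine (lintegral_prod_le _).trans_lt ?_
  have hb : ∀ p ∈ DE, ∫⁻ z in Set.univ, ENNReal.ofReal p.1 *
      (F9.indicator (fun _ => (1 : ENNReal)) ((p.1 : ℂ) * z / (p.1 : ℂ)) *
        ENNReal.ofReal (Real.exp (-(t' * p.1))) * ∑' x : Eis × Eis,
          (if x = 0 then 0 else ENNReal.ofReal (Real.exp (-(t * hv (pt z p.1 p.2) x)))))
      ≤ ENNReal.ofReal (C * (1 + 2 / t') * Real.exp (-(t' / 2) * p.1)) := by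
    intro p hp
    have hD : 0 < p.1 := hp.1
    have hDc : (p.1 : ℂ) ≠ 0 := by exact_mod_cast hD.ne'
    have e : ∀ z : ℂ, ENNReal.ofReal p.1 *
        (F9.indicator (fun _ => (1 : ENNReal)) ((p.1 : ℂ) * z / (p.1 : ℂ)) *
          ENNReal.ofReal (Real.exp (-(t' * p.1))) * ∑' x : Eis × Eis,
            (if x = 0 then 0 else ENNReal.ofReal (Real.exp (-(t * hv (pt z p.1 p.2) x)))))
        = ENNReal.ofReal (p.1 * Real.exp (-(t' * p.1))) * F9.indicator (fun z =>
            ∑' x : Eis × Eis,
              (if x = 0 then 0 else ENNReal.ofReal (Real.exp (-(t * hv (pt z p.1 p.2) x))))) z := by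
      intro z
      rw [mul_div_cancel_left₀ _ hDc, ENNReal.ofReal_mul hD.le]
      by_cases hz : z ∈ F9
      · simp only [Set.indicator_of_mem hz, one_mul, mul_assoc]
      · simp only [Set.indicator_of_notMem hz, zero_mul, mul_zero]
    simp only [e]
    rw [Measure.restrict_univ, lintegral_const_mul' _ _ ENNReal.ofReal_ne_top,
      lintegral_indicator measurableSet_F9]
    refine (mul_le_mul_right (hCb p.1 p.2 hp) _).trans ?_
    rw [← ENNReal.ofReal_mul (by positivity)]
    refine ENNReal.ofReal_le_ofReal ?_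
    have h1 : t' / 2 * p.1 + 1 ≤ Real.exp (t' / 2 * p.1) := Real.add_one_le_exp _
    have h2 : Real.exp (-(t' / 2) * p.1) = Real.exp (t' / 2 * p.1) * Real.exp (-(t' * p.1)) := by
      rw [← Real.exp_add]; congr 1; ring
    have h3 : p.1 * Real.exp (-(t' * p.1)) * (C * (p.1⁻¹ + 1))
        = C * (1 + p.1) * Real.exp (-(t' * p.1)) := by field_simp
    have h4 : 1 + p.1 ≤ (1 + 2 / t') * (t' / 2 * p.1 + 1) := by
      have : (1 + 2 / t') * (t' / 2 * p.1 + 1) = 1 + p.1 + (t' / 2 * p.1 + 2 / t') := by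
        field_simp; ring
      rw [this]
      have : 0 ≤ t' / 2 * p.1 + 2 / t' := by positivity
      linarith
    rw [h3, h2, ← mul_assoc, mul_assoc C (1 + 2 / t')]
    refine mul_le_mul_of_nonneg_right (mul_le_mul_of_nonneg_left ?_ hC.le) (Real.exp_pos _).le
    exact h4.trans (mul_le_mul_of_nonneg_left h1 (by positivity))
  refine lt_of_le_of_lt (setLIntegral_mono' measurableSet_DE hb) ?_
  rw [DE, Measure.volume_eq_prod, ← Measure.prod_restrict]
  refine (lintegral_prod_le _).trans_lt ?_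
  simp only [lintegral_const, Measure.restrict_apply_univ, Real.volume_Icc]
  rw [lintegral_mul_const' _ _ ENNReal.ofReal_ne_top]
  refine ENNReal.mul_lt_top ?_ ENNReal.ofReal_lt_top
  exact ((exp_neg_integrableOn_Ioi 0 (half_pos ht')).const_mul (C * (1 + 2 / t'))).lintegral_lt_top

/-- Fourier uniqueness on the fundamental parallelogram. -/
theorem fourier_unique {f : ℂ → ℂ} (hf : MemLp f 2 (volume.restrict F9))
    (h : ∀ r : Eis, ∫ z in F9, f z * conj (eR r z) = 0) :
    ∀ᵐ z ∂(volume.restrict F9), f z = 0 := fourA_unique hf h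

end Vale.Agent.P026
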