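import Vale.Agent.P026.GaussA

/-! Gauss sums of the symbols modulo squarefree elements. -/

namespace Vale.Agent.P026

open Eis Complex
open scoped Classical ComplexConjugate

theorem gauss_chi {j j' : ℕ} (hj : 3 ∣ j + j') {c : Eis} (hc : P0 c) (h : Eis) :
    gauss (fun x => chi j x c) c h = chi j' h c * (ab c : ℂ) * Gt j c := by
  rw [(ga_chi j).gauss_eq hc h, conj_chi hj h hc.ne_zero, Gt, mul_assoc,
    mul_div_cancel₀ _ (ga_ab_ne hc.ne_zero)]
theorem gauss_cub {c : Eis} (hc : P0 c) (h : Eis) :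
    gauss (fun x => cub x c) c h = conj (cub h c) * (ab c : ℂ) * g3 c := by
  rw [ga_cub.gauss_eq hc h, g3, mul_assoc, mul_div_cancel₀ _ (ga_ab_ne hc.ne_zero)]
theorem norm_Gt (j : ℕ) {c : Eis} (hc : P0 c) : ‖Gt j c‖ = 1 := (ga_chi j).norm_gauss hc
theorem norm_g3 {c : Eis} (hc : P0 c) : ‖g3 c‖ = 1 := ga_cub.norm_gauss hc
theorem ga_ab_one : ab 1 = 1 := by rw [ab, N_one, Real.sqrt_one]
theorem Gt_one (j : ℕ) : Gt j 1 = 1 := by
  rw [Gt, (ga_chi j).gauss_one, ga_ab_one]; simp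
theorem g3_one : g3 1 = 1 := by
  rw [g3, ga_cub.gauss_one, ga_ab_one]; simp
theorem Gt_mul (j : ℕ) {c d : Eis} (hc : P0 c) (hd : P0 d) (h : IsCoprime c d) :
    Gt j (c * d) = Gt j c * Gt j d * chi j c d * chi j d c := by
  unfold Gt
  rw [(ga_chi j).gauss_mul hc.1 hd.1 h, ab_mul]
  have := ga_ab_ne hc.ne_zero
  have := ga_ab_ne hd.ne_zero
  push_cast
  field_simp
theorem g3_mul {c d : Eis} (hc : P0 c) (hd : P0 d) (h : IsCoprime c d) :
    g3 (c * d) = g3 c * g3 d * cub c d ^ 2 := by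
  unfold g3
  rw [ga_cub.gauss_mul hc.1 hd.1 h, ab_mul, cub_recip hd.1.1 hc.1.1]
  have := ga_ab_ne hc.ne_zero
  have := ga_ab_ne hd.ne_zero
  push_cast
  field_simp
theorem ga_chi_neg_one (j : ℕ) {c : Eis} (hc : P1 c) : chi j (-1) c = quad (-1) c := by
  rw [chi, cub_neg_left _ hc.1.not_lam_dvd, cub_one_left hc.1.not_lam_dvd, one_pow, one_mul]
theorem ga_quad_neg_sq (c : Eis) : quad (-1) c * quad (-1) c = 1 := by
  rw [← sq]; exact quad_sq isCoprime_one_left.neg_left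
theorem Gt_mul_Gt {j j' : ℕ} (hj : 3 ∣ j + j') {c : Eis} (hc : P0 c) :
    Gt j c * Gt j' c = quad (-1) c := by
  have h0 := hc.ne_zero
  have e1 : conj (gauss (fun x => chi j x c) c 1) = gauss (fun x => chi j' x c) c (-1) := by
    rw [gauss, gauss, map_sum]
    refine Finset.sum_congr rfl fun x _ => ?_
    rw [map_mul, conj_chi hj x h0, one_mul, neg_one_mul, psi_neg]
  have e2 := (ga_chi j).gauss_mul_conj hc
  rw [e1, gauss_chi (j := j') (j' := j) (by rwa [add_comm]) hc (-1), gauss_chi hj hc 1, chi_one_left _ hc.1,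
    ga_chi_neg_one _ hc.1, ← ga_ab_sq] at e2
  have e3 := ga_quad_neg_sq c
  have e4 := ga_ab_ne h0
  apply mul_left_cancel₀ (mul_ne_zero e4 e4)
  linear_combination quad (-1) c * e2 - ((ab c : ℂ) * ab c * Gt j c * Gt j' c) * e3
theorem ga_quad_quad {x y : Eis} (hx : ¬ (2 : Eis) ∣ x) (hy : ¬ (2 : Eis) ∣ y)
    (h : IsCoprime x y) : quad x y * quad y x = Rq x y := by
  have := quad_sq h.symm
  rw [quad_recip hx hy]
  linear_combination Rq x y * this
theorem Gt_zero {c : Eis} (hc : P0 c) : Gt 0 c = Gam c := by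
  refine P0.induction (Pr := fun c => Gt 0 c = Gam c) ?_ ?_ hc
  · show Gt 0 1 = Gam 1
    rw [Gt_one, Gam_one]
  · intro p x hp h1 hx hpx ih
    have hcop := (ga_cop hp hpx).symm
    have e1 := gauss_quad_prime hp h1.2 1 hp.not_dvd_one
    rw [r2_gauss_aux hp h1.2 1 hp.not_dvd_one, quad_one_left h1.2, one_mul, one_mul] at e1
    have e2 : Gt 0 p = Gam p := by
      rw [Gt, gauss]
      simp only [chi_zero_eq, one_mul]
      rw [e1, mul_div_cancel_left₀ _ (ga_ab_ne hp.ne_zero)]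
    rw [Gt_mul 0 (P0.of_prime hp h1) hx hcop, e2, ih, Gam_mul h1.2 hx.1.2, chi_zero_eq,
      chi_zero_eq, mul_assoc, ga_quad_quad h1.2 hx.1.2 hcop]
theorem norm_alph_le (o : Bool) (e : Eis) : ‖alph o e‖ ≤ 1 := by
  unfold alph
  split_ifs with h
  · rw [norm_mul, norm_conj, norm_g3 h, one_mul]; exact norm_ang_le o e
  · simp
theorem alph_ne_zero {o : Bool} {e : Eis} (h : alph o e ≠ 0) : P0 e := by
  by_contra h'
  exact h (by rw [alph, if_neg h'])
theorem alph_one (o : Bool) : alph o 1 = 1 := by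
  rw [alph, if_pos P0.one, g3_one, ang_one]; simp
theorem alph_mul (o : Bool) {D : Eis} (hD : P0 D) (c : Eis) :
    alph o (D * c) = alph o D * alph o c * cub D c := by
  by_cases h : P0 (D * c)
  · obtain ⟨-, hc, hcop⟩ := P0.of_mul hD.1.1 h
    unfold alph
    rw [if_pos h, if_pos hD, if_pos hc, g3_mul hD hc hcop, ang_mul, map_mul, map_mul, map_pow,
      conj_cub, ← pow_mul, cub_pow_four]
    ring
  · by_cases hc : P0 c
    · have hn : ¬ IsCoprime D c := fun h' => h (hD.mul hc h')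
      rw [(cub_eq_zero hc.ne_zero).2 hn, mul_zero, alph, if_neg h]
    · rw [alph, alph, alph, if_neg h, if_neg hc]; ring
theorem ga_mu_prime {p : Eis} (hp : Prime p) (h1 : P1 p) :
    mu0 p * Gt 2 p = quad (-1) p * cub 4 p * conj (Gam p) * alph true p := by
  have h0 := P0.of_prime hp h1
  have e1 := ga_prod hp h1
  rw [gauss_chi (j' := 0) (by norm_num) h0, gauss_chi (j' := 2) (by norm_num) h0, gauss_cub h0,
    chi_one_left _ h1, chi_one_left _ h1, cub_one_left h1.1.not_lam_dvd, Gt_zero h0,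
    map_one] at e1
  have e2 := Gt_mul_Gt (j := 1) (j' := 2) (by norm_num) h0
  have e3 := r2_Gam_mul_conj h1.2
  have e4 := ga_mul_conj (norm_g3 h0)
  have e5 := ga_ab_ne hp.ne_zero
  have e6 : (ab p : ℂ) * (Gam p * g3 p) = -(cub 4 p * toC p) * Gt 1 p := by
    apply mul_left_cancel₀ e5
    linear_combination e1
  rw [mu0_prime hp h1, alph, if_pos h0, ang, if_pos rfl]
  apply mul_left_cancel₀ e5
  rw [show (ab p : ℂ) * (quad (-1) p * cub 4 p * conj (Gam p) * (conj (g3 p) * (toC p / ab p))) =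
    quad (-1) p * cub 4 p * conj (Gam p) * conj (g3 p) * toC p by field_simp, ← e2]
  linear_combination (-(Gt 2 p * conj (Gam p) * conj (g3 p))) * e6 +
    ((ab p : ℂ) * Gt 2 p * (g3 p * conj (g3 p))) * e3 + ((ab p : ℂ) * Gt 2 p) * e4
/-- The key identity between the Moebius function and the theta coefficients. -/
theorem mu_Gt_two {c : Eis} (hc : P0 c) :
    mu0 c * Gt 2 c = quad (-1) c * cub 4 c * conj (Gam c) * alph true c := by
  refine P0.induction (Pr := fun c =>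
    mu0 c * Gt 2 c = quad (-1) c * cub 4 c * conj (Gam c) * alph true c) ?_ ?_ hc
  · show mu0 1 * Gt 2 1 = quad (-1) 1 * cub 4 1 * conj (Gam 1) * alph true 1
    rw [mu0_one, Gt_one, quad_one_right, cub_one_right, Gam_one, alph_one]; simp
  · intro p x hp h1 hx hpx ih
    have hcop := (ga_cop hp hpx).symm
    have h0 := P0.of_prime hp h1
    have e1 := ga_mu_prime hp h1
    have e2 : chi 2 p x * chi 2 x p = cub p x * Rq p x := by
      rw [chi, chi, cub_recip hx.1.1 h1.1, ← ga_quad_quad h1.2 hx.1.2 hcop]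
      linear_combination (quad p x * quad x p) * cub_pow_four p x
    rw [mu0_mul h0, cop, if_pos hcop.symm, Gt_mul 2 h0 hx hcop, alph_mul true h0,
      quad_mul_right _ hp.ne_zero hx.ne_zero, cub_mul_right _ hp.ne_zero hx.ne_zero,
      Gam_mul h1.2 hx.1.2, map_mul, map_mul, conj_Rq h1.2 hx.1.2]
    calc mu0 p * mu0 x * 1 * (Gt 2 p * Gt 2 x * chi 2 p x * chi 2 x p)
        = (mu0 p * Gt 2 p) * (mu0 x * Gt 2 x) * (chi 2 p x * chi 2 x p) := by ring
      _ = _ := by rw [e1, ih, e2]; ring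
theorem ga_P1_iff {x y : Eis} (h : (72 : Eis) ∣ x - y) : P1 x ↔ P1 y :=
  have h6 : (6 : Eis) ∣ x - y := Dvd.dvd.trans ⟨12, by norm_num⟩ h
  ⟨fun hx => hx.of_dvd_sub (dvd_sub_comm.1 h6), fun hy => hy.of_dvd_sub h6⟩
theorem ga_cub_four {x y : Eis} (hx : P1 x) (h : (72 : Eis) ∣ x - y) : cub 4 x = cub 4 y :=
  cub_per_Sm hx.1 ⟨2, 9, by norm_num⟩ (Dvd.dvd.trans ⟨4, by norm_num⟩ h)
theorem exists_eta : ∃ η : Eis → ℂ, Per 72 η ∧ Bd1 η ∧
    ∀ c, mu0 c * Gt 2 c = η c * alph true c := by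
  refine ⟨fun c => if P1 c then quad (-1) c * cub 4 c * conj (Gam c) else 0,
    Per.of_congr fun x y h => ?_, fun c => ?_, fun c => ?_⟩
  · have h4 : (4 : Eis) ∣ x - y := Dvd.dvd.trans ⟨18, by norm_num⟩ h
    by_cases hx : P1 x
    · rw [if_pos hx, if_pos ((ga_P1_iff h).1 hx), quad_neg_one_congr hx.2 h4, ga_cub_four hx h,
        Gam_congr h4]
    · rw [if_neg hx, if_neg (fun hy => hx ((ga_P1_iff h).2 hy))]
  · beta_reduce
    split_ifs
    · rw [norm_mul, norm_mul, norm_conj]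
      exact mul_le_one₀ (mul_le_one₀ (norm_quad_le _ _) (norm_nonneg _) (norm_cub_le _ _))
        (norm_nonneg _) (norm_Gam_le _)
    · simp
  · by_cases hc : P0 c
    · rw [mu_Gt_two hc]; beta_reduce; rw [if_pos hc.1]
    · rw [alph, mu0, if_neg hc, if_neg hc]; simp
theorem exists_eta' : ∃ η : Eis → ℂ, Per 72 η ∧ Bd1 η ∧
    ∀ c, alph true c * Gt 1 c = η c * mu0 c := by
  refine ⟨fun c => if P1 c then conj (cub 4 c) * Gam c else 0,
    Per.of_congr fun x y h => ?_, fun c => ?_, fun c => ?_⟩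
  · have h4 : (4 : Eis) ∣ x - y := Dvd.dvd.trans ⟨18, by norm_num⟩ h
    by_cases hx : P1 x
    · rw [if_pos hx, if_pos ((ga_P1_iff h).1 hx), ga_cub_four hx h, Gam_congr h4]
    · rw [if_neg hx, if_neg (fun hy => hx ((ga_P1_iff h).2 hy))]
  · beta_reduce
    split_ifs
    · rw [norm_mul, norm_conj]
      exact mul_le_one₀ (norm_cub_le _ _) (norm_nonneg _) (norm_Gam_le _)
    · simp
  · by_cases hc : P0 c
    · beta_reduce
      rw [if_pos hc.1]
      have e1 := mu_Gt_two hc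
      have e2 := Gt_mul_Gt (j := 1) (j' := 2) (by norm_num) hc
      have e3 := r2_Gam_mul_conj hc.1.2
      have h4 : IsCoprime (4 : Eis) c :=
        Sm.coprime ⟨2, 9, by norm_num⟩ hc.1
      have e4 := ga_mul_conj (norm_cub h4)
      have e5 := ga_quad_neg_sq c
      have e6 : mu0 c = cub 4 c * conj (Gam c) * alph true c * Gt 1 c := by
        linear_combination (quad (-1) c * Gt 1 c) * e1 - (quad (-1) c * mu0 c) * e2 +
          (cub 4 c * conj (Gam c) * alph true c * Gt 1 c - mu0 c) * e5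
      rw [e6]
      linear_combination (-(alph true c * Gt 1 c * (Gam c * conj (Gam c)))) * e4 -
        (alph true c * Gt 1 c) * e3
    · rw [alph, mu0, if_neg hc, if_neg hc]; simp
/-- Gauss sums modulo prime powers. -/
theorem gauss_prime_pow {p : Eis} (hp : Prime p) (h1 : P1 p) {k : ℕ} (hk : 1 ≤ k) (r : Eis) :
    gauss (fun u => cub u p ^ k) (p ^ k) r =
      if p ^ (k - 1) ∣ r then
        (N p : ℂ) ^ (k - 1) * gauss (fun u => cub u p ^ k) p (r / p ^ (k - 1)) else 0 := by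
  obtain ⟨m, rfl⟩ : ∃ m, k = m + 1 := ⟨k - 1, by omega⟩
  have h0 := hp.ne_zero
  have hm : p ^ m ≠ 0 := pow_ne_zero _ h0
  rw [Nat.add_sub_cancel, show p ^ (m + 1) = p * p ^ m by ring]
  have hF : Per (p * p ^ m) fun u => cub u p ^ (m + 1) :=
    Per.of_congr fun x y h => by rw [cub_congr (dvd_of_mul_right_dvd h)]
  have e1 : gauss (fun u => cub u p ^ (m + 1)) (p * p ^ m) r =
      ∑ u ∈ res p, cub u p ^ (m + 1) * psi (p * p ^ m) (r * u) *
        if p ^ m ∣ r then (N (p ^ m) : ℂ) else 0 := by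
    rw [gauss, sum_res_mul h0 hm (hF.mul (per_psi _ r))]
    refine Finset.sum_congr rfl fun u _ => ?_
    rw [← sum_psi hm, Finset.mul_sum]
    refine Finset.sum_congr rfl fun v _ => ?_
    rw [cub_congr (a := u + p * v) (b := u) (by simp),
      show r * (u + p * v) = r * u + p * (r * v) by ring, psi_add, mul_comm p (p ^ m),
      psi_mul_left h0]
    ring
  rw [e1]
  split_ifs with h
  · obtain ⟨s, rfl⟩ := h
    rw [mul_div_cancel_left₀ _ hm, gauss, Finset.mul_sum, N_pow]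
    refine Finset.sum_congr rfl fun u _ => ?_
    rw [mul_assoc (p ^ m), psi_mul_left hm]
    push_cast; ring
  · simp
theorem gauss_prime_cube {p : Eis} (hp : Prime p) (h1 : P1 p) {k : ℕ} (hk : 1 ≤ k) (h3 : 3 ∣ k)
    (r : Eis) : gauss (fun u => cub u p ^ k) p r = if p ∣ r then (N p : ℂ) - 1 else -1 := by
  have h0 := hp.ne_zero
  obtain ⟨m, rfl⟩ := h3
  have e1 : gauss (fun u => cub u p ^ (3 * m)) p r =
      ∑ u ∈ res p, (psi p (r * u) - if p ∣ u - 0 then psi p (r * u) else 0) := by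
    refine Finset.sum_congr rfl fun u _ => ?_
    beta_reduce
    rw [sub_zero]
    split_ifs with h
    · rw [(cub_eq_zero h0).2 (ga_not_cop hp h), zero_pow (by omega)]; simp
    · rw [pow_mul, cub_cube (ga_cop hp h)]; simp
  rw [e1, Finset.sum_sub_distrib, sum_psi h0, ga_pick h0 (per_psi p r) 0]
  split_ifs <;> simp
theorem ga_sum_cub_pow {p : Eis} (hp : Prime p) (h1 : Prim p) {k : ℕ} (h3 : ¬ 3 ∣ k) :
    ∑ u ∈ res p, cub u p ^ k = 0 := by
  have hl := h1.not_lam_dvd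
  obtain ⟨a, ha, hne⟩ := exists_cub_ne hp hl
  have hF : Per p fun u => cub u p ^ k := Per.of_congr fun x y h => by rw [cub_congr h]
  have h := sum_res_affine hp.ne_zero hF (ga_cop hp ha) 0
  simp only [add_zero, cub_mul_left _ _ hl, mul_pow] at h
  rw [← Finset.mul_sum] at h
  have h2 : (cub a p ^ k - 1) * ∑ x ∈ res p, cub x p ^ k = 0 := by linear_combination h
  refine (mul_eq_zero.1 h2).resolve_left (sub_ne_zero.2 fun h4 => h3 ?_)
  have : Fact (Nat.Prime 3) := ⟨Nat.prime_three⟩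
  rw [← orderOf_eq_prime (cub_cube (ga_cop hp ha)) hne]
  exact orderOf_dvd_of_pow_eq_one h4
theorem gauss_prime_zero {p : Eis} (hp : Prime p) (h1 : P1 p) {k : ℕ} (h3 : ¬ 3 ∣ k)
    {r : Eis} (hr : p ∣ r) : gauss (fun u => cub u p ^ k) p r = 0 := by
  rw [← ga_sum_cub_pow hp h1.1 h3]
  refine Finset.sum_congr rfl fun x _ => ?_
  rw [psi_of_dvd (hr.mul_right x), mul_one]

end Vale.Agent.P026
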