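import Vale.Agent.P026.Recip2

/-! Gauss sums of an abstract residue symbol. -/

namespace Vale.Agent.P026

open Eis Complex
open scoped Classical ComplexConjugate

/-- The properties of a residue symbol used for Gauss sums. -/
structure ga_Sym (f : Eis → Eis → ℂ) : Prop where
  mul_left : ∀ a b c, P1 c → f (a * b) c = f a c * f b c
  mul_right : ∀ a c d, c ≠ 0 → d ≠ 0 → f a (c * d) = f a c * f a d
  congr : ∀ a b c, c ∣ a - b → f a c = f b c
  one_left : ∀ c, P1 c → f 1 c = 1
  one_right : ∀ a, f a 1 = 1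
  norm : ∀ a c, IsCoprime a c → ‖f a c‖ = 1
  zero : ∀ a c, c ≠ 0 → ¬ IsCoprime a c → f a c = 0
  ne : ∀ p, Prime p → P1 p → ∃ a, ¬ p ∣ a ∧ f a p ≠ 1

theorem ga_cop {p a : Eis} (hp : Prime p) (ha : ¬ p ∣ a) : IsCoprime a p :=
  ((hp.irreducible.coprime_iff_not_dvd).2 ha).symm

theorem ga_not_cop {p a : Eis} (hp : Prime p) (ha : p ∣ a) : ¬ IsCoprime a p := fun h =>
  (hp.irreducible.coprime_iff_not_dvd).1 h.symm ha

theorem ga_mul_conj {z : ℂ} (h : ‖z‖ = 1) : z * conj z = 1 := by
  rw [mul_conj, normSq_eq_norm_sq, h]; simp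

theorem ga_ab_ne {c : Eis} (hc : c ≠ 0) : (ab c : ℂ) ≠ 0 := by
  exact_mod_cast (ab_pos hc).ne'

theorem ga_ab_sq (c : Eis) : (ab c : ℂ) * ab c = N c := by
  rw [← ab_sq]; push_cast; ring

theorem ga_cub : ga_Sym cub where
  mul_left a b _ hc := cub_mul_left a b hc.1.not_lam_dvd
  mul_right a _ _ hc hd := cub_mul_right a hc hd
  congr _ _ _ h := cub_congr h
  one_left _ hc := cub_one_left hc.1.not_lam_dvd
  one_right := cub_one_right
  norm _ _ h := norm_cub h
  zero _ _ hc h := (cub_eq_zero hc).2 h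
  ne _ hp h1 := exists_cub_ne hp h1.1.not_lam_dvd

theorem ga_chi (j : ℕ) : ga_Sym (chi j) where
  mul_left a b _ hc := chi_mul_left j a b hc
  mul_right a _ _ hc hd := chi_mul_right j a hc hd
  congr _ _ _ h := chi_congr j h
  one_left _ hc := chi_one_left j hc
  one_right := chi_one_right j
  norm _ _ h := norm_chi j h
  zero _ _ hc h := (chi_eq_zero j hc).2 h
  ne p hp h1 := by
    obtain ⟨a, ha, hq⟩ := exists_quad_ne hp h1.2
    refine ⟨a, ha, fun h => ?_⟩
    have h3 := cub_cube (ga_cop hp ha)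
    have h4 : chi j a p ^ 3 = -1 := by
      rw [chi, hq, mul_pow, ← pow_mul, mul_comm j 3, pow_mul, h3]; norm_num
    rw [h] at h4
    norm_num at h4

theorem ga_res_one (F : Eis → ℂ) (hF : Per 1 F) : ∑ x ∈ res 1, F x = F 0 := by
  have h1 : ∀ x ∈ res 1, F x = F 0 := fun x _ => hF.congr (one_dvd _)
  rw [Finset.sum_congr rfl h1, Finset.sum_const, nsmul_eq_mul]
  have := card_res (c := 1) one_ne_zero
  rw [N_one] at this
  have h2 : (((res 1).card : ℕ) : ℂ) = 1 := by exact_mod_cast this
  rw [h2, one_mul]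

/-- Picking out one residue class. -/
theorem ga_pick {c : Eis} (hc : c ≠ 0) {F : Eis → ℂ} (hF : Per c F) (y : Eis) :
    ∑ x ∈ res c, (if c ∣ x - y then F x else 0) = F y := by
  have h1 : ∀ x ∈ res c, (if c ∣ x - y then F x else 0) = cls c x y * F y := by
    intro x _
    unfold cls
    by_cases h : c ∣ x - y
    · rw [if_pos h, if_pos (dvd_sub_comm.1 h), one_mul, hF.congr h]
    · rw [if_neg h, if_neg (fun h' => h (dvd_sub_comm.1 h')), zero_mul]
  rw [Finset.sum_congr rfl h1, ← Finset.sum_mul, sum_cls hc, one_mul]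

namespace ga_Sym

variable {f : Eis → Eis → ℂ}

theorem per (hf : ga_Sym f) (c : Eis) : Per c fun x => f x c :=
  Per.of_congr fun _ _ h => hf.congr _ _ _ h

theorem gauss_one (hf : ga_Sym f) (h : Eis) : gauss (fun x => f x 1) 1 h = 1 := by
  rw [gauss, ga_res_one _ ((hf.per 1).mul (per_psi 1 h)), hf.one_right]; simp

theorem gauss_mul (hf : ga_Sym f) {c d : Eis} (hc : P1 c) (hd : P1 d) (hcd : IsCoprime c d)
    (h : Eis) : gauss (fun x => f x (c * d)) (c * d) h =
      f c d * f d c * gauss (fun x => f x c) c h * gauss (fun x => f x d) d h := by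
  have hc0 := hc.ne_zero
  have hd0 := hd.ne_zero
  unfold gauss
  rw [sum_res_crt hc0 hd0 hcd ((hf.per (c * d)).mul (per_psi (c * d) h)), mul_assoc,
    Finset.sum_mul_sum, Finset.mul_sum]
  refine Finset.sum_congr rfl fun u _ => ?_
  rw [Finset.mul_sum]
  refine Finset.sum_congr rfl fun v _ => ?_
  have e1 : f (d * u + c * v) c = f d c * f u c := by
    rw [← hf.mul_left _ _ _ hc]; exact hf.congr _ _ _ ⟨v, by ring⟩
  have e2 : f (d * u + c * v) d = f c d * f v d := by
    rw [← hf.mul_left _ _ _ hd]; exact hf.congr _ _ _ ⟨u, by ring⟩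
  have e3 : psi (c * d) (h * (d * u + c * v)) = psi c (h * u) * psi d (h * v) := by
    rw [show h * (d * u + c * v) = d * (h * u) + c * (h * v) by ring, psi_add,
      psi_mul_left hd0, mul_comm c d, psi_mul_left hc0]
  rw [hf.mul_right _ _ _ hc0 hd0, e1, e2, e3]; ring

theorem sum_zero (hf : ga_Sym f) {p : Eis} (hp : Prime p) (h1 : P1 p) :
    ∑ x ∈ res p, f x p = 0 := by
  obtain ⟨a, ha, hne⟩ := hf.ne p hp h1
  have h := sum_res_affine hp.ne_zero (hf.per p) (ga_cop hp ha) 0
  simp only [add_zero, hf.mul_left _ _ _ h1] at h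
  rw [← Finset.mul_sum] at h
  have h2 : (f a p - 1) * ∑ x ∈ res p, f x p = 0 := by linear_combination h
  exact (mul_eq_zero.1 h2).resolve_left (sub_ne_zero.2 hne)

theorem gauss_cop (hf : ga_Sym f) {c h : Eis} (hc : P1 c) (hh : IsCoprime h c) :
    gauss (fun x => f x c) c h = conj (f h c) * gauss (fun x => f x c) c 1 := by
  have e := sum_res_affine hc.ne_zero ((hf.per c).mul (per_psi c 1)) hh 0
  simp only [add_zero, hf.mul_left _ _ _ hc, one_mul] at e
  unfold gauss
  simp only [one_mul]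
  rw [← e, Finset.mul_sum]
  refine Finset.sum_congr rfl fun x _ => ?_
  have := ga_mul_conj (hf.norm _ _ hh)
  linear_combination (-(f x c * psi c (h * x))) * this

theorem gauss_prime (hf : ga_Sym f) {p : Eis} (hp : Prime p) (h1 : P1 p) (h : Eis) :
    gauss (fun x => f x p) p h = conj (f h p) * gauss (fun x => f x p) p 1 := by
  by_cases hh : p ∣ h
  · rw [hf.zero _ _ hp.ne_zero (ga_not_cop hp hh), map_zero, zero_mul, ← hf.sum_zero hp h1]
    refine Finset.sum_congr rfl fun x _ => ?_
    rw [psi_of_dvd (hh.mul_right x), mul_one]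
  · exact hf.gauss_cop h1 (ga_cop hp hh)

theorem gauss_eq (hf : ga_Sym f) {c : Eis} (hc : P0 c) (h : Eis) :
    gauss (fun x => f x c) c h = conj (f h c) * gauss (fun x => f x c) c 1 := by
  refine P0.induction (Pr := fun c => gauss (fun x => f x c) c h =
    conj (f h c) * gauss (fun x => f x c) c 1) ?_ ?_ hc
  · show gauss (fun x => f x 1) 1 h = conj (f h 1) * gauss (fun x => f x 1) 1 1
    rw [hf.gauss_one, hf.gauss_one, hf.one_right, map_one, mul_one]
  · intro p x hp h1 hx hpx ih
    have hcop := (ga_cop hp hpx).symm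
    rw [hf.gauss_mul h1 hx.1 hcop, hf.gauss_mul h1 hx.1 hcop, hf.gauss_prime hp h1 h, ih,
      hf.mul_right _ _ _ hp.ne_zero hx.ne_zero, map_mul]
    ring

theorem gauss_mul_conj (hf : ga_Sym f) {c : Eis} (hc : P0 c) :
    gauss (fun x => f x c) c 1 * conj (gauss (fun x => f x c) c 1) = N c := by
  have hc0 := hc.ne_zero
  have e1 : gauss (fun x => f x c) c 1 * conj (gauss (fun x => f x c) c 1) =
      ∑ y ∈ res c, gauss (fun x => f x c) c y * psi c (-y) := by
    have e0 : conj (gauss (fun x => f x c) c 1) = ∑ y ∈ res c, conj (f y c) * psi c (-y) := by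
      rw [gauss, map_sum]
      refine Finset.sum_congr rfl fun y _ => ?_
      rw [map_mul, one_mul, psi_neg]
    rw [e0, Finset.mul_sum]
    refine Finset.sum_congr rfl fun y _ => ?_
    rw [hf.gauss_eq hc y]
    ring
  have e2 : ∑ y ∈ res c, gauss (fun x => f x c) c y * psi c (-y) =
      ∑ x ∈ res c, f x c * ∑ y ∈ res c, psi c ((x - 1) * y) := by
    simp only [gauss, Finset.sum_mul, Finset.mul_sum]
    rw [Finset.sum_comm]
    refine Finset.sum_congr rfl fun x _ => Finset.sum_congr rfl fun y _ => ?_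
    rw [mul_assoc, ← psi_add]
    congr 2; ring
  rw [e1, e2]
  simp only [sum_psi hc0, mul_ite, mul_zero]
  rw [ga_pick hc0 ((hf.per c).mul (G := fun _ => (N c : ℂ)) fun _ _ => rfl) 1,
    hf.one_left c hc.1, one_mul]

theorem norm_gauss (hf : ga_Sym f) {c : Eis} (hc : P0 c) :
    ‖gauss (fun x => f x c) c 1 / (ab c : ℂ)‖ = 1 := by
  have h := hf.gauss_mul_conj hc
  rw [mul_conj, normSq_eq_norm_sq, ← ab_sq] at h
  have h2 : ‖gauss (fun x => f x c) c 1‖ ^ 2 = ab c ^ 2 := by exact_mod_cast h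
  have h3 := (pow_left_inj₀ (norm_nonneg _) (ab_nonneg c) two_ne_zero).1 h2
  rw [norm_div, h3, norm_real, Real.norm_of_nonneg (ab_nonneg c), div_self (ab_pos hc.ne_zero).ne']

end ga_Sym

/-- The mixed Jacobi sum. -/
theorem ga_jacobi {p : Eis} (hp : Prime p) (h1 : P1 p) :
    ∑ y ∈ res p, quad y p * cub (1 - y) p = -(cub 4 p * toC p) := by
  have h0 := hp.ne_zero
  have hl := h1.1.not_lam_dvd
  have hF : Per p fun y => cub (1 - y) p :=
    Per.of_congr fun x y h => cub_congr (by rw [sub_sub_sub_cancel_left]; exact dvd_sub_comm.1 h)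
  have hG : Per p fun t => cub (1 - t ^ 2) p :=
    Per.of_congr fun x y h => cub_congr (by
      rw [show 1 - x ^ 2 - (1 - y ^ 2) = (x - y) * (-(x + y)) by ring]; exact h.mul_right _)
  have e1 := r2_sum_sq hp h1.2 hF
  have h2 : IsCoprime (-2 : Eis) p := by
    refine IsCoprime.neg_left ?_
    exact (prime_two.irreducible.coprime_iff_not_dvd).2 h1.2
  have e2 := sum_res_affine h0 hG h2 1
  have e3 : ∑ x ∈ res p, cub (1 - (-2 * x + 1) ^ 2) p =
      cub 4 p * ∑ x ∈ res p, cub x p * cub (1 - x) p := by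
    rw [Finset.mul_sum]
    refine Finset.sum_congr rfl fun x _ => ?_
    rw [← cub_mul_left _ _ hl, ← cub_mul_left _ _ hl]
    congr 1; ring
  have e4 : ∑ y ∈ res p, cub (1 - y) p = 0 := by
    rw [← ga_cub.sum_zero hp h1,
      ← sum_res_affine h0 (ga_cub.per p) (isCoprime_one_left.neg_left) 1]
    refine Finset.sum_congr rfl fun x _ => ?_
    congr 1; ring
  simp only [add_mul, one_mul, Finset.sum_add_distrib] at e1
  rw [e4, zero_add, ← e2, e3, jacobi_cub hp h1.1] at e1
  rw [← e1]; ring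

theorem ga_conv {p : Eis} (hp : Prime p) (h1 : P1 p) (t : Eis) :
    ∑ y ∈ res p, quad y p * cub (t - y) p = chi 1 t p * -(cub 4 p * toC p) := by
  have h0 := hp.ne_zero
  have hl := h1.1.not_lam_dvd
  by_cases ht : p ∣ t
  · rw [(ga_chi 1).zero _ _ h0 (ga_not_cop hp ht), zero_mul, ← (ga_chi 1).sum_zero hp h1]
    refine Finset.sum_congr rfl fun y _ => ?_
    rw [chi, pow_one, mul_comm, ← cub_neg_left y hl]
    congr 1
    exact cub_congr (by simpa using ht)
  · have hF : Per p fun y => cub (t - y) p :=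
      Per.of_congr fun x y h => cub_congr (by rw [sub_sub_sub_cancel_left]; exact dvd_sub_comm.1 h)
    rw [← sum_res_affine h0 ((r2_per_quad p).mul hF) (ga_cop hp ht) 0, ← ga_jacobi hp h1,
      Finset.mul_sum]
    refine Finset.sum_congr rfl fun y _ => ?_
    rw [add_zero, show t - t * y = t * (1 - y) by ring, cub_mul_left _ _ hl,
      quad_mul_left _ _ h1.2, chi, pow_one]
    ring

/-- Product of the cubic and the quadratic Gauss sums. -/
theorem ga_prod {p : Eis} (hp : Prime p) (h1 : P1 p) :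
    gauss (fun x => chi 0 x p) p 1 * gauss (fun x => cub x p) p 1 =
      -(cub 4 p * toC p) * gauss (fun x => chi 1 x p) p 1 := by
  have h0 := hp.ne_zero
  unfold gauss
  simp only [one_mul, chi_zero_eq]
  rw [Finset.sum_mul_sum]
  have e1 : ∀ y ∈ res p, ∑ x ∈ res p, quad y p * psi p y * (cub x p * psi p x) =
      ∑ t ∈ res p, quad y p * cub (t - y) p * psi p t := by
    intro y _
    have hF : Per p fun t => quad y p * cub (t - y) p * psi p t :=
      Per.of_congr fun a b h => by
        rw [cub_congr (a := a - y) (b := b - y) (by simpa using h), psi_congr h]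
    rw [← sum_res_affine h0 hF isCoprime_one_left y]
    refine Finset.sum_congr rfl fun x _ => ?_
    rw [one_mul, add_sub_cancel_right, psi_add]; ring
  rw [Finset.sum_congr rfl e1, Finset.sum_comm, Finset.mul_sum]
  refine Finset.sum_congr rfl fun t _ => ?_
  rw [← Finset.sum_mul, ga_conv hp h1]; ring

end Vale.Agent.P026
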