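import Vale.Agent.P026.GeoA

/-! The change of variables to the coordinates (z, D, Δ). -/

namespace Vale.Agent.P026

open Eis Complex MeasureTheory
open scoped Classical ComplexConjugate ENNReal

theorem geo_scale {V : Type*} [NormedAddCommGroup V] [NormedSpace ℝ V] [MeasureSpace V]
    [BorelSpace V] [FiniteDimensional ℝ V] [(volume : Measure V).IsAddHaarMeasure]
    {r : ℝ} (hr : 0 < r) {g : V → ℝ≥0∞} (hg : Measurable g) :
    ∫⁻ x, g (r • x) = ENNReal.ofReal (r ^ Module.finrank ℝ V)⁻¹ * ∫⁻ x, g x := by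
  rw [← lintegral_map hg (measurable_const_smul r), Measure.map_addHaar_smul _ hr.ne',
    lintegral_smul_measure, abs_of_pos (by positivity), smul_eq_mul]

theorem geo_iter1 {G : ℂ × ℝ × ℝ → ℝ≥0∞} (hG : Measurable G) :
    ∫⁻ p, G p = ∫⁻ D, ∫⁻ z, ∫⁻ E, G (z, D, E) := by
  have h1 : ∫⁻ p, G p = ∫⁻ z, ∫⁻ q : ℝ × ℝ, G (z, q) := lintegral_prod G hG.aemeasurable
  have h2 : ∀ z, ∫⁻ q : ℝ × ℝ, G (z, q) = ∫⁻ D, ∫⁻ E, G (z, D, E) := fun z =>
    lintegral_prod (fun q : ℝ × ℝ => G (z, q)) (hG.comp measurable_prodMk_left).aemeasurable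
  rw [h1]
  simp_rw [h2]
  refine lintegral_lintegral_swap (Measurable.aemeasurable ?_)
  exact Measurable.lintegral_prod_right' (f := fun w : (ℂ × ℝ) × ℝ => G (w.1.1, w.1.2, w.2))
    (hG.comp (by fun_prop))

theorem geo_iter2 {F : HF → ℝ≥0∞} (hF : Measurable F) :
    ∫⁻ Q, F Q = ∫⁻ D, ∫⁻ B, ∫⁻ A, F (A, B, D) := by
  have h1 : ∫⁻ Q, F Q = ∫⁻ q : ℂ × ℝ, ∫⁻ A, F (A, q) := lintegral_prod_symm F hF.aemeasurable
  rw [h1]
  exact lintegral_prod_symm (fun q : ℂ × ℝ => ∫⁻ A, F (A, q))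
    (Measurable.lintegral_prod_left' hF).aemeasurable

theorem geo_measurable_pt : Measurable (fun p : ℂ × ℝ × ℝ => pt p.1 p.2.1 p.2.2) := by
  unfold pt
  fun_prop

theorem geo_fibre {F : HF → ℝ≥0∞} (hF : Measurable F) {D : ℝ} (hD : 0 < D) :
    ∫⁻ z, ∫⁻ E, ENNReal.ofReal D * F (pt z D E) = ∫⁻ B, ∫⁻ A, F (A, B, D) := by
  have h1 : ∀ z : ℂ, ∫⁻ E, ENNReal.ofReal D * F (pt z D E) =
      ENNReal.ofReal D * ENNReal.ofReal D * ∫⁻ A, F (A, D • z, D) := by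
    intro z
    have hm : Measurable (fun A : ℝ => F (D * normSq z + A, D • z, D)) := hF.comp (by fun_prop)
    have h2 := geo_scale (V := ℝ) (inv_pos.2 hD) hm
    rw [lintegral_add_left_eq_self (fun A : ℝ => F (A, D • z, D))] at h2
    simp only [Module.finrank_self, pow_one, inv_inv] at h2
    rw [lintegral_const_mul' _ _ ENNReal.ofReal_ne_top, mul_assoc, ← h2]
    refine congrArg _ (lintegral_congr fun E => ?_)
    simp only [pt, smul_eq_mul, real_smul, div_eq_inv_mul]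
  simp_rw [h1]
  have hm : Measurable (fun B : ℂ => ∫⁻ A, F (A, B, D)) :=
    Measurable.lintegral_prod_left' (f := fun w : ℝ × ℂ => F (w.1, w.2, D)) (hF.comp (by fun_prop))
  rw [lintegral_const_mul' _ _ (ENNReal.mul_ne_top ENNReal.ofReal_ne_top ENNReal.ofReal_ne_top),
    geo_scale hD hm, ← mul_assoc, ← ENNReal.ofReal_mul hD.le, ← ENNReal.ofReal_mul (by positivity),
    finrank_real_complex]
  have : D * D * (D ^ 2)⁻¹ = 1 := by field_simp
  rw [this, ENNReal.ofReal_one, one_mul]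

theorem geo_change {F : HF → ℝ≥0∞} (hF : Measurable F) (h0 : ∀ Q : HF, Q.2.2 ≤ 0 → F Q = 0) :
    ∫⁻ p : ℂ × ℝ × ℝ, ENNReal.ofReal p.2.1 * F (pt p.1 p.2.1 p.2.2) = ∫⁻ Q, F Q := by
  rw [geo_iter2 hF, geo_iter1 (G := fun p => ENNReal.ofReal p.2.1 * F (pt p.1 p.2.1 p.2.2))
    ((ENNReal.measurable_ofReal.comp (by fun_prop)).mul (hF.comp geo_measurable_pt))]
  refine lintegral_congr fun D => ?_
  rcases le_or_gt D 0 with hD | hD
  · have h1 : ∀ A B, F (A, B, D) = 0 := fun A B => h0 _ hD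
    simp [h1, ENNReal.ofReal_of_nonpos hD]
  · exact geo_fibre hF hD

end Vale.Agent.P026
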