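import Vale.Agent.P026.Count
import Vale.Agent.P026.GeoB

/-! Geometry and measure theory of the slab: action, invariance, coordinates, unfolding. -/

namespace Vale.Agent.P026

open Eis Complex MeasureTheory
open scoped Classical ComplexConjugate

theorem geo_detC (g : SL) : toC g.a * toC g.d - toC g.b * toC g.c = 1 := by
  rw [← map_mul, ← map_mul, ← map_sub, g.det, map_one]

theorem act_one (Q : HF) : act 1 Q = Q := by
  simp only [act, SL.one_a, SL.one_b, SL.one_c, SL.one_d, map_one, map_zero, geo_actC_one]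
theorem act_mul (g h : SL) (Q : HF) : act (g * h) Q = act g (act h Q) := by
  simp only [act, SL.mul_a, SL.mul_b, SL.mul_c, SL.mul_d, map_add, map_mul, geo_actC_mul]
theorem hv_act (g : SL) (Q : HF) (x : Eis × Eis) : hv (act g Q) x = hv Q (row x g) := by
  simp only [hv, act, row, map_add, map_mul, geo_hq_act]
theorem act_D (g : SL) (Q : HF) : (act g Q).2.2 = hv Q (g.c, g.d) := rfl
theorem act_mem_slab (g : SL) {Q : HF} (hQ : Q ∈ slab) : act g Q ∈ slab :=
  geo_mem_slab (geo_detC g) hQ
theorem continuous_act (g : SL) : Continuous (act g) := geo_continuous _ _ _ _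
theorem measurableSet_slab : MeasurableSet slab := by
  have h1 : Measurable (fun Q : HF => Q.1 * Q.2.2 - normSq Q.2.1) := by fun_prop
  exact (measurableSet_lt measurable_const measurable_snd.snd).inter
    ((measurableSet_le measurable_const h1).inter (measurableSet_le h1 measurable_const))
theorem measurePreserving_act (g : SL) : MeasurePreserving (act g) nu nu := by
  have h1 : MeasurePreserving (act g) volume volume := geo_mp (geo_detC g)
  have h2 : act g ⁻¹' slab = slab := by
    ext Q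
    refine ⟨fun h => ?_, act_mem_slab g⟩
    have := act_mem_slab g⁻¹ h
    rwa [← act_mul, inv_mul_cancel, act_one] at this
  have h3 := h1.restrict_preimage measurableSet_slab
  rwa [h2] at h3

theorem geo_pt_det (z : ℂ) {D : ℝ} (hD : D ≠ 0) (E : ℝ) :
    (pt z D E).1 * (pt z D E).2.2 - normSq (pt z D E).2.1 = E := by
  simp only [pt, normSq_mul, normSq_ofReal]
  field_simp
  ring

theorem pt_mem_slab (z : ℂ) {D E : ℝ} (h : (D, E) ∈ DE) : pt z D E ∈ slab := by
  obtain ⟨h0, h1, h2⟩ := h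
  have h3 := geo_pt_det z (ne_of_gt h0) E
  exact ⟨h0, by rw [h3]; exact h1, by rw [h3]; exact h2⟩
theorem eq_pt {Q : HF} (hQ : 0 < Q.2.2) :
    Q = pt (Q.2.1 / (Q.2.2 : ℂ)) Q.2.2 (Q.1 * Q.2.2 - normSq Q.2.1) := by
  obtain ⟨A, B, D⟩ := Q
  have h0 : D ≠ 0 := ne_of_gt hQ
  have h1 : (D : ℂ) ≠ 0 := by exact_mod_cast h0
  simp only [pt, map_div₀, normSq_ofReal, Prod.mk.injEq, and_true]
  constructor
  · field_simp
    ring
  · field_simp
theorem hq_pt (z : ℂ) {D : ℝ} (hD : D ≠ 0) (E : ℝ) (c d : ℂ) :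
    hq (pt z D E) c d = D * normSq (c * z + d) + normSq c * E / D := by
  simp only [hq, pt, normSq_apply, add_re, add_im, mul_re, mul_im, conj_re, conj_im, ofReal_re,
    ofReal_im]
  ring
theorem act_tr_pt (y : Eis) (z : ℂ) (D E : ℝ) :
    act (tr y) (pt z D E) = pt (z + toC y) D E := by
  simp only [act, tr, map_one, map_zero]
  generalize toC y = u
  refine Prod.ext ?_ (Prod.ext ?_ ?_)
  · simp only [actC, hq, pt, normSq_apply, add_re, add_im, mul_re, mul_im, conj_re, conj_im,
      ofReal_re, ofReal_im, one_re, one_im]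
    ring
  · simp [actC, pt, mul_add]
  · simp [actC, hq, pt]
theorem act_pt (g : SL) (z : ℂ) {D E : ℝ} (hD : 0 < D) (hE : 0 < E) :
    act g (pt z D E) =
      pt (((D : ℂ) * (toC g.a * z + toC g.b) * conj (toC g.c * z + toC g.d)
            + toC g.a * conj (toC g.c) * ((E / D : ℝ) : ℂ)) /
          ((D * normSq (toC g.c * z + toC g.d) + N g.c * E / D : ℝ) : ℂ))
        (D * normSq (toC g.c * z + toC g.d) + N g.c * E / D) E := by
  have h1 : (act g (pt z D E)).2.2 = D * normSq (toC g.c * z + toC g.d) + N g.c * E / D := by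
    rw [← normSq_toC]
    exact hq_pt z hD.ne' E _ _
  have h2 : (act g (pt z D E)).2.1 = (D : ℂ) * (toC g.a * z + toC g.b) *
      conj (toC g.c * z + toC g.d) + toC g.a * conj (toC g.c) * ((E / D : ℝ) : ℂ) := by
    simp only [act, actC, pt, map_add, map_mul, conj_ofReal, ofReal_add, ofReal_mul,
      ← mul_conj]
    ring
  have h3 : (act g (pt z D E)).1 * (act g (pt z D E)).2.2 - normSq (act g (pt z D E)).2.1 = E := by
    unfold act
    rw [geo_det, geo_detC, normSq_one, one_mul, geo_pt_det z hD.ne']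
  have h4 : 0 < (act g (pt z D E)).2.2 := by
    rw [h1]
    by_cases hc : g.c = 0
    · have hd : toC g.d ≠ 0 := by
        intro hd
        have := geo_detC g
        simp [hc, hd] at this
      have := normSq_pos.2 hd
      simp only [hc, map_zero, zero_mul, zero_add, N_zero, zero_div, add_zero]
      positivity
    · have := N_pos hc
      have := normSq_nonneg (toC g.c * z + toC g.d)
      positivity
  have h5 := eq_pt h4
  rwa [h3, h1, h2] at h5
theorem measurableSet_DE : MeasurableSet DE := measurableSet_Ioi.prod measurableSet_Icc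
theorem measurable_pt : Measurable (fun p : ℂ × ℝ × ℝ => pt p.1 p.2.1 p.2.2) := geo_measurable_pt

theorem geo_mem_iff (p : ℂ × ℝ × ℝ) :
    pt p.1 p.2.1 p.2.2 ∈ slab ↔ p ∈ (Set.univ : Set ℂ) ×ˢ DE := by
  refine ⟨fun h => ?_, fun h => pt_mem_slab p.1 h.2⟩
  obtain ⟨h0, h1, h2⟩ := h
  rw [geo_pt_det p.1 (D := p.2.1) (ne_of_gt h0)] at h1 h2
  exact ⟨trivial, h0, h1, h2⟩

/-- The coordinates (z, D, Δ) carry the measure D dz dD dΔ to Lebesgue measure on the slab. -/
theorem measurePreserving_pt :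
    MeasurePreserving (fun p : ℂ × ℝ × ℝ => pt p.1 p.2.1 p.2.2)
      ((volume.restrict (Set.univ ×ˢ DE)).withDensity (fun p => ENNReal.ofReal p.2.1)) nu := by
  refine ⟨measurable_pt, Measure.ext fun s hs => ?_⟩
  have hm := hs.inter measurableSet_slab
  have h1 := geo_change (F := (s ∩ slab).indicator 1) (measurable_one.indicator hm)
    (fun Q hQ => Set.indicator_of_notMem (fun h => absurd h.2.1 (not_lt.2 hQ)) _)
  rw [lintegral_indicator_one hm] at h1
  rw [Measure.map_apply measurable_pt hs, withDensity_apply _ (measurable_pt hs), nu,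
    Measure.restrict_apply hs, ← h1, Measure.restrict_restrict (measurable_pt hs),
    ← lintegral_indicator ((measurable_pt hs).inter (MeasurableSet.univ.prod measurableSet_DE))]
  refine lintegral_congr fun p => ?_
  by_cases hp : pt p.1 p.2.1 p.2.2 ∈ s ∩ slab
  · rw [Set.indicator_of_mem hp, Pi.one_apply, mul_one]
    exact Set.indicator_of_mem (Set.mem_inter (x := p) hp.1 ((geo_mem_iff p).1 hp.2)) _
  · rw [Set.indicator_of_notMem hp, mul_zero]
    exact Set.indicator_of_notMem (fun h => hp ⟨h.1, (geo_mem_iff p).2 h.2⟩) _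
/-- Almost everywhere statements in the two coordinate systems. -/
theorem ae_pt {Pr : HF → Prop} (h : ∀ᵐ Q ∂nu, Pr Q) :
    ∀ᵐ p : ℂ × ℝ × ℝ ∂(volume.restrict (Set.univ ×ˢ DE)), Pr (pt p.1 p.2.1 p.2.2) := by
  have h1 := measurePreserving_pt.quasiMeasurePreserving.ae h
  rw [ae_withDensity_iff (by fun_prop)] at h1
  filter_upwards [h1, ae_restrict_mem (MeasurableSet.univ.prod measurableSet_DE)] with p hp hm
  exact hp (ENNReal.ofReal_pos.2 hm.2.1).ne'
theorem ae_of_pt {Pr : HF → Prop}
    (h : ∀ᵐ p : ℂ × ℝ × ℝ ∂(volume.restrict (Set.univ ×ˢ DE)), Pr (pt p.1 p.2.1 p.2.2)) :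
    ∀ᵐ Q ∂nu, Pr Q := by
  obtain ⟨T, hT, hTm, hT0⟩ := exists_measurable_superset_of_null (ae_iff.1 h)
  have hψ : Measurable (fun Q : HF =>
      ((Q.2.1 / (Q.2.2 : ℂ), Q.2.2, Q.1 * Q.2.2 - normSq Q.2.1) : ℂ × ℝ × ℝ)) := by fun_prop
  have h1 : ∀ᵐ Q ∂nu, ((Q.2.1 / (Q.2.2 : ℂ), Q.2.2, Q.1 * Q.2.2 - normSq Q.2.1) : ℂ × ℝ × ℝ) ∈ Tᶜ := by
    rw [← measurePreserving_pt.map_eq]
    refine (ae_map_iff measurable_pt.aemeasurable (hψ hTm.compl)).2 ?_
    refine withDensity_absolutelyContinuous _ _ ?_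
    filter_upwards [compl_mem_ae_iff.2 hT0,
      ae_restrict_mem (MeasurableSet.univ.prod measurableSet_DE)] with p hp hm
    have h0 : p.2.1 ≠ 0 := ne_of_gt hm.2.1
    have h2 : (p.2.1 : ℂ) ≠ 0 := by exact_mod_cast h0
    rw [geo_pt_det p.1 h0]
    simp only [pt, mul_div_cancel_left₀ _ h2]
    exact hp
  filter_upwards [h1, ae_restrict_mem measurableSet_slab] with Q hQ hs
  by_contra hn
  refine hQ (hT ?_)
  rw [eq_pt hs.1] at hn
  exact hn

end Vale.Agent.P026
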