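import Vale.Agent.P026.Geo

/-! The fundamental parallelogram. -/

namespace Vale.Agent.P026

open Eis Complex MeasureTheory
open scoped Classical ComplexConjugate

/-- Coordinates with respect to the basis 9, 9 ω. -/
noncomputable def geo2_co (z : ℂ) : ℝ × ℝ := (z.re / 9 + z.im / (9 * √3), 2 * z.im / (9 * √3))

theorem geo2_co_meas : Measurable geo2_co := by unfold geo2_co; fun_prop

theorem geo2_co_inv (z : ℂ) : z = 9 * (((geo2_co z).1 : ℂ) + (geo2_co z).2 * toC om) := by
  have h : √3 ≠ 0 := by positivity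
  apply Complex.ext <;> simp [geo2_co, -ofReal_div, -ofReal_add] <;> field_simp
  ring

theorem geo2_co_eq (x y : ℝ) : geo2_co (9 * ((x : ℂ) + y * toC om)) = (x, y) := by
  have h : √3 ≠ 0 := by positivity
  ext <;> simp [geo2_co] <;> field_simp
  ring

theorem geo2_co_add (z : ℂ) (t : ℝ) (y : Eis) :
    geo2_co (z + t * toC y) = ((geo2_co z).1 + t / 9 * y.a, (geo2_co z).2 + t / 9 * y.b) := by
  have h : √3 ≠ 0 := by positivity
  ext <;> simp [geo2_co] <;> field_simp
  ring

theorem geo2_F9 : F9 = geo2_co ⁻¹' (Set.Ico 0 1 ×ˢ Set.Ico 0 1) := by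
  ext z
  refine ⟨?_, fun h => ⟨_, _, h.1, h.2, geo2_co_inv z⟩⟩
  rintro ⟨x, y, hx, hy, rfl⟩
  rw [Set.mem_preimage, geo2_co_eq]
  exact ⟨hx, hy⟩

theorem geo2_V9_pos : 0 < V9 := by unfold V9; positivity

theorem geo2_map : Measure.map geo2_co volume = ENNReal.ofReal V9 • volume := by
  have h : √3 ≠ 0 := by positivity
  let T := Matrix.toLin basisOneI basisOneI !![1 / 9, 1 / (9 * √3); 0, 2 / (9 * √3)]
  have hT : LinearMap.det T = V9⁻¹ := by
    rw [LinearMap.det_toLin, Matrix.det_fin_two_of, V9]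
    field_simp
    norm_num
  have e : geo2_co = measurableEquivRealProd ∘ T := by
    funext z
    ext <;> simp only [T, geo2_co, Matrix.toLin_apply, Matrix.mulVec, dotProduct, Fin.sum_univ_two,
      Function.comp, measurableEquivRealProd_apply, add_re, add_im, smul_re, smul_im] <;> simp <;>
      ring
  rw [e, ← Measure.map_map measurableEquivRealProd.measurable
    T.continuous_of_finiteDimensional.measurable,
    Measure.map_linearMap_addHaar_eq_smul_addHaar _ (by rw [hT]; exact inv_ne_zero geo2_V9_pos.ne'),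
    Measure.map_smul, volume_preserving_equiv_real_prod.map_eq, hT, inv_inv,
    abs_of_pos geo2_V9_pos]

theorem geo2_meas_F9 : MeasurableSet F9 :=
  geo2_F9 ▸ geo2_co_meas (measurableSet_Ico.prod measurableSet_Ico)

theorem geo2_vol_F9 : volume F9 = ENNReal.ofReal V9 := by
  rw [geo2_F9, ← Measure.map_apply geo2_co_meas (measurableSet_Ico.prod measurableSet_Ico),
    geo2_map, Measure.smul_apply, Measure.volume_eq_prod, Measure.prod_prod]
  simp

theorem geo2_norm_le {z : ℂ} (hz : z ∈ F9) : ‖z‖ ≤ 18 := by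
  obtain ⟨x, y, hx, hy, rfl⟩ := hz
  have h1 : ‖toC om‖ = 1 := by rw [norm_toC]; simp [ab, N, nrm]
  have h2 := norm_add_le (x : ℂ) (y * toC om)
  rw [norm_mul, h1, norm_real, norm_real, Real.norm_of_nonneg hx.1, Real.norm_of_nonneg hy.1] at h2
  rw [norm_mul, Complex.norm_ofNat]
  linarith [hx.2, hy.2]

theorem geo2_unique (z : ℂ) : ∃! y : Eis, z + 9 * toC y ∈ F9 := by
  have h : ∀ y : Eis, z + 9 * toC y ∈ F9 ↔ y = ⟨-⌊(geo2_co z).1⌋, -⌊(geo2_co z).2⌋⟩ := fun y => by
    have := geo2_co_add z 9 y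
    rw [ofReal_ofNat] at this
    rw [geo2_F9, Set.mem_preimage, this, Eis.ext_iff]
    simp only [Set.mem_prod, ← Int.floor_eq_zero_iff, ne_eq, OfNat.ofNat_ne_zero,
      not_false_eq_true, div_self, one_mul, Int.floor_add_intCast]
    omega
  exact ⟨_, (h _).2 rfl, fun y hy => (h y).1 hy⟩

theorem geo2_three (t : ℝ) :
    ∑' n : ℤ, (Set.Ico (0 : ℝ) 1).indicator (fun _ => (1 : ENNReal)) (t + 3 / 9 * n) = 3 := by
  have h : ∀ n : ℤ, t + 3 / 9 * n ∈ Set.Ico (0 : ℝ) 1 ↔
      n ∈ Finset.Ico ⌈-3 * t⌉ (⌈-3 * t⌉ + 3) := fun n => by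
    rw [Finset.mem_Ico, Int.ceil_le, ← sub_lt_iff_lt_add, Int.lt_ceil, Set.mem_Ico]
    push_cast
    constructor <;> rintro ⟨h1, h2⟩ <;> constructor <;> linarith
  rw [tsum_eq_sum (s := Finset.Ico ⌈-3 * t⌉ (⌈-3 * t⌉ + 3))
    fun n hn => Set.indicator_of_notMem (mt (h n).1 hn) _,
    Finset.sum_congr rfl fun n hn => Set.indicator_of_mem ((h n).2 hn) _]
  simp

theorem geo2_tsum_three (z : ℂ) :
    ∑' y : Eis, F9.indicator (fun _ => (1 : ENNReal)) (z + 3 * toC y) = 9 := by
  let e : ℤ × ℤ ≃ Eis := ⟨fun p => ⟨p.1, p.2⟩, fun y => (y.a, y.b), fun _ => rfl, fun _ => rfl⟩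
  have h : ∀ p : ℤ × ℤ, F9.indicator (fun _ => (1 : ENNReal)) (z + 3 * toC (e p)) =
      (Set.Ico (0 : ℝ) 1).indicator (fun _ => (1 : ENNReal)) ((geo2_co z).1 + 3 / 9 * p.1) *
      (Set.Ico (0 : ℝ) 1).indicator (fun _ => (1 : ENNReal)) ((geo2_co z).2 + 3 / 9 * p.2) := by
    intro p
    have := geo2_co_add z 3 (e p)
    rw [ofReal_ofNat] at this
    simp only [Set.indicator_apply, geo2_F9, Set.mem_preimage, this, Set.mem_prod, ite_and,
      ite_mul, one_mul, zero_mul]
    rfl
  rw [← e.tsum_eq, tsum_congr h, ENNReal.tsum_prod']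
  simp only [ENNReal.tsum_mul_left, ENNReal.tsum_mul_right, geo2_three]
  norm_num

theorem geo2_lintegral {f : ℂ → ENNReal} (hf : Measurable f) :
    ∫⁻ z, f z = ∑' y : Eis, ∫⁻ z in F9, f (z + 9 * toC y) := by
  have h : ∀ z, f z = ∑' y : Eis, F9.indicator (fun z => f (z + 9 * toC y)) (z - 9 * toC y) := by
    intro z
    obtain ⟨y, hy, hu⟩ := geo2_unique z
    rw [tsum_eq_single (-y) fun y' h => Set.indicator_of_notMem
      (fun h' => h (neg_eq_iff_eq_neg.1 (hu (-y') (by simpa [sub_eq_add_neg] using h')))) _,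
      Set.indicator_of_mem (by simpa using hy), sub_add_cancel]
  rw [lintegral_congr h, lintegral_tsum (f := fun y z => F9.indicator
    (fun z => f (z + 9 * toC y)) (z - 9 * toC y)) fun y => (((hf.comp (measurable_add_const _)).indicator
    geo2_meas_F9).comp (measurable_sub_const _)).aemeasurable]
  refine tsum_congr fun y => ?_
  rw [lintegral_sub_right_eq_self (F9.indicator fun z => f (z + 9 * toC y)),
    lintegral_indicator geo2_meas_F9]

theorem geo2_integral {f : ℂ → ℂ} (hf : Integrable f) :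
    HasSum (fun y : Eis => ∫ z in F9, f (z + 9 * toC y)) (∫ z, f z) := by
  have e : (volume : Measure ℂ) =
      Measure.sum fun y : Eis => (volume.restrict F9).map (· + 9 * toC y) := by
    refine Measure.ext_of_lintegral _ fun g hg => ?_
    rw [geo2_lintegral hg, lintegral_sum_measure]
    exact tsum_congr fun y => (lintegral_map hg (measurable_add_const _)).symm
  have := hasSum_integral_measure (e ▸ hf)
  rw [← e] at this
  simpa only [(measurableEmbedding_addRight _).integral_map] using this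

theorem geo2_exp (m : ℤ) :
    ∫ x in Set.Ico (0 : ℝ) 1, cexp (2 * Real.pi * I * m * x) = if m = 0 then 1 else 0 := by
  split_ifs with h
  · simp [h]
  · rw [integral_Ico_eq_integral_Ioo, ← integral_Ioc_eq_integral_Ioo,
      ← intervalIntegral.integral_of_le zero_le_one, integral_exp_mul_complex
      (by simp [h, Real.pi_ne_zero]), ofReal_one, mul_one, mul_comm, exp_int_mul_two_pi_mul_I]
    simp

theorem geo2_eR (r : Eis) (z : ℂ) : eR r z = cexp (2 * Real.pi * I * r.b * (geo2_co z).1) *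
    cexp (2 * Real.pi * I * (r.a - r.b : ℤ) * (geo2_co z).2) := by
  have h : √3 ≠ 0 := by positivity
  have h3 : √3 ^ 2 = 3 := Real.sq_sqrt (by norm_num)
  have e : 2 * (toC r * z / (9 * toC lam)).re =
      r.b * (geo2_co z).1 + (r.a - r.b) * (geo2_co z).2 := by
    rw [toC_lam, ← mul_assoc, ← div_div, div_I, ← ofReal_ofNat, ← ofReal_mul]
    simp only [geo2_co, neg_re, mul_re, I_re, I_im, div_ofReal_im, mul_im, toC_re, toC_im]
    field_simp
    ring
  rw [eR, e, ← Complex.exp_add]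
  push_cast
  ring_nf

theorem geo2_integral_eR (r : Eis) : ∫ z in F9, eR r z = if r = 0 then (V9 : ℂ) else 0 := by
  have := setIntegral_map (μ := volume) (g := geo2_co) (s := Set.Ico 0 1 ×ˢ Set.Ico 0 1)
    (f := fun p => cexp (2 * Real.pi * I * r.b * p.1) *
      cexp (2 * Real.pi * I * (r.a - r.b : ℤ) * p.2)) (measurableSet_Ico.prod measurableSet_Ico)
    (Continuous.aestronglyMeasurable (by fun_prop)) geo2_co_meas.aemeasurable
  simp only [geo2_F9, geo2_eR]
  rw [← this, geo2_map, Measure.restrict_smul, integral_smul_measure, Measure.volume_eq_prod,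
    setIntegral_prod_mul (fun x : ℝ => cexp (2 * Real.pi * I * r.b * x))
      (fun x : ℝ => cexp (2 * Real.pi * I * (r.a - r.b : ℤ) * x)), geo2_exp, geo2_exp,
    ENNReal.toReal_ofReal geo2_V9_pos.le]
  by_cases h : r = 0
  · simp [h]
  · have : r.b = 0 → r.a - r.b ≠ 0 := fun h1 h2 => h (Eis.ext (by simpa [h1] using h2) h1)
    by_cases h1 : r.b = 0
    · simp [h, this h1]
    · simp [h, h1]

end Vale.Agent.P026
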