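import Vale.Agent.P026.Basic

/-! Algebra of the action of complex matrices on binary Hermitian forms. -/

namespace Vale.Agent.P026

open Eis Complex MeasureTheory
open scoped Classical ComplexConjugate

theorem geo_hq_act (a b c d x y : ℂ) (Q : HF) :
    hq (actC a b c d Q) x y = hq Q (x * a + y * c) (x * b + y * d) := by
  obtain ⟨A, B, D⟩ := Q
  simp only [hq, actC, normSq_apply, add_re, add_im, mul_re, mul_im, conj_re, conj_im, ofReal_re,
    ofReal_im]
  ring

theorem geo_actC_mul (a b c d a' b' c' d' : ℂ) (Q : HF) :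
    actC (a * a' + b * c') (a * b' + b * d') (c * a' + d * c') (c * b' + d * d') Q =
      actC a b c d (actC a' b' c' d' Q) := by
  refine Prod.ext (geo_hq_act a' b' c' d' a b Q).symm
    (Prod.ext ?_ (geo_hq_act a' b' c' d' c d Q).symm)
  obtain ⟨A, B, D⟩ := Q
  apply Complex.ext <;>
    simp only [hq, actC, normSq_apply, add_re, add_im, mul_re, mul_im, conj_re, conj_im,
      ofReal_re, ofReal_im] <;> ring

theorem geo_actC_one (Q : HF) : actC 1 0 0 1 Q = Q := by
  obtain ⟨A, B, D⟩ := Q
  simp [actC, hq]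

theorem geo_det (a b c d : ℂ) (Q : HF) :
    (actC a b c d Q).1 * (actC a b c d Q).2.2 - normSq (actC a b c d Q).2.1 =
      normSq (a * d - b * c) * (Q.1 * Q.2.2 - normSq Q.2.1) := by
  obtain ⟨A, B, D⟩ := Q
  simp only [hq, actC, normSq_apply, add_re, add_im, mul_re, mul_im, conj_re, conj_im, ofReal_re,
    ofReal_im, sub_re, sub_im]
  ring

theorem geo_continuous (a b c d : ℂ) : Continuous (actC a b c d) := by
  unfold actC hq
  fun_prop

theorem geo_D_mul_hq (Q : HF) (c d : ℂ) :
    Q.2.2 * hq Q c d = normSq (Q.2.1 * c + Q.2.2 * d) + normSq c * (Q.1 * Q.2.2 - normSq Q.2.1) := by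
  obtain ⟨A, B, D⟩ := Q
  simp only [hq, normSq_apply, add_re, add_im, mul_re, mul_im, conj_re, conj_im, ofReal_re,
    ofReal_im]
  ring

theorem geo_mem_slab {a b c d : ℂ} (h : a * d - b * c = 1) {Q : HF} (hQ : Q ∈ slab) :
    actC a b c d Q ∈ slab := by
  obtain ⟨h0, h1, h2⟩ := hQ
  have hd := geo_det a b c d Q
  rw [h, normSq_one, one_mul] at hd
  refine ⟨?_, by rw [hd]; exact h1, by rw [hd]; exact h2⟩
  change 0 < hq Q c d
  refine pos_of_mul_pos_left (a := hq Q c d) (b := Q.2.2) ?_ h0.le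
  rw [mul_comm, geo_D_mul_hq]
  by_cases hc : c = 0
  · have hd0 : d ≠ 0 := by
      rintro rfl
      simp [hc] at h
    have : (Q.2.2 : ℂ) ≠ 0 := by exact_mod_cast h0.ne'
    simp only [hc, mul_zero, zero_add, normSq_zero, zero_mul, add_zero]
    exact normSq_pos.2 (mul_ne_zero this hd0)
  · have h3 := normSq_pos.2 hc
    have h4 := normSq_nonneg (Q.2.1 * c + Q.2.2 * d)
    nlinarith

/-- A shear preserves the product measure. -/
theorem geo_shear {G H : Type*} [MeasureSpace G] [MeasureSpace H] [AddGroup G]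
    [SFinite (volume : Measure G)] [SFinite (volume : Measure H)] [MeasurableAdd₂ G]
    [(volume : Measure G).IsAddRightInvariant] {f : H → G} (hf : Measurable f) :
    MeasurePreserving (fun p : G × H => (p.1 + f p.2, p.2)) volume volume := by
  have h1 : MeasurePreserving (fun p : H × G => (id p.1, p.2 + f p.1))
      ((volume : Measure H).prod volume) ((volume : Measure H).prod volume) := by
    refine MeasurePreserving.skew_product (MeasurePreserving.id _)
      (g := fun a c => c + f a) (measurable_snd.add (hf.comp measurable_fst)) ?_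
    exact Filter.Eventually.of_forall fun a => (measurePreserving_add_right volume (f a)).map_eq
  exact (Measure.measurePreserving_swap.comp h1).comp Measure.measurePreserving_swap

theorem geo_mp_n (u : ℂ) : MeasurePreserving (actC 1 u 0 1) volume volume := by
  have h1 : MeasurePreserving (fun p : ℂ × ℝ => (p.1 + (p.2 : ℂ) * u, p.2)) volume volume :=
    geo_shear (f := fun D : ℝ => (D : ℂ) * u) (by fun_prop)
  have h2 : MeasurePreserving
      (fun p : ℝ × ℂ × ℝ => (p.1 + (2 * (p.2.1 * conj u).re + p.2.2 * normSq u), p.2))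
      volume volume := geo_shear (f := fun q : ℂ × ℝ => 2 * (q.1 * conj u).re + q.2 * normSq u)
        (by fun_prop)
  have h3 := ((MeasurePreserving.id (volume : Measure ℝ)).prod h1).comp h2
  have h4 : actC 1 u 0 1 = Prod.map id (fun p : ℂ × ℝ => (p.1 + (p.2 : ℂ) * u, p.2)) ∘
      (fun p : ℝ × ℂ × ℝ => (p.1 + (2 * (p.2.1 * conj u).re + p.2.2 * normSq u), p.2)) := by
    funext ⟨A, B, D⟩
    simp [actC, hq, add_assoc]
  rw [h4]
  exact h3

theorem geo_mp_w : MeasurePreserving (actC 0 1 1 0) volume volume := by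
  have h1 : MeasurePreserving (fun z : ℂ => conj z) volume volume :=
    LinearIsometryEquiv.measurePreserving conjLIE
  have h2 : MeasurePreserving (Prod.swap : ℝ × ℂ × ℝ → (ℂ × ℝ) × ℝ) volume volume :=
    Measure.measurePreserving_swap
  have h3 : MeasurePreserving (Prod.swap : ℂ × ℝ → ℝ × ℂ) volume volume :=
    Measure.measurePreserving_swap
  have h4 : MeasurePreserving (Prod.map Prod.swap id : (ℂ × ℝ) × ℝ → (ℝ × ℂ) × ℝ) volume volume :=
    h3.prod (MeasurePreserving.id _)
  have h5 : MeasurePreserving (MeasurableEquiv.prodAssoc : (ℝ × ℂ) × ℝ ≃ᵐ ℝ × ℂ × ℝ)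
      volume volume := volume_preserving_prodAssoc
  have h6 : MeasurePreserving (Prod.map id (Prod.map (fun z : ℂ => conj z) id) :
      ℝ × ℂ × ℝ → ℝ × ℂ × ℝ) volume volume :=
    (MeasurePreserving.id _).prod (h1.prod (MeasurePreserving.id _))
  have h7 := h6.comp (h5.comp (h4.comp h2))
  have h8 : actC 0 1 1 0 = (Prod.map id (Prod.map (fun z : ℂ => conj z) id) :
      ℝ × ℂ × ℝ → ℝ × ℂ × ℝ) ∘ (MeasurableEquiv.prodAssoc : (ℝ × ℂ) × ℝ ≃ᵐ ℝ × ℂ × ℝ) ∘
      (Prod.map Prod.swap id : (ℂ × ℝ) × ℝ → (ℝ × ℂ) × ℝ) ∘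
      (Prod.swap : ℝ × ℂ × ℝ → (ℂ × ℝ) × ℝ) := by
    funext ⟨A, B, D⟩
    simp [actC, hq, MeasurableEquiv.prodAssoc]
  rw [h8]
  exact h7

theorem geo_mp_mul {a b c d a' b' c' d' : ℂ}
    (h : MeasurePreserving (actC a b c d) volume volume)
    (h' : MeasurePreserving (actC a' b' c' d') volume volume) :
    MeasurePreserving (actC (a * a' + b * c') (a * b' + b * d') (c * a' + d * c') (c * b' + d * d'))
      volume volume := by
  have : actC (a * a' + b * c') (a * b' + b * d') (c * a' + d * c') (c * b' + d * d') =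
      actC a b c d ∘ actC a' b' c' d' := funext fun Q => geo_actC_mul ..
  rw [this]
  exact h.comp h'

theorem geo_mp_l (u : ℂ) : MeasurePreserving (actC 1 0 u 1) volume volume := by
  simpa using geo_mp_mul geo_mp_w (geo_mp_mul (geo_mp_n u) geo_mp_w)

theorem geo_mp_ne {a b c d : ℂ} (h : a * d - b * c = 1) (hc : c ≠ 0) :
    MeasurePreserving (actC a b c d) volume volume := by
  have h1 := geo_mp_mul (geo_mp_n ((a - 1) / c)) (geo_mp_mul (geo_mp_l c) (geo_mp_n ((d - 1) / c)))
  have e1 : 1 * (1 * 1 + 0 * 0) + (a - 1) / c * (c * 1 + 1 * 0) = a := by field_simp; ring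
  have e2 : 1 * (1 * ((d - 1) / c) + 0 * 1) + (a - 1) / c * (c * ((d - 1) / c) + 1 * 1) = b := by
    field_simp
    linear_combination h
  have e3 : 0 * (1 * 1 + 0 * 0) + 1 * (c * 1 + 1 * 0) = c := by ring
  have e4 : 0 * (1 * ((d - 1) / c) + 0 * 1) + 1 * (c * ((d - 1) / c) + 1 * 1) = d := by
    field_simp; ring
  rwa [e1, e2, e3, e4] at h1

theorem geo_mp {a b c d : ℂ} (h : a * d - b * c = 1) :
    MeasurePreserving (actC a b c d) volume volume := by
  by_cases hc : c = 0
  · have hd : d ≠ 0 := by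
      rintro rfl
      simp [hc] at h
    have h1 : MeasurePreserving (actC (a + b) b d d) volume volume :=
      geo_mp_ne (by rw [hc] at h; linear_combination h) hd
    have h2 := geo_mp_mul h1 (geo_mp_l (-1))
    simpa [hc] using h2
  · exact geo_mp_ne h hc

end Vale.Agent.P026
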