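import Vale.Agent.P026.MelE

/-! From the Voronoi identity to a bound for smooth sums (family version). -/

namespace Vale.Agent.P026

open Eis Complex
open scoped Classical ComplexConjugate

theorem mel_one {n : ℕ} (hn : 2 ≤ n) : ∃ C : ℝ, 0 < C ∧
    ∀ (a b : Eis → ℂ) (Q : ℝ) (e : ℂ) (Qm Y R0 B0 t Ca : ℝ), 0 < Y → 1 ≤ R0 → 0 ≤ B0 →
      a 0 = 0 → b 0 = 0 → (∀ r, ‖a r‖ ≤ Ca * ab r) → (∀ r, ‖b r‖ ≤ B0 * ab r) → 0 < Q → Q ≤ Qm →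
      ‖e‖ ≤ 1 → Vor a b Q e →
      ‖∑' r, a r * W Y t r‖ ^ 2 ≤ C * (‖∑' r, b r * ((Q : ℂ)⁻¹ * melH Y t (ab r / Q)) *
        melO (Set.Ioc 0 (Real.log R0)) (Real.log (N r))‖ ^ 2 + (1 + |t|) ^ (8 * n) * Y *
          (B0 ^ 2 * (1 + R0 ^ 2 * (Qm ^ 2 / (Y * R0)) ^ (2 * n)))) := by
  obtain ⟨C0, hC0, h0⟩ := melH_bound 0
  obtain ⟨C1, hC1, h1⟩ := melH_bound n
  obtain ⟨C2, hC2, h2⟩ := melD_low
  obtain ⟨C3, hC3, h3⟩ := melD_high hn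
  have hI := melI_pos (1 / 2)
  refine ⟨3 * (melI (1 / 2))⁻¹ ^ 2 * (1 + (C2 * C0) ^ 2 + (C3 * C1) ^ 2), by positivity,
    fun a b Q e Qm Y R0 B0 t Ca hY hR hB0 ha0 hb0 ha hb hQ hQm he hV => ?_⟩
  set β : Eis → ℂ := fun r => b r * ((Q : ℂ)⁻¹ * melH Y t (ab r / Q)) with hβ
  have hβ0 : β 0 = 0 := by simp [hβ, hb0]
  have hnorm : ∀ r, ‖β r‖ ≤ B0 * ab r * (Q⁻¹ * ‖melH Y t (ab r / Q)‖) := fun r => by
    simp only [hβ, norm_mul, norm_inv, norm_real, Real.norm_eq_abs, abs_of_pos hQ]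
    gcongr
    exact hb r
  have b1 : ∀ r, r ≠ 0 → ‖β r‖ ≤ C0 * √Y * B0 := fun r hr => by
    have hy := ab_pos hr
    have := h0 Y t _ hY (div_pos hy hQ)
    simp only [mul_zero, pow_zero, mul_one] at this
    refine (hnorm r).trans ?_
    calc _ ≤ B0 * ab r * (Q⁻¹ * (C0 * √Y * (ab r / Q)⁻¹)) := by gcongr
      _ = _ := by field_simp
  have b2 : ∀ r, r ≠ 0 → ‖β r‖ ≤ C1 * (1 + |t|) ^ (4 * n) * √Y * B0 * (Qm ^ 2 / Y) ^ n *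
      N r ^ (-n : ℝ) := fun r hr => by
    have hy := ab_pos hr
    have hN := N_pos hr
    refine (hnorm r).trans ?_
    have e1 : (ab r / Q)⁻¹ ^ (2 * n) = (Q ^ 2) ^ n * N r ^ (-n : ℝ) := by
      rw [Real.rpow_neg hN.le, Real.rpow_natCast, pow_mul, inv_div, div_pow, ab_sq, div_pow,
        div_eq_mul_inv]
    have := h1 Y t _ hY (div_pos hy hQ)
    rw [e1] at this
    calc _ ≤ B0 * ab r * (Q⁻¹ * (C1 * (1 + |t|) ^ (4 * n) * (√Y * Y⁻¹ ^ n) *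
          ((ab r / Q)⁻¹ * ((Qm ^ 2) ^ n * N r ^ (-n : ℝ))))) := by
          gcongr
          refine this.trans ?_
          gcongr
      _ = _ := by
          rw [div_pow, inv_pow]
          field_simp
  have hQm0 : 0 < Qm := hQ.trans_le hQm
  have hsum : ∀ S : Set ℝ, MeasurableSet S →
      Summable fun r => β r * melO S (Real.log (N r)) := fun S hS => by
    refine Summable.of_norm_bounded ((summable_N_rpow (s := n) (by exact_mod_cast hn)).mul_left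
      (melI (1 / 2) * (C1 * (1 + |t|) ^ (4 * n) * √Y * B0 * (Qm ^ 2 / Y) ^ n))) fun r => ?_
    by_cases hr : r = 0
    · have : (0 : ℝ) ≤ N r ^ (-n : ℝ) := Real.rpow_nonneg (N_nonneg r) _
      rw [hr, hβ0, zero_mul, norm_zero, ← hr]
      positivity
    rw [norm_mul, norm_real, Real.norm_eq_abs, abs_of_nonneg (melO_nonneg _ _), mul_comm,
      mul_assoc (melI _)]
    exact mul_le_mul (melO_le_I hS _) (b2 r hr) (norm_nonneg _) hI.le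
  have hl : 0 ≤ Real.log R0 := Real.log_nonneg hR
  have s1 := hsum _ (measurableSet_Iic (a := 0))
  have s2 := hsum _ (measurableSet_Ioc (a := 0) (b := Real.log R0))
  have s3 := hsum _ (measurableSet_Ioi (a := Real.log R0))
  have split : ∑' r, β r = ((melI (1 / 2))⁻¹ : ℝ) *
      (∑' r, β r * melO (Set.Iic 0) (Real.log (N r)) +
        ∑' r, β r * melO (Set.Ioc 0 (Real.log R0)) (Real.log (N r)) +
        ∑' r, β r * melO (Set.Ioi (Real.log R0)) (Real.log (N r))) := by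
    rw [← s1.tsum_add s2, ← (s1.add s2).tsum_add s3, ← tsum_mul_left]
    refine tsum_congr fun r => ?_
    rw [← mul_add, ← mul_add, ← ofReal_add, ← ofReal_add, melO_add hl, mul_left_comm,
      ← ofReal_mul, inv_mul_cancel₀ hI.ne', ofReal_one, mul_one]
  have t1 := h2 β _ (by positivity) hβ0 b1
  have t3 := h3 β _ R0 (by positivity) hR hβ0 b2
  rw [melC_dual hY t ha0 hb0 ha hb hQ hV, split]
  generalize ∑' r, β r * melO (Set.Iic 0) (Real.log (N r)) = X1 at t1 ⊢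
  generalize ∑' r, β r * melO (Set.Ioc 0 (Real.log R0)) (Real.log (N r)) = X2
  generalize ∑' r, β r * melO (Set.Ioi (Real.log R0)) (Real.log (N r)) = X3 at t3 ⊢
  have hR0 : 0 < R0 := by linarith
  have hT : 1 ≤ (1 + |t|) ^ (8 * n) := one_le_pow₀ (le_add_of_nonneg_right (abs_nonneg _))
  have u1 : ‖X1‖ ^ 2 ≤ (C2 * C0) ^ 2 * ((1 + |t|) ^ (8 * n) * Y * B0 ^ 2) := by
    refine (pow_le_pow_left₀ (norm_nonneg _) t1 2).trans ?_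
    calc _ = (C2 * C0) ^ 2 * (1 * √Y ^ 2 * B0 ^ 2) := by ring
      _ ≤ _ := by
        rw [Real.sq_sqrt hY.le]
        gcongr
  have u3 : ‖X3‖ ^ 2 ≤ (C3 * C1) ^ 2 * ((1 + |t|) ^ (8 * n) * Y *
      (B0 ^ 2 * (R0 ^ 2 * (Qm ^ 2 / (Y * R0)) ^ (2 * n)))) := by
    refine (pow_le_pow_left₀ (norm_nonneg _) t3 2).trans (le_of_eq ?_)
    rw [← div_div, div_eq_mul_inv _ R0, mul_pow (Qm ^ 2 / Y)]
    calc _ = (C3 * C1) ^ 2 * ((1 + |t|) ^ (8 * n) * √Y ^ 2 *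
        (B0 ^ 2 * (R0 ^ 2 * ((Qm ^ 2 / Y) ^ (2 * n) * R0⁻¹ ^ (2 * n))))) := by ring
      _ = _ := by rw [Real.sq_sqrt hY.le]
  have u4 : ‖e * (((melI (1 / 2))⁻¹ : ℝ) * (X1 + X2 + X3))‖ ≤
      (melI (1 / 2))⁻¹ * (‖X1‖ + ‖X2‖ + ‖X3‖) := by
    rw [norm_mul, norm_mul, norm_real, Real.norm_eq_abs, abs_of_pos (inv_pos.2 hI)]
    refine (mul_le_of_le_one_left (by positivity) he).trans ?_
    gcongr
    exact norm_add₃_le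
  refine (pow_le_pow_left₀ (norm_nonneg _) u4 2).trans ?_
  rw [mul_pow, mul_assoc, mul_comm 3, mul_assoc]
  gcongr
  have p1 : 0 ≤ (1 + |t|) ^ (8 * n) * Y * B0 ^ 2 := by positivity
  have p3 : 0 ≤ (1 + |t|) ^ (8 * n) * Y *
      (B0 ^ 2 * (R0 ^ 2 * (Qm ^ 2 / (Y * R0)) ^ (2 * n))) := by positivity
  have e5 : (1 + |t|) ^ (8 * n) * Y * (B0 ^ 2 * (1 + R0 ^ 2 * (Qm ^ 2 / (Y * R0)) ^ (2 * n))) =
      (1 + |t|) ^ (8 * n) * Y * B0 ^ 2 + (1 + |t|) ^ (8 * n) * Y *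
        (B0 ^ 2 * (R0 ^ 2 * (Qm ^ 2 / (Y * R0)) ^ (2 * n))) := by ring
  rw [e5]
  generalize (1 + |t|) ^ (8 * n) * Y * B0 ^ 2 = U at u1 p1 ⊢
  generalize (1 + |t|) ^ (8 * n) * Y *
    (B0 ^ 2 * (R0 ^ 2 * (Qm ^ 2 / (Y * R0)) ^ (2 * n))) = V at u3 p3 ⊢
  have q1 := sq_nonneg (C2 * C0)
  have q3 := sq_nonneg (C3 * C1)
  generalize (C2 * C0) ^ 2 = c1 at u1 q1 ⊢
  generalize (C3 * C1) ^ 2 = c3 at u3 q3 ⊢
  nlinarith [sq_nonneg (‖X1‖ - ‖X2‖), sq_nonneg (‖X1‖ - ‖X3‖), sq_nonneg (‖X2‖ - ‖X3‖),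
    mul_nonneg q1 (sq_nonneg ‖X2‖), mul_nonneg q3 (sq_nonneg ‖X2‖), mul_nonneg q1 p3,
    mul_nonneg q3 p1]

theorem V2 (A n : ℕ) (hn : 2 ≤ n) : ∃ C : ℝ, 0 < C ∧
    ∀ (J : Finset Eis) (a b : Eis → Eis → ℂ) (Q : Eis → ℝ) (e : Eis → ℂ) (Qm Y R0 B B0 t : ℝ),
      0 < Y → 1 ≤ R0 → 0 ≤ B → 0 ≤ B0 →
      (∀ j ∈ J, a j 0 = 0 ∧ b j 0 = 0 ∧ (∃ Ca : ℝ, ∀ r, ‖a j r‖ ≤ Ca * ab r) ∧
        (∀ r, ‖b j r‖ ≤ B0 * ab r) ∧ 0 < Q j ∧ Q j ≤ Qm ∧ ‖e j‖ ≤ 1 ∧ Vor (a j) (b j) (Q j) (e j)) →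
      (∀ R τ : ℝ, 1 ≤ R → R ≤ R0 →
        ∑ j ∈ J, ‖∑' r, b j r * W R τ r‖ ^ 2 ≤ B * R * (1 + |τ|) ^ A) →
      ∑ j ∈ J, ‖∑' r, a j r * W Y t r‖ ^ 2 ≤ C * (1 + |t|) ^ (A + 8 * n) * Y *
        (B * (1 + Real.log R0) ^ 2 +
          J.card * B0 ^ 2 * (1 + R0 ^ 2 * (Qm ^ 2 / (Y * R0)) ^ (2 * n))) := by
  obtain ⟨C1, hC1, h1⟩ := mel_one hn
  obtain ⟨C2, hC2, h2⟩ := melE_main A
  refine ⟨C1 * (C2 + 1), by positivity, fun J a b Q e Qm Y R0 B B0 t hY hR hB hB0 hJ hS => ?_⟩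
  have h3 := h2 J b Q Y R0 B B0 t hY hR hB hB0
    (fun j hj => ⟨(hJ j hj).2.1, (hJ j hj).2.2.2.1, (hJ j hj).2.2.2.2.1⟩) hS
  refine (Finset.sum_le_sum fun j hj => ?_).trans (b := ∑ j ∈ J, C1 *
    (‖∑' r, b j r * ((Q j : ℂ)⁻¹ * melH Y t (ab r / Q j)) *
      melO (Set.Ioc 0 (Real.log R0)) (Real.log (N r))‖ ^ 2 + (1 + |t|) ^ (8 * n) * Y *
        (B0 ^ 2 * (1 + R0 ^ 2 * (Qm ^ 2 / (Y * R0)) ^ (2 * n))))) ?_
  · obtain ⟨a0, b0, ⟨Ca, ha⟩, hb, q0, q1, he, hV⟩ := hJ j hj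
    exact h1 _ _ _ _ _ _ _ _ _ Ca hY hR hB0 a0 b0 ha hb q0 q1 he hV
  rw [← Finset.mul_sum, Finset.sum_add_distrib, Finset.sum_const, nsmul_eq_mul, mul_assoc C1,
    mul_assoc C1, mul_assoc C1]
  refine mul_le_mul_of_nonneg_left ?_ hC1.le
  have hl : 0 ≤ Real.log R0 := Real.log_nonneg hR
  have hR0 : 0 < R0 := by linarith
  have ht : 1 ≤ 1 + |t| := le_add_of_nonneg_right (abs_nonneg _)
  have a1 : (1 + |t|) ^ A ≤ (1 + |t|) ^ (A + 8 * n) := pow_le_pow_right₀ ht (by omega)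
  have a2 : (1 + |t|) ^ (8 * n) ≤ (1 + |t|) ^ (A + 8 * n) := pow_le_pow_right₀ ht (by omega)
  calc _ ≤ (C2 + 1) * (1 + |t|) ^ (A + 8 * n) * Y * (B * (1 + Real.log R0) ^ 2) +
        (C2 + 1) * (J.card * ((1 + |t|) ^ (A + 8 * n) * Y *
          (B0 ^ 2 * (1 + R0 ^ 2 * (Qm ^ 2 / (Y * R0)) ^ (2 * n))))) := by
        refine add_le_add (h3.trans ?_) ?_
        · gcongr <;> linarith
        · refine le_trans ?_ (le_mul_of_one_le_left (by positivity) (by linarith))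
          gcongr
    _ = _ := by ring

end Vale.Agent.P026
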