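import Vale.Agent.P026.Dual
import Vale.Agent.P026.Mel
import Vale.Agent.P026.Struct

/-! The individual bound. -/

namespace Vale.Agent.P026

open Eis Complex
open scoped Classical ComplexConjugate

theorem ib_ab (r : Eis) : ab r = N r ^ (1 / 2 : ℝ) := Real.sqrt_eq_rpow _

theorem ib_summable {b : Eis → ℂ} {B0 : ℝ} (hb : ∀ r, ‖b r‖ ≤ B0 * ab r) {Y : ℝ} (hY : 0 < Y)
    (t : ℝ) : Summable (fun r => b r * W Y t r) := by
  refine Summable.of_norm_bounded ((summable_w (1 / 2) hY).mul_left B0) fun r => ?_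
  rw [norm_mul, norm_W, ← ib_ab, ← mul_assoc]
  exact mul_le_mul_of_nonneg_right (hb r) (w_pos _).le

theorem ib_crude : ∃ C : ℝ, 0 < C ∧ ∀ (b : Eis → ℂ) (B0 t : ℝ), 0 ≤ B0 → b 0 = 0 →
    (∀ r, ‖b r‖ ≤ B0 * ab r) → ‖∑' r, b r * W 1 t r‖ ≤ B0 * C := by
  obtain ⟨C, hC, h⟩ := tsum_w_le (k := 1 / 2) (by norm_num)
  refine ⟨C, hC, fun b B0 t hB0 h0 hb => ?_⟩
  have h1 := h 1 one_pos
  rw [Real.one_rpow, mul_one] at h1
  have hs : Summable (fun c : Eis => if c = 0 then 0 else N c ^ (1 / 2 : ℝ) * w (N c / 1)) := by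
    refine (summable_w (1 / 2) one_pos).of_nonneg_of_le (fun c => ?_) fun c => ?_
    · split_ifs
      · exact le_rfl
      · exact mul_nonneg (Real.rpow_nonneg (N_nonneg _) _) (w_pos _).le
    · split_ifs
      · exact mul_nonneg (Real.rpow_nonneg (N_nonneg _) _) (w_pos _).le
      · exact le_rfl
  refine le_trans (tsum_of_norm_bounded (hs.hasSum.mul_left B0) fun r => ?_)
    (mul_le_mul_of_nonneg_left h1 hB0)
  split_ifs with hr
  · rw [hr, h0, zero_mul, norm_zero, mul_zero]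
  · rw [norm_mul, norm_W, ← ib_ab, ← mul_assoc]
    exact mul_le_mul_of_nonneg_right (hb r) (w_pos _).le

theorem ib_coef (T : Theta) (A q : Eis) (o : Bool) {F : Eis → ℂ} {B : ℝ} (hF : ∀ r, ‖F r‖ ≤ B)
    {G : Eis → ℂ} (hG : ∀ r, ‖G r‖ ≤ 1) (r : Eis) :
    ‖T.tau A q r * ang o r * F r * G r‖ ≤ T.C * B * ab r := by
  have hB : 0 ≤ B := (norm_nonneg _).trans (hF 0)
  have h1 := T.bound A q r
  have h0 : 0 ≤ T.C * ab r := (norm_nonneg _).trans h1
  rw [norm_mul, norm_mul, norm_mul]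
  calc _ ≤ T.C * ab r * 1 * B * 1 :=
        mul_le_mul (mul_le_mul (mul_le_mul h1 (norm_ang_le o r) (norm_nonneg _) h0) (hF r)
          (norm_nonneg _) (by positivity)) (hG r) (norm_nonneg _) (by positivity)
    _ = _ := by ring

/-- The Voronoi bound for a long sum. -/
theorem ib_vor (T : Theta) (o : Bool) : ∃ C : ℝ, 0 < C ∧ ∀ (q : Eis) (F : Eis → ℂ), q ≠ 0 →
    (9 : Eis) ∣ q → Per q F → Bd1 F → ∀ Y t : ℝ, N q ^ 2 ≤ Y →
      ‖∑' r, T.tau 1 0 r * ang o r * F r * W Y t r‖ ≤ C * (1 + |t|) ^ 8 * N q * √Y := by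
  obtain ⟨C2, hC2, hV⟩ := V2 0 2 le_rfl
  obtain ⟨Cw, hCw, hw⟩ := ib_crude
  obtain ⟨Cd, hCd, hd⟩ := card_dvd_le (e := 1 / 2) (by norm_num)
  have hTC := T.C_nonneg
  refine ⟨9 * Cd * (√(C2 * (Cw ^ 2 + 2)) * (T.C + 1)), by positivity,
    fun q F hq h9 hP hB Y t hY => ?_⟩
  have hq1 := one_le_N hq
  have hY0 : 0 < Y := lt_of_lt_of_le (by positivity) hY
  have hab := ab_nonneg q
  obtain ⟨I, Fi, Fs, hI, hF, hi⟩ := V0F T o hq h9 dvd_rfl 1 hP hB (fun s hs _ =>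
    ⟨1, norm_one, fun r => by
      rw [one_mul]
      refine hP.congr ?_
      rw [show r * s - r = r * (s - 1) by ring]
      exact hs.mul_left r⟩)
  have hone : ∀ r : Eis, ‖(1 : ℂ)‖ ≤ 1 := fun _ => norm_one.le
  have e1 : ∑' r, T.tau 1 0 r * ang o r * F r * W Y t r =
      ∑ i ∈ I, ∑' r, T.tau 1 0 r * ang o r * Fi i r * chi 1 r 1 * W Y t r := by
    rw [← Summable.tsum_finsetSum fun i hi' => ib_summable
      (ib_coef T 1 0 o (hi i hi').2.1 (fun r => norm_chi_le 1 r 1)) hY0 t]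
    refine tsum_congr fun r => ?_
    rw [hF r, Finset.mul_sum, Finset.sum_mul]
    refine Finset.sum_congr rfl fun i _ => ?_
    rw [chi_one_right, mul_one]
  have e2 : ∀ i ∈ I, ‖∑' r, T.tau 1 0 r * ang o r * Fi i r * chi 1 r 1 * W Y t r‖ ≤
      √(C2 * (Cw ^ 2 + 2)) * (T.C + 1) * (1 + |t|) ^ 8 * ab q * √Y := by
    intro i hi'
    obtain ⟨h1, h2, h3, -, h5⟩ := hi i hi'
    obtain ⟨ε, hε, hvor⟩ := h5 1 P0.one isCoprime_one_left (by simp)
    have hb := ib_coef T i.1 i.2 (!o) h3 (fun r => norm_quad_le r 1)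
    have hi0 : i.2 ≠ 0 := ne_zero_of_dvd_ne_zero hq h1
    have hN1 : N 1 = 1 := by simp [N, nrm]
    have key := hV {1} (fun _ r => T.tau 1 0 r * ang o r * Fi i r * chi 1 r 1)
      (fun _ r => T.tau i.1 i.2 r * ang (!o) r * Fs i r * quad r 1) (fun _ => N 1 * N i.2)
      (fun _ => ε) (N q) Y 1 ((T.C * ab q * Cw) ^ 2) (T.C * ab q) t hY0 le_rfl (by positivity)
      (by positivity)
      (fun _ _ => ⟨by simp [T.zero], by simp [T.zero],
        ⟨_, ib_coef T 1 0 o h2 (fun r => norm_chi_le 1 r 1)⟩, hb,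
        by rw [hN1, one_mul]; exact N_pos hi0, by rw [hN1, one_mul]; exact N_le_of_dvd hq h1,
        hε, hvor⟩)
      (fun R τ hR hR' => by
        obtain rfl : R = 1 := le_antisymm hR' hR
        rw [Finset.sum_singleton, pow_zero, mul_one, mul_one]
        exact pow_le_pow_left₀ (norm_nonneg _)
          (hw _ _ τ (by positivity) (by simp [T.zero]) hb) 2)
    rw [Finset.sum_singleton, Real.log_one, Finset.card_singleton] at key
    refine le_of_sq_le_sq (key.trans ?_) (by positivity)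
    have q1 : (N q ^ 2 / (Y * 1)) ^ (2 * 2) ≤ 1 :=
      pow_le_one₀ (by positivity) (by rw [mul_one, div_le_one hY0]; exact hY)
    have q2 : (T.C * ab q) ^ 2 ≤ ((T.C + 1) * ab q) ^ 2 := by gcongr; linarith
    have q3 : (T.C * ab q * Cw) ^ 2 * (1 + 0) ^ 2 + ((1 : ℕ) : ℝ) * (T.C * ab q) ^ 2 *
        (1 + 1 ^ 2 * (N q ^ 2 / (Y * 1)) ^ (2 * 2)) ≤ (Cw ^ 2 + 2) * ((T.C + 1) * ab q) ^ 2 := by
      have q4 := mul_le_mul_of_nonneg_left q1 (sq_nonneg (T.C * ab q))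
      have q5 := mul_le_mul_of_nonneg_left q2 (by positivity : 0 ≤ Cw ^ 2 + 2)
      push_cast
      nlinarith
    refine (mul_le_mul_of_nonneg_left q3 (by positivity)).trans (le_of_eq ?_)
    simp only [mul_pow]
    rw [Real.sq_sqrt (by positivity), Real.sq_sqrt hY0.le]
    ring
  rw [e1]
  refine (norm_sum_le _ _).trans ((Finset.sum_le_card_nsmul _ _ _ e2).trans ?_)
  rw [nsmul_eq_mul]
  have hc : (I.card : ℝ) ≤ 9 * (Cd * ab q) := by
    rw [ib_ab]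
    exact hI.trans (mul_le_mul_of_nonneg_left (hd q hq) (by norm_num))
  refine (mul_le_mul_of_nonneg_right hc (by positivity)).trans (le_of_eq ?_)
  rw [← ab_sq]
  ring

/-- The bound for the full theta sum. -/
theorem ib_th (T : Theta) (o : Bool) {e : ℝ} (he : 0 < e) : ∃ C : ℝ, 0 < C ∧
    ∀ (q : Eis) (F : Eis → ℂ), q ≠ 0 → Per q F → Bd1 F → ∀ Y t : ℝ, 0 < Y →
      ‖Tth o F Y t‖ ≤ C * (1 + |t|) ^ 8 * N q * Y ^ (1 / 2 + e) := by
  obtain ⟨C1, hC1, h1⟩ := ib_vor T o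
  obtain ⟨C2, hC2, h2⟩ := Tth_triv (1 + e) (by linarith)
  obtain ⟨r0, hr0, hτ⟩ := exists_r0 T
  have hr := hr0.ne_zero
  have h72 : (72 : Eis) ≠ 0 := by decide
  have hn1 := one_le_N hr
  have hn2 := one_le_N h72
  have hτ0 : 0 < ‖T.tau 1 0 r0‖ := norm_pos_iff.2 hτ
  set c : ℝ := C2 + C1 * √(N r0) / ‖T.tau 1 0 r0‖ with hc
  have hc1 : 0 ≤ C1 * √(N r0) / ‖T.tau 1 0 r0‖ := by positivity
  refine ⟨c * (N r0 * N 72), by positivity, fun q F hq hP hB Y t hY => ?_⟩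
  have hq1 := one_le_N hq
  have ht : 1 ≤ (1 + |t|) ^ 8 := one_le_pow₀ (by linarith [abs_nonneg t])
  have hq0 : r0 * (72 * q) ≠ 0 := mul_ne_zero hr (mul_ne_zero h72 hq)
  have hQ1 := one_le_N hq0
  have hQ : N (r0 * (72 * q)) = N r0 * N 72 * N q := by rw [N_mul, N_mul, mul_assoc]
  suffices H : ‖Tth o F Y t‖ ≤ c * (1 + |t|) ^ 8 * N (r0 * (72 * q)) * Y ^ (1 / 2 + e) by
    rw [hQ] at H
    exact H.trans (le_of_eq (by ring))
  have triv := h2 o F hB Y t hY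
  have hp : 0 < Y ^ (1 / 2 + e) := Real.rpow_pos_of_pos hY _
  have aux : ∀ x : ℝ, 0 ≤ x → x ≤ N (r0 * (72 * q)) * Y ^ (1 / 2 + e) →
      C2 * x ≤ c * (1 + |t|) ^ 8 * N (r0 * (72 * q)) * Y ^ (1 / 2 + e) := by
    intro x hx h
    rw [mul_assoc (c * _)]
    refine mul_le_mul (le_trans ?_ (le_mul_of_one_le_right (by positivity) ht)) h hx
      (by positivity)
    linarith
  by_cases hY1 : Y ≤ 1
  · rw [if_pos hY1] at triv
    refine triv.trans (aux _ (by positivity) ?_)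
    exact (Real.rpow_le_rpow_of_exponent_ge hY hY1 (by linarith)).trans
      (le_mul_of_one_le_left hp.le hQ1)
  rw [if_neg hY1] at triv
  have hs : √Y ≤ Y ^ (1 / 2 + e) := by
    rw [Real.sqrt_eq_rpow]
    exact Real.rpow_le_rpow_of_exponent_le (not_le.1 hY1).le (by linarith)
  by_cases hY2 : N (r0 * (72 * q)) ^ 2 ≤ Y
  · have k := h1 (r0 * (72 * q)) (lift r0 F) hq0
      (Dvd.dvd.mul_left (Dvd.dvd.mul_right ⟨8, by norm_num⟩ q) r0)
      (lift_per hr0 (hP.of_dvd (dvd_mul_left q 72)) (dvd_mul_right 72 q)) (lift_bd hB)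
      (N r0 * Y) t (hY2.trans (le_mul_of_one_le_left hY.le hn1))
    rw [Tth_eq T o hr0 hB hY t, norm_mul, norm_mul, norm_mul, norm_ang o hr, norm_nit, mul_one,
      mul_one, Real.sqrt_mul (N_nonneg _), mul_comm ‖T.tau 1 0 r0‖, ← le_div_iff₀ hτ0] at k
    refine k.trans ?_
    calc _ = C1 * √(N r0) / ‖T.tau 1 0 r0‖ * (1 + |t|) ^ 8 * N (r0 * (72 * q)) * √Y := by ring
      _ ≤ _ := by gcongr; linarith
  · refine triv.trans (aux _ hY.le ?_)
    have h3 : √Y ≤ N (r0 * (72 * q)) := Real.sqrt_le_iff.2 ⟨by positivity, (not_le.1 hY2).le⟩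
    calc Y = √Y * √Y := (Real.mul_self_sqrt hY.le).symm
      _ ≤ _ := mul_le_mul h3 hs (Real.sqrt_nonneg _) (by positivity)

theorem IB (T : Theta) (o : Bool) {e : ℝ} (he : 0 < e) : ∃ (C : ℝ) (A : ℕ), 0 < C ∧
    ∀ (q : Eis) (F : Eis → ℂ), q ≠ 0 → Per q F → Bd1 F → ∀ Y t : ℝ, 0 < Y →
      ‖Tsq o F Y t‖ ≤ C * (1 + |t|) ^ A * N q * Y ^ (1 / 2 + e) := by
  obtain ⟨C, hC, h⟩ := ib_th T o he
  have hs := summable_N_rpow (s := 1 + 3 * e) (by linarith)
  have hZ : 0 ≤ ∑' c : Eis, N c ^ (-(1 + 3 * e)) :=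
    tsum_nonneg fun c => Real.rpow_nonneg (N_nonneg _) _
  refine ⟨C * (∑' c : Eis, N c ^ (-(1 + 3 * e)) + 1), 8, by positivity,
    fun q F hq hP hB Y t hY => ?_⟩
  have hq0 := N_nonneg q
  have hK : 0 ≤ C * (1 + |t|) ^ 8 * N q * Y ^ (1 / 2 + e) := by positivity
  refine le_trans ((Tsq_hasSum o hB hY t).norm_le_of_bounded
    (hs.hasSum.mul_left (C * (1 + |t|) ^ 8 * N q * Y ^ (1 / 2 + e))) fun d => ?_) ?_
  · by_cases hd : P0 d
    · have hN := N_pos hd.ne_zero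
      have k := h q (fun x => F (x * d ^ 3)) hq
        (by simpa only [mul_comm] using hP.comp_mul (d ^ 3)) (fun x => hB _)
        (Y / N d ^ 3) t (by positivity)
      rw [norm_mul, norm_mul, norm_mul, norm_nit, mul_one]
      have k2 : ‖mu0 d‖ * ‖bet o d‖ ≤ ab d :=
        (mul_le_of_le_one_left (norm_nonneg _) (norm_mu0_le d)).trans (norm_bet_le o d)
      refine (mul_le_mul k2 k (norm_nonneg _) (ab_nonneg _)).trans (le_of_eq ?_)
      have e1 : N d ^ (-(1 + 3 * e)) = ab d / (N d ^ 3) ^ (1 / 2 + e) := by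
        rw [ib_ab, ← Real.rpow_natCast, ← Real.rpow_mul hN.le, ← Real.rpow_sub hN]
        refine congrArg _ ?_
        push_cast
        ring
      rw [e1, Real.div_rpow hY.le (by positivity)]
      ring
    · rw [not_not.1 (mt mu0_ne_zero.1 hd), zero_mul, zero_mul, zero_mul, norm_zero]
      exact mul_nonneg hK (Real.rpow_nonneg (N_nonneg _) _)
  · nlinarith

end Vale.Agent.P026
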