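import Vale.Agent.P026.Four

/-! Pointwise identities for the smoothed Eisenstein series: automorphy, fibre sums, lines. -/

namespace Vale.Agent.P026

open Eis Complex MeasureTheory
open scoped Classical ComplexConjugate

noncomputable section

/-- Indicator of the strip over the fundamental parallelogram. -/
def l2ind (Q : HF) : ℝ := F9.indicator (fun _ => (1 : ℝ)) (Q.2.1 / (Q.2.2 : ℂ))

theorem l2ind_nonneg (Q : HF) : 0 ≤ l2ind Q := by
  unfold l2ind; exact Set.indicator_nonneg (fun _ _ => zero_le_one) _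

theorem l2_hasSum_three (z : ℂ) :
    HasSum (fun y : Eis => F9.indicator (fun _ => (1 : ℝ)) (z + 3 * toC y)) 9 := by
  have h := tsum_F9_three z
  have h1 : ∀ y : Eis, (F9.indicator (fun _ => (1 : ENNReal)) (z + 3 * toC y)).toReal
      = F9.indicator (fun _ => (1 : ℝ)) (z + 3 * toC y) := by
    intro y
    by_cases hy : z + 3 * toC y ∈ F9 <;> simp [hy]
  have h2 := ENNReal.hasSum_toReal (f := fun y : Eis =>
    F9.indicator (fun _ => (1 : ENNReal)) (z + 3 * toC y)) (by rw [h]; simp)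
  have h3 := ENNReal.tsum_toReal_eq (f := fun y : Eis =>
    F9.indicator (fun _ => (1 : ENNReal)) (z + 3 * toC y)) (by
      intro y; by_cases hy : z + 3 * toC y ∈ F9 <;> simp [hy])
  rw [← h3, h] at h2
  simpa [h1] using h2

theorem l2ind_tr (y : Eis) {Q : HF} (hQ : Q ∈ slab) :
    l2ind (act (tr y) Q) = F9.indicator (fun _ => (1 : ℝ)) (Q.2.1 / (Q.2.2 : ℂ) + toC y) := by
  have hD : (Q.2.2 : ℂ) ≠ 0 := by exact_mod_cast hQ.1.ne'
  unfold l2ind
  congr 1
  simp only [act, actC, tr, hq, map_one, map_zero]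
  simp
  field_simp

theorem l2_tr_mem (y : Eis) : tr (3 * y) ∈ G3 := by
  rw [mem_G3]; simp [tr, Prim]

/-- The fibre of the bottom row map is a copy of the lattice. -/
theorem l2_fibre {Q : HF} (hQ : Q ∈ slab) (g0 : G3) :
    HasSum (fun g : {g : G3 // ((g : SL).c, (g : SL).d) = ((g0 : SL).c, (g0 : SL).d)} =>
      l2ind (act (g.1 : SL) Q)) 9 := by
  let φ : Eis → {g : G3 // ((g : SL).c, (g : SL).d) = ((g0 : SL).c, (g0 : SL).d)} :=
    fun y => ⟨⟨tr (3 * y) * g0, G3.mul_mem (l2_tr_mem y) g0.2⟩, by simp [tr]⟩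
  have hinj : Function.Injective φ := by
    intro y y' h
    have h1 : tr (3 * y) * (g0 : SL) = tr (3 * y') * g0 := congrArg (fun g => (g.1 : SL)) h
    have h2 : tr (3 * y) = tr (3 * y') := mul_right_cancel h1
    have h3 : 3 * y = 3 * y' := congrArg SL.b h2
    exact mul_left_cancel₀ (by decide) h3
  have hsurj : Function.Surjective φ := by
    rintro ⟨g, hg⟩
    simp only [Prod.mk.injEq] at hg
    have hm : (g : SL) * (g0 : SL)⁻¹ ∈ G3 := G3.mul_mem g.2 (G3.inv_mem g0.2)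
    obtain ⟨y, hy⟩ := (mem_G3.1 hm).2.1
    refine ⟨y, Subtype.ext (Subtype.ext ?_)⟩
    have h1 : (g : SL) * (g0 : SL)⁻¹ = tr (3 * y) := by
      have d0 := (g0 : SL).det
      have d1 := (g : SL).det
      refine SL.ext ?_ hy ?_ ?_
      · simp only [SL.mul_a, SL.inv_a, SL.inv_c, tr]; rw [← hg.1, ← hg.2]; linear_combination d1
      · simp only [SL.mul_c, SL.inv_a, SL.inv_c, tr]; rw [hg.1, hg.2]; ring
      · simp only [SL.mul_d, SL.inv_b, SL.inv_d, tr]; rw [hg.1, hg.2]; linear_combination d0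
    show tr (3 * y) * (g0 : SL) = g
    rw [← h1]; group
  rw [← (Equiv.ofBijective φ ⟨hinj, hsurj⟩).hasSum_iff]
  have := l2_hasSum_three ((act g0 Q).2.1 / ((act g0 Q).2.2 : ℂ))
  have hact := act_mem_slab (g0 : SL) hQ
  suffices e : (fun y : Eis => F9.indicator (fun _ => (1 : ℝ))
    ((act g0 Q).2.1 / ((act g0 Q).2.2 : ℂ) + 3 * toC y)) =
      ((fun g => l2ind (act (g.1 : SL) Q)) ∘ (Equiv.ofBijective φ ⟨hinj, hsurj⟩)) by
    rw [← e]; exact this
  funext y
  show _ = l2ind (act (tr (3 * y) * (g0 : SL)) Q)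
  rw [act_mul, l2ind_tr _ hact]
  simp [map_mul, map_ofNat]

theorem l2_unfold_sum {Q : HF} (hQ : Q ∈ slab) {H : Eis × Eis → ℂ} (hs : Summable H)
    (hH : ∀ x, H x ≠ 0 → ∃ g ∈ G3, g.c = x.1 ∧ g.d = x.2) :
    HasSum (fun g : G3 => (l2ind (act g Q) : ℂ) * H ((g : SL).c, (g : SL).d)) (9 * ∑' x, H x) := by
  let f : G3 → Eis × Eis := fun g => ((g : SL).c, (g : SL).d)
  have fib : ∀ x : Eis × Eis, H x ≠ 0 →
      HasSum (fun g : {g : G3 // f g = x} => l2ind (act (g.1 : SL) Q)) 9 := by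
    intro x hx
    obtain ⟨g, hg, h1, h2⟩ := hH x hx
    have := l2_fibre hQ ⟨g, hg⟩
    have e : x = (g.c, g.d) := by ext1 <;> simp [h1, h2]
    subst e
    exact this
  have fibC : ∀ x : Eis × Eis,
      HasSum (fun g : {g : G3 // f g = x} => (l2ind (act (g.1 : SL) Q) : ℂ) * H x) (9 * H x) := by
    intro x
    by_cases hx : H x = 0
    · simp [hx, hasSum_zero]
    · have := (Complex.hasSum_ofReal.2 (fib x hx)).mul_right (H x)
      simpa using this
  have fibN : ∀ x : Eis × Eis,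
      HasSum (fun g : {g : G3 // f g = x} => l2ind (act (g.1 : SL) Q) * ‖H x‖) (9 * ‖H x‖) := by
    intro x
    by_cases hx : H x = 0
    · simp [hx, hasSum_zero]
    · exact (fib x hx).mul_right _
  rw [← (Equiv.sigmaFiberEquiv f).hasSum_iff]
  have e : ((fun g : G3 => (l2ind (act g Q) : ℂ) * H ((g : SL).c, (g : SL).d)) ∘
      (Equiv.sigmaFiberEquiv f)) = fun p : (x : Eis × Eis) × {g : G3 // f g = x} =>
        (l2ind (act (p.2.1 : SL) Q) : ℂ) * H p.1 := by
    funext p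
    obtain ⟨x, g, rfl⟩ := p
    rfl
  rw [e]
  have hsum : Summable fun p : (x : Eis × Eis) × {g : G3 // f g = x} =>
        (l2ind (act (p.2.1 : SL) Q) : ℂ) * H p.1 := by
    apply Summable.of_norm
    have e2 : (fun p : (x : Eis × Eis) × {g : G3 // f g = x} =>
        ‖(l2ind (act (p.2.1 : SL) Q) : ℂ) * H p.1‖) = fun p => l2ind (act (p.2.1 : SL) Q) * ‖H p.1‖ := by
      funext p
      rw [norm_mul, Complex.norm_real, Real.norm_of_nonneg (l2ind_nonneg _)]
    rw [e2, summable_sigma_of_nonneg (fun p => mul_nonneg (l2ind_nonneg _) (norm_nonneg _))]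
    refine ⟨fun x => (fibN x).summable, ?_⟩
    simp only [(fibN _).tsum_eq]
    exact hs.norm.mul_left 9
  exact HasSum.sigma_of_hasSum (hs.hasSum.mul_left 9) fibC hsum

theorem l2_kap_inv {g : SL} (hg : g ∈ G3) :
    kap0 (g⁻¹).c (g⁻¹).d = conj (kap0 g.c g.d) := by
  have h := kap0_row (G3.inv_mem hg) (g.c, g.d)
  have e : row (g.c, g.d) g⁻¹ = (0, 1) := by
    have := g.det
    simp only [row, SL.inv_a, SL.inv_b, SL.inv_c, SL.inv_d, Prod.mk.injEq]
    constructor
    · ring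
    · linear_combination this
  rw [e] at h
  have h1 : kap0 0 1 = 1 := by simp [kap0, Prim.one, cub_one_right]
  have hn := norm_kap0_G3 hg
  have h2 : kap0 g.c g.d * conj (kap0 g.c g.d) = 1 := by
    rw [Complex.mul_conj, Complex.normSq_eq_norm_sq, hn]; simp
  simp only at h
  rw [h1] at h
  calc kap0 (g⁻¹).c (g⁻¹).d = kap0 (g⁻¹).c (g⁻¹).d * (kap0 g.c g.d * conj (kap0 g.c g.d)) := by
        rw [h2, mul_one]
    _ = (kap0 g.c g.d * kap0 (g⁻¹).c (g⁻¹).d) * conj (kap0 g.c g.d) := by ring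
    _ = _ := by rw [← h, one_mul]

theorem l2_Es_const (z : ℂ) (k : Eis → Eis → ℂ) (t : ℝ) (Q : HF) :
    Es (fun c d => z * k c d) t Q = z * Es k t Q := by
  unfold Es
  rw [← tsum_mul_left]
  simp only [mul_assoc]

theorem l2_Es_act {g : SL} (hg : g ∈ G3) (t : ℝ) (Q : HF) :
    Es kap0 t (act g Q) = conj (kap0 g.c g.d) * Es kap0 t Q := by
  rw [Es_act, ← l2_Es_const]
  congr 1
  funext c d
  rw [kap0_row (G3.inv_mem hg), l2_kap_inv hg, mul_comm]

theorem l2_lin_row (p : Eis) (l : Eis × Eis) (k : Eis → Eis → ℂ) (g : SL) (c d : Eis) :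
    lin p l k (row (c, d) g⁻¹).1 (row (c, d) g⁻¹).2 =
      lin p (row l g) (fun c d => k (row (c, d) g⁻¹).1 (row (c, d) g⁻¹).2) c d := by
  have e : (row (c, d) g⁻¹).1 * l.2 - (row (c, d) g⁻¹).2 * l.1
      = c * (row l g).2 - d * (row l g).1 := by
    simp only [row, SL.inv_a, SL.inv_b, SL.inv_c, SL.inv_d]; ring
  simp only [lin, e]

theorem l2_lin_act (p : Eis) (l : Eis × Eis) {g : SL} (hg : g ∈ G3) (t : ℝ) (Q : HF) :
    Es (lin p l kap0) t (act g Q) = conj (kap0 g.c g.d) * Es (lin p (row l g) kap0) t Q := by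
  rw [Es_act, ← l2_Es_const]
  congr 1
  funext c d
  rw [l2_lin_row]
  simp only [lin]
  split_ifs
  · rw [kap0_row (G3.inv_mem hg), l2_kap_inv hg, mul_comm]
  · simp

theorem l2_summable {k : Eis → Eis → ℂ} (hk : ∀ c d, ‖k c d‖ ≤ 1) {Q : HF} (hQ : Q ∈ slab)
    {t : ℝ} (ht : 0 < t) :
    Summable (fun x : Eis × Eis => k x.1 x.2 * (Real.exp (-(t * hv Q x)) : ℂ)) := by
  refine Summable.of_norm_bounded (summable_hv hQ ht) (fun x => ?_)
  rw [norm_mul, Complex.norm_real, Real.norm_of_nonneg (Real.exp_pos _).le]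
  exact mul_le_of_le_one_left (Real.exp_pos _).le (hk _ _)

theorem l2_norm_Es_le {k : Eis → Eis → ℂ} (hk : ∀ c d, ‖k c d‖ ≤ 1) {Q : HF} (hQ : Q ∈ slab)
    {t : ℝ} (ht : 0 < t) : ‖Es k t Q‖ ≤ ∑' x : Eis × Eis, Real.exp (-(t * hv Q x)) := by
  refine tsum_of_norm_bounded (summable_hv hQ ht).hasSum (fun x => ?_)
  rw [norm_mul, Complex.norm_real, Real.norm_of_nonneg (Real.exp_pos _).le]
  exact mul_le_of_le_one_left (Real.exp_pos _).le (hk _ _)

theorem l2_norm_lin (p : Eis) (l : Eis × Eis) {k : Eis → Eis → ℂ} (hk : ∀ c d, ‖k c d‖ ≤ 1)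
    (c d : Eis) : ‖lin p l k c d‖ ≤ 1 := by
  unfold lin; split_ifs
  · exact hk c d
  · simp

/-- The function whose unfolding gives the inner products. -/
def l2F (k : Eis → Eis → ℂ) (t t' : ℝ) (Q : HF) : ℂ :=
  (l2ind Q : ℂ) * ((Real.exp (-(t' * Q.2.2)) : ℂ) * Es k t Q)

theorem l2_conj_Es (k : Eis → Eis → ℂ) (t : ℝ) (Q : HF) :
    conj (Es k t Q) = ∑' x : Eis × Eis, conj (k x.1 x.2) * (Real.exp (-(t * hv Q x)) : ℂ) := by
  unfold Es
  rw [Complex.conj_tsum]
  simp only [map_mul, Complex.conj_ofReal]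

theorem l2_summable_conj {k : Eis → Eis → ℂ} (hk : ∀ c d, ‖k c d‖ ≤ 1) {Q : HF} (hQ : Q ∈ slab)
    {t : ℝ} (ht : 0 < t) :
    Summable (fun x : Eis × Eis => conj (k x.1 x.2) * (Real.exp (-(t * hv Q x)) : ℂ)) :=
  l2_summable (k := fun c d => conj (k c d)) (fun c d => by simpa using hk c d) hQ ht

theorem l2_sum_F {Q : HF} (hQ : Q ∈ slab) (t : ℝ) {t' : ℝ} (ht' : 0 < t') :
    ∑' g : G3, l2F kap0 t t' (act g Q) = 9 * (Es kap0 t Q * conj (Es kap0 t' Q)) := by
  have h := l2_unfold_sum hQ (H := fun x => Es kap0 t Q *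
      (conj (kap0 x.1 x.2) * (Real.exp (-(t' * hv Q x)) : ℂ)))
    ((l2_summable_conj norm_kap0_le hQ ht').mul_left _) (fun x hx => kap0_ne_zero (by
      intro h0; apply hx; simp [h0]))
  rw [tsum_mul_left, ← l2_conj_Es] at h
  rw [← h.tsum_eq]
  congr 1
  funext g
  simp only [l2F, act_D, l2_Es_act g.2]
  ring

/-- Representatives of the lines modulo p. -/
def l2Lam (p : Eis) : Finset (Eis × Eis) := insert (0, 1) ((res p).image (fun j => (1, j)))

theorem l2_card_Lam {p : Eis} (hp : p ≠ 0) : ((l2Lam p).card : ℝ) = N p + 1 := by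
  unfold l2Lam
  rw [Finset.card_insert_of_notMem (by simp), Finset.card_image_of_injective _
    (fun a b h => by simpa using h)]
  push_cast
  rw [card_res hp]

theorem l2_prim_Lam {p : Eis} (hp : Prime p) {l : Eis × Eis} (hl : l ∈ l2Lam p) :
    ¬ (p ∣ l.1 ∧ p ∣ l.2) := by
  unfold l2Lam at hl
  simp only [Finset.mem_insert, Finset.mem_image] at hl
  rcases hl with rfl | ⟨j, _, rfl⟩
  · exact fun h => hp.not_dvd_one h.2
  · exact fun h => hp.not_dvd_one h.1

theorem l2_line_trans {p : Eis} (hp : Prime p) {x y l : Eis × Eis} (hx : ¬ (p ∣ x.1 ∧ p ∣ x.2))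
    (h1 : p ∣ x.1 * l.2 - x.2 * l.1) (h2 : p ∣ y.1 * x.2 - y.2 * x.1) :
    p ∣ y.1 * l.2 - y.2 * l.1 := by
  by_cases ha : p ∣ x.1
  · have hb : ¬ p ∣ x.2 := fun h => hx ⟨ha, h⟩
    have : p ∣ x.2 * (y.1 * l.2 - y.2 * l.1) := by
      have e : x.2 * (y.1 * l.2 - y.2 * l.1)
          = l.2 * (y.1 * x.2 - y.2 * x.1) + y.2 * (x.1 * l.2 - x.2 * l.1) := by ring
      rw [e]; exact dvd_add (h2.mul_left _) (h1.mul_left _)
    exact (hp.dvd_or_dvd this).resolve_left hb
  · have : p ∣ x.1 * (y.1 * l.2 - y.2 * l.1) := by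
      have e : x.1 * (y.1 * l.2 - y.2 * l.1)
          = l.1 * (y.1 * x.2 - y.2 * x.1) + y.1 * (x.1 * l.2 - x.2 * l.1) := by ring
      rw [e]; exact dvd_add (h2.mul_left _) (h1.mul_left _)
    exact (hp.dvd_or_dvd this).resolve_left ha

theorem l2_exists_line {p : Eis} (hp : Prime p) {x : Eis × Eis} (hx : ¬ (p ∣ x.1 ∧ p ∣ x.2)) :
    ∃ l ∈ l2Lam p, p ∣ x.1 * l.2 - x.2 * l.1 ∧
      ∀ l' ∈ l2Lam p, p ∣ x.1 * l'.2 - x.2 * l'.1 → l' = l := by
  unfold l2Lam
  by_cases ha : p ∣ x.1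
  · refine ⟨(0, 1), by simp, by simpa using ha, ?_⟩
    intro l' hl' h
    simp only [Finset.mem_insert, Finset.mem_image] at hl'
    rcases hl' with rfl | ⟨j, _, rfl⟩
    · rfl
    · exfalso
      apply hx ⟨ha, ?_⟩
      have := dvd_sub (ha.mul_right j) h
      simpa using this
  · have hc : IsCoprime x.1 p := ((Irreducible.coprime_iff_not_dvd hp.irreducible).2 ha).symm
    obtain ⟨u, v, huv⟩ := hc
    have key : p ∣ x.1 * ((u * x.2) % p) - x.2 := by
      have h1 := dvd_sub_mod p (u * x.2)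
      have e : x.1 * ((u * x.2) % p) - x.2 = -(x.1 * (u * x.2 - (u * x.2) % p)) - p * (v * x.2) := by
        linear_combination x.2 * huv
      rw [e]
      exact dvd_sub ((h1.mul_left _).neg_right) (dvd_mul_right _ _)
    refine ⟨(1, (u * x.2) % p), ?_, by simpa using key, ?_⟩
    · simp only [Finset.mem_insert, Finset.mem_image]
      exact Or.inr ⟨_, mod_mem_res hp.ne_zero _, rfl⟩
    · intro l' hl' h
      simp only [Finset.mem_insert, Finset.mem_image] at hl'
      rcases hl' with rfl | ⟨j, hj, rfl⟩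
      · exact absurd (by simpa using h) ha
      · have h3 : p ∣ x.1 * (j - (u * x.2) % p) := by
          have := dvd_sub h key
          have e : x.1 * (j - (u * x.2) % p) = x.1 * j - x.2 * 1 - (x.1 * (u * x.2 % p) - x.2) := by
            ring
          rw [e]; exact this
        have h4 := (hp.dvd_or_dvd h3).resolve_left ha
        rw [res_unique hj (mod_mem_res hp.ne_zero _) h4]

theorem l2_prim_of_kap {p : Eis} (hp : Prime p) {x : Eis × Eis} (h : kap0 x.1 x.2 ≠ 0) :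
    ¬ (p ∣ x.1 ∧ p ∣ x.2) := by
  obtain ⟨g, _, h1, h2⟩ := kap0_ne_zero h
  rintro ⟨ha, hb⟩
  apply hp.not_dvd_one
  rw [← g.det, h1, h2]
  exact dvd_sub (hb.mul_left _) (ha.mul_left _)

theorem l2_lin_eq {p : Eis} (hp : Prime p) {x l : Eis × Eis} (hx : ¬ (p ∣ x.1 ∧ p ∣ x.2))
    (hl : ¬ (p ∣ l.1 ∧ p ∣ l.2)) (h : p ∣ x.1 * l.2 - x.2 * l.1) (k : Eis → Eis → ℂ) :
    lin p x k = lin p l k := by
  funext c d
  have e : (p ∣ c * x.2 - d * x.1) ↔ (p ∣ c * l.2 - d * l.1) := by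
    constructor
    · intro h2; exact l2_line_trans hp (y := (c, d)) hx h h2
    · intro h2
      refine l2_line_trans hp (y := (c, d)) hl ?_ h2
      have := h.neg_right
      have e : l.1 * x.2 - l.2 * x.1 = -(x.1 * l.2 - x.2 * l.1) := by ring
      rw [e]; exact this
  simp only [lin, e]

theorem l2_sum_lin {p : Eis} (hp : Prime p) (x : Eis × Eis) (f : Eis × Eis → ℂ) :
    ∑ l ∈ l2Lam p, lin p l kap0 x.1 x.2 * f l =
      if h : kap0 x.1 x.2 = 0 then 0 else
        kap0 x.1 x.2 * f (l2_exists_line hp (l2_prim_of_kap hp h)).choose := by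
  split_ifs with h
  · simp [lin, h]
  · obtain ⟨h1, h2, h3⟩ := (l2_exists_line hp (l2_prim_of_kap hp h)).choose_spec
    rw [Finset.sum_eq_single_of_mem _ h1]
    · simp only [lin, if_pos h2]
    · intro l hl hne
      have : ¬ p ∣ x.1 * l.2 - x.2 * l.1 := fun h' => hne (h3 l hl h')
      simp [lin, this]

theorem l2_Es_lines {p : Eis} (hp : Prime p) {Q : HF} (hQ : Q ∈ slab) {t : ℝ} (ht : 0 < t) :
    ∑ l ∈ l2Lam p, Es (lin p l kap0) t Q = Es kap0 t Q := by
  unfold Es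
  rw [← Summable.tsum_finsetSum
    (fun l _ => l2_summable (l2_norm_lin p l norm_kap0_le) hQ ht)]
  congr 1
  funext x
  rw [← Finset.sum_mul]
  congr 1
  have := l2_sum_lin hp x (fun _ => 1)
  simp only [mul_one] at this
  rw [this]
  split_ifs with h
  · exact h.symm
  · rfl

theorem l2_sum_F_lin {p : Eis} (hp : Prime p) {Q : HF} (hQ : Q ∈ slab) {t : ℝ} (ht : 0 < t) :
    ∑' g : G3, l2F (lin p (0, 1) kap0) t t (act g Q) =
      9 * ∑ l ∈ l2Lam p, Es (lin p l kap0) t Q * conj (Es (lin p l kap0) t Q) := by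
  have hs : Summable (fun x : Eis × Eis => Es (lin p x kap0) t Q *
      (conj (kap0 x.1 x.2) * (Real.exp (-(t * hv Q x)) : ℂ))) := by
    refine Summable.of_norm_bounded (g := fun x => (∑' x : Eis × Eis, Real.exp (-(t * hv Q x))) *
      ‖conj (kap0 x.1 x.2) * (Real.exp (-(t * hv Q x)) : ℂ)‖)
      ((l2_summable_conj norm_kap0_le hQ ht).norm.mul_left _) (fun x => ?_)
    rw [norm_mul]
    exact mul_le_mul_of_nonneg_right
      (l2_norm_Es_le (l2_norm_lin p x norm_kap0_le) hQ ht) (norm_nonneg _)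
  have h := l2_unfold_sum hQ hs (fun x hx => kap0_ne_zero (by
      intro h0; apply hx; simp [h0]))
  have e1 : ∑' g : G3, l2F (lin p (0, 1) kap0) t t (act g Q) = 9 * ∑' x : Eis × Eis,
      Es (lin p x kap0) t Q * (conj (kap0 x.1 x.2) * (Real.exp (-(t * hv Q x)) : ℂ)) := by
    rw [← h.tsum_eq]
    congr 1
    funext g
    have e : row (0, 1) (g : SL) = ((g : SL).c, (g : SL).d) := by simp [row]
    simp only [l2F, act_D, l2_lin_act p _ g.2, e]
    ring
  rw [e1]
  congr 1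
  simp only [l2_conj_Es, ← tsum_mul_left]
  rw [← Summable.tsum_finsetSum
    (fun l _ => (l2_summable_conj (l2_norm_lin p l norm_kap0_le) hQ ht).mul_left _)]
  congr 1
  funext x
  have h1 := l2_sum_lin hp x (fun l => conj (Es (lin p l kap0) t Q))
  have h2 : ∑ l ∈ l2Lam p, Es (lin p l kap0) t Q *
      (conj (lin p l kap0 x.1 x.2) * (Real.exp (-(t * hv Q x)) : ℂ)) =
      conj (∑ l ∈ l2Lam p, lin p l kap0 x.1 x.2 * conj (Es (lin p l kap0) t Q)) *
        (Real.exp (-(t * hv Q x)) : ℂ) := by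
    rw [map_sum, Finset.sum_mul]
    refine Finset.sum_congr rfl (fun l _ => ?_)
    simp only [map_mul, Complex.conj_conj]; ring
  rw [h2, h1]
  split_ifs with h0
  · simp [h0]
  · obtain ⟨a1, a2, _⟩ := (l2_exists_line hp (l2_prim_of_kap hp h0)).choose_spec
    rw [l2_lin_eq hp (l2_prim_of_kap hp h0) (l2_prim_Lam hp a1) a2]
    simp only [map_mul, Complex.conj_conj]; ring

end

end Vale.Agent.P026
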