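import Vale.Agent.P026.L2A

/-! The unfolded inner products and their limits. -/

namespace Vale.Agent.P026

open Eis Complex MeasureTheory Filter Topology Set
open scoped Classical ComplexConjugate

noncomputable section

theorem l2ind_meas : Measurable l2ind := by
  unfold l2ind
  exact (measurable_const.indicator measurableSet_F9).comp (by fun_prop)

theorem l2F_meas (k : Eis → Eis → ℂ) (t t' : ℝ) : Measurable (l2F k t t') := by
  unfold l2F
  have h1 := l2ind_meas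
  have h2 := measurable_Es k t
  fun_prop

theorem l2F_int {k : Eis → Eis → ℂ} (hk : ∀ c d, ‖k c d‖ ≤ 1) (h0 : k 0 0 = 0) {t t' : ℝ}
    (ht : 0 < t) (ht' : 0 < t') : Integrable (l2F k t t') nu := by
  refine ⟨(l2F_meas k t t').aestronglyMeasurable, ?_⟩
  refine lt_of_le_of_lt (lintegral_mono fun Q => ?_) (lintegral_abs_lt_top ht ht')
  simp only [l2F, enorm_mul]
  rw [← mul_assoc]
  gcongr
  · unfold l2ind
    by_cases h : Q.2.1 / (Q.2.2 : ℂ) ∈ F9 <;> simp [h]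
  · rw [← ofReal_norm, Complex.norm_real, Real.norm_of_nonneg (Real.exp_pos _).le]
  · refine le_trans enorm_tsum_le_tsum_enorm (ENNReal.tsum_le_tsum fun x => ?_)
    split_ifs with hx
    · simp [hx, h0]
    · rw [← ofReal_norm]
      apply ENNReal.ofReal_le_ofReal
      rw [norm_mul, Complex.norm_real, Real.norm_of_nonneg (Real.exp_pos _).le]
      exact mul_le_of_le_one_left (Real.exp_pos _).le (hk _ _)

theorem l2_integral_pt {G : HF → ℂ} (hm : Measurable G) (hG : Integrable G nu) :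
    Integrable (fun p : ℝ × ℝ => (p.1 : ℂ) * ∫ z, G (pt z p.1 p.2)) (volume.restrict DE) ∧
    ∫ Q, G Q ∂nu = ∫ p in DE, (p.1 : ℂ) * ∫ z, G (pt z p.1 p.2) := by
  have mp := measurePreserving_pt
  have hmeas : Measurable (fun p : ℂ × ℝ × ℝ => ENNReal.ofReal p.2.1) := by fun_prop
  have h1 : ∫ Q, G Q ∂nu = ∫ p : ℂ × ℝ × ℝ, G (pt p.1 p.2.1 p.2.2)
      ∂((volume.restrict (univ ×ˢ DE)).withDensity (fun p => ENNReal.ofReal p.2.1)) := by
    rw [← mp.map_eq, integral_map measurable_pt.aemeasurable hm.aestronglyMeasurable]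
  have h2 := mp.integrable_comp_of_integrable hG
  rw [integrable_withDensity_iff_integrable_smul' hmeas (by simp)] at h2
  rw [integral_withDensity_eq_integral_toReal_smul hmeas (by simp)] at h1
  have e : (volume.restrict (univ ×ˢ DE) : Measure (ℂ × ℝ × ℝ))
      = (volume : Measure ℂ).prod (volume.restrict DE) := by
    rw [Measure.volume_eq_prod, ← Measure.prod_restrict, Measure.restrict_univ]
  rw [e] at h1 h2
  simp only [Function.comp_def] at h2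
  have h3 := h2.integral_prod_right
  rw [integral_prod_symm _ h2] at h1
  have hae : (fun p : ℝ × ℝ => ∫ z : ℂ, (ENNReal.ofReal p.1).toReal • G (pt z p.1 p.2))
      =ᵐ[volume.restrict DE] fun p : ℝ × ℝ => (p.1 : ℂ) * ∫ z, G (pt z p.1 p.2) := by
    filter_upwards [ae_restrict_mem measurableSet_DE] with p hp
    rw [integral_smul, ENNReal.toReal_ofReal (le_of_lt hp.1)]
    simp
  exact ⟨h3.congr hae, h1.trans (integral_congr_ae hae)⟩

theorem l2_Rs_fk (k : Eis → Eis → ℂ) {t D E : ℝ} (ht : 0 < t) (hD : 0 < D) (hE : 0 < E) :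
    (D : ℂ) * Rs k 0 (fk (c0 * ab 0) D E) t =
      (((D / E) ^ (1 / 3 : ℝ) : ℝ) : ℂ) * Rs k 0 ex (t * E / D) := by
  have hab : ab 0 = 0 := by simp [ab]
  unfold Rs
  have e1 : ∀ c : Eis, gK k 0 c / (N c : ℂ) * fk (c0 * ab 0) D E (t * N c)
      = (D : ℂ)⁻¹ * (gK k 0 c / (N c : ℂ) * ex (t * E / D * N c)) := by
    intro c
    have : -(t * N c * E / D) - (c0 * ab 0) ^ 2 / (t * N c * D) = -(t * E / D * N c) := by
      rw [hab]; ring
    simp only [fk, ex, this]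
    push_cast; ring
  simp only [e1, tsum_mul_left]
  have e2 : (D / E) ^ (1 / 3 : ℝ) * (t * E / D) ^ (1 / 3 : ℝ) = t ^ (1 / 3 : ℝ) := by
    rw [← Real.mul_rpow (by positivity) (by positivity)]
    congr 1; field_simp
  have hD' : (D : ℂ) ≠ 0 := by exact_mod_cast hD.ne'
  rw [← e2]
  push_cast
  field_simp

theorem l2_inner {k : Eis → Eis → ℂ} (hk : Adm k) {t t' : ℝ} (ht : 0 < t) {p : ℝ × ℝ}
    (hp : p ∈ DE) :
    ((t ^ (4 / 3 : ℝ) : ℝ) : ℂ) * ((p.1 : ℂ) * ∫ z, l2F k t t' (pt z p.1 p.2)) =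
      (Real.exp (-(t' * p.1)) : ℂ) * (((t ^ (4 / 3 : ℝ) * V9 * p.1 : ℝ) : ℂ) *
          ∑' d : Eis, k 0 d * (Real.exp (-(t * p.1 * N d)) : ℂ)
        + Real.pi * ((((p.1 / p.2) ^ (1 / 3 : ℝ) : ℝ) : ℂ) * Rs k 0 ex (t * p.2 / p.1))) := by
  have hD : 0 < p.1 := hp.1
  have hE : 0 < p.2 := lt_of_lt_of_le one_pos hp.2.1
  have hD' : (p.1 : ℂ) ≠ 0 := by exact_mod_cast hD.ne'
  have e1 : ∫ z, l2F k t t' (pt z p.1 p.2) =
      (Real.exp (-(t' * p.1)) : ℂ) * ∫ z in F9, Es k t (pt z p.1 p.2) * conj (eR 0 z) := by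
    rw [← integral_const_mul, ← integral_indicator measurableSet_F9]
    congr 1
    funext z
    have : (pt z p.1 p.2).2.1 / ((pt z p.1 p.2).2.2 : ℂ) = z := by
      simp only [pt]; field_simp
    have e0 : eR 0 z = 1 := by simp [eR]
    simp only [l2F, l2ind, this]
    by_cases hz : z ∈ F9 <;> simp [hz, pt, e0]
  have h := four_coef hk ht (show (p.1, p.2) ∈ DE from hp) 0
  rw [if_pos rfl] at h
  rw [e1, ← l2_Rs_fk k ht hD hE]
  have : ((t ^ (4 / 3 : ℝ) : ℝ) : ℂ) * ((p.1 : ℂ) * ((Real.exp (-(t' * p.1)) : ℂ) *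
      ∫ z in F9, Es k t (pt z p.1 p.2) * conj (eR 0 z))) = (Real.exp (-(t' * p.1)) : ℂ) * ((p.1 : ℂ) *
        (((t ^ (4 / 3 : ℝ) : ℝ) : ℂ) * ∫ z in F9, Es k t (pt z p.1 p.2) * conj (eR 0 z))) := by ring
  rw [this, h]
  push_cast; ring

theorem l2_meas_Rs (k : Eis → Eis → ℂ) : Measurable (Rs k 0 ex) := by
  unfold Rs ex
  refine Measurable.mul (by fun_prop) (Measurable.tsum fun c => by fun_prop)

/-- The main integrand. -/
def l2h (L : ℝ → ℂ) (s x : ℝ) (p : ℝ × ℝ) : ℂ :=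
  (Real.exp (-(s * p.1)) : ℂ) * ((((p.1 / p.2) ^ (1 / 3 : ℝ) : ℝ) : ℂ) * L (x * p.2 / p.1))

theorem l2_DE_prod : (volume.restrict DE : Measure (ℝ × ℝ)) =
    (volume.restrict (Ioi (0 : ℝ))).prod (volume.restrict (Icc (1 : ℝ) 2)) := by
  rw [Measure.prod_restrict]; rfl

theorem l2_dom_int {s a : ℝ} (hs : 0 < s) (ha : -1 < a) (B : ℝ) :
    Integrable (fun p : ℝ × ℝ => B * (p.1 ^ a * Real.exp (-(s * p.1)))) (volume.restrict DE) := by
  rw [l2_DE_prod]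
  have h1 := integrableOn_rpow_mul_exp_neg_mul_rpow ha one_pos hs
  simp only [Real.rpow_one, neg_mul] at h1
  have h2 : Integrable (fun _ : ℝ => (1 : ℝ)) (volume.restrict (Icc (1 : ℝ) 2)) :=
    integrable_const _
  have := (Integrable.mul_prod h1 h2).const_mul B
  simpa using this

theorem l2h_bound {L : ℝ → ℂ} {B : ℝ} (hB : ∀ x, 0 < x → ‖L x‖ ≤ B) (s : ℝ) {x : ℝ} (hx : 0 < x)
    {p : ℝ × ℝ} (hp : p ∈ DE) :
    ‖l2h L s x p‖ ≤ B * (p.1 ^ (1 / 3 : ℝ) * Real.exp (-(s * p.1))) := by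
  have hD : 0 < p.1 := hp.1
  have hE1 : 1 ≤ p.2 := hp.2.1
  have hE : 0 < p.2 := lt_of_lt_of_le one_pos hE1
  unfold l2h
  rw [norm_mul, norm_mul, Complex.norm_real, Complex.norm_real,
    Real.norm_of_nonneg (Real.exp_pos _).le, Real.norm_of_nonneg (by positivity)]
  have h1 : (p.1 / p.2) ^ (1 / 3 : ℝ) ≤ p.1 ^ (1 / 3 : ℝ) :=
    Real.rpow_le_rpow (by positivity) (div_le_self hD.le hE1) (by norm_num)
  have h2 := hB (x * p.2 / p.1) (by positivity)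
  have h3 : 0 ≤ B := le_trans (norm_nonneg _) h2
  calc _ ≤ Real.exp (-(s * p.1)) * (p.1 ^ (1 / 3 : ℝ) * B) := by gcongr
    _ = _ := by ring

theorem l2h_meas {L : ℝ → ℂ} (hL : Measurable L) (s x : ℝ) : Measurable (l2h L s x) := by
  unfold l2h
  refine Measurable.mul (by fun_prop) (Measurable.mul (by fun_prop) (hL.comp (by fun_prop)))

theorem l2h_int {L : ℝ → ℂ} (hL : Measurable L) {B : ℝ} (hB : ∀ x, 0 < x → ‖L x‖ ≤ B) {s x : ℝ}
    (hs : 0 < s) (hx : 0 < x) : Integrable (l2h L s x) (volume.restrict DE) := by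
  refine (l2_dom_int hs (a := 1 / 3) (by norm_num) B).mono'
    (l2h_meas hL s x).aestronglyMeasurable ?_
  filter_upwards [ae_restrict_mem measurableSet_DE] with p hp using l2h_bound hB s hx hp

theorem l2h_scale {L : ℝ → ℂ} (hL : Measurable L) {B : ℝ} (hB : ∀ x, 0 < x → ‖L x‖ ≤ B) {s t : ℝ}
    (hs : 0 < s) (ht : 0 < t) :
    ((s ^ (4 / 3 : ℝ) : ℝ) : ℂ) * ∫ p in DE, l2h L s t p = ∫ p in DE, l2h L 1 (t * s) p := by
  have i1 := l2h_int hL hB hs ht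
  have i2 := l2h_int hL hB one_pos (mul_pos ht hs)
  rw [l2_DE_prod] at i1 i2 ⊢
  rw [integral_prod_symm _ i1, integral_prod_symm _ i2, ← integral_const_mul]
  refine setIntegral_congr_fun measurableSet_Icc (fun E hE => ?_)
  have hE0 : 0 < E := lt_of_lt_of_le one_pos hE.1
  have h := integral_comp_mul_left_Ioi (fun D => l2h L 1 (t * s) (D, E)) 0 hs
  simp only [mul_zero] at h
  have e : ∀ D ∈ Ioi (0 : ℝ), l2h L 1 (t * s) (s * D, E)
      = ((s ^ (1 / 3 : ℝ) : ℝ) : ℂ) * l2h L s t (D, E) := by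
    intro D hD
    have hD0 : 0 < D := hD
    unfold l2h
    have e1 : t * s * E / (s * D) = t * E / D := by field_simp
    have e2 : (s * D / E) ^ (1 / 3 : ℝ) = s ^ (1 / 3 : ℝ) * (D / E) ^ (1 / 3 : ℝ) := by
      rw [← Real.mul_rpow hs.le (by positivity)]; congr 1; ring
    simp only [e1, e2, one_mul]
    push_cast; ring
  rw [setIntegral_congr_fun measurableSet_Ioi e, integral_const_mul] at h
  have e3 : s ^ (4 / 3 : ℝ) = s * s ^ (1 / 3 : ℝ) := by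
    rw [show (4 / 3 : ℝ) = 1 + 1 / 3 by norm_num, Real.rpow_add hs, Real.rpow_one]
  have hs' : (s : ℂ) ≠ 0 := by exact_mod_cast hs.ne'
  rw [e3]; push_cast
  rw [mul_assoc, h]
  simp only [Complex.real_smul]
  push_cast
  field_simp

/-- The universal constant. -/
def l2c : ℂ := ∫ p in DE, l2h (fun _ => 1) 1 1 p

theorem l2h_lim {L : ℝ → ℂ} (hL : Measurable L) {B : ℝ} (hB : ∀ x, 0 < x → ‖L x‖ ≤ B) {l : ℂ}
    (hl : Tendsto L (𝓝[>] 0) (𝓝 l)) :
    Tendsto (fun x => ∫ p in DE, l2h L 1 x p) (𝓝[>] 0) (𝓝 (l * l2c)) := by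
  have e : l * l2c = ∫ p in DE, l2h (fun _ => l) 1 1 p := by
    unfold l2c
    rw [← integral_const_mul]
    congr 1; funext p; unfold l2h; ring
  rw [e]
  refine tendsto_integral_filter_of_dominated_convergence
    (fun p : ℝ × ℝ => B * (p.1 ^ (1 / 3 : ℝ) * Real.exp (-(1 * p.1)))) ?_ ?_
    (l2_dom_int one_pos (by norm_num) B) ?_
  · exact Eventually.of_forall fun x => (l2h_meas hL 1 x).aestronglyMeasurable
  · filter_upwards [self_mem_nhdsWithin] with x hx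
    filter_upwards [ae_restrict_mem measurableSet_DE] with p hp using l2h_bound hB 1 hx hp
  · filter_upwards [ae_restrict_mem measurableSet_DE] with p hp
    have hD : 0 < p.1 := hp.1
    have hE : 0 < p.2 := lt_of_lt_of_le one_pos hp.2.1
    unfold l2h
    refine Tendsto.const_mul _ (Tendsto.const_mul _ (hl.comp ?_))
    refine tendsto_nhdsWithin_iff.2 ⟨?_, ?_⟩
    · have : Tendsto (fun x : ℝ => x * p.2 / p.1) (𝓝 0) (𝓝 (0 * p.2 / p.1)) :=
        ((continuous_id.mul continuous_const).div_const _).tendsto 0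
      simpa using this.mono_left nhdsWithin_le_nhds
    · filter_upwards [self_mem_nhdsWithin] with x hx
      have : 0 < x := hx
      show 0 < x * p.2 / p.1
      positivity

theorem l2_int_lin {s : ℝ} (hs : 0 < s) :
    ∫ p in DE, p.1 ^ (1 : ℝ) * Real.exp (-(s * p.1)) = 1 / s ^ 2 := by
  rw [l2_DE_prod]
  have h := integral_prod_mul (μ := volume.restrict (Ioi (0 : ℝ)))
    (ν := volume.restrict (Icc (1 : ℝ) 2)) (fun D : ℝ => D ^ (1 : ℝ) * Real.exp (-(s * D)))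
    (fun _ : ℝ => (1 : ℝ))
  simp only [mul_one] at h
  rw [h]
  have h2 := Real.integral_rpow_mul_exp_neg_mul_Ioi (a := 2) (by norm_num) hs
  rw [show (2 : ℝ) - 1 = 1 by norm_num] at h2
  rw [h2]
  simp
  norm_num

/-- The normalised unfolded integral. -/
def l2I (k : Eis → Eis → ℂ) (t t' : ℝ) : ℂ :=
  ((t ^ (4 / 3 : ℝ) * t' ^ (4 / 3 : ℝ) : ℝ) : ℂ) * ∫ Q, l2F k t t' Q ∂nu

theorem l2I_sub_le {k : Eis → Eis → ℂ} (hk : Adm k) (h0 : k 0 0 = 0)
    (hσ : ∀ s : ℝ, 0 < s → ‖∑' d : Eis, k 0 d * (Real.exp (-(s * N d)) : ℂ)‖ ≤ Real.exp (-s))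
    {B : ℝ} (hB : ∀ x, 0 < x → ‖Rs k 0 ex x‖ ≤ B) {t t' : ℝ} (ht : 0 < t) (ht' : 0 < t') :
    ‖l2I k t t' - Real.pi * ∫ p in DE, l2h (Rs k 0 ex) 1 (t * t') p‖ ≤
      V9 * (t * t') ^ (1 / 3 : ℝ) := by
  obtain ⟨i1, e1⟩ := l2_integral_pt (l2F_meas k t t') (l2F_int hk.1 h0 ht ht')
  have i2 := l2h_int (l2_meas_Rs k) hB ht' ht
  rw [← l2h_scale (l2_meas_Rs k) hB ht' ht]
  unfold l2I
  rw [e1]
  have e2 : ((t ^ (4 / 3 : ℝ) * t' ^ (4 / 3 : ℝ) : ℝ) : ℂ) *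
      (∫ p in DE, (p.1 : ℂ) * ∫ z, l2F k t t' (pt z p.1 p.2)) - Real.pi *
        (((t' ^ (4 / 3 : ℝ) : ℝ) : ℂ) * ∫ p in DE, l2h (Rs k 0 ex) t' t p) =
      ∫ p in DE, ((t' ^ (4 / 3 : ℝ) : ℝ) : ℂ) * (((t ^ (4 / 3 : ℝ) : ℝ) : ℂ) *
        ((p.1 : ℂ) * ∫ z, l2F k t t' (pt z p.1 p.2)) - Real.pi * l2h (Rs k 0 ex) t' t p) := by
    rw [integral_const_mul, integral_sub (i1.const_mul _) (i2.const_mul _), integral_const_mul,
      integral_const_mul]
    push_cast; ring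
  rw [e2]
  have hs : 0 < t + t' := by positivity
  have hV := V9_pos
  refine le_trans (norm_integral_le_of_norm_le (l2_dom_int hs (a := 1) (by norm_num)
    (t' ^ (4 / 3 : ℝ) * t ^ (4 / 3 : ℝ) * V9)) ?_) ?_
  · filter_upwards [ae_restrict_mem measurableSet_DE] with p hp
    have hD : 0 < p.1 := hp.1
    rw [l2_inner hk ht hp]
    have e3 : (Real.exp (-(t' * p.1)) : ℂ) * (((t ^ (4 / 3 : ℝ) * V9 * p.1 : ℝ) : ℂ) *
          ∑' d : Eis, k 0 d * (Real.exp (-(t * p.1 * N d)) : ℂ)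
        + Real.pi * ((((p.1 / p.2) ^ (1 / 3 : ℝ) : ℝ) : ℂ) * Rs k 0 ex (t * p.2 / p.1)))
        - Real.pi * l2h (Rs k 0 ex) t' t p = (Real.exp (-(t' * p.1)) : ℂ) *
          (((t ^ (4 / 3 : ℝ) * V9 * p.1 : ℝ) : ℂ) *
          ∑' d : Eis, k 0 d * (Real.exp (-(t * p.1 * N d)) : ℂ)) := by
      unfold l2h; ring
    rw [e3, norm_mul, norm_mul, norm_mul, Complex.norm_real, Complex.norm_real, Complex.norm_real,
      Real.norm_of_nonneg (by positivity), Real.norm_of_nonneg (by positivity),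
      Real.norm_of_nonneg (by positivity)]
    have h1 := hσ (t * p.1) (by positivity)
    have e4 : Real.exp (-((t + t') * p.1)) = Real.exp (-(t' * p.1)) * Real.exp (-(t * p.1)) := by
      rw [← Real.exp_add]; congr 1; ring
    rw [e4, Real.rpow_one]
    calc _ ≤ t' ^ (4 / 3 : ℝ) * (Real.exp (-(t' * p.1)) *
          (t ^ (4 / 3 : ℝ) * V9 * p.1 * Real.exp (-(t * p.1)))) := by gcongr
      _ = _ := by ring
  · rw [integral_const_mul, l2_int_lin hs]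
    have hx : 0 < t * t' := by positivity
    have e5 : t' ^ (4 / 3 : ℝ) * t ^ (4 / 3 : ℝ) = (t * t') * (t * t') ^ (1 / 3 : ℝ) := by
      rw [← Real.mul_rpow ht'.le ht.le, show (4 / 3 : ℝ) = 1 + 1 / 3 by norm_num, mul_comm t' t,
        Real.rpow_add hx, Real.rpow_one]
    rw [e5]
    have h2 : t * t' * (1 / (t + t') ^ 2) ≤ 1 := by
      rw [mul_one_div, div_le_one (by positivity)]; nlinarith
    have h3 : 0 ≤ V9 * (t * t') ^ (1 / 3 : ℝ) := by positivity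
    calc _ = (V9 * (t * t') ^ (1 / 3 : ℝ)) * (t * t' * (1 / (t + t') ^ 2)) := by ring
      _ ≤ _ := mul_le_of_le_one_right h3 h2

theorem l2_tendsto_mul : Tendsto (fun p : ℝ × ℝ => p.1 * p.2) ((𝓝[>] 0) ×ˢ (𝓝[>] 0)) (𝓝[>] 0) := by
  refine tendsto_nhdsWithin_iff.2 ⟨?_, ?_⟩
  · have h1 : Tendsto (fun p : ℝ × ℝ => p.1) ((𝓝[>] 0) ×ˢ (𝓝[>] 0)) (𝓝 0) :=
      tendsto_fst.mono_right nhdsWithin_le_nhds
    have h2 : Tendsto (fun p : ℝ × ℝ => p.2) ((𝓝[>] 0) ×ˢ (𝓝[>] 0)) (𝓝 0) :=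
      tendsto_snd.mono_right nhdsWithin_le_nhds
    simpa using h1.mul h2
  · filter_upwards [prod_mem_prod self_mem_nhdsWithin self_mem_nhdsWithin] with p hp
    exact mul_pos (show 0 < p.1 from hp.1) (show 0 < p.2 from hp.2)

theorem l2I_lim {k : Eis → Eis → ℂ} (hk : Adm k) (h0 : k 0 0 = 0)
    (hσ : ∀ s : ℝ, 0 < s → ‖∑' d : Eis, k 0 d * (Real.exp (-(s * N d)) : ℂ)‖ ≤ Real.exp (-s))
    {B : ℝ} (hB : ∀ x, 0 < x → ‖Rs k 0 ex x‖ ≤ B) {l : ℂ}
    (hl : Tendsto (Rs k 0 ex) (𝓝[>] 0) (𝓝 l)) :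
    Tendsto (fun p : ℝ × ℝ => l2I k p.1 p.2) ((𝓝[>] 0) ×ˢ (𝓝[>] 0))
      (𝓝 (Real.pi * (l * l2c))) := by
  have h1 := ((l2h_lim (l2_meas_Rs k) hB hl).comp l2_tendsto_mul).const_mul (Real.pi : ℂ)
  have h2 : Tendsto (fun p : ℝ × ℝ => V9 * (p.1 * p.2) ^ (1 / 3 : ℝ))
      ((𝓝[>] 0) ×ˢ (𝓝[>] 0)) (𝓝 0) := by
    have c : Continuous (fun x : ℝ => V9 * x ^ (1 / 3 : ℝ)) :=
      continuous_const.mul (Real.continuous_rpow_const (by norm_num))
    have := (c.tendsto 0).comp (l2_tendsto_mul.mono_right nhdsWithin_le_nhds)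
    simpa [Function.comp_def] using this
  have h3 : Tendsto (fun p : ℝ × ℝ => l2I k p.1 p.2 -
      Real.pi * ∫ q in DE, l2h (Rs k 0 ex) 1 (p.1 * p.2) q) ((𝓝[>] 0) ×ˢ (𝓝[>] 0)) (𝓝 0) := by
    refine squeeze_zero_norm' ?_ h2
    filter_upwards [prod_mem_prod self_mem_nhdsWithin self_mem_nhdsWithin] with p hp
    exact l2I_sub_le hk h0 hσ hB hp.1 hp.2
  have := h3.add h1
  simpa using this

end

end Vale.Agent.P026
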