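import Vale.Agent.P026.L2B
import Vale.Agent.P026.Asym

/-! Mean square Cauchy property, and the equidistribution among lines. -/

namespace Vale.Agent.P026

open Eis Complex MeasureTheory Filter Topology Set
open scoped Classical ComplexConjugate

noncomputable section

/-- The normalised series. -/
def l2T (k : Eis → Eis → ℂ) (t : ℝ) (Q : HF) : ℂ := ((t ^ (4 / 3 : ℝ) : ℝ) : ℂ) * Es k t Q

theorem l2T_meas (k : Eis → Eis → ℂ) (t : ℝ) : Measurable (l2T k t) :=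
  (measurable_Es k t).const_mul _

theorem l2_ae_slab : ∀ᵐ Q ∂nu, Q ∈ slab := ae_restrict_mem measurableSet_slab

theorem l2_normsq (z : ℂ) : ((‖z‖ ^ 2 : ℝ) : ℂ) = z * conj z := by
  rw [Complex.mul_conj, Complex.normSq_eq_norm_sq]

theorem l2_kap00 : kap0 0 0 = 0 := by
  have : ¬ Prim 0 := fun h => h.ne_zero rfl
  simp [kap0, this]

theorem l2_sigma_kap0 (s : ℝ) :
    ‖∑' d : Eis, kap0 0 d * (Real.exp (-(s * N d)) : ℂ)‖ ≤ Real.exp (-s) := by
  rw [tsum_eq_single 1]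
  · rw [norm_mul, Complex.norm_real, Real.norm_of_nonneg (Real.exp_pos _).le, N_one, mul_one]
    exact mul_le_of_le_one_left (Real.exp_pos _).le (norm_kap0_le _ _)
  · intro d hd
    have : kap0 0 d = 0 := by
      unfold kap0
      split_ifs with h
      · rw [cub_eq_zero h.2.ne_zero, isCoprime_zero_left]
        exact fun hu => hd (h.2.eq_one_of_isUnit hu)
      · rfl
    simp [this]

theorem l2_pair {β : HF → ENNReal} (hβ : IsBeta β) {t t' : ℝ} (ht : 0 < t) (ht' : 0 < t') :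
    Integrable (fun Q => ((β Q).toReal : ℂ) * (l2T kap0 t Q * conj (l2T kap0 t' Q))) nu ∧
    ∫ Q, ((β Q).toReal : ℂ) * (l2T kap0 t Q * conj (l2T kap0 t' Q)) ∂nu = l2I kap0 t t' / 9 := by
  obtain ⟨i1, e1⟩ := integral_unfold hβ (l2F_meas kap0 t t') (l2F_int norm_kap0_le l2_kap00 ht ht')
  have hae : (fun Q => (((t ^ (4 / 3 : ℝ) * t' ^ (4 / 3 : ℝ) : ℝ) : ℂ) / 9) *
      (((β Q).toReal : ℂ) * ∑' g : G3, l2F kap0 t t' (act g Q))) =ᵐ[nu]
      fun Q => ((β Q).toReal : ℂ) * (l2T kap0 t Q * conj (l2T kap0 t' Q)) := by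
    filter_upwards [l2_ae_slab] with Q hQ
    rw [l2_sum_F hQ t ht']
    simp only [l2T, map_mul, Complex.conj_ofReal]
    push_cast; ring
  refine ⟨(i1.const_mul _).congr hae, ?_⟩
  rw [← integral_congr_ae hae, integral_const_mul, e1]
  unfold l2I; ring

theorem l2_dist {β : HF → ENNReal} (hβ : IsBeta β) {t t' : ℝ} (ht : 0 < t) (ht' : 0 < t') :
    ∫ Q, (β Q).toReal * ‖l2T kap0 t Q - l2T kap0 t' Q‖ ^ 2 ∂nu =
      ((l2I kap0 t t + l2I kap0 t' t' - l2I kap0 t t' - l2I kap0 t' t) / 9).re := by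
  obtain ⟨i1, e1⟩ := l2_pair hβ ht ht
  obtain ⟨i2, e2⟩ := l2_pair hβ ht' ht'
  obtain ⟨i3, e3⟩ := l2_pair hβ ht ht'
  obtain ⟨i4, e4⟩ := l2_pair hβ ht' ht
  have h : ((∫ Q, (β Q).toReal * ‖l2T kap0 t Q - l2T kap0 t' Q‖ ^ 2 ∂nu : ℝ) : ℂ) =
      (l2I kap0 t t + l2I kap0 t' t' - l2I kap0 t t' - l2I kap0 t' t) / 9 := by
    rw [← integral_complex_ofReal]
    have : (l2I kap0 t t + l2I kap0 t' t' - l2I kap0 t t' - l2I kap0 t' t) / 9 =
      l2I kap0 t t / 9 + l2I kap0 t' t' / 9 - l2I kap0 t t' / 9 - l2I kap0 t' t / 9 := by ring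
    rw [this, ← e1, ← e2, ← e3, ← e4, ← integral_add' i1 i2, ← integral_sub' (i1.add i2) i3,
      ← integral_sub' ((i1.add i2).sub i3) i4]
    congr 1
    funext Q
    simp only [Pi.add_apply, Pi.sub_apply]
    rw [Complex.ofReal_mul, l2_normsq, map_sub]
    ring
  rw [← h, Complex.ofReal_re]

theorem l2_sq_int {β : HF → ENNReal} (hβ : IsBeta β) {t : ℝ} (ht : 0 < t) :
    Integrable (fun Q => (β Q).toReal * ‖l2T kap0 t Q‖ ^ 2) nu := by
  have := (l2_pair hβ ht ht).1.norm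
  refine this.congr (Eventually.of_forall fun Q => ?_)
  simp only [norm_mul, Complex.norm_real, Real.norm_of_nonneg ENNReal.toReal_nonneg,
    RCLike.norm_conj]
  ring

theorem l2_dist_lim {β : HF → ENNReal} (hβ : IsBeta β) :
    Tendsto (fun p : ℝ × ℝ => ∫ Q, (β Q).toReal * ‖l2T kap0 p.1 Q - l2T kap0 p.2 Q‖ ^ 2 ∂nu)
      ((𝓝[>] 0) ×ˢ (𝓝[>] 0)) (𝓝 0) := by
  obtain ⟨l, -, hl, ⟨B, hB⟩, -⟩ := asym
  have h := l2I_lim adm_kap0 l2_kap00 (fun s _ => l2_sigma_kap0 s) hB hl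
  have t1 : Tendsto (fun p : ℝ × ℝ => p.1) ((𝓝[>] 0) ×ˢ (𝓝[>] 0)) (𝓝[>] 0) := tendsto_fst
  have t2 : Tendsto (fun p : ℝ × ℝ => p.2) ((𝓝[>] 0) ×ˢ (𝓝[>] 0)) (𝓝[>] 0) := tendsto_snd
  have h1 := h.comp (t1.prodMk t1)
  have h2 := h.comp (t2.prodMk t2)
  have h4 := h.comp (t2.prodMk t1)
  have h5 := (Complex.continuous_re.tendsto _).comp ((((h1.add h2).sub h).sub h4).div_const 9)
  simp only [add_sub_cancel_right, sub_self, zero_div, Complex.zero_re] at h5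
  refine h5.congr' ?_
  filter_upwards [prod_mem_prod self_mem_nhdsWithin self_mem_nhdsWithin] with p hp
  rw [l2_dist hβ hp.1 hp.2]
  rfl

theorem l2_beta_lt {β : HF → ENNReal} (hβ : IsBeta β) : ∀ᵐ Q ∂nu, β Q < ⊤ :=
  Eventually.of_forall fun Q => lt_of_le_of_lt (hβ.2.1 Q) ENNReal.one_lt_top

theorem l2_memLp {β : HF → ENNReal} (hβ : IsBeta β) {t : ℝ} (ht : 0 < t) :
    MemLp (l2T kap0 t) 2 (nu.withDensity β) := by
  rw [memLp_two_iff_integrable_sq_norm (l2T_meas _ _).aestronglyMeasurable,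
    integrable_withDensity_iff_integrable_smul' hβ.1 (l2_beta_lt hβ)]
  exact l2_sq_int hβ ht

theorem l2_lp_norm_sq {μ : Measure HF} (f : Lp ℂ 2 μ) : ‖f‖ ^ 2 = ∫ Q, ‖f Q‖ ^ 2 ∂μ := by
  rw [← inner_self_eq_norm_sq (𝕜 := ℂ), L2.inner_def, ← integral_re (L2.integrable_inner f f)]
  congr 1
  funext Q
  exact inner_self_eq_norm_sq (𝕜 := ℂ) _

theorem l2_lp_lint {μ : Measure HF} (f : Lp ℂ 2 μ) :
    ∫⁻ Q, ‖f Q‖ₑ ^ 2 ∂μ = ENNReal.ofReal (‖f‖ ^ 2) := by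
  rw [l2_lp_norm_sq, ofReal_integral_eq_lintegral_ofReal
    ((memLp_two_iff_integrable_sq_norm (Lp.aestronglyMeasurable f)).1 (Lp.memLp f))
    (Eventually.of_forall fun Q => by positivity)]
  congr 1
  funext Q
  rw [ENNReal.ofReal_pow (norm_nonneg _), ofReal_norm]

/-- Existence of the limit. -/
theorem l2_limit {β : HF → ENNReal} (hβ : IsBeta β) : ∃ θ : HF → ℂ, Measurable θ ∧
    (∫⁻ Q, β Q * ‖θ Q‖ₑ ^ 2 ∂nu < ⊤) ∧
    Tendsto (fun t => ∫⁻ Q, β Q * ‖l2T kap0 t Q - θ Q‖ₑ ^ 2 ∂nu) (𝓝[>] 0) (𝓝 0) ∧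
    ∃ u : ℕ → ℝ, ∀ᵐ Q ∂nu, Tendsto (fun n => l2T kap0 (u n) Q) atTop (𝓝 (θ Q)) := by
  set μ := nu.withDensity β with hμ
  let f : ℝ → Lp ℂ 2 μ := fun t => if h : 0 < t then (l2_memLp hβ h).toLp _ else 0
  have hf : ∀ t, 0 < t → f t =ᵐ[μ] l2T kap0 t := by
    intro t ht
    simp only [f, dif_pos ht]
    exact MemLp.coeFn_toLp _
  have hd : ∀ t t', 0 < t → 0 < t' → dist (f t) (f t') =
      √(∫ Q, (β Q).toReal * ‖l2T kap0 t Q - l2T kap0 t' Q‖ ^ 2 ∂nu) := by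
    intro t t' ht ht'
    rw [dist_eq_norm, ← Real.sqrt_sq (norm_nonneg (f t - f t')), l2_lp_norm_sq]
    congr 1
    have : (fun Q => ‖(f t - f t') Q‖ ^ 2) =ᵐ[μ] fun Q => ‖l2T kap0 t Q - l2T kap0 t' Q‖ ^ 2 := by
      filter_upwards [Lp.coeFn_sub (f t) (f t'), hf t ht, hf t' ht'] with Q h1 h2 h3
      rw [h1, Pi.sub_apply, h2, h3]
    rw [integral_congr_ae this, hμ, integral_withDensity_eq_integral_toReal_smul hβ.1 (l2_beta_lt hβ)]
    rfl
  have hc : Cauchy (map f (𝓝[>] 0)) := by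
    rw [cauchy_map_iff']
    rw [Metric.uniformity_basis_dist.tendsto_right_iff]
    intro ε hε
    have h1 := (Real.continuous_sqrt.tendsto 0).comp (l2_dist_lim hβ)
    simp only [Real.sqrt_zero] at h1
    filter_upwards [prod_mem_prod self_mem_nhdsWithin self_mem_nhdsWithin,
      h1.eventually (gt_mem_nhds hε)] with p hp h2
    show dist (f p.1) (f p.2) < ε
    rw [hd _ _ hp.1 hp.2]; exact h2
  obtain ⟨g, hg⟩ := cauchy_map_iff_exists_tendsto.1 hc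
  have hm := Lp.aestronglyMeasurable g
  have hθ : g =ᵐ[μ] hm.mk g := hm.ae_eq_mk
  have hθm : Measurable (hm.mk g) := hm.measurable_mk
  have hac : nu ≪ μ := withDensity_absolutelyContinuous' hβ.1.aemeasurable (by
    filter_upwards [l2_ae_slab] with Q hQ using (hβ.2.2.1 Q hQ).ne')
  refine ⟨hm.mk g, hθm, ?_, ?_, ?_⟩
  · have := lintegral_withDensity_eq_lintegral_mul nu hβ.1
      (g := fun Q => ‖hm.mk g Q‖ₑ ^ 2) (by fun_prop)
    simp only [Pi.mul_apply] at this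
    rw [← this, ← hμ, ← lintegral_congr_ae (f := fun Q => ‖g Q‖ₑ ^ 2), l2_lp_lint]
    · exact ENNReal.ofReal_lt_top
    · filter_upwards [hθ] with Q h using by rw [h]
  · have h1 : Tendsto (fun t => ENNReal.ofReal (‖f t - g‖ ^ 2)) (𝓝[>] 0) (𝓝 0) := by
      have h2 : Tendsto (fun t => ‖f t - g‖) (𝓝[>] 0) (𝓝 0) := tendsto_iff_norm_sub_tendsto_zero.1 hg
      have h3 := ENNReal.tendsto_ofReal (h2.pow 2)
      simpa using h3
    refine h1.congr' ?_
    filter_upwards [self_mem_nhdsWithin] with t ht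
    have hmt := l2T_meas kap0 t
    have := lintegral_withDensity_eq_lintegral_mul nu hβ.1
      (g := fun Q => ‖l2T kap0 t Q - hm.mk g Q‖ₑ ^ 2) (by fun_prop)
    simp only [Pi.mul_apply] at this
    rw [← this, ← hμ, ← l2_lp_lint]
    refine lintegral_congr_ae ?_
    filter_upwards [Lp.coeFn_sub (f t) g, hf t ht, hθ] with Q h1 h2 h3
    rw [h1, Pi.sub_apply, h2, h3]
  · have hu : Tendsto (fun n : ℕ => 1 / ((n : ℝ) + 1)) atTop (𝓝[>] 0) :=
      tendsto_nhdsWithin_iff.2 ⟨tendsto_one_div_add_atTop_nhds_zero_nat,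
        Eventually.of_forall fun n => (Nat.one_div_pos_of_nat : (0 : ℝ) < 1 / ((n : ℝ) + 1))⟩
    obtain ⟨ns, -, hns⟩ := (tendstoInMeasure_of_tendsto_Lp (hg.comp hu)).exists_seq_tendsto_ae
    refine ⟨fun n => 1 / ((ns n : ℝ) + 1), hac.ae_le ?_⟩
    have hall : ∀ᵐ Q ∂μ, ∀ n : ℕ, f (1 / ((n : ℝ) + 1)) Q = l2T kap0 (1 / ((n : ℝ) + 1)) Q :=
      ae_all_iff.2 fun n => hf _ Nat.one_div_pos_of_nat
    filter_upwards [hns, hall, hθ] with Q h1 h2 h3
    rw [← h3]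
    refine h1.congr fun n => ?_
    exact h2 (ns n)

theorem l2_var {ι : Type*} (s : Finset ι) (E : ι → ℂ) {n : ℝ} (hn : (s.card : ℝ) = n) (h0 : n ≠ 0) :
    ((∑ l ∈ s, ‖E l - (∑ l ∈ s, E l) / n‖ ^ 2 : ℝ) : ℂ) =
      ∑ l ∈ s, E l * conj (E l) - (∑ l ∈ s, E l) * conj (∑ l ∈ s, E l) / n := by
  have hn' : (s.card : ℂ) = n := by exact_mod_cast hn
  have h0' : (n : ℂ) ≠ 0 := by exact_mod_cast h0
  rw [Complex.ofReal_sum]
  simp only [l2_normsq, map_sub, map_div₀, Complex.conj_ofReal]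
  set S := ∑ l ∈ s, E l with hS
  have : ∀ l, (E l - S / n) * (conj (E l) - conj S / n) =
      E l * conj (E l) - E l * (conj S / n) - conj (E l) * (S / n) + S * conj S / n ^ 2 := by
    intro l; ring
  simp only [this, Finset.sum_add_distrib, Finset.sum_sub_distrib, ← Finset.sum_mul, ← map_sum,
    ← hS, Finset.sum_const, nsmul_eq_mul, hn']
  field_simp
  ring

/-- The variance over the lines. -/
def l2G (p : Eis) (t : ℝ) (Q : HF) : ℝ :=
  ∑ l ∈ l2Lam p, ‖l2T (lin p l kap0) t Q - l2T kap0 t Q / ((N p + 1 : ℝ) : ℂ)‖ ^ 2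

theorem l2G_meas (p : Eis) (t : ℝ) : Measurable (l2G p t) := by
  unfold l2G
  refine Finset.measurable_sum _ fun l _ => ?_
  have h1 := l2T_meas (lin p l kap0) t
  have h2 := l2T_meas kap0 t
  fun_prop

theorem l2G_eq {p : Eis} (hp : Prime p) {t : ℝ} (ht : 0 < t) {Q : HF} (hQ : Q ∈ slab) :
    (l2G p t Q : ℂ) = (((t ^ (4 / 3 : ℝ) * t ^ (4 / 3 : ℝ) : ℝ) : ℂ) / 9) *
      (∑' g : G3, l2F (lin p (0, 1) kap0) t t (act g Q))
        - l2T kap0 t Q * conj (l2T kap0 t Q) / ((N p + 1 : ℝ) : ℂ) := by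
  have hs : ∑ l ∈ l2Lam p, l2T (lin p l kap0) t Q = l2T kap0 t Q := by
    simp only [l2T, ← Finset.mul_sum, l2_Es_lines hp hQ ht]
  have h := l2_var (l2Lam p) (fun l => l2T (lin p l kap0) t Q) (l2_card_Lam hp.ne_zero)
    (by have := N_nonneg p; positivity)
  rw [hs] at h
  unfold l2G
  rw [h, l2_sum_F_lin hp hQ ht]
  congr 1
  rw [Finset.mul_sum, Finset.mul_sum]
  refine Finset.sum_congr rfl fun l _ => ?_
  simp only [l2T, map_mul, Complex.conj_ofReal]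
  push_cast; ring

theorem l2T_act {g : SL} (hg : g ∈ G3) (t : ℝ) (Q : HF) :
    l2T kap0 t (act g Q) = conj (kap0 g.c g.d) * l2T kap0 t Q := by
  unfold l2T; rw [l2_Es_act hg]; ring

theorem l2G_inv {p : Eis} (hp : Prime p) {t : ℝ} (ht : 0 < t) {Q : HF} (hQ : Q ∈ slab) {g : SL}
    (hg : g ∈ G3) : l2G p t (act g Q) = l2G p t Q := by
  have h1 := l2G_eq hp ht hQ
  have h2 := l2G_eq hp ht (act_mem_slab g hQ)
  have e1 : ∑' h : G3, l2F (lin p (0, 1) kap0) t t (act h (act g Q)) =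
      ∑' h : G3, l2F (lin p (0, 1) kap0) t t (act h Q) := by
    rw [← (Equiv.mulRight (⟨g, hg⟩ : G3)).tsum_eq
      (fun h : G3 => l2F (lin p (0, 1) kap0) t t (act h Q))]
    congr 1
    funext h
    rw [← act_mul]; rfl
  have e2 : l2T kap0 t (act g Q) * conj (l2T kap0 t (act g Q)) =
      l2T kap0 t Q * conj (l2T kap0 t Q) := by
    rw [← l2_normsq, ← l2_normsq, l2T_act hg, norm_mul, RCLike.norm_conj, norm_kap0_G3 hg, one_mul]
  rw [e1, e2, ← h1] at h2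
  exact_mod_cast h2

theorem l2_Es_off (p : Eis) {k : Eis → Eis → ℂ} (hk : ∀ c d, ‖k c d‖ ≤ 1) {t : ℝ} (ht : 0 < t)
    {Q : HF} (hQ : Q ∈ slab) : Es (lin p (0, 1) k) t Q = Es k t Q - Es (off p k) t Q := by
  have ho : ∀ c d, ‖off p k c d‖ ≤ 1 := by
    intro c d; unfold off; split_ifs
    · simp
    · exact hk c d
  unfold Es
  rw [← (l2_summable hk hQ ht).tsum_sub (l2_summable ho hQ ht)]
  congr 1
  funext x
  simp only [lin, off, mul_one, mul_zero, sub_zero]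
  split_ifs <;> simp

theorem l2G_lim {β : HF → ENNReal} (hβ : IsBeta β) {p : Eis} (hp : Prime p) (h1 : P1 p) :
    Tendsto (fun t => ∫⁻ Q, β Q * ENNReal.ofReal (l2G p t Q) ∂nu) (𝓝[>] 0) (𝓝 0) := by
  obtain ⟨l, -, hl, ⟨B, hB⟩, hoff⟩ := asym
  obtain ⟨hl', B', hB'⟩ := hoff p hp h1
  have a1 := (l2I_lim adm_kap0 l2_kap00 (fun s _ => l2_sigma_kap0 s) hB hl).comp
    (tendsto_id.prodMk tendsto_id)
  have ho0 : off p kap0 0 0 = 0 := by simp [off]
  have a2 := (l2I_lim (adm_off p adm_kap0) ho0 (fun s _ => by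
    simp [off, (Real.exp_pos _).le]) hB' hl').comp (tendsto_id.prodMk tendsto_id)
  have hN : (0 : ℝ) < N p + 1 := by have := N_nonneg p; positivity
  have hN' : ((N p + 1 : ℝ) : ℂ) ≠ 0 := by exact_mod_cast hN.ne'
  have a3 := ((a1.sub a2).div_const 9).sub ((a1.div_const 9).div_const ((N p + 1 : ℝ) : ℂ))
  have e0 : (Real.pi * (l * l2c) - Real.pi * (((l * (N p / (N p + 1)) : ℝ) : ℂ) * l2c)) / 9
      - Real.pi * (l * l2c) / 9 / ((N p + 1 : ℝ) : ℂ) = 0 := by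
    push_cast at hN' ⊢
    field_simp
    ring
  rw [e0] at a3
  have a4 := ENNReal.tendsto_ofReal ((Complex.continuous_re.tendsto _).comp a3)
  simp only [Complex.zero_re, ENNReal.ofReal_zero] at a4
  refine a4.congr' ?_
  filter_upwards [self_mem_nhdsWithin] with t ht
  have hl00 : lin p (0, 1) kap0 0 0 = 0 := by simp [lin, l2_kap00]
  have iL := l2F_int (l2_norm_lin p (0, 1) norm_kap0_le) hl00 ht ht
  obtain ⟨i1, e1⟩ := integral_unfold hβ (l2F_meas _ t t) iL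
  obtain ⟨i2, e2⟩ := l2_pair hβ ht ht
  have e3 : ∫ Q, l2F (lin p (0, 1) kap0) t t Q ∂nu =
      ∫ Q, l2F kap0 t t Q ∂nu - ∫ Q, l2F (off p kap0) t t Q ∂nu := by
    rw [← integral_sub (l2F_int norm_kap0_le l2_kap00 ht ht)
      (l2F_int (adm_off p adm_kap0).1 ho0 ht ht)]
    refine integral_congr_ae ?_
    filter_upwards [l2_ae_slab] with Q hQ
    simp only [l2F, l2_Es_off p norm_kap0_le ht hQ]; ring
  have hae : (fun Q => (((t ^ (4 / 3 : ℝ) * t ^ (4 / 3 : ℝ) : ℝ) : ℂ) / 9) *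
      (((β Q).toReal : ℂ) * ∑' g : G3, l2F (lin p (0, 1) kap0) t t (act g Q)) -
      ((β Q).toReal : ℂ) * (l2T kap0 t Q * conj (l2T kap0 t Q)) / ((N p + 1 : ℝ) : ℂ)) =ᵐ[nu]
      fun Q => (((β Q).toReal * l2G p t Q : ℝ) : ℂ) := by
    filter_upwards [l2_ae_slab] with Q hQ
    rw [Complex.ofReal_mul (β Q).toReal, l2G_eq hp ht hQ]; ring
  have i3 := ((i1.const_mul _).sub (i2.div_const _)).congr hae
  have i4 : Integrable (fun Q => (β Q).toReal * l2G p t Q) nu := by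
    simpa using i3.re
  have e4 : ((∫ Q, (β Q).toReal * l2G p t Q ∂nu : ℝ) : ℂ) =
      (l2I kap0 t t - l2I (off p kap0) t t) / 9 - l2I kap0 t t / 9 / ((N p + 1 : ℝ) : ℂ) := by
    rw [← integral_complex_ofReal]
    rw [← integral_congr_ae hae]
    rw [integral_sub (i1.const_mul _) (i2.div_const _), integral_const_mul, integral_div, e1, e2, e3]
    unfold l2I; ring
  have hG : ∀ Q, 0 ≤ l2G p t Q := fun Q => Finset.sum_nonneg fun l _ => by positivity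
  simp only [Function.comp_def, id]
  rw [← e4, Complex.ofReal_re, ofReal_integral_eq_lintegral_ofReal i4
    (Eventually.of_forall fun Q => mul_nonneg ENNReal.toReal_nonneg (hG Q))]
  refine lintegral_congr fun Q => ?_
  rw [ENNReal.ofReal_mul ENNReal.toReal_nonneg, ENNReal.ofReal_toReal
    (lt_of_le_of_lt (hβ.2.1 Q) ENNReal.one_lt_top).ne]

end

end Vale.Agent.P026
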