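import Vale.Agent.P026.LemP

/-! Auxiliary results for the large sieve file: duality and the smoothed character sum bound. -/

namespace Vale.Agent.P026

open Eis Complex
open scoped Classical ComplexConjugate

/-- Weighted duality principle. -/
theorem ls_dual {α γ : Type} (A : Finset α) (B : Finset γ) (T : α → γ → ℂ) (ω v : γ → ℝ)
    (hω : ∀ c ∈ B, 0 ≤ ω c) (hv : ∀ c ∈ B, 0 ≤ v c) {Δ : ℝ} (hΔ : 0 ≤ Δ)
    (H : ∀ g : α → ℂ, ∑ c ∈ B, ω c * ‖∑ h ∈ A, g h * T h c‖ ^ 2 ≤ Δ * ∑ h ∈ A, ‖g h‖ ^ 2)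
    (b : γ → ℂ) (hb : ∀ c ∈ B, ‖b c‖ ^ 2 ≤ v c * ω c) :
    ∑ h ∈ A, ‖∑ c ∈ B, b c * T h c‖ ^ 2 ≤ Δ * ∑ c ∈ B, v c := by
  set S : α → ℂ := fun h => ∑ c ∈ B, b c * T h c with hS
  set Q : ℝ := ∑ h ∈ A, ‖S h‖ ^ 2 with hQ
  have hQ0 : 0 ≤ Q := Finset.sum_nonneg fun _ _ => by positivity
  have hV0 : 0 ≤ ∑ c ∈ B, v c := Finset.sum_nonneg hv
  set U : γ → ℂ := fun c => ∑ h ∈ A, conj (S h) * T h c with hU
  have e1 : (Q : ℂ) = ∑ c ∈ B, b c * U c := by
    simp only [hQ, hU, Finset.mul_sum]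
    rw [Finset.sum_comm]
    push_cast
    refine Finset.sum_congr rfl fun h _ => ?_
    rw [← Complex.conj_mul' (S h)]
    conv_lhs => rw [show S h = ∑ c ∈ B, b c * T h c from rfl]
    rw [Finset.mul_sum]
    refine Finset.sum_congr rfl fun c _ => ?_
    simp only [hS]
    ring
  have e2 : Q ≤ ∑ c ∈ B, ‖b c‖ * ‖U c‖ := by
    have : Q = ‖(Q : ℂ)‖ := by rw [Complex.norm_real, Real.norm_of_nonneg hQ0]
    rw [this, e1]
    refine (norm_sum_le _ _).trans (le_of_eq ?_)
    simp only [norm_mul]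
  have e3 : (∑ c ∈ B, ‖b c‖ * ‖U c‖) ^ 2 ≤ (∑ c ∈ B, v c) * ∑ c ∈ B, ω c * ‖U c‖ ^ 2 := by
    refine Finset.sum_sq_le_sum_mul_sum_of_sq_le_mul B hv
      (fun c hc => mul_nonneg (hω c hc) (sq_nonneg _)) fun c hc => ?_
    rw [mul_pow, ← mul_assoc]
    exact mul_le_mul_of_nonneg_right (hb c hc) (sq_nonneg _)
  have e4 : ∑ c ∈ B, ω c * ‖U c‖ ^ 2 ≤ Δ * Q := by
    have := H (fun h => conj (S h))
    simpa only [Complex.norm_conj] using this
  have e5 : Q ^ 2 ≤ (∑ c ∈ B, v c) * (Δ * Q) :=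
    (pow_le_pow_left₀ hQ0 e2 2).trans (e3.trans (mul_le_mul_of_nonneg_left e4 hV0))
  rcases hQ0.eq_or_lt with h0 | h0
  · rw [← h0]; positivity
  · have : Q * Q ≤ (Δ * ∑ c ∈ B, v c) * Q := by nlinarith
    exact le_of_mul_le_mul_right this h0

theorem ls_cop48 {k : Eis} (hk : P1 k) : IsCoprime (48 : Eis) k := by
  have h6 := hk.coprime_six
  have h : IsCoprime k (6 ^ 4) := h6.pow_right
  exact (h.of_isCoprime_of_dvd_right ⟨27, by norm_num⟩).symm

theorem ls_N48 : N 48 = 2304 := by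
  have := N_natCast 48
  norm_num at this
  exact this

/-- Factorisation of the Gauss sum modulo 48 k. -/
theorem ls_gauss {η : Eis → ℂ} (hη : Per 48 η) {k : Eis} (hk : P0 k) (h : Eis) :
    gauss (fun x => η x * quad x k) (48 * k) h =
      (∑ u ∈ res 48, η (k * u) * psi 48 (h * u)) * quad 48 k *
        (quad h k * (ab k : ℂ) * Gt 0 k) := by
  have hk0 : k ≠ 0 := hk.ne_zero
  have h48 : (48 : Eis) ≠ 0 := by decide
  have hg := gauss_chi (j := 0) (j' := 0) (by norm_num) hk h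
  simp only [chi_zero_eq] at hg
  rw [← hg]
  have hper : Per (48 * k) (fun x => η x * quad x k * psi (48 * k) (h * x)) := by
    refine Per.mul (Per.mul (hη.of_dvd ⟨k, rfl⟩) ?_) (per_psi _ _)
    exact Per.of_congr fun x y hxy => quad_congr ((Dvd.intro_left _ rfl).trans hxy)
  unfold gauss
  rw [sum_res_crt h48 hk0 (ls_cop48 hk.1) hper, mul_assoc, Finset.sum_mul]
  refine Finset.sum_congr rfl fun u _ => ?_
  rw [Finset.mul_sum, Finset.mul_sum]
  refine Finset.sum_congr rfl fun v _ => ?_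
  have e1 : η (k * u + 48 * v) = η (k * u) := hη _ _
  have e2 : quad (k * u + 48 * v) k = quad 48 k * quad v k := by
    rw [← quad_mul_left _ _ hk.1.2]
    exact quad_congr ⟨u, by ring⟩
  have e3 : psi (48 * k) (h * (k * u + 48 * v)) = psi 48 (h * u) * psi k (h * v) := by
    rw [show h * (k * u + 48 * v) = k * (h * u) + 48 * (h * v) by ring, psi_add,
      psi_mul_left hk0, mul_comm (48 : Eis) k, psi_mul_left h48]
  rw [e1, e2, e3]
  ring

theorem ls_gauss_le {η : Eis → ℂ} (hη : Per 48 η) (hB : Bd1 η) {k : Eis} (hk : P0 k) (h : Eis) :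
    ‖gauss (fun x => η x * quad x k) (48 * k) h‖ ≤ 2304 * ab k := by
  have h48 : (48 : Eis) ≠ 0 := by decide
  rw [ls_gauss hη hk]
  simp only [norm_mul, norm_Gt 0 hk, Complex.norm_real, Real.norm_of_nonneg (ab_nonneg k)]
  have h1 : ‖∑ u ∈ res 48, η (k * u) * psi 48 (h * u)‖ ≤ 2304 := by
    refine (norm_sum_le _ _).trans ?_
    calc ∑ u ∈ res 48, ‖η (k * u) * psi 48 (h * u)‖ ≤ ∑ u ∈ res 48, (1 : ℝ) := by
          refine Finset.sum_le_sum fun u _ => ?_
          rw [norm_mul, norm_psi, mul_one]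
          exact hB _
      _ = 2304 := by rw [Finset.sum_const, nsmul_eq_mul, mul_one, card_res h48, ls_N48]
  have h2 := norm_quad_le 48 k
  have h3 := norm_quad_le h k
  have h4 := ab_nonneg k
  calc _ ≤ 2304 * 1 * (1 * ab k * 1) := by gcongr
    _ = 2304 * ab k := by ring

theorem ls_gauss_zero {η : Eis → ℂ} (hη : Per 48 η) {k : Eis} (hk : P0 k) (h1 : k ≠ 1) :
    gauss (fun x => η x * quad x k) (48 * k) 0 = 0 := by
  rw [ls_gauss hη hk]
  have := chi_zero_left 0 hk.1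
  rw [chi_zero_eq, if_neg h1] at this
  rw [this]
  ring

theorem ls_summable_ite {a : ℝ} (ha : 0 < a) :
    Summable (fun c : Eis => if c = 0 then (0 : ℝ) else Real.exp (-(a * N c))) := by
  refine Summable.of_nonneg_of_le (fun c => ?_) (fun c => ?_) (summable_exp ha)
  · split_ifs
    · exact le_rfl
    · positivity
  · split_ifs
    · positivity
    · exact le_rfl

/-- The smoothed complete sum. -/
theorem ls_pv0 : ∃ C : ℝ, 0 < C ∧ ∀ η : Eis → ℂ, Per 48 η → Bd1 η → ∀ k : Eis, P0 k → k ≠ 1 →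
    ∀ M : ℝ, 0 < M →
      ‖∑' m : Eis, η m * quad m k * (Real.exp (-(Real.pi * N m / M)) : ℂ)‖ ≤ C * ab k := by
  obtain ⟨C, hC, hE⟩ := tsum_exp_le
  refine ⟨2304 * C, by positivity, fun η hη hB k hk h1 M hM => ?_⟩
  have hk0 : k ≠ 0 := hk.ne_zero
  have h48 : (48 : Eis) ≠ 0 := by decide
  have hc : (48 * k : Eis) ≠ 0 := mul_ne_zero h48 hk0
  have hper : Per (48 * k) (fun x => η x * quad x k) := by
    refine Per.mul (hη.of_dvd ⟨k, rfl⟩) ?_
    exact Per.of_congr fun x y hxy => quad_congr ((Dvd.intro_left _ rfl).trans hxy)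
  rw [poisson_per hc hper hM]
  have hn := N_pos hc
  set n := N (48 * k) with hn'
  have hpi := Real.pi_pos
  set a : ℝ := 4 * Real.pi / 3 * M / n with ha'
  have ha : 0 < a := by positivity
  have hab := ab_nonneg k
  have h2 : ‖∑' h : Eis, gauss (fun x => η x * quad x k) (48 * k) h *
      (Real.exp (-(4 * Real.pi / 3 * M * N h / n)) : ℂ)‖ ≤ 2304 * ab k * (C / a) := by
    refine (tsum_of_norm_bounded ((ls_summable_ite ha).hasSum.mul_left (2304 * ab k))
      fun h => ?_).trans (mul_le_mul_of_nonneg_left (hE a ha) (by positivity))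
    split_ifs with h0
    · rw [h0, ls_gauss_zero hη hk h1]; simp
    · rw [norm_mul, Complex.norm_real, Real.norm_of_nonneg (Real.exp_pos _).le,
        show 4 * Real.pi / 3 * M * N h / n = a * N h by rw [ha']; ring]
      exact mul_le_mul_of_nonneg_right (ls_gauss_le hη hB hk h) (Real.exp_pos _).le
  have h3 : (1 : ℝ) ≤ √3 := Real.one_le_sqrt.2 (by norm_num)
  rw [norm_mul, Complex.norm_real, Real.norm_of_nonneg (by positivity)]
  refine (mul_le_mul_of_nonneg_left h2 (by positivity)).trans ?_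
  have h4 : 2 * M / (√3 * n) * (2304 * ab k * (C / a)) =
      2304 * C * ab k * (3 / (2 * Real.pi * √3)) := by
    rw [ha']; field_simp; ring
  rw [h4]
  have h5 : 3 / (2 * Real.pi * √3) ≤ 1 := by
    rw [div_le_one (by positivity)]
    nlinarith [Real.pi_gt_three]
  calc _ ≤ 2304 * C * ab k * 1 := by gcongr
    _ = _ := by ring

theorem ls_summable_bd {F : Eis → ℂ} (hF : ∀ c, ‖F c‖ ≤ 1) {X : ℝ} (hX : 0 < X) :
    Summable (fun c : Eis => F c * (Real.exp (-(Real.pi * N c / X)) : ℂ)) := by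
  have ha : 0 < Real.pi / X := div_pos Real.pi_pos hX
  refine Summable.of_norm_bounded (summable_exp ha) fun c => ?_
  rw [norm_mul, Complex.norm_real, Real.norm_of_nonneg (Real.exp_pos _).le,
    show Real.pi * N c / X = Real.pi / X * N c by ring]
  exact mul_le_of_le_one_left (Real.exp_pos _).le (hF c)

/-- General form of the Polya-Vinogradov type bound. -/
theorem ls_pv : ∃ C : ℝ, 0 < C ∧ ∀ η : Eis → ℂ, Per 48 η → Bd1 η → (∀ c, η c ≠ 0 → P1 c) →
    ∀ k l : Eis, P0 k → k ≠ 1 → l ≠ 0 → ∀ X : ℝ, 0 < X →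
      ‖∑' c : Eis, η c * cop l c * quad c k * (Real.exp (-(Real.pi * N c / X)) : ℂ)‖
        ≤ C * (divs l).card * ab k := by
  obtain ⟨C, hC, H⟩ := ls_pv0
  refine ⟨C, hC, fun η hη hB hP k l hk h1 hl X hX => ?_⟩
  have hbd : ∀ d c, ‖η c * (if d ∣ c then mu0 d else 0) * quad c k‖ ≤ 1 := by
    intro d c
    rw [norm_mul, norm_mul]
    have a1 := hB c
    have a2 : ‖(if d ∣ c then mu0 d else 0)‖ ≤ 1 := by
      split_ifs
      · exact norm_mu0_le d
      · simp
    have a3 := norm_quad_le c k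
    calc _ ≤ (1 : ℝ) * 1 * 1 := by gcongr
      _ = 1 := by ring
  have e1 : ∀ c, η c * cop l c * quad c k * (Real.exp (-(Real.pi * N c / X)) : ℂ) =
      ∑ d ∈ divs l, η c * (if d ∣ c then mu0 d else 0) * quad c k *
        (Real.exp (-(Real.pi * N c / X)) : ℂ) := by
    intro c
    by_cases h0 : η c = 0
    · simp [h0]
    · rw [cop_eq_sum (hP c h0) hl, Finset.mul_sum, Finset.sum_mul, Finset.sum_mul]
  rw [tsum_congr e1, Summable.tsum_finsetSum (fun d _ => ls_summable_bd (hbd d) hX)]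
  refine (norm_sum_le _ _).trans ?_
  rw [mul_comm C, mul_assoc, ← nsmul_eq_mul, ← Finset.sum_const]
  refine Finset.sum_le_sum fun d hd => ?_
  have hd0 : d ≠ 0 := ((mem_divs hl).1 hd).1.ne_zero
  have hinj : Function.Injective (fun m : Eis => d * m) := mul_right_injective₀ hd0
  rw [← hinj.tsum_eq]
  · have e2 : ∀ m, η (d * m) * (if d ∣ d * m then mu0 d else 0) * quad (d * m) k *
        (Real.exp (-(Real.pi * N (d * m) / X)) : ℂ) = (mu0 d * quad d k) *
          (η (d * m) * quad m k * (Real.exp (-(Real.pi * N m / (X / N d))) : ℂ)) := by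
      intro m
      have := N_pos hd0
      rw [if_pos (Dvd.intro _ rfl), quad_mul_left _ _ hk.1.2, N_mul,
        show Real.pi * (N d * N m) / X = Real.pi * N m / (X / N d) by field_simp]
      ring
    rw [tsum_congr e2, tsum_mul_left, norm_mul, norm_mul]
    have a1 := norm_mu0_le d
    have a2 := norm_quad_le d k
    have a3 := H (fun m => η (d * m)) (hη.comp_mul d) (fun m => hB _) k hk h1 (X / N d)
      (div_pos hX (N_pos hd0))
    calc _ ≤ (1 : ℝ) * 1 * (C * ab k) := by gcongr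
      _ = _ := by ring
  · intro c hc
    by_cases hdc : d ∣ c
    · obtain ⟨m, rfl⟩ := hdc
      exact ⟨m, rfl⟩
    · simp [hdc] at hc

end Vale.Agent.P026
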