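import Vale.Agent.P026.LSA

/-! The weak large sieve inequality obtained from the smoothed character sum bound. -/

namespace Vale.Agent.P026

open Eis Complex
open scoped Classical ComplexConjugate

/-- Gram expansion with a Gaussian majorant. -/
theorem ls_gram {α : Type} (A : Finset α) (φ : α → Eis → ℂ) (hφ : ∀ h c, ‖φ h c‖ ≤ 1)
    (hr : ∀ h c, conj (φ h c) = φ h c) (x : α → ℂ) {X : ℝ} (hX : 0 < X) (B : Finset Eis)
    (hB : ∀ c ∈ B, N c ≤ X) :
    ∑ c ∈ B, ‖∑ h ∈ A, x h * φ h c‖ ^ 2 ≤ Real.exp Real.pi * ∑ h1 ∈ A, ∑ h2 ∈ A,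
      ‖x h1‖ * ‖x h2‖ * ‖∑' c, φ h1 c * φ h2 c * (Real.exp (-(Real.pi * N c / X)) : ℂ)‖ := by
  have hs : ∀ h1 h2, Summable (fun c => φ h1 c * φ h2 c *
      (Real.exp (-(Real.pi * N c / X)) : ℂ)) := by
    intro h1 h2
    refine ls_summable_bd (F := fun c => φ h1 c * φ h2 c) (fun c => ?_) hX
    rw [norm_mul]
    have a1 := hφ h1 c
    have a2 := hφ h2 c
    calc _ ≤ (1 : ℝ) * 1 := by gcongr
      _ = 1 := by ring
  have H : HasSum (fun c => ∑ h1 ∈ A, ∑ h2 ∈ A, x h1 * conj (x h2) * (φ h1 c * φ h2 c *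
      (Real.exp (-(Real.pi * N c / X)) : ℂ))) (∑ h1 ∈ A, ∑ h2 ∈ A, x h1 * conj (x h2) *
        ∑' c, φ h1 c * φ h2 c * (Real.exp (-(Real.pi * N c / X)) : ℂ)) :=
    hasSum_sum fun h1 _ => hasSum_sum fun h2 _ => (hs h1 h2).hasSum.mul_left _
  have e1 : ∀ c, (∑ h1 ∈ A, ∑ h2 ∈ A, x h1 * conj (x h2) * (φ h1 c * φ h2 c *
      (Real.exp (-(Real.pi * N c / X)) : ℂ))) =
      ((‖∑ h ∈ A, x h * φ h c‖ ^ 2 * Real.exp (-(Real.pi * N c / X)) : ℝ) : ℂ) := by
    intro c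
    rw [Complex.ofReal_mul, Complex.ofReal_pow, ← Complex.mul_conj', map_sum, Finset.sum_mul_sum,
      Finset.sum_mul]
    refine Finset.sum_congr rfl fun h1 _ => ?_
    rw [Finset.sum_mul]
    refine Finset.sum_congr rfl fun h2 _ => ?_
    rw [map_mul, hr]
    ring
  simp only [e1] at H
  have H2 := Complex.hasSum_re H
  simp only [Complex.ofReal_re] at H2
  have H3 := sum_le_hasSum B (fun c _ => by positivity) H2
  have H4 : ∑ c ∈ B, ‖∑ h ∈ A, x h * φ h c‖ ^ 2 ≤ Real.exp Real.pi *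
      ∑ c ∈ B, ‖∑ h ∈ A, x h * φ h c‖ ^ 2 * Real.exp (-(Real.pi * N c / X)) := by
    rw [Finset.mul_sum]
    refine Finset.sum_le_sum fun c hc => ?_
    rw [mul_left_comm, ← Real.exp_add]
    refine le_mul_of_one_le_right (sq_nonneg _) (Real.one_le_exp ?_)
    have : N c / X ≤ 1 := (div_le_one hX).2 (hB c hc)
    have hpi := Real.pi_pos
    rw [mul_div_assoc]
    nlinarith
  refine H4.trans (mul_le_mul_of_nonneg_left (H3.trans ?_) (Real.exp_pos _).le)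
  refine (Complex.re_le_norm _).trans ((norm_sum_le _ _).trans ?_)
  refine Finset.sum_le_sum fun h1 _ => (norm_sum_le _ _).trans (le_of_eq ?_)
  simp only [norm_mul, Complex.norm_conj]

/-- The symbol restricted to odd primary lower entries. -/
noncomputable def lsQ (h c : Eis) : ℂ := if P1 c then quad h c else 0

theorem lsQ_norm (h c : Eis) : ‖lsQ h c‖ ≤ 1 := by
  unfold lsQ
  split_ifs
  · exact norm_quad_le h c
  · simp

theorem lsQ_conj (h c : Eis) : conj (lsQ h c) = lsQ h c := by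
  unfold lsQ
  split_ifs
  · exact conj_quad h c
  · simp

theorem ls_quad_sq {m c : Eis} (hc : c ≠ 0) : quad m c ^ 2 = cop m c := by
  unfold cop
  split_ifs with h
  · exact quad_sq h.symm
  · rw [(quad_eq_zero hc).2 (fun h' => h h'.symm)]
    ring

theorem ls_diag : ∃ C : ℝ, 0 < C ∧ ∀ (h1 h2 : Eis) (X : ℝ), 0 < X →
    ‖∑' c, lsQ h1 c * lsQ h2 c * (Real.exp (-(Real.pi * N c / X)) : ℂ)‖ ≤ C * X := by
  obtain ⟨C, hC, hE⟩ := tsum_exp_le
  have hpi := Real.pi_pos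
  refine ⟨C / Real.pi, by positivity, fun h1 h2 X hX => ?_⟩
  have ha : 0 < Real.pi / X := by positivity
  refine (tsum_of_norm_bounded (ls_summable_ite ha).hasSum fun c => ?_).trans
    ((hE _ ha).trans (le_of_eq (by field_simp)))
  split_ifs with h0
  · have : ¬ P1 c := fun h => h.ne_zero h0
    simp [lsQ, this]
  · rw [norm_mul, norm_mul, Complex.norm_real, Real.norm_of_nonneg (Real.exp_pos _).le,
      show Real.pi * N c / X = Real.pi / X * N c by ring]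
    have a1 := lsQ_norm h1 c
    have a2 := lsQ_norm h2 c
    calc _ ≤ 1 * 1 * Real.exp (-(Real.pi / X * N c)) := by gcongr
      _ = _ := by ring

theorem ls_off {e : ℝ} (he : 0 < e) : ∃ C : ℝ, 0 < C ∧ ∀ s1 s2 k1 k2 l1 l2 : Eis,
    s1 ∣ 6 → s2 ∣ 6 → P0 k1 → P0 k2 → k1 ≠ k2 → l1 ≠ 0 → l2 ≠ 0 → ∀ L X : ℝ, 0 < X →
    N (s1 * k1 * l1 ^ 2) ≤ L → N (s2 * k2 * l2 ^ 2) ≤ L →
    ‖∑' c, lsQ (s1 * k1 * l1 ^ 2) c * lsQ (s2 * k2 * l2 ^ 2) c *
      (Real.exp (-(Real.pi * N c / X)) : ℂ)‖ ≤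
        C * L ^ e * (ab (s1 * k1 * l1 ^ 2) * ab (s2 * k2 * l2 ^ 2)) := by
  obtain ⟨C, hC, H⟩ := ls_pv
  obtain ⟨C', hC', H'⟩ := card_divs_le (half_pos he)
  refine ⟨C * C', by positivity, ?_⟩
  intro s1 s2 k1 k2 l1 l2 hs1 hs2 hk1 hk2 hne hl1 hl2 L X hX hL1 hL2
  obtain ⟨g, x, hg, hx, rfl, ⟨y, rfl⟩, hcop, -⟩ := exists_gcd_P0 hk1 hk2.ne_zero
  have hy : P0 y := (P0.of_mul hg.1.1 hk2).2.1
  have hk : P0 (x * y) := hx.mul hy hcop.of_mul_right_right
  have hk1' : x * y ≠ 1 := by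
    intro h
    have hx1 : x = 1 := hx.1.1.eq_one_of_isUnit (IsUnit.of_mul_eq_one _ h)
    rw [hx1, one_mul] at h
    exact hne (by rw [hx1, h])
  have h6 : (6 : Eis) ≠ 0 := by decide
  have hs1' : s1 ≠ 0 := by rintro rfl; exact h6 (zero_dvd_iff.1 hs1)
  have hs2' : s2 ≠ 0 := by rintro rfl; exact h6 (zero_dvd_iff.1 hs2)
  have hl : g * l1 * l2 ≠ 0 := mul_ne_zero (mul_ne_zero hg.ne_zero hl1) hl2
  set η : Eis → ℂ := fun c => if P1 c then quad (s1 * s2) c * Rq (x * y) c else 0 with hη'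
  have hη : Per 48 η := by
    refine Per.of_congr fun c c' hcc => ?_
    have h6' : (6 : Eis) ∣ c - c' := Dvd.dvd.trans ⟨8, by norm_num⟩ hcc
    simp only [hη']
    by_cases hc : P1 c
    · have hc' : P1 c' := hc.of_dvd_sub (dvd_sub_comm.1 h6')
      rw [if_pos hc, if_pos hc', quad_per_rad (q := 6) hc.2 2 (by rw [sq]; exact mul_dvd_mul hs1 hs2)
        h6 (by norm_num; exact hcc),
        Rq_congr (x' := x * y) (y' := c') (by simp) (Dvd.dvd.trans ⟨12, by norm_num⟩ hcc)]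
    · have hc' : ¬ P1 c' := fun h => hc (h.of_dvd_sub h6')
      rw [if_neg hc, if_neg hc']
  have hB : Bd1 η := by
    intro c
    simp only [hη']
    split_ifs
    · rw [norm_mul]
      have a1 := norm_quad_le (s1 * s2) c
      have a2 := norm_Rq_le (x * y) c
      calc _ ≤ (1 : ℝ) * 1 := by gcongr
        _ = 1 := by ring
    · simp
  have hP : ∀ c, η c ≠ 0 → P1 c := by
    intro c hc
    by_contra h
    exact hc (by simp only [hη', if_neg h])
  have e1 : ∀ c, lsQ (s1 * (g * x) * l1 ^ 2) c * lsQ (s2 * (g * y) * l2 ^ 2) c *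
      (Real.exp (-(Real.pi * N c / X)) : ℂ) = η c * cop (g * l1 * l2) c * quad c (x * y) *
        (Real.exp (-(Real.pi * N c / X)) : ℂ) := by
    intro c
    simp only [hη', lsQ]
    by_cases hc : P1 c
    · simp only [if_pos hc]
      rw [← quad_mul_left _ _ hc.2, show s1 * (g * x) * l1 ^ 2 * (s2 * (g * y) * l2 ^ 2) =
        s1 * s2 * (x * y) * (g * l1 * l2) ^ 2 by ring, quad_mul_left _ _ hc.2,
        quad_mul_left (s1 * s2) _ hc.2, quad_pow_left _ hc.2, ls_quad_sq hc.ne_zero,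
        quad_recip hk.1.2 hc.2]
      ring
    · simp only [if_neg hc]
      ring
  rw [tsum_congr e1]
  refine (H η hη hB hP _ _ hk hk1' hl X hX).trans ?_
  have n1 : s1 * (g * x) * l1 ^ 2 ≠ 0 :=
    mul_ne_zero (mul_ne_zero hs1' hk1.ne_zero) (pow_ne_zero _ hl1)
  have n2 : s2 * (g * y) * l2 ^ 2 ≠ 0 :=
    mul_ne_zero (mul_ne_zero hs2' hk2.ne_zero) (pow_ne_zero _ hl2)
  have hL0 : 0 ≤ L := (N_nonneg _).trans hL1
  have b1 : N (g * l1 * l2) ≤ L ^ 2 := by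
    have t1 : N (g * l1) ≤ L := (N_le_of_dvd n1 ⟨s1 * x * l1, by ring⟩).trans hL1
    have t2 : N l2 ≤ L := (N_le_of_dvd n2 ⟨s2 * (g * y) * l2, by ring⟩).trans hL2
    rw [N_mul, sq]
    exact mul_le_mul t1 t2 (N_nonneg _) hL0
  have b2 : ((divs (g * l1 * l2)).card : ℝ) ≤ C' * L ^ e := by
    refine (H' _ hl).trans (mul_le_mul_of_nonneg_left ?_ hC'.le)
    refine (Real.rpow_le_rpow (N_nonneg _) b1 (half_pos he).le).trans (le_of_eq ?_)
    rw [← Real.rpow_natCast, ← Real.rpow_mul hL0]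
    congr 1
    push_cast
    ring
  have b3 : ab (x * y) ≤ ab (s1 * (g * x) * l1 ^ 2) * ab (s2 * (g * y) * l2 ^ 2) := by
    rw [← ab_mul]
    exact Real.sqrt_le_sqrt (N_le_of_dvd (mul_ne_zero n1 n2)
      ⟨s1 * s2 * (g * l1 * l2) ^ 2, by ring⟩)
  have b4 := ab_nonneg (x * y)
  calc _ ≤ C * (C' * L ^ e) * (ab (s1 * (g * x) * l1 ^ 2) * ab (s2 * (g * y) * l2 ^ 2)) := by
        gcongr
    _ = _ := by ring

theorem ls_sum_ab {L : ℝ} (hL : 0 ≤ L) : ∑ h ∈ ball L, ab h ≤ 16 * (L * √L) := by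
  calc ∑ h ∈ ball L, ab h ≤ ∑ h ∈ ball L, √L :=
        Finset.sum_le_sum fun h hh => Real.sqrt_le_sqrt (mem_ball.1 hh).2
    _ = (ball L).card * √L := by rw [Finset.sum_const, nsmul_eq_mul]
    _ ≤ 16 * L * √L := mul_le_mul_of_nonneg_right (card_ball_le hL) (Real.sqrt_nonneg _)
    _ = _ := by ring

theorem ls_B2dual {e : ℝ} (he : 0 < e) : ∃ C : ℝ, 0 < C ∧ ∀ K L : ℝ, 0 < K → 0 < L →
    ∀ g : Eis → ℂ, ∑ c ∈ (ball K).filter P0,
      1 * ‖∑ h ∈ ball L, g h * ((((√(ab h))⁻¹ : ℝ) : ℂ) * quad h c)‖ ^ 2 ≤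
        C * L ^ e * (K + L * √L) * ∑ h ∈ ball L, ‖g h‖ ^ 2 := by
  obtain ⟨C1, hC1, H1⟩ := ls_diag
  obtain ⟨C2, hC2, H2⟩ := ls_off he
  obtain ⟨C3, hC3, H3⟩ := sum_ball_inv he
  choose! s hs k l hk hl hh using fun (h : Eis) (hh : h ≠ 0) => exists_kernel hh
  refine ⟨Real.exp Real.pi * (C1 * (24 * C3) + C2 * 16), by positivity, fun K L hK hL g => ?_⟩
  set ρ : Eis → ℝ := fun h => (√(ab h))⁻¹ with hρ
  have hρ0 : ∀ h, 0 ≤ ρ h := fun h => by simp only [hρ]; positivity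
  have hρ2 : ∀ h, ρ h ^ 2 = (ab h)⁻¹ := fun h => by
    simp only [hρ]; rw [inv_pow, Real.sq_sqrt (ab_nonneg h)]
  have hρ3 : ∀ h, (ρ h * ab h) ^ 2 = ab h := fun h => by
    rw [mul_pow, hρ2]
    rcases (ab_nonneg h).eq_or_lt with h0 | h0
    · rw [← h0]; simp
    · field_simp
  set G : ℝ := ∑ h ∈ ball L, ‖g h‖ ^ 2 with hG
  have hG0 : 0 ≤ G := Finset.sum_nonneg fun _ _ => by positivity
  have hLe : 0 ≤ L ^ e := by positivity
  have k1 : ∀ k0 : Eis, ∑ h ∈ ball L, (if k h = k0 then ρ h ^ 2 else 0) ≤ 24 * C3 * L ^ e := by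
    intro k0
    rw [← Finset.sum_filter]
    have hinj : Set.InjOn (fun h => (s h, l h)) ((ball L).filter (fun h => k h = k0)) := by
      intro h1 m1 h2 m2 h12
      rw [Finset.mem_coe, Finset.mem_filter] at m1 m2
      simp only [Prod.mk.injEq] at h12
      rw [hh h1 (mem_ball.1 m1.1).1, hh h2 (mem_ball.1 m2.1).1, m1.2, m2.2, h12.1, h12.2]
    calc ∑ h ∈ (ball L).filter (fun h => k h = k0), ρ h ^ 2
        ≤ ∑ h ∈ (ball L).filter (fun h => k h = k0), (N (s h, l h).2)⁻¹ := by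
          refine Finset.sum_le_sum fun h m => ?_
          have h0 := (mem_ball.1 (Finset.mem_filter.1 m).1).1
          rw [hρ2]
          refine inv_anti₀ (N_pos (hl h h0)) ?_
          rw [← ab_sq, ← ab_pow]
          refine Real.sqrt_le_sqrt (N_le_of_dvd h0 ⟨s h * k h, ?_⟩)
          rw [mul_comm]
          exact hh h h0
      _ = ∑ p ∈ ((ball L).filter (fun h => k h = k0)).image (fun h => (s h, l h)), (N p.2)⁻¹ :=
          (Finset.sum_image (f := fun p : Eis × Eis => (N p.2)⁻¹) hinj).symm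
      _ ≤ ∑ p ∈ S0 ×ˢ ball L, (N p.2)⁻¹ := by
          refine Finset.sum_le_sum_of_subset_of_nonneg ?_
            fun p _ _ => inv_nonneg.2 (N_nonneg _)
          intro p hp
          obtain ⟨h, m, rfl⟩ := Finset.mem_image.1 hp
          have h0 := mem_ball.1 (Finset.mem_filter.1 m).1
          refine Finset.mem_product.2 ⟨hs h h0.1, mem_ball.2 ⟨hl h h0.1, le_trans ?_ h0.2⟩⟩
          refine N_le_of_dvd h0.1 ⟨s h * k h * l h, ?_⟩
          have := hh h h0.1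
          linear_combination this
      _ = S0.card * ∑ c ∈ ball L, (N c)⁻¹ := by
          rw [Finset.sum_product]
          simp only [Finset.sum_const, nsmul_eq_mul]
      _ ≤ 24 * (C3 * L ^ e) := by
          have t1 : (S0.card : ℝ) ≤ 24 := by exact_mod_cast card_S0
          have t2 := H3 L hL
          have t3 : 0 ≤ ∑ c ∈ ball L, (N c)⁻¹ :=
            Finset.sum_nonneg fun c _ => inv_nonneg.2 (N_nonneg _)
          gcongr
      _ = _ := by ring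
  have step1 : ∑ c ∈ (ball K).filter P0,
      1 * ‖∑ h ∈ ball L, g h * ((ρ h : ℂ) * quad h c)‖ ^ 2 =
      ∑ c ∈ (ball K).filter P0, ‖∑ h ∈ ball L, (g h * ρ h) * lsQ h c‖ ^ 2 := by
    refine Finset.sum_congr rfl fun c hc => ?_
    have hc' := (Finset.mem_filter.1 hc).2.1
    simp only [lsQ, if_pos hc', one_mul, mul_assoc]
  rw [step1]
  refine (ls_gram (ball L) lsQ lsQ_norm lsQ_conj (fun h => g h * ρ h) hK _
    (fun c hc => (mem_ball.1 (Finset.mem_filter.1 hc).1).2)).trans ?_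
  have step2 : ∀ h1 ∈ ball L, ∀ h2 ∈ ball L, ‖g h1 * ρ h1‖ * ‖g h2 * ρ h2‖ *
      ‖∑' c, lsQ h1 c * lsQ h2 c * (Real.exp (-(Real.pi * N c / K)) : ℂ)‖ ≤
      C1 * K / 2 * (‖g h1‖ ^ 2 * (if k h2 = k h1 then ρ h2 ^ 2 else 0) +
        ‖g h2‖ ^ 2 * (if k h1 = k h2 then ρ h1 ^ 2 else 0)) +
      C2 * L ^ e * ((‖g h1‖ * (ρ h1 * ab h1)) * (‖g h2‖ * (ρ h2 * ab h2))) := by
    intro h1 m1 h2 m2
    have m1' := mem_ball.1 m1
    have m2' := mem_ball.1 m2
    rw [norm_mul, norm_mul, Complex.norm_real, Complex.norm_real, Real.norm_of_nonneg (hρ0 _),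
      Real.norm_of_nonneg (hρ0 _)]
    have r1 := hρ0 h1
    have r2 := hρ0 h2
    have r3 := ab_nonneg h1
    have r4 := ab_nonneg h2
    by_cases hk12 : k h1 = k h2
    · rw [if_pos hk12, if_pos hk12.symm]
      refine le_add_of_le_of_nonneg ?_ (by positivity)
      refine (mul_le_mul_of_nonneg_left (H1 h1 h2 K hK) (by positivity)).trans ?_
      have t := two_mul_le_add_sq (‖g h1‖ * ρ h2) (‖g h2‖ * ρ h1)
      have t2 : 0 ≤ C1 * K / 2 := by positivity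
      have t3 := mul_le_mul_of_nonneg_left t t2
      nlinarith
    · rw [if_neg hk12, if_neg (fun h => hk12 h.symm)]
      have t := H2 (s h1) (s h2) (k h1) (k h2) (l h1) (l h2) (S0_spec (hs h1 m1'.1)).1
        (S0_spec (hs h2 m2'.1)).1 (hk h1 m1'.1) (hk h2 m2'.1) hk12 (hl h1 m1'.1) (hl h2 m2'.1)
        L K hK (by rw [← hh h1 m1'.1]; exact m1'.2) (by rw [← hh h2 m2'.1]; exact m2'.2)
      rw [← hh h1 m1'.1, ← hh h2 m2'.1] at t
      refine (mul_le_mul_of_nonneg_left t (by positivity)).trans (le_of_eq ?_)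
      ring
  have step3 : ∑ h1 ∈ ball L, ∑ h2 ∈ ball L,
      ‖g h1‖ ^ 2 * (if k h2 = k h1 then ρ h2 ^ 2 else 0) ≤ 24 * C3 * L ^ e * G := by
    rw [hG, Finset.mul_sum]
    refine Finset.sum_le_sum fun h1 _ => ?_
    rw [← Finset.mul_sum, mul_comm]
    exact mul_le_mul_of_nonneg_right (k1 _) (sq_nonneg _)
  have step4 : ∑ h1 ∈ ball L, ∑ h2 ∈ ball L,
      ‖g h2‖ ^ 2 * (if k h1 = k h2 then ρ h1 ^ 2 else 0) ≤ 24 * C3 * L ^ e * G := by
    rw [Finset.sum_comm]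
    exact step3
  have step5 : ∑ h1 ∈ ball L, ∑ h2 ∈ ball L,
      (‖g h1‖ * (ρ h1 * ab h1)) * (‖g h2‖ * (ρ h2 * ab h2)) ≤ G * (16 * (L * √L)) := by
    rw [← Finset.sum_mul_sum, ← sq]
    refine (Finset.sum_mul_sq_le_sq_mul_sq _ _ _).trans ?_
    simp only [hρ3]
    exact mul_le_mul_of_nonneg_left (ls_sum_ab hL.le) hG0
  have step6 := Finset.sum_le_sum fun h1 m1 => Finset.sum_le_sum fun h2 m2 => step2 h1 m1 h2 m2
  simp only [Finset.sum_add_distrib, ← Finset.mul_sum, mul_add] at step6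
  simp only [← Finset.mul_sum] at step3 step4 step5
  have hE := Real.exp_pos Real.pi
  have hs0 : 0 ≤ L * √L := by positivity
  calc _ ≤ Real.exp Real.pi * (C1 * K / 2 * (24 * C3 * L ^ e * G) +
        C1 * K / 2 * (24 * C3 * L ^ e * G) + C2 * L ^ e * (G * (16 * (L * √L)))) := by
        refine mul_le_mul_of_nonneg_left (step6.trans ?_) hE.le
        gcongr
    _ = Real.exp Real.pi * L ^ e * G * (C1 * (24 * C3) * K + C2 * 16 * (L * √L)) := by ring
    _ ≤ Real.exp Real.pi * L ^ e * G * ((C1 * (24 * C3) + C2 * 16) * (K + L * √L)) := by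
        refine mul_le_mul_of_nonneg_left ?_ (by positivity)
        have t1 : 0 ≤ C1 * (24 * C3) * (L * √L) := by positivity
        have t2 : 0 ≤ C2 * 16 * K := by positivity
        nlinarith
    _ = _ := by ring

/-- The weak large sieve inequality with the weight 1 / |h|. -/
theorem ls_B2w {e : ℝ} (he : 0 < e) : ∃ C : ℝ, 0 < C ∧ ∀ K L : ℝ, 0 < K → 0 < L →
    ∀ b : Eis → ℂ, ∑ h ∈ ball L, (ab h)⁻¹ * ‖∑ c ∈ (ball K).filter P0, b c * quad h c‖ ^ 2 ≤
      C * L ^ e * (K + L * √L) * ∑ c ∈ (ball K).filter P0, ‖b c‖ ^ 2 := by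
  obtain ⟨C, hC, H⟩ := ls_B2dual he
  refine ⟨C, hC, fun K L hK hL b => ?_⟩
  have := ls_dual (ball L) ((ball K).filter P0)
    (fun h c => (((√(ab h))⁻¹ : ℝ) : ℂ) * quad h c) (fun _ => 1) (fun c => ‖b c‖ ^ 2)
    (fun _ _ => zero_le_one) (fun _ _ => sq_nonneg _) (by positivity) (H K L hK hL) b
    (fun c _ => by rw [mul_one])
  refine le_trans (le_of_eq ?_) this
  refine Finset.sum_congr rfl fun h _ => ?_
  have e1 : ∑ c ∈ (ball K).filter P0, b c * ((((√(ab h))⁻¹ : ℝ) : ℂ) * quad h c) =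
      (((√(ab h))⁻¹ : ℝ) : ℂ) * ∑ c ∈ (ball K).filter P0, b c * quad h c := by
    rw [Finset.mul_sum]
    exact Finset.sum_congr rfl fun c _ => by ring
  rw [e1, norm_mul, mul_pow, Complex.norm_real, Real.norm_of_nonneg (by positivity), inv_pow,
    Real.sq_sqrt (ab_nonneg h)]

end Vale.Agent.P026
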