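import Vale.Agent.P026.LSB

/-! The large sieve inequality on one class modulo four. -/

namespace Vale.Agent.P026

open Eis Complex
open scoped Classical ComplexConjugate

theorem ls_reorder (f : Eis → Eis → ℝ) (hf : ∀ h D, 0 ≤ f h D) (L : ℝ) :
    ∑ h ∈ ball L, ∑ D ∈ (divs h).filter (fun D => D ^ 2 ∣ h), f h D ≤
      ∑ D ∈ (ball L).filter P0, ∑ h ∈ ball L, f (D ^ 2 * h) D := by
  calc ∑ h ∈ ball L, ∑ D ∈ (divs h).filter (fun D => D ^ 2 ∣ h), f h D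
      ≤ ∑ h ∈ ball L, ∑ D ∈ (ball L).filter P0, if D ^ 2 ∣ h then f h D else 0 := by
        refine Finset.sum_le_sum fun h hh => ?_
        rw [← Finset.sum_filter]
        refine Finset.sum_le_sum_of_subset_of_nonneg ?_ fun D _ _ => hf h D
        intro D hD
        have h0 := mem_ball.1 hh
        obtain ⟨h1, h2⟩ := Finset.mem_filter.1 hD
        obtain ⟨h3, h4⟩ := (mem_divs h0.1).1 h1
        exact Finset.mem_filter.2 ⟨Finset.mem_filter.2
          ⟨mem_ball.2 ⟨h3.ne_zero, (N_le_of_dvd h0.1 h4).trans h0.2⟩, h3⟩, h2⟩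
    _ = ∑ D ∈ (ball L).filter P0, ∑ h ∈ ball L, if D ^ 2 ∣ h then f h D else 0 :=
        Finset.sum_comm
    _ ≤ _ := by
        refine Finset.sum_le_sum fun D hD => ?_
        have hD0 : D ^ 2 ≠ 0 := pow_ne_zero _ (Finset.mem_filter.1 hD).2.ne_zero
        rw [← Finset.sum_filter, ← Finset.sum_image (s := ball L) (g := fun h => D ^ 2 * h)
          (f := fun h => f h D) (fun x _ y _ hxy => mul_left_cancel₀ hD0 hxy)]
        refine Finset.sum_le_sum_of_subset_of_nonneg ?_ fun h _ _ => hf h D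
        intro h hh
        obtain ⟨h1, m, rfl⟩ := Finset.mem_filter.1 hh
        have h0 := mem_ball.1 h1
        exact Finset.mem_image.2 ⟨m, mem_ball.2 ⟨right_ne_zero_of_mul h0.1,
          (N_le_of_dvd h0.1 (Dvd.intro_left _ rfl)).trans h0.2⟩, rfl⟩

theorem ls_sub {a : Eis → ℂ} {K : ℝ} (ha : ∀ c, a c ≠ 0 → c ∈ ball K) {D : Eis} (hD : D ≠ 0)
    (T : Finset Eis) :
    ∑ c ∈ T, ‖a (D * c)‖ ^ 2 ≤ ∑ n ∈ ball K, if D ∣ n then ‖a n‖ ^ 2 else 0 := by
  rw [← Finset.sum_filter, ← Finset.sum_image (s := T) (g := fun c => D * c)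
    (f := fun n => ‖a n‖ ^ 2) (fun x _ y _ hxy => mul_left_cancel₀ hD hxy),
    ← Finset.sum_filter_ne_zero]
  refine Finset.sum_le_sum_of_subset_of_nonneg ?_ fun _ _ _ => sq_nonneg _
  intro n hn
  obtain ⟨h1, h2⟩ := Finset.mem_filter.1 hn
  obtain ⟨c, -, rfl⟩ := Finset.mem_image.1 h1
  refine Finset.mem_filter.2 ⟨ha _ ?_, Dvd.intro _ rfl⟩
  intro h0
  exact h2 (by rw [h0]; simp)

theorem ls_divsum {e : ℝ} (he : 0 < e) : ∃ C : ℝ, 0 < C ∧ ∀ (a : Eis → ℂ) (K : ℝ),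
    (∀ c, a c ≠ 0 → c ∈ ball K) → ∀ S T : Finset Eis, (∀ D ∈ S, P0 D) →
    ∑ D ∈ S, ∑ c ∈ T, ‖a (D * c)‖ ^ 2 ≤ C * K ^ e * ∑ n ∈ ball K, ‖a n‖ ^ 2 := by
  obtain ⟨C, hC, H⟩ := card_divs_le he
  refine ⟨C, hC, fun a K ha S T hS => ?_⟩
  refine (Finset.sum_le_sum fun D hD => ls_sub ha (hS D hD).ne_zero T).trans ?_
  rw [Finset.sum_comm, Finset.mul_sum]
  refine Finset.sum_le_sum fun n hn => ?_
  have h0 := mem_ball.1 hn
  rw [← Finset.sum_filter, Finset.sum_const, nsmul_eq_mul]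
  refine mul_le_mul_of_nonneg_right ?_ (sq_nonneg _)
  have h1 : ((S.filter (fun D => D ∣ n)).card : ℝ) ≤ (divs n).card := by
    refine Nat.cast_le.2 (Finset.card_le_card fun D hD => ?_)
    obtain ⟨h2, h3⟩ := Finset.mem_filter.1 hD
    exact (mem_divs h0.1).2 ⟨hS D h2, h3⟩
  refine h1.trans ((H n h0.1).trans (mul_le_mul_of_nonneg_left ?_ hC.le))
  exact Real.rpow_le_rpow (N_nonneg _) h0.2 he.le

theorem ls_B1 {e : ℝ} (he : 0 < e) : ∃ C : ℝ, 0 < C ∧ ∀ (a : Eis → ℂ) (K L u : ℝ),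
    0 < K → 0 < L → (∀ c, a c ≠ 0 → P0 c ∧ N c ≤ K) →
    ∑ h ∈ ball L, ∑ D ∈ (divs h).filter (fun D => D ^ 2 ∣ h),
      N D * N h ^ (-(1 / 2 : ℝ)) * ‖∑' c, a (D * c) * Gt 0 (D * c) *
        ((N (D * c) ^ ((1 / 2 : ℝ) - 1 / 2) : ℝ) : ℂ) * nit u (D * c) * chi 0 h c‖ ^ 2 ≤
      C * L ^ e * (K + L * √L) * K ^ e * ∑ n ∈ ball K, ‖a n‖ ^ 2 := by
  obtain ⟨C1, hC1, H1⟩ := ls_B2w he
  obtain ⟨C2, hC2, H2⟩ := ls_divsum he
  refine ⟨C1 * C2, by positivity, fun a K L u hK hL ha => ?_⟩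
  have ha' : ∀ c, a c ≠ 0 → c ∈ ball K := fun c hc =>
    mem_ball.2 ⟨(ha c hc).1.ne_zero, (ha c hc).2⟩
  refine (ls_reorder (fun h D => N D * N h ^ (-(1 / 2 : ℝ)) * ‖∑' c, a (D * c) * Gt 0 (D * c) *
        ((N (D * c) ^ ((1 / 2 : ℝ) - 1 / 2) : ℝ) : ℂ) * nit u (D * c) * chi 0 h c‖ ^ 2)
      (fun h D => mul_nonneg (mul_nonneg (N_nonneg _) (Real.rpow_nonneg (N_nonneg _) _))
        (sq_nonneg _)) L).trans ?_
  have key : ∀ D ∈ (ball L).filter P0, ∑ h ∈ ball L, N D * N (D ^ 2 * h) ^ (-(1 / 2 : ℝ)) *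
      ‖∑' c, a (D * c) * Gt 0 (D * c) * ((N (D * c) ^ ((1 / 2 : ℝ) - 1 / 2) : ℝ) : ℂ) *
        nit u (D * c) * chi 0 (D ^ 2 * h) c‖ ^ 2 ≤
      C1 * L ^ e * (K + L * √L) * ∑ c ∈ (ball K).filter P0, ‖a (D * c)‖ ^ 2 := by
    intro D hD
    have hD0 := (Finset.mem_filter.1 hD).2
    set b : Eis → ℂ := fun c => a (D * c) * Gt 0 (D * c) * nit u (D * c) * quad D c ^ 2 with hb
    refine le_trans (le_of_eq ?_) ((H1 K L hK hL b).trans
      (mul_le_mul_of_nonneg_left (Finset.sum_le_sum fun c _ => ?_) (by positivity)))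
    · refine Finset.sum_congr rfl fun h _ => ?_
      have e1 : N D * N (D ^ 2 * h) ^ (-(1 / 2 : ℝ)) = (ab h)⁻¹ := by
        have := N_pos hD0.ne_zero
        rw [Real.rpow_neg (N_nonneg _), ← Real.sqrt_eq_rpow,
          show √(N (D ^ 2 * h)) = ab (D ^ 2 * h) from rfl, ab_mul, ab_pow, ab_sq, mul_inv,
          ← mul_assoc, mul_inv_cancel₀ this.ne', one_mul]
      rw [e1, tsum_eq_sum (s := (ball K).filter P0)]
      · congr 3
        refine Finset.sum_congr rfl fun c hc => ?_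
        have hc' := (Finset.mem_filter.1 hc).2.1.2
        rw [sub_self, Real.rpow_zero, chi_zero_eq, quad_mul_left _ _ hc', quad_pow_left _ hc']
        simp only [hb, Complex.ofReal_one]
        ring
      · intro c hc
        have : a (D * c) = 0 := by
          by_contra h0
          obtain ⟨h1, h2⟩ := ha _ h0
          have h3 := (P0.of_mul hD0.1.1 h1).2.1
          exact hc (Finset.mem_filter.2 ⟨mem_ball.2 ⟨h3.ne_zero,
            (N_le_of_dvd h1.ne_zero (Dvd.intro_left _ rfl)).trans h2⟩, h3⟩)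
        rw [this]
        ring
    · refine pow_le_pow_left₀ (norm_nonneg _) ?_ 2
      by_cases h0 : a (D * c) = 0
      · simp [hb, h0]
      · simp only [hb, norm_mul, norm_pow, norm_Gt 0 (ha _ h0).1, norm_nit, mul_one]
        exact mul_le_of_le_one_right (norm_nonneg _)
          (pow_le_one₀ (norm_nonneg _) (norm_quad_le _ _))
  refine (Finset.sum_le_sum key).trans ?_
  rw [← Finset.mul_sum]
  refine (mul_le_mul_of_nonneg_left (H2 a K ha' _ _ fun D hD => (Finset.mem_filter.1 hD).2)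
    (by positivity)).trans (le_of_eq (by ring))

theorem ls_B2 (J : ℕ) (hJ : 1 ≤ J) {a : Eis → ℂ} {K : ℝ} (hK : 0 < K)
    (ha : ∀ c, a c ≠ 0 → c ∈ ball K) {D : Eis} (hD : D ≠ 0) :
    ∑' c, ‖a (D * c)‖ * N (D * c) ^ ((J : ℝ) - 1 / 2) ≤
      4 * K ^ J * √(∑ n ∈ ball K, ‖a n‖ ^ 2) / ab D := by
  have hN := N_pos hD
  have hab := ab_pos hD
  set G : ℝ := ∑ n ∈ ball K, ‖a n‖ ^ 2 with hG
  have hG0 : 0 ≤ G := Finset.sum_nonneg fun _ _ => by positivity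
  have hJ' : (0 : ℝ) ≤ (J : ℝ) - 1 / 2 := by
    have : (1 : ℝ) ≤ J := by exact_mod_cast hJ
    linarith
  rw [tsum_eq_sum (s := ball (K / N D))]
  · have h1 : ∑ c ∈ ball (K / N D), ‖a (D * c)‖ * N (D * c) ^ ((J : ℝ) - 1 / 2) ≤
        (∑ c ∈ ball (K / N D), ‖a (D * c)‖) * K ^ ((J : ℝ) - 1 / 2) := by
      rw [Finset.sum_mul]
      refine Finset.sum_le_sum fun c hc => mul_le_mul_of_nonneg_left ?_ (norm_nonneg _)
      refine Real.rpow_le_rpow (N_nonneg _) ?_ hJ'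
      rw [N_mul, mul_comm]
      exact (le_div_iff₀ hN).1 (mem_ball.1 hc).2
    have h2 : ∑ c ∈ ball (K / N D), ‖a (D * c)‖ ≤ 4 * √K * √G / ab D := by
      refine (sq_le_sq₀ (Finset.sum_nonneg fun _ _ => norm_nonneg _) (by positivity)).1 ?_
      refine sq_sum_le_card_mul_sum_sq.trans ?_
      have t1 := card_ball_le (K := K / N D) (by positivity)
      have t2 : ∑ c ∈ ball (K / N D), ‖a (D * c)‖ ^ 2 ≤ G := by
        refine (ls_sub ha hD _).trans (Finset.sum_le_sum fun n _ => ?_)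
        split_ifs
        · exact le_rfl
        · positivity
      have t3 : 0 ≤ ∑ c ∈ ball (K / N D), ‖a (D * c)‖ ^ 2 :=
        Finset.sum_nonneg fun _ _ => by positivity
      calc _ ≤ 16 * (K / N D) * G := by gcongr
        _ = _ := by
          rw [div_pow, mul_pow, mul_pow, Real.sq_sqrt hK.le, Real.sq_sqrt hG0, ab_sq]
          ring
    refine h1.trans ((mul_le_mul_of_nonneg_right h2 (by positivity)).trans (le_of_eq ?_))
    have h3 : √K * K ^ ((J : ℝ) - 1 / 2) = K ^ J := by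
      rw [Real.sqrt_eq_rpow, ← Real.rpow_add hK, ← Real.rpow_natCast]
      congr 1
      ring
    rw [← h3]
    ring
  · intro c hc
    have : a (D * c) = 0 := by
      by_contra h0
      have h1 := mem_ball.1 (ha _ h0)
      refine hc (mem_ball.2 ⟨right_ne_zero_of_mul h1.1, (le_div_iff₀ hN).2 ?_⟩)
      rw [mul_comm, ← N_mul]
      exact h1.2
    rw [this]
    simp

theorem ls_class {δ : ℝ} (h0 : 0 < δ) (h1 : δ ≤ 1) : ∃ C : ℝ, 0 < C ∧ ∀ (a : Eis → ℂ) (i : Eis)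
    (K X : ℝ), 1 ≤ K → 1 ≤ X → (∀ c, a c ≠ 0 → P0 c ∧ (4 : Eis) ∣ c - i ∧ N c ≤ K) →
      ∑ n ∈ ball X, ‖∑ k ∈ ball K, a k * quad n k‖ ^ 2 ≤
        C * (K ^ δ) ^ 6 * (X + √X * K + K ^ 3 / X) * ∑ k ∈ ball K, ‖a k‖ ^ 2 := by
  obtain ⟨m, hm⟩ := exists_nat_ge (2 / δ)
  obtain ⟨C1, hC1, H1⟩ := lemP1 (σ := 1 / 2) (by norm_num) 0 (m + 2) (by omega)
  obtain ⟨C2, hC2, H2⟩ := ls_B1 h0
  refine ⟨C1 * (17 + C2), by positivity, fun a i K X hK hX ha => ?_⟩
  have hK0 : 0 < K := by linarith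
  have hX0 : 0 < X := by linarith
  have ha' : ∀ c, a c ≠ 0 → c ∈ ball K := fun c hc =>
    mem_ball.2 ⟨(ha c hc).1.ne_zero, (ha c hc).2.2⟩
  have ha0 : ∀ c ∉ ball K, a c = 0 := fun c hc => by
    by_contra h
    exact hc (ha' c h)
  set G : ℝ := ∑ n ∈ ball K, ‖a n‖ ^ 2 with hG
  have hG0 : 0 ≤ G := Finset.sum_nonneg fun _ _ => by positivity
  set P : ℝ := K ^ δ with hP
  have hP1 : 1 ≤ P := Real.one_le_rpow hK h0.le
  have hPK : P ≤ K := by
    have := Real.rpow_le_rpow_of_exponent_le hK h1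
    rwa [Real.rpow_one] at this
  set L : ℝ := K ^ 2 * P / X with hL
  have hL0 : 0 < L := by positivity
  have H := H1 0 0 (by norm_num) a i (fun c hc => ⟨(ha c hc).1, (ha c hc).2.1⟩)
    (fun k => summable_of_ne_finset_zero (s := ball K) fun c hc => by rw [ha0 c hc]; simp)
    X L (C2 * L ^ δ * (K + L * √L) * K ^ δ * G) (4 * K ^ (m + 2) * √G) hX0 hL0 (by positivity)
    (by positivity)
    (fun u => by
      rw [pow_zero, mul_one]
      exact H2 a K L u hK0 hL0 fun c hc => ⟨(ha c hc).1, (ha c hc).2.2⟩)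
    (fun D hD => ls_B2 (m + 2) (by omega) hK0 ha' hD.ne_zero)
  have e1 : ∑ n ∈ ball X, ‖∑ k ∈ ball K, a k * quad n k‖ ^ 2 =
      ∑ n ∈ ball X, ‖∑' c, a c * chi 0 n c‖ ^ 2 := by
    refine Finset.sum_congr rfl fun n _ => ?_
    rw [tsum_eq_sum (s := ball K) fun c hc => by rw [ha0 c hc, zero_mul]]
    simp only [chi_zero_eq]
  have e2 : ∑' c, ‖a c‖ ^ 2 = G :=
    tsum_eq_sum (s := ball K) fun c hc => by rw [ha0 c hc]; simp
  rw [e1]
  refine (le_QQ 0 a X).trans (H.trans ?_)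
  rw [e2, ← hP]
  have b1 : X ^ (1 - ((m + 2 : ℕ) : ℝ)) * L ^ (1 - ((m + 2 : ℕ) : ℝ)) *
      (4 * K ^ (m + 2) * √G) ^ 2 ≤ 16 * G := by
    have t1 : X * L = K ^ (2 + δ) := by
      rw [hL, Real.rpow_add hK0, ← hP, Real.rpow_two]
      field_simp
    have t2 : X ^ (1 - ((m + 2 : ℕ) : ℝ)) * L ^ (1 - ((m + 2 : ℕ) : ℝ)) * (K ^ (m + 2)) ^ 2
        ≤ 1 := by
      rw [← Real.mul_rpow hX0.le hL0.le, t1, ← Real.rpow_mul hK0.le, ← pow_mul,
        ← Real.rpow_natCast, ← Real.rpow_add hK0]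
      refine Real.rpow_le_one_of_one_le_of_nonpos hK ?_
      have := (div_le_iff₀ h0).1 hm
      push_cast
      nlinarith
    rw [mul_pow, mul_pow, Real.sq_sqrt hG0]
    calc _ = (X ^ (1 - ((m + 2 : ℕ) : ℝ)) * L ^ (1 - ((m + 2 : ℕ) : ℝ)) * (K ^ (m + 2)) ^ 2) *
          (16 * G) := by ring
      _ ≤ 1 * (16 * G) := by gcongr
      _ = _ := by ring
  have b2 : L ^ δ ≤ P ^ 3 := by
    have t1 : L ≤ K ^ 3 := by
      refine (div_le_self (by positivity) hX).trans ?_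
      calc K ^ 2 * P ≤ K ^ 2 * K := by gcongr
        _ = K ^ 3 := by ring
    refine (Real.rpow_le_rpow hL0.le t1 h0.le).trans (le_of_eq ?_)
    rw [hP, ← Real.rpow_natCast, ← Real.rpow_natCast, ← Real.rpow_mul hK0.le,
      ← Real.rpow_mul hK0.le, mul_comm]
  have b3 : √X * (L * √L) ≤ P ^ 2 * (K ^ 3 / X) := by
    have t1 : √X * √L ≤ K * P := by
      rw [← Real.sqrt_mul hX0.le, Real.sqrt_le_iff]
      refine ⟨by positivity, ?_⟩
      have : X * L = K ^ 2 * P := by rw [hL]; field_simp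
      rw [this, mul_pow]
      refine mul_le_mul_of_nonneg_left ?_ (by positivity)
      nlinarith
    calc √X * (L * √L) = L * (√X * √L) := by ring
      _ ≤ L * (K * P) := by gcongr
      _ = _ := by rw [hL]; ring
  have b4 : X ^ (1 - 1 / 2 : ℝ) = √X := by
    rw [Real.sqrt_eq_rpow]
    norm_num
  rw [b4]
  have hs := Real.sqrt_nonneg X
  have hP2 : 1 ≤ P ^ 2 := one_le_pow₀ hP1
  have hP6 : 1 ≤ P ^ 6 := one_le_pow₀ hP1
  have q1 : 0 ≤ √X * K := by positivity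
  have q2 : 0 ≤ K ^ 3 / X := by positivity
  have b5 : √X * (C2 * L ^ δ * (K + L * √L) * P * G) ≤
      C2 * (P ^ 6 * (X + √X * K + K ^ 3 / X) * G) := by
    have t1 : √X * K + √X * (L * √L) ≤ P ^ 2 * (X + √X * K + K ^ 3 / X) := by
      have : √X * K ≤ P ^ 2 * (√X * K) := le_mul_of_one_le_left q1 hP2
      have : 0 ≤ P ^ 2 * X := by positivity
      nlinarith
    calc _ = C2 * L ^ δ * (√X * K + √X * (L * √L)) * P * G := by ring
      _ ≤ C2 * P ^ 3 * (P ^ 2 * (X + √X * K + K ^ 3 / X)) * P * G := by gcongr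
      _ = _ := by ring
  have b6 : X * G ≤ P ^ 6 * (X + √X * K + K ^ 3 / X) * G := by
    refine mul_le_mul_of_nonneg_right ?_ hG0
    exact le_trans (by linarith) (le_mul_of_one_le_left (by positivity) hP6)
  have b7 : G ≤ X * G := le_mul_of_one_le_left hG0 hX
  rw [mul_assoc C1, mul_assoc C1, mul_assoc C1]
  refine mul_le_mul_of_nonneg_left ?_ hC1.le
  nlinarith

end Vale.Agent.P026
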