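import Vale.Agent.P026.LemPD

/-! The self-dual Poisson inequality. -/

namespace Vale.Agent.P026

open Eis Complex
open scoped Classical ComplexConjugate

theorem QQ_nonneg (j : ℕ) (a : Eis → ℂ) (K : ℝ) : 0 ≤ QQ j a K :=
  Finset.sum_nonneg fun _ _ => Finset.sum_nonneg fun D _ => mul_nonneg (N_nonneg D) (sq_nonneg _)
theorem QQ_mono (j : ℕ) (a : Eis → ℂ) {K L : ℝ} (h : K ≤ L) : QQ j a K ≤ QQ j a L :=
  Finset.sum_le_sum_of_subset_of_nonneg (ball_mono h) fun _ _ _ =>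
    Finset.sum_nonneg fun D _ => mul_nonneg (N_nonneg D) (sq_nonneg _)
/-- The terms with D = 1. -/
theorem le_QQ (j : ℕ) (a : Eis → ℂ) (K : ℝ) :
    ∑ h ∈ ball K, ‖∑' c, a c * chi j h c‖ ^ 2 ≤ QQ j a K := by
  refine Finset.sum_le_sum fun h hh => ?_
  have := Finset.single_le_sum (f := fun D => N D * ‖∑' c, a (D * c) * chi j h c‖ ^ 2)
    (fun D _ => mul_nonneg (N_nonneg D) (sq_nonneg _))
    ((lp_mem_D (mem_ball.1 hh).1).2 ⟨P0.one, by simp⟩)
  simpa only [N_one, one_mul, lpD] using this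
/-- Reordering of the double sum. -/
theorem QQ_eq (j : ℕ) (a : Eis → ℂ) (K : ℝ) :
    QQ j a K = ∑ D ∈ (ball K).filter P0, ∑ h ∈ ball (K / N D ^ 2),
      N D * ‖∑' c, a (D * c) * chi j (h * D ^ 2) c‖ ^ 2 :=
  lp_swap K fun h D => N D * ‖∑' c, a (D * c) * chi j h c‖ ^ 2

theorem lemP1 {σ : ℝ} (hσ : 0 < σ) (A J : ℕ) (hJ : 2 ≤ J) : ∃ C : ℝ, 0 < C ∧
    ∀ (j j' : ℕ), 3 ∣ j + j' → ∀ (a : Eis → ℂ) (i : Eis),
      (∀ c, a c ≠ 0 → P0 c ∧ (4 : Eis) ∣ c - i) →
      (∀ k : ℕ, Summable (fun c => ‖a c‖ * N c ^ k)) →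
      ∀ M K1 B1 B2 : ℝ, 0 < M → 0 < K1 → 0 ≤ B1 → 0 ≤ B2 →
      (∀ u : ℝ, ∑ h ∈ ball K1, ∑ D ∈ (divs h).filter (fun D => D ^ 2 ∣ h),
        N D * N h ^ (-σ) * ‖∑' c, a (D * c) * Gt j (D * c) *
          ((N (D * c) ^ (σ - 1 / 2) : ℝ) : ℂ) * nit u (D * c) * chi j' h c‖ ^ 2
            ≤ B1 * (1 + |u|) ^ A) →
      (∀ D, P0 D → ∑' c, ‖a (D * c)‖ * N (D * c) ^ ((J : ℝ) - 1 / 2) ≤ B2 / ab D) →
      QQ j a M ≤ C * (M * ∑' c, ‖a c‖ ^ 2 + M ^ (1 - σ) * B1
        + M ^ (1 - (J : ℝ)) * K1 ^ (1 - (J : ℝ)) * B2 ^ 2) := by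
  have hJ' : (1 : ℝ) < J := by exact_mod_cast hJ
  obtain ⟨Ct, hCt, ht⟩ := lp_tail hJ'
  have pi := Real.pi_pos
  set k0 : ℝ := 4 * Real.pi / 3 with hk0
  have k0p : 0 < k0 := by positivity
  set G : ℝ := ∫ u : ℝ, ‖Gamma (σ + u * I)‖ * (1 + |u|) ^ A with hG
  have G0 : 0 ≤ G := MeasureTheory.integral_nonneg fun u => by positivity
  set c1 : ℝ := G * k0 ^ (-σ) / (2 * Real.pi) with hc1
  set c2 : ℝ := J.factorial * k0 ^ (-(J : ℝ)) * Ct with hc2
  have c10 : 0 ≤ c1 := by positivity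
  have c20 : 0 ≤ c2 := by positivity
  refine ⟨Real.exp Real.pi * (2 / √3) * (1 + c1 + c2), by positivity, ?_⟩
  intro j j' hj a i ha hs M K1 B1 B2 hM hK hB1 hB2 h1 h2
  have ha' : ∀ c, a c ≠ 0 → P0 c := fun c x => (ha c x).1
  have hκ : 0 < k0 * M := mul_pos k0p hM
  have ex := lp_exact hj ha hs hM
  set T : Eis → ℂ := fun h => ∑' p, lpG j j' a (k0 * M) h p with hT
  set c3 : ℝ := J.factorial * (k0 * M) ^ (-(J : ℝ)) * B2 ^ 2 with hc3
  have c30 : 0 ≤ c3 := by positivity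
  obtain ⟨sm, bm⟩ := lp_tsum_le (C := c3 * (Ct * K1 ^ (1 - (J : ℝ))))
    (m := fun h => c3 * ∑ _D ∈ lpD h, (if K1 < N h then N h ^ (-(J : ℝ)) else 0))
    (fun h => mul_nonneg c30 (Finset.sum_nonneg fun _ _ => by
      split_ifs; exacts [Real.rpow_nonneg (N_nonneg h) _, le_rfl]))
    (by simp [hK.le]) fun K => by
      rw [← Finset.mul_sum]; exact mul_le_mul_of_nonneg_left (ht K1 K hK) c30
  have bg : ∀ h, ‖if K1 < N h then T h else 0‖ ≤
      c3 * ∑ _D ∈ lpD h, (if K1 < N h then N h ^ (-(J : ℝ)) else 0) := fun h => by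
    split_ifs with x
    · exact lp_T_far j j' J ha' hs hκ h2 (N_eq_zero.not.1 (hK.trans x).ne')
    · simp
  have s1 := hasSum_sum_of_ne_finset_zero (L := SummationFilter.unconditional Eis)
    (s := insert 0 (ball K1)) (f := fun h => if h ∈ insert 0 (ball K1) then T h else 0)
    fun h x => if_neg x
  have s2 := (s1.add (Summable.of_norm_bounded sm bg).hasSum).tsum_eq
  have e : ∀ h, (if h ∈ insert 0 (ball K1) then T h else 0) + (if K1 < N h then T h else 0) =
      T h := fun h => by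
    by_cases x : h = 0
    · simp [x, hK.le]
    by_cases y : K1 < N h
    · simp [x, y, mem_ball]
    · simp [x, y, mem_ball, not_lt.1 y]
  simp only [e] at s2
  rw [Finset.sum_ite_mem, Finset.inter_self, Finset.sum_insert (by simp [mem_ball])] at s2
  have b0 : ‖T 0‖ = ∑' c, ‖a c‖ ^ 2 := by
    simp only [hT]
    rw [lp_T_zero j j' ha', Complex.norm_real, Real.norm_of_nonneg (tsum_nonneg fun c => sq_nonneg _)]
  have b1 : ‖∑ h ∈ ball K1, T h‖ ≤ _ := lp_T_near hσ A j j' ha' hs hκ h1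
  have b2 := (tsum_of_norm_bounded sm.hasSum bg).trans bm
  have b3 : ‖∑' h, T h‖ ≤ _ := s2 ▸ (norm_add_le _ _).trans
    (add_le_add ((norm_add_le _ _).trans (add_le_add b0.le b1)) b2)
  have S0 : 0 ≤ ∑' c, ‖a c‖ ^ 2 := tsum_nonneg fun c => sq_nonneg _
  have b4 := ex.trans (mul_le_mul_of_nonneg_left b3 (by positivity))
  rw [Real.exp_neg, inv_mul_le_iff₀ (Real.exp_pos _), ← hG, hc3, Real.mul_rpow k0p.le hM.le,
    Real.mul_rpow k0p.le hM.le] at b4
  have r1 : M ^ (1 - σ) = M * M ^ (-σ) := by rw [sub_eq_add_neg, Real.rpow_add hM, Real.rpow_one]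
  have r2 : M ^ (1 - (J : ℝ)) = M * M ^ (-(J : ℝ)) := by
    rw [sub_eq_add_neg, Real.rpow_add hM, Real.rpow_one]
  refine b4.trans ?_
  rw [r1, r2]
  set x1 := M * ∑' c, ‖a c‖ ^ 2 with hx1
  set x2 := M * M ^ (-σ) * B1 with hx2
  set x3 := M * M ^ (-(J : ℝ)) * K1 ^ (1 - (J : ℝ)) * B2 ^ 2 with hx3
  have p1 : 0 ≤ x1 := by positivity
  have p2 : 0 ≤ x2 := by positivity
  have p3 : 0 ≤ x3 := by positivity
  calc _ = Real.exp Real.pi * (2 / √3) * (x1 + c1 * x2 + c2 * x3) := by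
        simp only [hx1, hx2, hx3, hc1, hc2]; ring
    _ ≤ Real.exp Real.pi * (2 / √3) * ((1 + c1 + c2) * (x1 + x2 + x3)) := by
        refine mul_le_mul_of_nonneg_left ?_ (by positivity)
        nlinarith [mul_nonneg c10 p1, mul_nonneg c10 p3, mul_nonneg c20 p1, mul_nonneg c20 p2]
    _ = _ := by ring

theorem lemP2 {σ : ℝ} (hσ : 0 < σ) (hσ' : σ ≤ 1 / 2) (A J : ℕ) (hJ : 2 ≤ J) : ∃ C : ℝ, 0 < C ∧
    ∀ (j j' : ℕ), 3 ∣ j + j' → ∀ (a : Eis → ℂ), (∀ c, a c ≠ 0 → P0 c) → Bd1 a →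
      ∀ Y M L t B : ℝ, 0 < Y → 0 < M → 0 < L → 0 ≤ B →
      (∀ (i : Eis) (Y' t' : ℝ), Y / 2 ≤ Y' → Y' ≤ Y →
        QQ j' (fun c => a c * cls 4 i c * Gt j c * W Y' t' c) (L * Y ^ 2 / M)
          ≤ B * (1 + |t'|) ^ A) →
      QQ j (fun c => a c * W Y t c) M ≤ C * (1 + |t|) ^ A *
        (M * Y + M / Y * (Y ^ 2 / M) ^ σ * B + Y ^ 3 * L ^ (1 - (J : ℝ))) := by
  obtain ⟨C1, hC1, h1⟩ := lemP1 hσ A J hJ
  obtain ⟨C0, hC0, h0⟩ := tsum_w_le (k := 0) (by norm_num)
  obtain ⟨C2, hC2, h2⟩ := tsum_w_le (k := (J : ℝ) - 1 / 2)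
    (by have := Nat.cast_nonneg (α := ℝ) J; linarith)
  set E : ℝ := Real.exp ((σ - 1 / 2) ^ 2 / 4) with hE
  have E0 : 0 < E := Real.exp_pos _
  refine ⟨256 * C1 * (C0 + E ^ 2 + C2 ^ 2), by positivity, ?_⟩
  intro j j' hj a ha hb Y M L t B hY hM hL hB hQ
  have a0 : a 0 = 0 := by by_contra x; exact (ha 0 x).ne_zero rfl
  have bi : ∀ i, Bd1 fun c => a c * cls 4 i c := fun i c => by
    rw [norm_mul]
    refine mul_le_one₀ (hb c) (norm_nonneg _) ?_
    unfold cls; split_ifs <;> simp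
  have si : ∀ (i : Eis) (k : ℕ), Summable fun c => ‖a c * cls 4 i c * W Y t c‖ * N c ^ k :=
    fun i k => (summable_w k hY).of_nonneg_of_le
      (fun c => mul_nonneg (norm_nonneg _) (pow_nonneg (N_nonneg c) _)) fun c => by
        rw [norm_mul, norm_W, Real.rpow_natCast, mul_comm]
        exact mul_le_mul_of_nonneg_left (mul_le_of_le_one_left (w_pos _).le (bi i c))
          (pow_nonneg (N_nonneg c) _)
  have t1 : (1 : ℝ) ≤ (1 + |t|) ^ A := one_le_pow₀ (by linarith [abs_nonneg t])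
  set x1 := M * Y with hx1
  set x2 := M / Y * (Y ^ 2 / M) ^ σ * B with hx2
  set x3 := Y ^ 3 * L ^ (1 - (J : ℝ)) with hx3
  have p1 : 0 ≤ x1 := by positivity
  have p2 : 0 ≤ x2 := by positivity
  have p3 : 0 ≤ x3 := by positivity
  have key : ∀ i, QQ j (fun c => a c * cls 4 i c * W Y t c) M ≤
      C1 * (C0 + E ^ 2 + C2 ^ 2) * (1 + |t|) ^ A * (x1 + x2 + x3) := fun i => by
    have hh := h1 j j' hj (fun c => a c * cls 4 i c * W Y t c) i
      (fun c x => ⟨ha c fun y => x (by simp [y]), by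
        by_contra y; exact x (by simp [cls, y])⟩) (si i) M (L * Y ^ 2 / M)
      ((Y ^ (σ - 1 / 2) * E) ^ 2 * B * (1 + |t|) ^ A) (C2 * Y ^ ((J : ℝ) - 1 / 2 + 1)) hM
      (by positivity) (by positivity) (by positivity) ?_ ?_
    · refine hh.trans ?_
      have q1 : ∑' c, ‖a c * cls 4 i c * W Y t c‖ ^ 2 ≤ C0 * Y := by
        have q := lp_tsum_W (a := fun c => a c * cls 4 i c) (by simp [a0]) (bi i) one_ne_zero hY t 0
        simp only [one_mul, N_one, div_one, Real.rpow_zero, mul_one] at q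
        have q' := h0 Y hY
        simp only [Real.rpow_zero, one_mul, zero_add, Real.rpow_one] at q'
        have s0 : Summable fun c => ‖a c * cls 4 i c * W Y t c‖ := by simpa using si i 0
        have le : ∀ c, ‖a c * cls 4 i c * W Y t c‖ ^ 2 ≤ ‖a c * cls 4 i c * W Y t c‖ := fun c => by
          refine pow_le_of_le_one (norm_nonneg _) ?_ two_ne_zero
          rw [norm_mul, norm_W]
          exact mul_le_one₀ (bi i c) (w_pos _).le (w_le_one _)
        exact ((s0.of_nonneg_of_le (fun c => sq_nonneg _) le).tsum_le_tsum le s0).trans (q.trans q')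
      have q2 : M ^ (1 - σ) * ((Y ^ (σ - 1 / 2) * E) ^ 2 * B * (1 + |t|) ^ A) =
          E ^ 2 * (1 + |t|) ^ A * x2 := by
        have : (Y ^ (σ - 1 / 2)) ^ 2 = (Y ^ 2) ^ σ / Y := by
          rw [← Real.rpow_mul_natCast hY.le, ← Real.rpow_natCast_mul hY.le,
            ← Real.rpow_sub_one hY.ne']
          congr 1; push_cast; ring
        rw [hx2, mul_pow, this, Real.div_rpow (sq_nonneg Y) hM.le, Real.rpow_sub hM, Real.rpow_one]
        ring
      have q3 : M ^ (1 - (J : ℝ)) * (L * Y ^ 2 / M) ^ (1 - (J : ℝ)) *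
          (C2 * Y ^ ((J : ℝ) - 1 / 2 + 1)) ^ 2 = C2 ^ 2 * x3 := by
        have : (Y ^ 2) ^ (1 - (J : ℝ)) * (Y ^ ((J : ℝ) - 1 / 2 + 1)) ^ 2 = Y ^ 3 := by
          rw [← Real.rpow_mul_natCast hY.le, ← Real.rpow_natCast_mul hY.le, ← Real.rpow_add hY,
            ← Real.rpow_natCast]
          congr 1; push_cast; ring
        rw [← Real.mul_rpow hM.le (by positivity), mul_div_cancel₀ _ hM.ne',
          Real.mul_rpow hL.le (sq_nonneg Y), hx3, ← this]
        ring
      rw [q2, q3, mul_assoc C1, mul_assoc C1]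
      refine mul_le_mul_of_nonneg_left ?_ hC1.le
      have q4 : M * ∑' c, ‖a c * cls 4 i c * W Y t c‖ ^ 2 ≤ C0 * (1 + |t|) ^ A * x1 :=
        (mul_le_mul_of_nonneg_left q1 hM.le).trans (by
          rw [mul_left_comm, mul_assoc]
          exact mul_le_mul_of_nonneg_left (le_mul_of_one_le_left p1 t1) hC0.le)
      have q5 : C2 ^ 2 * x3 ≤ C2 ^ 2 * (1 + |t|) ^ A * x3 := by
        rw [mul_assoc]
        exact mul_le_mul_of_nonneg_left (le_mul_of_one_le_left p3 t1) (sq_nonneg _)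
      have q6 : 0 ≤ (1 + |t|) ^ A * (C0 * (x2 + x3) + E ^ 2 * (x1 + x3) + C2 ^ 2 * (x1 + x2)) := by
        positivity
      linarith
    · intro u
      have ex : 1 ≤ Real.exp ((1 / 2 - σ) / 2) := Real.one_le_exp (by linarith)
      have ex2 : Real.exp ((1 / 2 - σ) / 2) ≤ 2 := by
        have := Real.exp_bound_div_one_sub_of_interval (x := (1 / 2 - σ) / 2) (by linarith)
          (by linarith)
        exact this.trans (by rw [div_le_iff₀ (by linarith)]; linarith)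
      have hq := hQ i (Y / Real.exp ((1 / 2 - σ) / 2)) (t + u)
        (div_le_div_of_nonneg_left hY.le (Real.exp_pos _) ex2) (div_le_self hY.le ex)
      have id : ∀ c, a c * cls 4 i c * W Y t c * Gt j c * ((N c ^ (σ - 1 / 2) : ℝ) : ℂ) * nit u c =
          ((Y ^ (σ - 1 / 2) * E : ℝ) : ℂ) *
            (a c * cls 4 i c * Gt j c * W (Y / Real.exp ((1 / 2 - σ) / 2)) (t + u) c) := fun c => by
        by_cases x : c = 0
        · simp [x, a0]
        have r := rpow_mul_w (σ - 1 / 2) (div_pos (N_pos x) hY)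
        have r2 : N c / Y / Real.exp ((σ - 1 / 2) / 2) = N c / (Y / Real.exp ((1 / 2 - σ) / 2)) := by
          rw [show (σ - 1 / 2) / 2 = -((1 / 2 - σ) / 2) by ring, Real.exp_neg]; field_simp
        have r3 : N c ^ (σ - 1 / 2) * w (N c / Y) =
            Y ^ (σ - 1 / 2) * E * w (N c / (Y / Real.exp ((1 / 2 - σ) / 2))) := by
          rw [← r2, mul_assoc, hE, ← r, ← mul_assoc, ← Real.mul_rpow hY.le (div_pos (N_pos x) hY).le,
            mul_div_cancel₀ _ hY.ne']
        have r4 := congrArg (fun x : ℝ => (x : ℂ)) r3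
        simp only [ofReal_mul] at r4
        simp only [W, nit_add, ofReal_mul]
        linear_combination a c * cls 4 i c * Gt j c * nit t c * nit u c * r4
      have tri : (1 + |t + u|) ^ A ≤ (1 + |t|) ^ A * (1 + |u|) ^ A := by
        rw [← mul_pow]
        refine pow_le_pow_left₀ (by positivity) ?_ A
        nlinarith [abs_add_le t u, mul_nonneg (abs_nonneg t) (abs_nonneg u)]
      have hq2 := mul_le_mul_of_nonneg_left (hq.trans (mul_le_mul_of_nonneg_left tri hB))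
        (sq_nonneg (Y ^ (σ - 1 / 2) * E))
      refine le_trans ?_ (hq2.trans (le_of_eq (by ring)))
      rw [QQ, Finset.mul_sum]
      refine Finset.sum_le_sum fun h hh => ?_
      rw [Finset.mul_sum]
      refine Finset.sum_le_sum fun D _ => ?_
      simp only [id, mul_assoc ((Y ^ (σ - 1 / 2) * E : ℝ) : ℂ)]
      rw [tsum_mul_left, norm_mul, Complex.norm_real, Real.norm_of_nonneg (by positivity), mul_pow,
        mul_left_comm, mul_assoc (N D)]
      refine mul_le_mul_of_nonneg_left (mul_le_mul_of_nonneg_left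
        (mul_le_of_le_one_left (sq_nonneg _) ?_) (N_nonneg D)) (sq_nonneg _)
      exact Real.rpow_le_one_of_one_le_of_nonpos (one_le_N (mem_ball.1 hh).1) (by linarith)
    · intro D hD
      have n := N_pos hD.ne_zero
      refine (lp_tsum_W (a := fun c => a c * cls 4 i c) (by simp [a0]) (bi i) hD.ne_zero hY t
        _).trans ((mul_le_mul_of_nonneg_left (h2 _ (div_pos hY n)) (Real.rpow_nonneg n.le _)).trans ?_)
      rw [Real.div_rpow hY.le n.le, Real.rpow_add_one n.ne']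
      have r := Real.rpow_pos_of_pos n ((J : ℝ) - 1 / 2)
      have b := one_le_ab hD.ne_zero
      calc _ = C2 * Y ^ ((J : ℝ) - 1 / 2 + 1) / N D := by field_simp
        _ ≤ _ := div_le_div_of_nonneg_left (by positivity) (by linarith) (by
          rw [← ab_sq]; nlinarith)
  have e : (fun c => a c * W Y t c) = fun c => ∑ i ∈ res 4, a c * cls 4 i c * W Y t c := by
    funext c
    rw [← Finset.sum_mul, ← Finset.mul_sum, sum_cls (by decide), mul_one]
  have c4 : ((res 4).card : ℝ) = 16 := by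
    rw [card_res (by decide), show (4 : Eis) = ((4 : ℕ) : Eis) by simp, N_natCast]; norm_num
  rw [e]
  refine (lp_QQ_sum j (res 4) (fun i => by simpa using si i 0) M).trans ?_
  have := Finset.sum_le_card_nsmul (res 4) _ _ fun i _ => key i
  rw [nsmul_eq_mul, c4] at this
  rw [c4]
  linarith

/-- Trivial bound. -/
theorem QQ_triv (A : ℝ) (hA : 2 ≤ A) : ∃ C : ℝ, 0 < C ∧ ∀ (j : ℕ) (a : Eis → ℂ), a 0 = 0 → Bd1 a →
    ∀ Y M t : ℝ, 0 < Y → 0 < M →
      QQ j (fun c => a c * W Y t c) M ≤ C * M * (if Y ≤ 1 then Y ^ A else Y ^ 2) := by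
  obtain ⟨C0, hC0, h0⟩ := tsum_w_le (k := 0) (by norm_num)
  obtain ⟨C1, hC1, h1⟩ := tsum_w_small 0 (A / 2)
  have s3 := summable_N_rpow (s := 3) (by norm_num)
  have z0 : 0 ≤ ∑' c : Eis, N c ^ (-3 : ℝ) := tsum_nonneg fun c => Real.rpow_nonneg (N_nonneg c) _
  refine ⟨16 * (C0 ^ 2 + C1 ^ 2) * (1 + ∑' c : Eis, N c ^ (-3 : ℝ)), by positivity, ?_⟩
  intro j a a0 ha Y M t hY hM
  set V : ℝ := if Y ≤ 1 then Y ^ A else Y ^ 2 with hV
  have V0 : 0 ≤ V := by rw [hV]; split_ifs <;> positivity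
  have key : ∀ D ∈ (ball M).filter P0, ∑ h ∈ ball (M / N D ^ 2),
      N D * ‖∑' c, a (D * c) * W Y t (D * c) * chi j (h * D ^ 2) c‖ ^ 2 ≤
        16 * (C0 ^ 2 + C1 ^ 2) * M * V * N D ^ (-3 : ℝ) := fun D hD => by
    have D0 := (Finset.mem_filter.1 hD).2.ne_zero
    have n := N_pos D0
    have n1 := one_le_N D0
    have b1 := lp_tsum_W a0 ha D0 hY t 0
    simp only [Real.rpow_zero, mul_one, one_mul] at b1 h0 h1
    set S := ∑' c : Eis, (if c = 0 then 0 else w (N c / (Y / N D))) with hS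
    have S0 : 0 ≤ S := (tsum_nonneg fun _ => norm_nonneg _).trans b1
    have b2 : S ^ 2 ≤ (C0 ^ 2 + C1 ^ 2) * V / N D ^ 2 := by
      rw [hV]
      split_ifs with x
      · have b := h1 _ (div_pos hY n) ((div_le_self hY.le n1).trans x)
        refine (pow_le_pow_left₀ S0 b 2).trans ?_
        rw [mul_pow, ← Real.rpow_mul_natCast (div_pos hY n).le, Nat.cast_ofNat,
          div_mul_cancel₀ _ two_ne_zero, Real.div_rpow hY.le n.le, mul_div_assoc]
        refine mul_le_mul (by nlinarith) (div_le_div_of_nonneg_left (by positivity) (by positivity) ?_)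
          (by positivity) (by positivity)
        rw [← Real.rpow_two]
        exact Real.rpow_le_rpow_of_exponent_le n1 hA
      · have b := h0 _ (div_pos hY n)
        rw [zero_add, Real.rpow_one] at b
        refine (pow_le_pow_left₀ S0 b 2).trans ?_
        rw [mul_pow, div_pow, mul_div_assoc]
        exact mul_le_mul_of_nonneg_right (by nlinarith) (by positivity)
    have sm : Summable fun c => ‖a (D * c) * W Y t (D * c)‖ := by
      refine ((summable_w 0 hY).comp_injective (mul_right_injective₀ D0)).of_nonneg_of_le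
        (fun _ => norm_nonneg _) fun c => ?_
      simp only [Function.comp, Real.rpow_zero, one_mul, norm_mul, norm_W]
      exact mul_le_of_le_one_left (w_pos _).le (ha _)
    have b3 : ∀ h ∈ ball (M / N D ^ 2),
        N D * ‖∑' c, a (D * c) * W Y t (D * c) * chi j (h * D ^ 2) c‖ ^ 2 ≤
          N D * ((C0 ^ 2 + C1 ^ 2) * V / N D ^ 2) := fun h _ => by
      refine mul_le_mul_of_nonneg_left ((pow_le_pow_left₀ (norm_nonneg _)
        ((tsum_of_norm_bounded sm.hasSum fun c => ?_).trans b1) 2).trans b2) n.le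
      rw [norm_mul]; exact mul_le_of_le_one_right (norm_nonneg _) (norm_chi_le _ _ _)
    refine (Finset.sum_le_card_nsmul _ _ _ b3).trans ?_
    rw [nsmul_eq_mul]
    refine (mul_le_mul_of_nonneg_right (card_ball_le (by positivity)) (by positivity)).trans
      (le_of_eq ?_)
    rw [Real.rpow_neg n.le, show (3 : ℝ) = (3 : ℕ) by norm_num, Real.rpow_natCast]
    field_simp
  rw [QQ_eq]
  refine (Finset.sum_le_sum key).trans ?_
  rw [← Finset.mul_sum]
  have := s3.sum_le_tsum ((ball M).filter P0) fun c _ => Real.rpow_nonneg (N_nonneg c) _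
  have x0 : 0 ≤ 16 * (C0 ^ 2 + C1 ^ 2) * M * V := by positivity
  nlinarith

end Vale.Agent.P026
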