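import Vale.Agent.P026.LemPA

/-! The exact identity behind the self-dual Poisson inequality. -/

namespace Vale.Agent.P026

open Eis Complex
open scoped Classical ComplexConjugate

/-- The admissible D for the frequency h. -/
noncomputable def lpD (h : Eis) : Finset Eis := (divs h).filter (fun D => D ^ 2 ∣ h)

theorem lp_mem_D {h D : Eis} (hh : h ≠ 0) : D ∈ lpD h ↔ P0 D ∧ D ^ 2 ∣ h := by
  simp only [lpD, Finset.mem_filter, mem_divs hh]
  exact ⟨fun x => ⟨x.1.1, x.2⟩, fun x => ⟨⟨x.1, (dvd_pow_self D two_ne_zero).trans x.2⟩, x.2⟩⟩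

theorem lpK_ne (j : ℕ) {c1 m : Eis} (h1 : c1 ≠ 0) (hm : m ≠ 0) (c2 : Eis) :
    lpK j c1 c2 m = ∑ D ∈ lpD m, (N D : ℂ) * ((if D ∣ c1 then chi j m (c1 / D) else 0) *
      conj (if D ∣ c2 then chi j m (c2 / D) else 0)) := by
  have e : ∀ D, (N D : ℂ) * ((if D ∣ c1 then chi j m (c1 / D) else 0) *
      conj (if D ∣ c2 then chi j m (c2 / D) else 0)) = if D ∣ c1 ∧ D ∣ c2 then
        (N D : ℂ) * (chi j m (c1 / D) * conj (chi j m (c2 / D))) else 0 := fun D => by
    by_cases a : D ∣ c1 <;> by_cases b : D ∣ c2 <;> simp [a, b]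
  simp only [e, lpK, ← Finset.sum_filter]
  refine Finset.sum_congr ?_ fun _ _ => rfl
  ext D
  simp only [Finset.mem_filter, mem_divs h1, lp_mem_D hm]
  tauto

theorem lpK_zero (j : ℕ) {c1 c2 : Eis} (h1 : P0 c1) (h2 : P0 c2) :
    lpK j c1 c2 0 = if c1 = c2 then (N c1 : ℂ) else 0 := by
  unfold lpK
  rw [Finset.sum_eq_single_of_mem c1 ((mem_divs h1.ne_zero).2 ⟨h1, dvd_rfl⟩)]
  · rw [EuclideanDomain.div_self h1.ne_zero, chi_one_right]
    by_cases e : c1 = c2
    · subst e
      simp [EuclideanDomain.div_self h1.ne_zero, chi_one_right]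
    · rw [if_neg e]
      split_ifs with x
      · rw [chi_zero_left j (lp_P0_div h1 h2 x.1).1.1, if_neg]
        · simp
        · intro y
          have := lp_div_mul h1.ne_zero x.1
          rw [y, mul_one] at this
          exact e this
      · rfl
  · intro D hD hne
    obtain ⟨a, b⟩ := (mem_divs h1.ne_zero).1 hD
    rw [chi_zero_left j (lp_P0_div a h1 b).1.1, if_neg (c := c1 / D = 1)]
    · simp
    · intro y
      have := lp_div_mul a.ne_zero b
      rw [y, mul_one] at this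
      exact hne this

theorem lp_norm_K (j : ℕ) (c1 c2 m : Eis) : ‖lpK j c1 c2 m‖ ≤ 16 * N c1 ^ 2 := by
  refine (norm_sum_le _ _).trans ?_
  have h1 : ∀ D ∈ divs c1, ‖if D ∣ c2 ∧ D ^ 2 ∣ m then
      (N D : ℂ) * (chi j m (c1 / D) * conj (chi j m (c2 / D))) else 0‖ ≤ N c1 := fun D hD => by
    have hb := (mem_ball.1 (Finset.mem_filter.1 hD).1).2
    split_ifs
    · rw [norm_mul, norm_mul, Complex.norm_conj, Complex.norm_real, Real.norm_of_nonneg (N_nonneg D)]
      exact (mul_le_of_le_one_right (N_nonneg D) (mul_le_one₀ (norm_chi_le _ _ _) (norm_nonneg _)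
        (norm_chi_le _ _ _))).trans hb
    · simpa using N_nonneg c1
  refine (Finset.sum_le_card_nsmul _ _ _ h1).trans ?_
  have h2 : ((divs c1).card : ℝ) ≤ 16 * N c1 :=
    le_trans (by exact_mod_cast Finset.card_filter_le _ _) (card_ball_le (N_nonneg c1))
  rw [nsmul_eq_mul]
  nlinarith [N_nonneg c1]

theorem lp_tsum_div {α : Type} [NormedField α] {D : Eis} (hD : D ≠ 0) (b g : Eis → α) :
    ∑' c, b c * (if D ∣ c then g (c / D) else 0) = ∑' c, b (D * c) * g c := by
  rw [← (mul_right_injective₀ hD).tsum_eq]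
  · simp [lp_mul_div hD]
  · intro c hc
    by_contra x
    exact hc (by simp only [if_neg fun (y : D ∣ c) => x (y.imp fun _ e => e.symm), mul_zero])

/-- The bilinear form with kernel K at a nonzero frequency. -/
theorem lp_hasSum_K (j : ℕ) {m : Eis} (hm : m ≠ 0) {b1 b2 : Eis → ℂ} (h0 : b1 0 = 0)
    (s1 : Summable fun c => ‖b1 c‖) (s2 : Summable fun c => ‖b2 c‖) :
    HasSum (fun p : Eis × Eis => b1 p.1 * conj (b2 p.2) * lpK j p.1 p.2 m)
      (∑ D ∈ lpD m, (N D : ℂ) * ((∑' c, b1 (D * c) * chi j m c) *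
        conj (∑' c, b2 (D * c) * chi j m c))) := by
  set k : Eis → Eis → ℂ := fun D c => if D ∣ c then chi j m (c / D) else 0 with hk
  have kb : ∀ D c, ‖k D c‖ ≤ 1 := fun D c => by
    simp only [hk]; split_ifs
    · exact norm_chi_le _ _ _
    · simp
  have sm : ∀ {b : Eis → ℂ}, (Summable fun c => ‖b c‖) → ∀ D, Summable fun c => ‖b c * k D c‖ :=
    fun s D => s.of_nonneg_of_le (fun _ => norm_nonneg _) fun c => by
      rw [norm_mul]; exact mul_le_of_le_one_right (norm_nonneg _) (kb D c)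
  have e : (fun p : Eis × Eis => b1 p.1 * conj (b2 p.2) * lpK j p.1 p.2 m) = fun p =>
      ∑ D ∈ lpD m, (N D : ℂ) * ((b1 p.1 * k D p.1) * conj (b2 p.2 * k D p.2)) := by
    funext p
    by_cases x : p.1 = 0
    · simp [x, h0]
    · rw [lpK_ne j x hm, Finset.mul_sum]
      exact Finset.sum_congr rfl fun D _ => by simp only [hk, map_mul]; ring
  rw [e]
  refine hasSum_sum fun D hD => HasSum.mul_left _ ?_
  have hD0 := ((lp_mem_D hm).1 hD).1.ne_zero
  have s2' : Summable fun c => ‖conj (b2 c * k D c)‖ := by simpa only [Complex.norm_conj] using sm s2 D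
  rw [← lp_tsum_div hD0 b1 (chi j m), ← lp_tsum_div hD0 b2 (chi j m), Complex.conj_tsum,
    tsum_mul_tsum_of_summable_norm (sm s1 D) s2']
  exact (summable_mul_of_summable_norm (sm s1 D) s2').hasSum

theorem lp_tsum_K_zero (j : ℕ) {b : Eis → ℂ} (hb : ∀ c, b c ≠ 0 → P0 c) :
    ∑' p : Eis × Eis, b p.1 * conj (b p.2) * lpK j p.1 p.2 0 =
      ((∑' c, ‖b c‖ ^ 2 * N c : ℝ) : ℂ) := by
  have inj : Function.Injective fun c : Eis => (c, c) := fun _ _ h => (Prod.mk.inj h).1
  rw [← inj.tsum_eq, Complex.ofReal_tsum]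
  · refine tsum_congr fun c => ?_
    by_cases x : b c = 0
    · simp [x]
    · rw [lpK_zero j (hb c x) (hb c x), if_pos rfl, mul_conj, normSq_eq_norm_sq]; push_cast; ring
  · rintro ⟨c1, c2⟩ hp
    have h1 : b c1 ≠ 0 := fun x => hp (by simp [x])
    have h2 : b c2 ≠ 0 := fun x => hp (by simp [x])
    by_cases e : c1 = c2
    · exact ⟨c1, by rw [e]⟩
    · exact (hp (by simp only [lpK_zero j (hb _ h1) (hb _ h2), if_neg e, mul_zero])).elim

/-- The dual coefficients. -/
noncomputable def lpA (j : ℕ) (a : Eis → ℂ) (c : Eis) : ℂ := a c * Gt j c / (ab c : ℂ)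

/-- The dual term. -/
noncomputable def lpG (j j' : ℕ) (a : Eis → ℂ) (κ : ℝ) (h : Eis) (p : Eis × Eis) : ℂ :=
  lpA j a p.1 * conj (lpA j a p.2) * lpK j' p.1 p.2 h *
    (Real.exp (-(κ * N h / N (p.1 * p.2))) : ℂ)

theorem lp_norm_A (j : ℕ) {a : Eis → ℂ} (ha : ∀ c, a c ≠ 0 → P0 c) (c : Eis) :
    ‖lpA j a c‖ = ‖a c‖ / ab c := by
  by_cases x : a c = 0
  · simp [lpA, x]
  · rw [lpA, norm_div, norm_mul, norm_Gt j (ha c x), Complex.norm_real,
      Real.norm_of_nonneg (ab_nonneg c), mul_one]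

theorem lp_norm_A_le (j : ℕ) {a : Eis → ℂ} (ha : ∀ c, a c ≠ 0 → P0 c) (c : Eis) :
    ‖lpA j a c‖ ≤ ‖a c‖ := by
  rw [lp_norm_A j ha]
  by_cases x : a c = 0
  · simp [x]
  · exact div_le_self (norm_nonneg _) (one_le_ab (ha c x).ne_zero)

theorem lp_summable_G (j j' : ℕ) {a : Eis → ℂ} (ha : ∀ c, a c ≠ 0 → P0 c)
    (hs : ∀ k : ℕ, Summable (fun c => ‖a c‖ * N c ^ k)) {κ : ℝ} (hκ : 0 < κ) :
    Summable fun q : (Eis × Eis) × Eis => lpG j j' a κ q.2 q.1 := by
  obtain ⟨C, hC, hexp⟩ := tsum_exp_le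
  set g : (Eis × Eis) × Eis → ℝ := fun q => 16 * (‖a q.1.1‖ * N q.1.1 ^ 2) * ‖a q.1.2‖ *
    Real.exp (-(κ / N (q.1.1 * q.1.2) * N q.2)) with hg
  have g0 : ∀ q, 0 ≤ g q := fun q => by
    have := N_nonneg q.1.1
    simp only [hg]; positivity
  refine Summable.of_norm_bounded (g := g) ?_ fun q => ?_
  · rw [summable_prod_of_nonneg g0]
    have key : ∀ p : Eis × Eis, a p.1 ≠ 0 → a p.2 ≠ 0 → 0 < κ / N (p.1 * p.2) := fun p x y =>
      div_pos hκ (N_pos (mul_ne_zero (ha _ x).ne_zero (ha _ y).ne_zero))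
    constructor
    · intro p
      by_cases x : a p.1 = 0
      · simp [hg, x, summable_zero]
      by_cases y : a p.2 = 0
      · simp [hg, y, summable_zero]
      simp only [hg]
      exact (summable_exp (key p x y)).mul_left _
    · have s1 := summable_mul_of_summable_norm (f := fun c => ‖a c‖ * N c ^ 3)
        (g := fun c => ‖a c‖ * N c ^ 1) (hs 3).norm (hs 1).norm
      refine (s1.mul_left (16 * (1 + C / κ))).of_nonneg_of_le
        (fun p => tsum_nonneg fun _ => g0 _) fun p => ?_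
      have n1 := N_nonneg p.1
      have n2 := N_nonneg p.2
      by_cases x : a p.1 = 0
      · simp [hg, x]
      by_cases y : a p.2 = 0
      · simp [hg, y]
      have k := key p x y
      have o1 := one_le_N (ha _ x).ne_zero
      have o2 := one_le_N (ha _ y).ne_zero
      have h1 : ∑' h, Real.exp (-(κ / N (p.1 * p.2) * N h)) ≤ (1 + C / κ) * (N p.1 * N p.2) := by
        rw [(summable_exp k).tsum_eq_add_tsum_ite 0]
        have h2 := hexp _ k
        have h3 : C / (κ / N (p.1 * p.2)) = C / κ * (N p.1 * N p.2) := by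
          rw [N_mul]; field_simp
        have h4 : 1 ≤ N p.1 * N p.2 := one_le_mul_of_one_le_of_one_le o1 o2
        simp only [N_zero, mul_zero, neg_zero, Real.exp_zero]
        rw [h3] at h2
        linarith
      simp only [hg]
      rw [tsum_mul_left]
      calc _ ≤ 16 * (‖a p.1‖ * N p.1 ^ 2) * ‖a p.2‖ * ((1 + C / κ) * (N p.1 * N p.2)) :=
            mul_le_mul_of_nonneg_left h1 (by positivity)
        _ = _ := by ring
  · simp only [lpG, hg, norm_mul, Complex.norm_conj, Complex.norm_real,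
      Real.norm_of_nonneg (Real.exp_pos _).le]
    rw [show κ * N q.2 / N (q.1.1 * q.1.2) = κ / N (q.1.1 * q.1.2) * N q.2 by ring]
    refine mul_le_mul_of_nonneg_right ?_ (Real.exp_pos _).le
    calc _ ≤ ‖a q.1.1‖ * ‖a q.1.2‖ * (16 * N q.1.1 ^ 2) := by
          gcongr
          · exact lp_norm_A_le j ha _
          · exact lp_norm_A_le j ha _
          · exact lp_norm_K _ _ _ _
      _ = _ := by ring

/-- The exact identity, as an inequality. -/
theorem lp_exact {j j' : ℕ} (hj : 3 ∣ j + j') {a : Eis → ℂ} {i : Eis}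
    (ha : ∀ c, a c ≠ 0 → P0 c ∧ (4 : Eis) ∣ c - i)
    (hs : ∀ k : ℕ, Summable (fun c => ‖a c‖ * N c ^ k)) {M : ℝ} (hM : 0 < M) :
    Real.exp (-Real.pi) * QQ j a M ≤
      2 * M / √3 * ‖∑' h, ∑' p, lpG j j' a (4 * Real.pi / 3 * M) h p‖ := by
  have ha' : ∀ c, a c ≠ 0 → P0 c := fun c x => (ha c x).1
  have a0 : a 0 = 0 := by by_contra x; exact (ha' 0 x).ne_zero rfl
  have s0 : Summable fun c => ‖a c‖ := by simpa using hs 0
  set e : Eis → ℝ := fun m => Real.exp (-(Real.pi * N m / M)) with he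
  set F : (Eis × Eis) × Eis → ℂ := fun q =>
    a q.1.1 * conj (a q.1.2) * lpK j q.1.1 q.1.2 q.2 * (e q.2 : ℂ) with hF
  have se : Summable e := by
    have := summable_exp (div_pos Real.pi_pos hM)
    refine this.congr fun m => ?_
    simp only [he]; congr 1; ring
  have sF : Summable F := by
    have s1 := summable_mul_of_summable_norm (f := fun c => ‖a c‖ * N c ^ 2)
      (g := fun c => ‖a c‖) (hs 2).norm s0.norm
    have s2 := summable_mul_of_summable_norm s1.norm se.norm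
    refine Summable.of_norm_bounded (s2.mul_left 16) fun q => ?_
    simp only [hF, he, norm_mul, Complex.norm_conj, Complex.norm_real,
      Real.norm_of_nonneg (Real.exp_pos _).le]
    calc _ ≤ ‖a q.1.1‖ * ‖a q.1.2‖ * (16 * N q.1.1 ^ 2) * Real.exp (-(Real.pi * N q.2 / M)) := by
          gcongr; exact lp_norm_K _ _ _ _
      _ = _ := by ring
  have sG := lp_summable_G j j' ha' hs (κ := 4 * Real.pi / 3 * M) (by have := Real.pi_pos; positivity)
  have id1 : ∀ p : Eis × Eis, ∑' m, F (p, m) =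
      ((2 * M / √3 : ℝ) : ℂ) * ∑' h, lpG j j' a (4 * Real.pi / 3 * M) h p := by
    intro p
    by_cases x : a p.1 = 0
    · simp [hF, lpG, lpA, x]
    by_cases y : a p.2 = 0
    · simp [hF, lpG, lpA, y]
    have h1 := (ha _ x).1
    have h2 := (ha _ y).1
    have h4 : (4 : Eis) ∣ p.1 - p.2 := by
      simpa using dvd_sub (ha _ x).2 (ha _ y).2
    have ps := poisson_per (mul_ne_zero h1.ne_zero h2.ne_zero) (lp_per_K j h1 h2) hM
    simp only [hF, he, mul_assoc (a p.1 * conj (a p.2))]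
    rw [tsum_mul_left, ps, ← tsum_mul_left, ← tsum_mul_left, ← tsum_mul_left]
    refine tsum_congr fun h => ?_
    rw [lp_gauss_K hj h1 h2 h4]
    have b1 : (ab p.1 : ℂ) ≠ 0 := by exact_mod_cast (ab_pos h1.ne_zero).ne'
    have b2 : (ab p.2 : ℂ) ≠ 0 := by exact_mod_cast (ab_pos h2.ne_zero).ne'
    have b3 : ((√3 : ℝ) : ℂ) ≠ 0 := by exact_mod_cast (Real.sqrt_pos.2 (by norm_num)).ne'
    have n : (N (p.1 * p.2) : ℂ) = (ab p.1 : ℂ) ^ 2 * (ab p.2 : ℂ) ^ 2 := by
      rw [N_mul, ← ab_sq, ← ab_sq]; push_cast; ring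
    simp only [lpG, lpA, map_div₀, map_mul, Complex.conj_ofReal]
    generalize (Real.exp (-(4 * Real.pi / 3 * M * N h / N (p.1 * p.2))) : ℂ) = E
    simp only [Complex.ofReal_div, Complex.ofReal_mul, n]
    field_simp
  have id2 : ∑' m, ∑' p, F (p, m) =
      ((2 * M / √3 : ℝ) : ℂ) * ∑' h, ∑' p, lpG j j' a (4 * Real.pi / 3 * M) h p := by
    rw [Summable.tsum_comm (f := fun p m => F (p, m)) sF,
      Summable.tsum_comm (f := fun p h => lpG j j' a (4 * Real.pi / 3 * M) h p) sG,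
      ← tsum_mul_left]
    exact tsum_congr id1
  set z : Eis → ℝ := fun m => (if m = 0 then ∑' c, ‖a c‖ ^ 2 * N c else
    ∑ D ∈ lpD m, N D * ‖∑' c, a (D * c) * chi j m c‖ ^ 2) * e m with hz
  have z0 : ∀ m, 0 ≤ z m := fun m => by
    refine mul_nonneg ?_ (Real.exp_pos _).le
    split_ifs
    · exact tsum_nonneg fun c => mul_nonneg (sq_nonneg _) (N_nonneg c)
    · exact Finset.sum_nonneg fun D _ => mul_nonneg (N_nonneg D) (sq_nonneg _)
  have id3 : ∀ m, ∑' p, F (p, m) = (z m : ℂ) := fun m => by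
    simp only [hF, hz, tsum_mul_right]
    split_ifs with x
    · rw [x, lp_tsum_K_zero j ha']; push_cast; ring
    · rw [(lp_hasSum_K j x a0 s0 s0).tsum_eq]
      simp only [mul_conj, normSq_eq_norm_sq]; push_cast; ring
  have sz : Summable z := by
    have := sF.prod_symm.prod
    simp only [Prod.swap, id3] at this
    exact_mod_cast this
  simp only [id3] at id2
  have h5 : ∑' m, z m = 2 * M / √3 * ‖∑' h, ∑' p, lpG j j' a (4 * Real.pi / 3 * M) h p‖ := by
    have := congrArg norm id2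
    rwa [← Complex.ofReal_tsum, Complex.norm_real, Real.norm_of_nonneg (tsum_nonneg z0),
      norm_mul, Complex.norm_real, Real.norm_of_nonneg (by positivity)] at this
  rw [← h5, QQ, Finset.mul_sum]
  refine le_trans (Finset.sum_le_sum fun m hm => ?_) (sz.sum_le_tsum (ball M) fun m _ => z0 m)
  obtain ⟨m0, mM⟩ := mem_ball.1 hm
  simp only [hz, if_neg m0]
  rw [mul_comm]
  refine mul_le_mul_of_nonneg_left (Real.exp_le_exp.2 ?_)
    (Finset.sum_nonneg fun D _ => mul_nonneg (N_nonneg D) (sq_nonneg _))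
  rw [neg_le_neg_iff, div_le_iff₀ hM]
  exact mul_le_mul_of_nonneg_left mM Real.pi_pos.le

end Vale.Agent.P026
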