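import Vale.Agent.P026.LemPC

/-! Bounds for the dual terms in the self-dual Poisson inequality. -/

namespace Vale.Agent.P026

open Eis Complex MeasureTheory
open scoped Classical ComplexConjugate

theorem lp_rpow_half {c : Eis} (hc : c ≠ 0) (r : ℝ) : N c ^ (r - 1 / 2) = N c ^ r / ab c := by
  rw [Real.rpow_sub (N_pos hc), ab, Real.sqrt_eq_rpow]

theorem lp_sum_rpow {a : Eis → ℂ} (ha : ∀ c, a c ≠ 0 → P0 c)
    (hs : ∀ k : ℕ, Summable (fun c => ‖a c‖ * N c ^ k)) (r : ℝ) :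
    Summable fun c => ‖a c‖ * N c ^ r := by
  refine (hs ⌈r⌉₊).of_nonneg_of_le
    (fun c => mul_nonneg (norm_nonneg _) (Real.rpow_nonneg (N_nonneg c) _)) fun c => ?_
  by_cases x : a c = 0
  · simp [x]
  refine mul_le_mul_of_nonneg_left ?_ (norm_nonneg _)
  rw [← Real.rpow_natCast]
  exact Real.rpow_le_rpow_of_exponent_le (one_le_N (ha c x).ne_zero) (Nat.le_ceil r)

theorem lp_T_zero (j j' : ℕ) {a : Eis → ℂ} (ha : ∀ c, a c ≠ 0 → P0 c) (κ : ℝ) :
    ∑' p, lpG j j' a κ 0 p = ((∑' c, ‖a c‖ ^ 2 : ℝ) : ℂ) := by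
  have h := lp_tsum_K_zero j' (b := lpA j a) fun c x => ha c fun y => x (by simp [lpA, y])
  simp only [lpG, N_zero, mul_zero, zero_div, neg_zero, Real.exp_zero, ofReal_one, mul_one, h]
  congr 1
  refine tsum_congr fun c => ?_
  rw [lp_norm_A j ha]
  by_cases x : a c = 0
  · simp [x]
  · rw [div_pow, ab_sq, div_mul_cancel₀ _ (N_pos (ha c x).ne_zero).ne']

theorem lp_T_far (j j' J : ℕ) {a : Eis → ℂ} (ha : ∀ c, a c ≠ 0 → P0 c)
    (hs : ∀ k : ℕ, Summable (fun c => ‖a c‖ * N c ^ k)) {κ B : ℝ} (hκ : 0 < κ)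
    (hB : ∀ D, P0 D → ∑' c, ‖a (D * c)‖ * N (D * c) ^ ((J : ℝ) - 1 / 2) ≤ B / ab D)
    {h : Eis} (hh : h ≠ 0) : ‖∑' p, lpG j j' a κ h p‖ ≤
      J.factorial * κ ^ (-(J : ℝ)) * B ^ 2 * ∑ _D ∈ lpD h, N h ^ (-(J : ℝ)) := by
  set f : Eis → ℝ := fun c => ‖a c‖ * N c ^ ((J : ℝ) - 1 / 2) with hf
  set k : Eis → Eis → ℝ := fun D c => f c * if D ∣ c then 1 else 0 with hk
  have f0 : ∀ c, 0 ≤ f c := fun c => mul_nonneg (norm_nonneg _) (Real.rpow_nonneg (N_nonneg c) _)
  have k0 : ∀ D c, 0 ≤ k D c := fun D c => mul_nonneg (f0 c) (by split_ifs <;> norm_num)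
  have sk : ∀ D, Summable fun c => ‖k D c‖ := fun D =>
    (lp_sum_rpow ha hs _).of_nonneg_of_le (fun _ => norm_nonneg _) fun c => by
      rw [Real.norm_of_nonneg (k0 D c)]
      exact mul_le_of_le_one_right (f0 c) (by split_ifs <;> norm_num)
  have X := mul_pos hκ (N_pos hh)
  set c1 : ℝ := J.factorial / (κ * N h) ^ J with hc1
  have c0 : 0 ≤ c1 := by positivity
  have hsum : HasSum (fun p : Eis × Eis => ∑ D ∈ lpD h, c1 * N D * (k D p.1 * k D p.2))
      (∑ D ∈ lpD h, c1 * N D * ((∑' c, k D c) * ∑' c, k D c)) := by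
    refine hasSum_sum fun D _ => HasSum.mul_left _ ?_
    rw [tsum_mul_tsum_of_summable_norm (sk D) (sk D)]
    exact (summable_mul_of_summable_norm (sk D) (sk D)).hasSum
  refine (tsum_of_norm_bounded hsum fun p => ?_).trans ?_
  · have g0 : 0 ≤ ∑ D ∈ lpD h, c1 * N D * (k D p.1 * k D p.2) := Finset.sum_nonneg fun D _ =>
      mul_nonneg (mul_nonneg c0 (N_nonneg D)) (mul_nonneg (k0 _ _) (k0 _ _))
    by_cases x : a p.1 = 0
    · simpa [lpG, lpA, x] using g0
    by_cases y : a p.2 = 0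
    · simpa [lpG, lpA, y] using g0
    have h1 := (ha _ x).ne_zero
    have h2 := (ha _ y).ne_zero
    have n1 := N_pos h1
    have n2 := N_pos h2
    have e1 : Real.exp (-(κ * N h / N (p.1 * p.2))) ≤ c1 * (N p.1 ^ J * N p.2 ^ J) := by
      have y0 : 0 < κ * N h / N (p.1 * p.2) := div_pos X (N_pos (mul_ne_zero h1 h2))
      have := Real.pow_div_factorial_le_exp _ y0.le J
      rw [Real.exp_neg]
      refine (inv_anti₀ (by positivity) this).trans (le_of_eq ?_)
      rw [hc1, N_mul, div_pow, mul_pow (N p.1)]; field_simp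
    have e2 : ‖lpK j' p.1 p.2 h‖ ≤ ∑ D ∈ lpD h, N D * ((if D ∣ p.1 then 1 else 0) *
        (if D ∣ p.2 then 1 else 0)) := by
      rw [lpK_ne j' h1 hh]
      refine (norm_sum_le _ _).trans (Finset.sum_le_sum fun D _ => ?_)
      rw [norm_mul, norm_mul, Complex.norm_conj, Complex.norm_real, Real.norm_of_nonneg (N_nonneg D)]
      refine mul_le_mul_of_nonneg_left ?_ (N_nonneg D)
      split_ifs <;> simp
      exact mul_le_one₀ (norm_chi_le _ _ _) (norm_nonneg _) (norm_chi_le _ _ _)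
    simp only [lpG, norm_mul, Complex.norm_conj, Complex.norm_real,
      Real.norm_of_nonneg (Real.exp_pos _).le, lp_norm_A j ha]
    have b1 := ab_pos h1
    have b2 := ab_pos h2
    refine (mul_le_mul (mul_le_mul_of_nonneg_left e2 (by positivity)) e1 (Real.exp_pos _).le
      (mul_nonneg (by positivity) ((norm_nonneg _).trans e2))).trans (le_of_eq ?_)
    rw [Finset.mul_sum, Finset.sum_mul]
    refine Finset.sum_congr rfl fun D _ => ?_
    simp only [hk, hf, lp_rpow_half h1, lp_rpow_half h2, Real.rpow_natCast]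
    ring
  · rw [Finset.mul_sum]
    refine Finset.sum_le_sum fun D hD => ?_
    have hD' := ((lp_mem_D hh).1 hD).1
    have t : ∑' c, k D c ≤ B / ab D := by
      have := lp_tsum_div hD'.ne_zero f fun _ => (1 : ℝ)
      simp only [mul_one] at this
      exact (le_of_eq this).trans (hB D hD')
    have t0 : 0 ≤ ∑' c, k D c := tsum_nonneg (k0 D)
    have b := ab_pos hD'.ne_zero
    refine (mul_le_mul_of_nonneg_left (mul_le_mul t t t0 (t0.trans t))
      (mul_nonneg c0 (N_nonneg D))).trans (le_of_eq ?_)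
    rw [hc1, Real.rpow_neg hκ.le, Real.rpow_neg (N_nonneg h), Real.rpow_natCast,
      Real.rpow_natCast, ← ab_sq D, mul_pow]
    have := N_pos hh
    field_simp

theorem lp_conj_nit (u : ℝ) (c : Eis) : conj (nit (-u) c) = nit u c := by
  rw [nit, nit, ← Complex.exp_conj, map_mul, conj_I, conj_ofReal]
  congr 1; push_cast; ring

theorem lp_E_div (σ u : ℝ) {X : ℝ} (hX : 0 < X) {c d : Eis} (hc : c ≠ 0) (hd : d ≠ 0) :
    lpE σ (X / N (c * d)) u = lpE σ X u * (((N c ^ σ : ℝ) : ℂ) * nit u c) *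
      (((N d ^ σ : ℝ) : ℂ) * nit u d) := by
  have n1 := N_pos hc
  have n2 := N_pos hd
  have e1 : (X / N (c * d)) ^ (-σ) = X ^ (-σ) * N c ^ σ * N d ^ σ := by
    rw [N_mul, Real.div_rpow hX.le (mul_pos n1 n2).le, Real.rpow_neg (mul_pos n1 n2).le,
      Real.mul_rpow n1.le n2.le, div_inv_eq_mul, mul_assoc]
  have e2 : cexp (I * ((-u * Real.log (X / N (c * d)) : ℝ) : ℂ)) =
      cexp (I * ((-u * Real.log X : ℝ) : ℂ)) * nit u c * nit u d := by
    rw [nit, nit, ← Complex.exp_add, ← Complex.exp_add, N_mul,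
      Real.log_div hX.ne' (mul_pos n1 n2).ne', Real.log_mul n1.ne' n2.ne']
    congr 1; push_cast; ring
  rw [lpE, lpE, e1, e2, ofReal_mul, ofReal_mul]; ring

theorem lp_T_near {σ : ℝ} (hσ : 0 < σ) (A j j' : ℕ) {a : Eis → ℂ} (ha : ∀ c, a c ≠ 0 → P0 c)
    (hs : ∀ k : ℕ, Summable (fun c => ‖a c‖ * N c ^ k)) {κ K B : ℝ} (hκ : 0 < κ)
    (hB : ∀ u : ℝ, ∑ h ∈ ball K, ∑ D ∈ lpD h,
      N D * N h ^ (-σ) * ‖∑' c, a (D * c) * Gt j (D * c) *
        ((N (D * c) ^ (σ - 1 / 2) : ℝ) : ℂ) * nit u (D * c) * chi j' h c‖ ^ 2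
          ≤ B * (1 + |u|) ^ A) :
    ‖∑ h ∈ ball K, ∑' p, lpG j j' a κ h p‖ ≤
      (∫ u : ℝ, ‖Gamma (σ + u * I)‖ * (1 + |u|) ^ A) * κ ^ (-σ) * B / (2 * Real.pi) := by
  have a0 : a 0 = 0 := by by_contra x; exact (ha 0 x).ne_zero rfl
  set φ : Eis × Eis → ℝ → ℂ := fun p u => ∑ h ∈ ball K,
    lpA j a p.1 * conj (lpA j a p.2) * lpK j' p.1 p.2 h * lpE σ (κ * N h / N (p.1 * p.2)) u with hφ
  have y0 : ∀ h c : Eis, 0 ≤ κ * N h / N c := fun h c =>
    div_nonneg (mul_nonneg hκ.le (N_nonneg h)) (N_nonneg c)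
  have iφ : ∀ p, Integrable (φ p) := fun p =>
    integrable_finsetSum _ fun h _ => (lp_int_E hσ (y0 _ _)).const_mul _
  have eφ : ∀ p, ∫ u, φ p u = 2 * Real.pi * ∑ h ∈ ball K, lpG j j' a κ h p := fun p => by
    by_cases x : a p.1 = 0
    · simp [hφ, lpG, lpA, x]
    by_cases y : a p.2 = 0
    · simp [hφ, lpG, lpA, y]
    simp only [hφ]
    rw [integral_finsetSum _ fun h _ => (lp_int_E hσ (y0 _ _)).const_mul _, Finset.mul_sum]
    refine Finset.sum_congr rfl fun h hh => ?_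
    rw [integral_const_mul, lp_mellin hσ (div_pos (mul_pos hκ (N_pos (mem_ball.1 hh).1))
      (N_pos (mul_ne_zero (ha _ x).ne_zero (ha _ y).ne_zero))), lpG]
    ring
  have sφ : Summable fun p => ∫ u, ‖φ p u‖ := by
    have s1 := summable_mul_of_summable_norm (lp_sum_rpow ha hs (2 + σ)).norm
      (lp_sum_rpow ha hs σ).norm
    refine (s1.mul_left ((∫ u : ℝ, ‖Gamma (σ + u * I)‖ * (1 + |u|) ^ 0) *
      ∑ h ∈ ball K, 16 * (κ * N h) ^ (-σ))).of_nonneg_of_le
      (fun p => integral_nonneg fun _ => norm_nonneg _) fun p => ?_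
    by_cases x : a p.1 = 0
    · simp [hφ, lpA, x]
    by_cases y : a p.2 = 0
    · simp [hφ, lpA, y]
    have h1 := (ha _ x).ne_zero
    have h2 := (ha _ y).ne_zero
    rw [mul_assoc, ← integral_mul_const]
    refine integral_mono (iφ p).norm ((lp_Gamma_int hσ 0).mul_const _) fun u => ?_
    simp only [hφ, Finset.sum_mul, Finset.mul_sum]
    refine (norm_sum_le _ _).trans (Finset.sum_le_sum fun h hh => ?_)
    have X := mul_pos hκ (N_pos (mem_ball.1 hh).1)
    have n1 := N_pos h1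
    have n2 := N_pos h2
    rw [lp_E_div σ u X h1 h2]
    simp only [norm_mul, Complex.norm_conj, Complex.norm_real, norm_nit, lp_norm_E σ X.le,
      Real.norm_of_nonneg (Real.rpow_nonneg (N_nonneg _) σ)]
    calc _ ≤ ‖a p.1‖ * ‖a p.2‖ * (16 * N p.1 ^ 2) * (‖Gamma (σ + u * I)‖ * (κ * N h) ^ (-σ) *
          (N p.1 ^ σ * 1) * (N p.2 ^ σ * 1)) := by
          gcongr
          · exact lp_norm_A_le j ha _
          · exact lp_norm_A_le j ha _
          · exact lp_norm_K _ _ _ _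
      _ = _ := by rw [Real.rpow_add n1, Real.rpow_two]; ring
  set b : ℝ → Eis → ℂ := fun u c => a c * Gt j c * ((N c ^ (σ - 1 / 2) : ℝ) : ℂ) * nit u c with hb
  have sb : ∀ u, Summable fun c => ‖b u c‖ := fun u =>
    (lp_sum_rpow ha hs (σ - 1 / 2)).congr fun c => by
      by_cases x : a c = 0
      · simp [hb, x]
      · simp only [hb, norm_mul, norm_nit, norm_Gt j (ha c x), Complex.norm_real, mul_one,
          Real.norm_of_nonneg (Real.rpow_nonneg (N_nonneg _) _)]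
  set S : ℝ → Eis → Eis → ℂ := fun u h D => ∑' c, b u (D * c) * chi j' h c with hS
  have tφ : ∀ u, ∑' p, φ p u = ∑ h ∈ ball K, lpE σ (κ * N h) u *
      ∑ D ∈ lpD h, (N D : ℂ) * (S u h D * conj (S (-u) h D)) := fun u => by
    refine HasSum.tsum_eq (hasSum_sum fun h hh => ?_)
    have h0 := (mem_ball.1 hh).1
    have e : (fun p : Eis × Eis => lpA j a p.1 * conj (lpA j a p.2) * lpK j' p.1 p.2 h *
        lpE σ (κ * N h / N (p.1 * p.2)) u) = fun p => lpE σ (κ * N h) u *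
          (b u p.1 * conj (b (-u) p.2) * lpK j' p.1 p.2 h) := by
      funext p
      by_cases x : a p.1 = 0
      · simp [hb, lpA, x]
      by_cases y : a p.2 = 0
      · simp [hb, lpA, y]
      have h1 := (ha _ x).ne_zero
      have h2 := (ha _ y).ne_zero
      rw [lp_E_div σ u (mul_pos hκ (N_pos h0)) h1 h2]
      simp only [hb, lpA, lp_rpow_half h1, lp_rpow_half h2, map_mul, map_div₀, conj_ofReal,
        lp_conj_nit, ofReal_div]
      ring
    rw [e]
    exact (lp_hasSum_K j' h0 (by simp [hb, a0]) (sb u) (sb (-u))).mul_left _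
  have bd : ∀ u, ‖∑' p, φ p u‖ ≤ ‖Gamma (σ + u * I)‖ * (1 + |u|) ^ A * (κ ^ (-σ) * B) := fun u => by
    have h1 : ∑ h ∈ ball K, ∑ D ∈ lpD h, N D * N h ^ (-σ) * ‖S u h D‖ ^ 2 ≤ _ := hB u
    have h2 : ∑ h ∈ ball K, ∑ D ∈ lpD h, N D * N h ^ (-σ) * ‖S (-u) h D‖ ^ 2 ≤ _ := hB (-u)
    rw [abs_neg] at h2
    have g0 : 0 ≤ ‖Gamma (σ + u * I)‖ * κ ^ (-σ) / 2 := by positivity
    have h3 := mul_le_mul_of_nonneg_left (add_le_add h1 h2) g0
    rw [tφ]
    refine le_trans ?_ (h3.trans (le_of_eq (by ring)))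
    rw [← Finset.sum_add_distrib, Finset.mul_sum]
    refine (norm_sum_le _ _).trans (Finset.sum_le_sum fun h hh => ?_)
    rw [norm_mul, lp_norm_E σ (mul_nonneg hκ.le (N_nonneg h)), Real.mul_rpow hκ.le (N_nonneg h),
      ← Finset.sum_add_distrib, Finset.mul_sum]
    have r0 := Real.rpow_nonneg (N_nonneg h) (-σ)
    refine (mul_le_mul_of_nonneg_left (norm_sum_le _ _) (by positivity)).trans ?_
    rw [Finset.mul_sum]
    refine Finset.sum_le_sum fun D _ => ?_
    rw [norm_mul, norm_mul, Complex.norm_conj, Complex.norm_real, Real.norm_of_nonneg (N_nonneg D)]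
    have h4 := mul_le_mul_of_nonneg_left (two_mul_le_add_sq ‖S u h D‖ ‖S (-u) h D‖)
      (mul_nonneg g0 (mul_nonneg (N_nonneg D) r0))
    exact le_trans (le_of_eq (by ring)) (h4.trans (le_of_eq (by ring)))
  have fin := norm_integral_le_of_norm_le ((lp_Gamma_int hσ A).mul_const (κ ^ (-σ) * B))
    (Filter.Eventually.of_forall bd)
  have sG := (lp_summable_G j j' ha hs hκ).prod_symm
  rw [← integral_tsum_of_summable_integral_norm iφ sφ, integral_mul_const] at fin
  simp only [eφ, tsum_mul_left] at fin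
  rw [Summable.tsum_finsetSum (f := fun h p => lpG j j' a κ h p) fun h _ => sG.prod_factor h,
    norm_mul, norm_mul, Complex.norm_real,
    Real.norm_of_nonneg Real.pi_pos.le, Complex.norm_two] at fin
  rw [le_div_iff₀ Real.two_pi_pos]
  linarith

theorem lp_tsum_le {m : Eis → ℝ} {C : ℝ} (m0 : ∀ h, 0 ≤ m h) (mz : m 0 = 0)
    (hm : ∀ K, ∑ h ∈ ball K, m h ≤ C) : Summable m ∧ ∑' h, m h ≤ C := by
  have key : ∀ u : Finset Eis, ∑ h ∈ u, m h ≤ C := fun u => by
    rw [← Finset.sum_erase u mz]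
    refine le_trans (Finset.sum_le_sum_of_subset_of_nonneg (fun h hh => ?_) fun h _ _ => m0 h)
      (hm (∑ h ∈ u, N h))
    obtain ⟨h0, hu⟩ := Finset.mem_erase.1 hh
    exact mem_ball.2 ⟨h0, Finset.single_le_sum (fun c _ => N_nonneg c) hu⟩
  have s := summable_of_sum_le m0 key
  exact ⟨s, s.tsum_le_of_sum_le key⟩

theorem lp_QQ_sum (j : ℕ) (s : Finset Eis) {a : Eis → Eis → ℂ}
    (hs : ∀ i, Summable fun c => ‖a i c‖) (K : ℝ) :
    QQ j (fun c => ∑ i ∈ s, a i c) K ≤ s.card * ∑ i ∈ s, QQ j (a i) K := by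
  simp only [QQ]
  rw [Finset.sum_comm, Finset.mul_sum]
  refine Finset.sum_le_sum fun h hh => ?_
  rw [Finset.sum_comm, Finset.mul_sum]
  refine Finset.sum_le_sum fun D hD => ?_
  have D0 := ((lp_mem_D (mem_ball.1 hh).1).1 hD).1.ne_zero
  have sm : ∀ i, Summable fun c => a i (D * c) * chi j h c := fun i =>
    Summable.of_norm_bounded ((hs i).comp_injective (mul_right_injective₀ D0)) fun c => by
      rw [norm_mul]; exact mul_le_of_le_one_right (norm_nonneg _) (norm_chi_le _ _ _)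
  simp only [Finset.sum_mul]
  rw [Summable.tsum_finsetSum fun i _ => sm i, ← Finset.mul_sum, mul_left_comm]
  refine mul_le_mul_of_nonneg_left ?_ (N_nonneg D)
  exact (pow_le_pow_left₀ (norm_nonneg _) (norm_sum_le _ _) 2).trans sq_sum_le_card_mul_sum_sq

/-- Sum of the weight over the multiples of D. -/
theorem lp_tsum_W {a : Eis → ℂ} (a0 : a 0 = 0) (ha : Bd1 a) {D : Eis} (hD : D ≠ 0) {Y : ℝ}
    (hY : 0 < Y) (t k : ℝ) : ∑' c, ‖a (D * c) * W Y t (D * c)‖ * N (D * c) ^ k ≤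
      N D ^ k * ∑' c : Eis, (if c = 0 then 0 else N c ^ k * w (N c / (Y / N D))) := by
  have n := N_pos hD
  have s1 : Summable fun c : Eis => if c = 0 then 0 else N c ^ k * w (N c / (Y / N D)) :=
    (summable_w k (div_pos hY n)).of_nonneg_of_le
      (fun c => by
        split_ifs; exacts [le_rfl, mul_nonneg (Real.rpow_nonneg (N_nonneg c) _) (w_pos _).le])
      fun c => by
        split_ifs; exacts [mul_nonneg (Real.rpow_nonneg (N_nonneg c) _) (w_pos _).le, le_rfl]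
  have key : ∀ c, ‖a (D * c) * W Y t (D * c)‖ * N (D * c) ^ k ≤
      N D ^ k * if c = 0 then 0 else N c ^ k * w (N c / (Y / N D)) := fun c => by
    split_ifs with x
    · simp [x, a0]
    · rw [norm_mul, norm_W, N_mul, Real.mul_rpow n.le (N_nonneg c), div_div_eq_mul_div,
        mul_comm (N c) (N D)]
      have h1 := mul_le_of_le_one_left (w_pos (N D * N c / Y)).le (ha (D * c))
      refine (mul_le_mul_of_nonneg_right h1 (mul_nonneg (Real.rpow_nonneg n.le _)
        (Real.rpow_nonneg (N_nonneg c) _))).trans (le_of_eq (by ring))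
  rw [← tsum_mul_left]
  exact ((s1.mul_left _).of_nonneg_of_le (fun c => mul_nonneg (norm_nonneg _)
    (Real.rpow_nonneg (N_nonneg _) _)) key).tsum_le_tsum key (s1.mul_left _)

end Vale.Agent.P026
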