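import Vale.Agent.P026.MelA
import Vale.Agent.P026.Kap

/-! The kernel inverting the Mellin transform of kap. -/

namespace Vale.Agent.P026

open Eis Complex MeasureTheory Filter Topology Set
open scoped ComplexConjugate

noncomputable section

/-- Mellin transform of kap at 2 u. -/
def melG (u : ℂ) : ℂ :=
  (c0 : ℂ) ^ (-(2 * u) - 2 / 3) / 2 * Gamma (u + 1 / 3) * Gamma (u + 2 / 3)

/-- Mellin transform of the weight. -/
def melE (Y t : ℝ) (u : ℂ) : ℂ :=
  cexp ((u + t * I) ^ 2 / 4 + (u + t * I) * Real.log Y) / (2 * (√Real.pi : ℝ))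

/-- The quotient. -/
def melg (Y t : ℝ) (u : ℂ) : ℂ := melE Y t u * (melG u)⁻¹

/-- Inverse Mellin transform along a vertical line. -/
def melK (p : ℝ → ℂ) (σ v : ℝ) : ℂ := ∫ τ : ℝ, p τ * (v : ℂ) ^ (2 * (σ + τ * I))

/-- Gaussian majorant. -/
def melJ (A : ℕ) (x : ℝ) : ℝ := Real.exp (-x ^ 2 / 4) * (1 + |x|) ^ A

end

theorem melG_inv (u : ℂ) : (melG u)⁻¹ =
    2 * (c0 : ℂ) ^ (2 * u + 2 / 3) * (Gamma (u + 1 / 3))⁻¹ * (Gamma (u + 2 / 3))⁻¹ := by
  rw [melG, show -(2 * u) - 2 / 3 = -(2 * u + 2 / 3) by ring, cpow_neg, mul_inv, mul_inv, inv_div,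
    div_inv_eq_mul]

theorem melG_inv_diff : Differentiable ℂ fun u => (melG u)⁻¹ := by
  simp only [melG_inv]
  have h0 : (c0 : ℂ) ≠ 0 := ofReal_ne_zero.2 c0_pos.ne'
  have h1 : Differentiable ℂ fun u : ℂ => (c0 : ℂ) ^ (2 * u + 2 / 3) :=
    Differentiable.const_cpow (by fun_prop) (Or.inl h0)
  have h2 : ∀ a : ℂ, Differentiable ℂ fun u : ℂ => (Gamma (u + a))⁻¹ := fun a =>
    differentiable_one_div_Gamma.comp (differentiable_id.add_const a)
  exact ((h1.const_mul 2).mul (h2 _)).mul (h2 _)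

theorem melG_meas : Measurable melG := by
  have e : melG = (fun u => (melG u)⁻¹)⁻¹ := by
    funext u
    simp
  rw [e]
  exact melG_inv_diff.continuous.measurable.inv

theorem melG_ne {u : ℂ} (hu : 0 < u.re) : melG u ≠ 0 := by
  have h0 : (c0 : ℂ) ≠ 0 := ofReal_ne_zero.2 c0_pos.ne'
  refine mul_ne_zero (mul_ne_zero (div_ne_zero ?_ two_ne_zero) (Gamma_ne_zero_of_re_pos ?_))
    (Gamma_ne_zero_of_re_pos ?_)
  · rw [Ne, cpow_eq_zero_iff]
    exact fun h => h0 h.1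
  · simp only [add_re]
    norm_num
    linarith
  · simp only [add_re]
    norm_num
    linarith

theorem melg_diff (Y t : ℝ) : Differentiable ℂ (melg Y t) := by
  refine Differentiable.mul ?_ melG_inv_diff
  unfold melE
  fun_prop

theorem norm_melE (Y t σ τ : ℝ) : ‖melE Y t (σ + τ * I)‖ =
    Real.exp (σ ^ 2 / 4 + σ * Real.log Y) / (2 * √Real.pi) * Real.exp (-(τ + t) ^ 2 / 4) := by
  have e : ((σ : ℂ) + τ * I + t * I) ^ 2 / 4 + (σ + τ * I + t * I) * Real.log Y =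
      ((σ ^ 2 / 4 + σ * Real.log Y + -(τ + t) ^ 2 / 4 : ℝ) : ℂ) +
        (((τ + t) * (σ / 2 + Real.log Y) : ℝ) : ℂ) * I := by
    push_cast
    linear_combination ((τ : ℂ) + t) ^ 2 / 4 * I_sq
  rw [melE, e, norm_div, norm_exp, norm_mul, norm_real, Real.norm_eq_abs,
    abs_of_nonneg (Real.sqrt_nonneg _)]
  simp only [add_re, ofReal_re, mul_re, I_re, mul_zero, ofReal_im, I_im, mul_one, sub_self,
    add_zero, Complex.norm_ofNat]
  rw [Real.exp_add]
  ring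

theorem melg_bound (Y t a b : ℝ) {v : ℝ} (hv : 0 < v) : ∃ C : ℝ, ∀ σ ∈ Icc a b, ∀ τ : ℝ,
    ‖melg Y t (σ + τ * I) * (v : ℂ) ^ (2 * (σ + τ * I))‖ ≤ C * Real.exp (-(1 / 8) * τ ^ 2) := by
  obtain ⟨C, hC0, hC⟩ := melA_inv_Gamma (|a| + |b| + 1)
  have hc : Continuous fun σ : ℝ => Real.exp (σ ^ 2 / 4 + σ * Real.log Y) / (2 * √Real.pi) *
      (2 * c0 ^ (2 * σ + 2 / 3)) * v ^ (2 * σ) := by
    have h1 := Real.continuous_const_rpow c0_pos.ne'
    have h2 := Real.continuous_const_rpow hv.ne'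
    fun_prop
  obtain ⟨D, hD⟩ := (isCompact_Icc (a := a) (b := b)).exists_bound_of_continuousOn hc.continuousOn
  refine ⟨D * (C * C) * Real.exp (2 * (|t| / 2 + 2 * Real.pi) ^ 2), fun σ hσ τ => ?_⟩
  have hσ' : |σ| ≤ |a| + |b| := by
    rw [abs_le]
    constructor <;> linarith [hσ.1, hσ.2, neg_abs_le a, le_abs_self b, abs_nonneg a, abs_nonneg b]
  have hG : ∀ c : ℝ, |c| ≤ 1 → ‖(Gamma (σ + τ * I + c))⁻¹‖ ≤ C * Real.exp (Real.pi * |τ|) := by
    intro c hc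
    have := hC (σ + τ * I + c) (by
      simp only [add_re, ofReal_re, mul_re, I_re, mul_zero, ofReal_im, I_im, mul_one, sub_self,
        add_zero]
      exact (abs_add_le _ _).trans (by linarith))
    simpa using this
  have h1 := hG (1 / 3) (by norm_num [abs_of_pos])
  have h2 := hG (2 / 3) (by norm_num [abs_of_pos])
  push_cast at h1 h2
  have h3 := (le_abs_self _).trans (hD σ hσ)
  have h4 : Real.exp (-(τ + t) ^ 2 / 4) * (Real.exp (Real.pi * |τ|) * Real.exp (Real.pi * |τ|)) ≤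
      Real.exp (2 * (|t| / 2 + 2 * Real.pi) ^ 2) * Real.exp (-(1 / 8) * τ ^ 2) := by
    rw [← Real.exp_add, ← Real.exp_add, ← Real.exp_add, Real.exp_le_exp]
    have h5 : -(τ * t) ≤ |τ| * |t| := by rw [← abs_mul]; exact neg_le_abs _
    nlinarith [sq_nonneg (|τ| - 4 * (|t| / 2 + 2 * Real.pi)), sq_abs τ, sq_nonneg t]
  have hc0 := c0_pos
  rw [melg, melG_inv, norm_mul, norm_mul, norm_mul, norm_mul, norm_mul, norm_melE,
    norm_cpow_eq_rpow_re_of_pos hv, norm_cpow_eq_rpow_re_of_pos c0_pos]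
  have e1 : (2 * ((σ : ℂ) + τ * I)).re = 2 * σ := by simp
  have e2 : (2 * ((σ : ℂ) + τ * I) + 2 / 3).re = 2 * σ + 2 / 3 := by
    rw [add_re, e1]
    norm_num
  rw [e1, e2, Complex.norm_ofNat]
  calc _ = (Real.exp (σ ^ 2 / 4 + σ * Real.log Y) / (2 * √Real.pi) *
        (2 * c0 ^ (2 * σ + 2 / 3)) * v ^ (2 * σ)) * (Real.exp (-(τ + t) ^ 2 / 4) *
        (‖(Gamma (σ + τ * I + 1 / 3))⁻¹‖ * ‖(Gamma (σ + τ * I + 2 / 3))⁻¹‖)) := by ring
    _ ≤ D * (Real.exp (-(τ + t) ^ 2 / 4) *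
        (C * Real.exp (Real.pi * |τ|) * (C * Real.exp (Real.pi * |τ|)))) := by
        gcongr
        exact le_trans (by positivity) h3
    _ = D * (C * C) * (Real.exp (-(τ + t) ^ 2 / 4) *
        (Real.exp (Real.pi * |τ|) * Real.exp (Real.pi * |τ|))) := by ring
    _ ≤ D * (C * C) * (Real.exp (2 * (|t| / 2 + 2 * Real.pi) ^ 2) *
        Real.exp (-(1 / 8) * τ ^ 2)) := by
        have : 0 ≤ D := le_trans (by positivity) h3
        gcongr
    _ = _ := by ring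

theorem melg_int (Y t σ : ℝ) : Integrable fun τ : ℝ => melg Y t (σ + τ * I) := by
  obtain ⟨C, hC⟩ := melg_bound Y t σ σ one_pos
  refine melA_int_line (C := C) (melg_diff Y t).continuous fun τ => ?_
  simpa using hC σ ⟨le_rfl, le_rfl⟩ τ

theorem melK_shift (Y t : ℝ) {σ v : ℝ} (hσ : σ ≤ 2) (hv : 0 < v) :
    melK (fun τ => melg Y t (σ + τ * I)) σ v = melK (fun τ => melg Y t ((2 : ℝ) + τ * I)) 2 v := by
  obtain ⟨C, hC⟩ := melg_bound Y t σ 2 hv
  have h1 : Differentiable ℂ fun u : ℂ => (v : ℂ) ^ (2 * u) :=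
    Differentiable.const_cpow (by fun_prop) (Or.inl (ofReal_ne_zero.2 hv.ne'))
  exact melA_shift ((melg_diff Y t).mul h1) hσ hC

theorem melK_fub {p : ℝ → ℂ} (hp : Integrable p) (σ : ℝ) {h : ℝ → ℂ}
    (hh : MellinConvergent h (2 * σ)) :
    IntegrableOn (fun v : ℝ => melK p σ v * ((v : ℂ)⁻¹ * h v)) (Ioi 0) ∧
    ∫ v in Ioi (0 : ℝ), ‖melK p σ v * ((v : ℂ)⁻¹ * h v)‖ ≤
      (∫ τ, ‖p τ‖) * ∫ v in Ioi (0 : ℝ), ‖(v : ℂ) ^ (2 * (σ : ℂ) - 1) • h v‖ ∧
    ∫ v in Ioi (0 : ℝ), melK p σ v * ((v : ℂ)⁻¹ * h v) =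
      ∫ τ : ℝ, p τ * mellin h (2 * (σ + τ * I)) := by
  let F : ℝ → ℝ → ℂ := fun v τ => cexp ((Real.log v * (2 * τ) : ℝ) * I) *
    ((v : ℂ) ^ (2 * (σ : ℂ) - 1) • h v * p τ)
  have hF : Integrable (Function.uncurry F) ((volume.restrict (Ioi (0 : ℝ))).prod volume) := by
    refine Integrable.bdd_mul (c := 1) (Integrable.mul_prod hh hp) ?_
      (Eventually.of_forall fun x => (norm_exp_ofReal_mul_I _).le)
    exact Measurable.aestronglyMeasurable (by fun_prop)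
  have e0 : ∀ v ∈ Ioi (0 : ℝ), ∀ τ : ℝ, F v τ = p τ * ((v : ℂ) ^ (2 * (σ + τ * I) - 1) • h v) := by
    intro v hv τ
    have h0 : (v : ℂ) ≠ 0 := ofReal_ne_zero.2 (ne_of_gt hv)
    have : (v : ℂ) ^ (2 * (σ + τ * I) - 1) = cexp ((Real.log v * (2 * τ) : ℝ) * I) *
        (v : ℂ) ^ (2 * (σ : ℂ) - 1) := by
      rw [cpow_def_of_ne_zero h0, cpow_def_of_ne_zero h0, ← exp_add, ← ofReal_log (le_of_lt hv)]
      congr 1
      push_cast
      ring
    simp only [F, this, smul_eq_mul]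
    ring
  have e1 : ∀ v ∈ Ioi (0 : ℝ), melK p σ v * ((v : ℂ)⁻¹ * h v) = ∫ τ, F v τ := by
    intro v hv
    have h0 : (v : ℂ) ≠ 0 := ofReal_ne_zero.2 (ne_of_gt hv)
    rw [melK, ← integral_mul_const]
    refine integral_congr_ae (Eventually.of_forall fun τ => ?_)
    simp only [e0 v hv, cpow_sub _ _ h0, cpow_one, smul_eq_mul]
    ring
  refine ⟨(integrableOn_congr_fun e1 measurableSet_Ioi).2 hF.integral_prod_left, ?_, ?_⟩
  · rw [← integral_const_mul]
    refine integral_mono_of_nonneg (Eventually.of_forall fun v => norm_nonneg _)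
      (hh.norm.const_mul _) ?_
    filter_upwards [ae_restrict_mem measurableSet_Ioi] with v hv
    rw [e1 v hv, ← integral_mul_const]
    refine (norm_integral_le_integral_norm _).trans (le_of_eq ?_)
    refine integral_congr_ae (Eventually.of_forall fun τ => ?_)
    simp only [F, norm_mul, norm_exp_ofReal_mul_I]
    ring
  · rw [setIntegral_congr_fun measurableSet_Ioi e1, integral_integral_swap hF]
    refine integral_congr_ae (Eventually.of_forall fun τ => ?_)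
    simp only [mellin]
    rw [← integral_const_mul]
    exact setIntegral_congr_fun measurableSet_Ioi fun v hv => e0 v hv τ

theorem melK_sum {p : ℝ → ℂ} (hp : Integrable p) (σ : ℝ) {h : Eis → ℝ → ℂ}
    (hh : ∀ r, MellinConvergent (h r) (2 * σ))
    (hs : Summable fun r => ∫ v in Ioi (0 : ℝ), ‖(v : ℂ) ^ (2 * (σ : ℂ) - 1) • h r v‖) :
    HasSum (fun r => ∫ v in Ioi (0 : ℝ), melK p σ v * ((v : ℂ)⁻¹ * h r v))
      (∫ v in Ioi (0 : ℝ), melK p σ v * ((v : ℂ)⁻¹ * ∑' r, h r v)) := by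
  have := hasSum_integral_of_summable_integral_norm (μ := volume.restrict (Ioi (0 : ℝ)))
    (fun r => (melK_fub hp σ (hh r)).1)
    (Summable.of_nonneg_of_le (fun r => integral_nonneg fun v => norm_nonneg _)
      (fun r => (melK_fub hp σ (hh r)).2.1) (hs.mul_left _))
  simpa only [tsum_mul_left] using this

theorem melB_norm_int {F : ℝ → ℂ} (h : ∀ v ∈ Ioi (0 : ℝ), ∃ x : ℝ, 0 ≤ x ∧ F v = x) :
    ∫ v in Ioi (0 : ℝ), ‖F v‖ = ‖∫ v in Ioi (0 : ℝ), F v‖ := by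
  have e : ∫ v in Ioi (0 : ℝ), F v = ((∫ v in Ioi (0 : ℝ), ‖F v‖ : ℝ) : ℂ) := by
    rw [← integral_complex_ofReal]
    refine setIntegral_congr_fun measurableSet_Ioi fun v hv => ?_
    obtain ⟨x, hx, e⟩ := h v hv
    simp only [e, norm_real, Real.norm_eq_abs, abs_of_nonneg hx]
  rw [e, norm_real, Real.norm_eq_abs, abs_of_nonneg (integral_nonneg fun v => norm_nonneg _)]

theorem melB_hasA {y : ℝ} (hy : 0 < y) {u : ℂ} (hu : 0 < u.re) :
    HasMellin (fun v : ℝ => (kap (y * v) : ℂ)) (2 * u) ((y : ℂ) ^ (-(2 * u)) * melG u) := by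
  have h := mellin_kap hu
  refine ⟨(MellinConvergent.comp_mul_left (f := fun v : ℝ => (kap v : ℂ)) hy).2 h.1, ?_⟩
  rw [mellin_comp_mul_left (fun v : ℝ => (kap v : ℂ)) _ hy, h.2]
  rfl

theorem melB_hasB {y : ℝ} (hy : 0 < y) {u : ℂ} (hu : u.re < 1) :
    HasMellin (fun v : ℝ => (v : ℂ) ^ (-2 : ℂ) • (kap (y * v⁻¹) : ℂ)) (2 * u)
      ((y : ℂ) ^ (2 * u - 2) * melG (1 - u)) := by
  have h := melB_hasA hy (u := 1 - u) (by simp; linarith)
  constructor
  · rw [MellinConvergent.cpow_smul]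
    have := (MellinConvergent.comp_rpow (f := fun v : ℝ => (kap (y * v) : ℂ))
      (s := 2 * u + -2) (a := -1) (by norm_num)).2 (by
        rw [show (2 * u + -2) / ((-1 : ℝ) : ℂ) = 2 * (1 - u) by push_cast; ring]
        exact h.1)
    simpa only [Real.rpow_neg_one] using this
  · rw [mellin_cpow_smul, mellin_comp_inv (fun v : ℝ => (kap (y * v) : ℂ)),
      show -(2 * u + -2) = 2 * (1 - u) by ring, h.2, show -(2 * (1 - u)) = 2 * u - 2 by ring]

theorem melJ_nonneg (A : ℕ) (x : ℝ) : 0 ≤ melJ A x := by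
  unfold melJ
  positivity

theorem melJ_int (A : ℕ) : Integrable (melJ A) := by
  refine (melA_int_gauss (Real.exp (2 * (A : ℝ) ^ 2))).mono' ?_ (Eventually.of_forall fun x => ?_)
  · refine Continuous.aestronglyMeasurable ?_
    unfold melJ
    fun_prop
  · rw [Real.norm_eq_abs, abs_of_nonneg (melJ_nonneg A x), melJ]
    have h1 : (1 + |x|) ^ A ≤ Real.exp |x| ^ A := by
      gcongr
      linarith [Real.add_one_le_exp |x|]
    refine (mul_le_mul_of_nonneg_left h1 (Real.exp_pos _).le).trans ?_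
    rw [← Real.exp_nat_mul, ← Real.exp_add, ← Real.exp_add, Real.exp_le_exp]
    nlinarith [sq_nonneg (|x| - 4 * A), sq_abs x]

theorem melJ_le (A : ℕ) (τ t : ℝ) :
    Real.exp (-(τ + t) ^ 2 / 4) * (1 + |τ|) ^ A ≤ (1 + |t|) ^ A * melJ A (τ + t) := by
  have h1 : 1 + |τ| ≤ (1 + |t|) * (1 + |τ + t|) := by
    have : |τ| ≤ |τ + t| + |t| := by simpa using abs_sub (τ + t) t
    nlinarith [abs_nonneg t, abs_nonneg (τ + t)]
  rw [melJ, mul_left_comm, ← mul_pow]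
  gcongr

end Vale.Agent.P026
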