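import Vale.Agent.P026.MelC

/-! Partition of unity and the three ranges of the dual sum. -/

namespace Vale.Agent.P026

open Eis Complex MeasureTheory Filter Topology Set
open scoped ComplexConjugate

noncomputable section

/-- Shifted Gaussian. -/
def melQ (k z : ℝ) : ℝ := Real.exp (k * z - z ^ 2)

/-- Its integral. -/
def melI (k : ℝ) : ℝ := ∫ z, melQ k z

/-- The piece of the partition of unity attached to S. -/
def melO (S : Set ℝ) (L : ℝ) : ℝ := ∫ ρ in S, melQ (1 / 2) (L - ρ)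

end

theorem melQ_pos (k z : ℝ) : 0 < melQ k z := Real.exp_pos _

theorem melQ_int (k : ℝ) : Integrable (melQ k) := by
  refine (melA_int_gauss (Real.exp (k ^ 2))).mono' ?_ (Eventually.of_forall fun x => ?_)
  · refine Continuous.aestronglyMeasurable ?_
    unfold melQ
    fun_prop
  · rw [Real.norm_eq_abs, abs_of_pos (melQ_pos k x), melQ, ← Real.exp_add, Real.exp_le_exp]
    nlinarith [sq_nonneg (x - 2 * k), sq_nonneg x]

theorem melI_pos (k : ℝ) : 0 < melI k := integral_exp_pos (melQ_int k)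

theorem melO_nonneg (S : Set ℝ) (L : ℝ) : 0 ≤ melO S L :=
  integral_nonneg fun _ => (melQ_pos _ _).le

theorem melO_le (k l : ℝ) {S : Set ℝ} (hS : MeasurableSet S) (h : ∀ ρ ∈ S, 0 ≤ k * (ρ - l))
    (L : ℝ) : melO S L ≤ Real.exp (k * (L - l)) * melI (1 / 2 - k) := by
  have hi := ((melQ_int (1 / 2 - k)).comp_sub_left L).const_mul (Real.exp (k * (L - l)))
  rw [melI, ← integral_sub_left_eq_self _ _ L, ← integral_const_mul]
  refine le_trans (setIntegral_mono_on ((melQ_int _).comp_sub_left L).integrableOn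
    hi.integrableOn hS fun ρ hρ => ?_) (setIntegral_le_integral hi
      (Eventually.of_forall fun ρ => (mul_pos (Real.exp_pos _) (melQ_pos _ _)).le))
  rw [melQ, melQ, ← Real.exp_add, Real.exp_le_exp]
  nlinarith [h ρ hρ]

theorem melO_le_I {S : Set ℝ} (hS : MeasurableSet S) (L : ℝ) : melO S L ≤ melI (1 / 2) := by
  simpa using melO_le 0 0 hS (fun _ _ => by simp) L

theorem melO_add {l : ℝ} (hl : 0 ≤ l) (L : ℝ) :
    melO (Iic 0) L + melO (Ioc 0 l) L + melO (Ioi l) L = melI (1 / 2) := by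
  have hi := (melQ_int (1 / 2)).comp_sub_left L
  rw [melI, ← integral_sub_left_eq_self _ _ L, melO, melO, melO, add_assoc,
    ← setIntegral_union (Ioc_disjoint_Ioi le_rfl) measurableSet_Ioi hi.integrableOn
      hi.integrableOn, Ioc_union_Ioi_eq_Ioi hl,
    intervalIntegral.integral_Iic_add_Ioi hi.integrableOn hi.integrableOn]

theorem melD_exp (k : ℝ) {x R : ℝ} (hx : 0 < x) (hR : 0 < R) :
    Real.exp (k * (Real.log x - Real.log R)) = x ^ k * R ^ (-k) := by
  rw [Real.rpow_def_of_pos hx, Real.rpow_def_of_pos hR, ← Real.exp_add]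
  congr 1
  ring

theorem melD_low : ∃ C : ℝ, 0 < C ∧ ∀ (β : Eis → ℂ) (D : ℝ), 0 ≤ D → β 0 = 0 →
    (∀ r, r ≠ 0 → ‖β r‖ ≤ D) → ‖∑' r, β r * melO (Iic 0) (Real.log (N r))‖ ≤ C * D := by
  have hs := summable_N_rpow (s := 2) (by norm_num)
  have h0 : 0 ≤ ∑' c : Eis, N c ^ (-2 : ℝ) :=
    tsum_nonneg fun c => Real.rpow_nonneg (N_nonneg c) _
  have hI := melI_pos (1 / 2 - -2)
  refine ⟨melI (1 / 2 - -2) * (∑' c : Eis, N c ^ (-2 : ℝ) + 1), by positivity,
    fun β D hD hβ hb => ?_⟩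
  refine (tsum_of_norm_bounded (hs.hasSum.mul_left (D * melI (1 / 2 - -2))) fun r => ?_).trans ?_
  · by_cases hr : r = 0
    · simp [hr, hβ]
    have h1 := melO_le (-2) (Real.log 1) measurableSet_Iic (fun ρ (hρ : ρ ≤ 0) => by
      rw [Real.log_one]; linarith) (Real.log (N r))
    rw [melD_exp _ (N_pos hr) one_pos, Real.one_rpow, mul_one] at h1
    rw [norm_mul, norm_real, Real.norm_eq_abs, abs_of_nonneg (melO_nonneg _ _), mul_assoc,
      mul_comm (melI _)]
    exact mul_le_mul (hb r hr) h1 (melO_nonneg _ _) hD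
  · nlinarith [mul_nonneg hD hI.le]

theorem melD_high {n : ℕ} (hn : 2 ≤ n) : ∃ C : ℝ, 0 < C ∧ ∀ (β : Eis → ℂ) (D R : ℝ), 0 ≤ D →
    1 ≤ R → β 0 = 0 → (∀ r, r ≠ 0 → ‖β r‖ ≤ D * N r ^ (-n : ℝ)) →
    ‖∑' r, β r * melO (Ioi (Real.log R)) (Real.log (N r))‖ ≤ C * D * (R * R⁻¹ ^ n) := by
  classical
  have hn1 : (1 : ℝ) < n := by exact_mod_cast hn
  obtain ⟨C, hC, ht⟩ := tail_N_rpow hn1
  have hI := melI_pos (1 / 2)
  have hI' := melI_pos (1 / 2 - n)
  refine ⟨melI (1 / 2) * C + melI (1 / 2 - n) * 16, by positivity, fun β D R hD hR hβ hb => ?_⟩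
  have hR0 : 0 < R := by linarith
  have hs : Summable fun c : Eis => if R < N c then N c ^ (-n : ℝ) else 0 := by
    refine Summable.of_nonneg_of_le (fun c => ?_) (fun c => ?_) (summable_N_rpow hn1)
    · split_ifs
      exacts [Real.rpow_nonneg (N_nonneg c) _, le_rfl]
    · split_ifs
      exacts [le_rfl, Real.rpow_nonneg (N_nonneg c) _]
  have hf : HasSum (fun c : Eis => if c ∈ ball R then R ^ (-n : ℝ) else 0)
      ((ball R).card * R ^ (-n : ℝ)) := by
    have := hasSum_sum_of_ne_finset_zero (L := SummationFilter.unconditional Eis)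
      (f := fun c : Eis => if c ∈ ball R then R ^ (-n : ℝ) else 0) (s := ball R)
      (fun c hc => if_neg hc)
    rwa [Finset.sum_congr rfl fun c hc => if_pos hc, Finset.sum_const, nsmul_eq_mul] at this
  have hRn : 0 < R ^ (-n : ℝ) := Real.rpow_pos_of_pos hR0 _
  refine (tsum_of_norm_bounded ((hs.hasSum.mul_left (D * melI (1 / 2))).add
    (hf.mul_left (D * melI (1 / 2 - n)))) fun r => ?_).trans ?_
  · by_cases hr : r = 0
    · have : ¬R < 0 := by linarith
      simp [hr, hβ, mem_ball, this]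
    have hN := N_pos hr
    have hNn : 0 < N r ^ (-n : ℝ) := Real.rpow_pos_of_pos hN _
    rw [norm_mul, norm_real, Real.norm_eq_abs, abs_of_nonneg (melO_nonneg _ _)]
    by_cases h : R < N r
    · have h1 : r ∉ ball R := fun hc => by linarith [(mem_ball.1 hc).2]
      rw [if_pos h, if_neg h1, mul_zero, add_zero, mul_right_comm]
      exact mul_le_mul (hb r hr) (melO_le_I measurableSet_Ioi _) (melO_nonneg _ _) (by positivity)
    · have h1 : r ∈ ball R := mem_ball.2 ⟨hr, not_lt.1 h⟩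
      have h2 := melO_le n (Real.log R) measurableSet_Ioi (fun ρ (hρ : Real.log R < ρ) =>
        mul_nonneg (by positivity) (by linarith)) (Real.log (N r))
      rw [melD_exp _ hN hR0] at h2
      rw [if_neg h, if_pos h1, mul_zero, zero_add]
      refine (mul_le_mul (hb r hr) h2 (melO_nonneg _ _) (by positivity)).trans (le_of_eq ?_)
      rw [Real.rpow_neg hN.le]
      have : N r ^ (n : ℝ) ≠ 0 := (Real.rpow_pos_of_pos hN _).ne'
      field_simp
  · have h1 := ht R hR0
    have h2 := card_ball_le hR0.le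
    have e1 : R ^ (-n : ℝ) = R⁻¹ ^ n := by
      rw [Real.rpow_neg hR0.le, Real.rpow_natCast, inv_pow]
    have e2 : R ^ (1 - n : ℝ) = R * R⁻¹ ^ n := by
      rw [sub_eq_add_neg, Real.rpow_add hR0, Real.rpow_one, e1]
    rw [e2] at h1
    rw [e1]
    calc _ ≤ D * melI (1 / 2) * (C * (R * R⁻¹ ^ n)) +
          D * melI (1 / 2 - n) * (16 * R * R⁻¹ ^ n) := by gcongr
      _ = _ := by ring

/-- Minkowski inequality for integrals. -/
theorem melD_mink {X ι : Type*} [MeasurableSpace X] {μ : Measure X} (J : Finset ι)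
    (f : ι → X → ℂ) (hf : ∀ j ∈ J, AEStronglyMeasurable (f j) μ) {g : X → ℝ}
    (hg : Integrable g μ) (hg0 : ∀ x, 0 ≤ g x) {D : ℝ} (hD : 0 ≤ D)
    (hb : ∀ᵐ x ∂μ, ∑ j ∈ J, ‖f j x‖ ^ 2 ≤ D * g x ^ 2) :
    ∑ j ∈ J, ‖∫ x, f j x ∂μ‖ ^ 2 ≤ D * (∫ x, g x ∂μ) ^ 2 := by
  have hb' : ∀ᵐ x ∂μ, √(∑ j ∈ J, ‖f j x‖ ^ 2) ≤ √D * g x := by
    filter_upwards [hb] with x hx
    refine Real.sqrt_le_iff.2 ⟨mul_nonneg (Real.sqrt_nonneg _) (hg0 x), ?_⟩
    rwa [mul_pow, Real.sq_sqrt hD]
  have hi : ∀ j ∈ J, Integrable (f j) μ := fun j hj => by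
    refine (hg.const_mul √D).mono' (hf j hj) ?_
    filter_upwards [hb'] with x hx
    refine le_trans (Real.le_sqrt_of_sq_le ?_) hx
    exact Finset.single_le_sum (f := fun j => ‖f j x‖ ^ 2) (fun _ _ => sq_nonneg _) hj
  set M := ∑ j ∈ J, ‖∫ x, f j x ∂μ‖ ^ 2 with hM
  have hM0 : 0 ≤ M := Finset.sum_nonneg fun _ _ => sq_nonneg _
  have hG : 0 ≤ ∫ x, g x ∂μ := integral_nonneg hg0
  have e : (M : ℂ) = ∫ x, ∑ j ∈ J, conj (∫ y, f j y ∂μ) * f j x ∂μ := by
    rw [integral_finsetSum _ fun j hj => (hi j hj).const_mul _, hM]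
    push_cast
    refine Finset.sum_congr rfl fun j _ => ?_
    rw [integral_const_mul, conj_mul']
  have h1 : M ≤ √M * (√D * ∫ x, g x ∂μ) := by
    have h2 := norm_integral_le_of_norm_le ((hg.const_mul √D).const_mul √M)
      (f := fun x => ∑ j ∈ J, conj (∫ y, f j y ∂μ) * f j x) (by
        filter_upwards [hb'] with x hx
        refine (norm_sum_le _ _).trans ?_
        simp only [norm_mul, Complex.norm_conj]
        exact (Real.sum_mul_le_sqrt_mul_sqrt J _ _).trans
          (mul_le_mul_of_nonneg_left hx (Real.sqrt_nonneg _)))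
    rwa [← e, norm_real, Real.norm_eq_abs, abs_of_nonneg hM0, integral_const_mul,
      integral_const_mul] at h2
  have h3 : √M ≤ √D * ∫ x, g x ∂μ := by
    rcases (Real.sqrt_nonneg M).eq_or_lt with h | h
    · rw [← h]
      positivity
    · refine le_of_mul_le_mul_left ?_ h
      rwa [Real.mul_self_sqrt hM0]
  have h4 := pow_le_pow_left₀ (Real.sqrt_nonneg _) h3 2
  rwa [Real.sq_sqrt hM0, mul_pow, Real.sq_sqrt hD] at h4

end Vale.Agent.P026
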