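import Vale.Agent.P026.MelD

/-! The main range of the dual sum. -/

namespace Vale.Agent.P026

open Eis Complex MeasureTheory Filter Topology Set
open scoped ComplexConjugate

noncomputable section

/-- One term of the integrand, as a function of the height. -/
def melT (Y t Q : ℝ) (b : Eis → ℂ) (r : Eis) (τ : ℝ) : ℂ :=
  b r * ((Q : ℂ)⁻¹ * (melP Y t ((1 / 2 : ℝ) + τ * I) *
    ((ab r / Q : ℝ) : ℂ) ^ (2 * (((1 / 2 : ℝ) : ℂ) + τ * I) - 2)))

/-- The integrand of the main range. -/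
def melF (Y t Q : ℝ) (b : Eis → ℂ) (x : ℝ × ℝ) : ℂ :=
  ∑' r, ((melQ (1 / 2) (Real.log (N r) - x.1) : ℝ) : ℂ) * melT Y t Q b r x.2

end

theorem melP_half : ∃ C : ℝ, 0 < C ∧ ∀ Y t τ : ℝ, 0 < Y →
    ‖melP Y t ((1 / 2 : ℝ) + τ * I)‖ ≤ C * √Y * Real.exp (-(τ + t) ^ 2 / 4) := by
  obtain ⟨C, hC, h⟩ := melP_bound 0
  refine ⟨C, hC, fun Y t τ hY => ?_⟩
  simpa only [Nat.cast_zero, sub_zero, pow_zero, mul_one, mul_zero] using h Y t τ hY

theorem melP_int {Y : ℝ} (hY : 0 < Y) (t : ℝ) :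
    Integrable fun τ : ℝ => melP Y t ((1 / 2 : ℝ) + τ * I) := by
  obtain ⟨C, -, h⟩ := melP_half
  refine (((melJ_int 0).comp_add_right t).const_mul (C * √Y)).mono'
    (melP_meas Y t _).aestronglyMeasurable (Eventually.of_forall fun τ => ?_)
  simpa [melJ] using h Y t τ hY

theorem melT_norm (Y t : ℝ) {Q B : ℝ} (hQ : 0 < Q) {b : Eis → ℂ} {r : Eis} (hr : r ≠ 0)
    (hb : ‖b r‖ ≤ B * ab r) (τ : ℝ) :
    ‖melT Y t Q b r τ‖ ≤ B * ‖melP Y t ((1 / 2 : ℝ) + τ * I)‖ := by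
  have hy := ab_pos hr
  have e : (2 * (((1 / 2 : ℝ) : ℂ) + τ * I) - 2).re = -1 := by
    simp
    norm_num
  rw [melT, norm_mul, norm_mul, norm_mul, norm_cpow_eq_rpow_re_of_pos (div_pos hy hQ), e,
    Real.rpow_neg_one, norm_inv, norm_real, Real.norm_eq_abs, abs_of_pos hQ]
  calc _ ≤ B * ab r * (Q⁻¹ * (‖melP Y t ((1 / 2 : ℝ) + τ * I)‖ * (ab r / Q)⁻¹)) := by gcongr
    _ = _ := by field_simp

theorem melT_int {Y : ℝ} (hY : 0 < Y) (t : ℝ) {Q B : ℝ} (hQ : 0 < Q) {b : Eis → ℂ} (h0 : b 0 = 0)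
    (hb : ∀ r, ‖b r‖ ≤ B * ab r) (r : Eis) : Integrable (melT Y t Q b r) := by
  by_cases hr : r = 0
  · have : melT Y t Q b r = fun _ => 0 := by
      funext τ
      simp [melT, hr, h0]
    rw [this]
    exact integrable_zero _ _ _
  refine ((melP_int hY t).norm.const_mul B).mono' ?_
    (Eventually.of_forall (melT_norm Y t hQ hr (hb r)))
  have h1 := melP_meas Y t (1 / 2)
  have h2 : Continuous fun τ : ℝ =>
      ((ab r / Q : ℝ) : ℂ) ^ (2 * (((1 / 2 : ℝ) : ℂ) + τ * I) - 2) :=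
    Continuous.const_cpow (by fun_prop) (Or.inl (ofReal_ne_zero.2 (div_pos (ab_pos hr) hQ).ne'))
  exact (((h1.mul h2.measurable).const_mul _).const_mul _).aestronglyMeasurable

theorem melF_eq {Y : ℝ} (hY : 0 < Y) (t l : ℝ) {Q B : ℝ} (hQ : 0 < Q) {b : Eis → ℂ}
    (h0 : b 0 = 0) (hb : ∀ r, ‖b r‖ ≤ B * ab r) :
    AEStronglyMeasurable (melF Y t Q b) ((volume.restrict (Ioc 0 l)).prod volume) ∧
    ∑' r, b r * ((Q : ℂ)⁻¹ * melH Y t (ab r / Q)) * melO (Ioc 0 l) (Real.log (N r)) =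
      ∫ x, melF Y t Q b x ∂((volume.restrict (Ioc 0 l)).prod volume) := by
  have hq : ∀ r : Eis, Integrable (fun ρ => ((melQ (1 / 2) (Real.log (N r) - ρ) : ℝ) : ℂ))
      (volume.restrict (Ioc 0 l)) := fun r =>
    (((melQ_int (1 / 2)).comp_sub_left (Real.log (N r))).ofReal (𝕜 := ℂ)).integrableOn
  have hi := fun r => (hq r).mul_prod (melT_int hY t hQ h0 hb r)
  refine ⟨AEStronglyMeasurable.tsum fun r => (hi r).1, ?_⟩
  have hs := hasSum_integral_of_summable_integral_norm hi (by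
    refine Summable.of_nonneg_of_le (fun r => integral_nonneg fun v => norm_nonneg _) (fun r => ?_)
      ((summable_N_rpow (s := 2) (by norm_num)).mul_left ((Real.exp l ^ (- -2 : ℝ) *
        melI (1 / 2 - -2)) * (B * ∫ τ : ℝ, ‖melP Y t ((1 / 2 : ℝ) + τ * I)‖)))
    by_cases hr : r = 0
    · simp [hr, melT, h0]
    simp only [norm_mul]
    rw [integral_prod_mul (fun ρ => ‖((melQ (1 / 2) (Real.log (N r) - ρ) : ℝ) : ℂ)‖)
      (fun τ => ‖melT Y t Q b r τ‖), mul_right_comm]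
    refine mul_le_mul ?_ ?_ (integral_nonneg fun _ => norm_nonneg _) ?_
    · have h1 := melO_le (-2) (Real.log (Real.exp l)) (S := Ioc 0 l) measurableSet_Ioc
        (fun ρ hρ => by rw [Real.log_exp]; linarith [hρ.2]) (Real.log (N r))
      rw [melD_exp _ (N_pos hr) (Real.exp_pos l)] at h1
      simp only [norm_real, Real.norm_eq_abs, abs_of_pos (melQ_pos _ _)]
      exact h1.trans (le_of_eq (by ring))
    · rw [← integral_const_mul]
      exact integral_mono (melT_int hY t hQ h0 hb r).norm ((melP_int hY t).norm.const_mul B)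
        (melT_norm Y t hQ hr (hb r))
    · have := melI_pos (1 / 2 - -2)
      have := N_pos hr
      positivity)
  refine Eq.trans (tsum_congr fun r => ?_) hs.tsum_eq
  rw [integral_prod_mul (fun ρ => ((melQ (1 / 2) (Real.log (N r) - ρ) : ℝ) : ℂ)) (melT Y t Q b r),
    integral_complex_ofReal, mul_comm]
  congr 1
  by_cases hr : r = 0
  · simp [hr, melT, h0]
  rw [melH_eq Y t (σ := 1 / 2) (by norm_num) (div_pos (ab_pos hr) hQ), ← integral_const_mul,
    ← integral_const_mul]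
  rfl

theorem melF_norm (Y t : ℝ) {Q : ℝ} (hQ : 0 < Q) {b : Eis → ℂ} (h0 : b 0 = 0) (ρ τ : ℝ) :
    ‖melF Y t Q b (ρ, τ)‖ = Real.exp (-ρ / 2) * ‖melP Y t ((1 / 2 : ℝ) + τ * I)‖ *
      ‖∑' r, b r * W (Real.exp ρ) τ r‖ := by
  have e : ∀ r, ((melQ (1 / 2) (Real.log (N r) - ρ) : ℝ) : ℂ) * melT Y t Q b r τ =
      ((Real.exp (-ρ / 2) : ℝ) * melP Y t ((1 / 2 : ℝ) + τ * I) *
        cexp ((-(2 * τ * Real.log Q) : ℝ) * I)) * (b r * W (Real.exp ρ) τ r) := fun r => by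
    by_cases hr : r = 0
    · simp [hr, melT, h0]
    have hy := ab_pos hr
    have hl : Real.log (N r) = 2 * Real.log (ab r) := by
      rw [← ab_sq, Real.log_pow]
      norm_num
    have hQ' : (Q : ℂ)⁻¹ = cexp (-(Real.log Q : ℝ)) := by
      rw [exp_neg, ← ofReal_exp, Real.exp_log hQ]
    have key : ((melQ (1 / 2) (Real.log (N r) - ρ) : ℝ) : ℂ) * (Q : ℂ)⁻¹ *
        ((ab r / Q : ℝ) : ℂ) ^ (2 * (((1 / 2 : ℝ) : ℂ) + τ * I) - 2) =
        (Real.exp (-ρ / 2) : ℝ) * cexp ((-(2 * τ * Real.log Q) : ℝ) * I) *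
          W (Real.exp ρ) τ r := by
      rw [hQ', cpow_def_of_ne_zero (ofReal_ne_zero.2 (div_pos hy hQ).ne'),
        ← ofReal_log (div_pos hy hQ).le, Real.log_div hy.ne' hQ.ne', W, w, nit, melQ,
        Real.log_div (N_pos hr).ne' (Real.exp_pos _).ne', Real.log_exp, hl, ofReal_exp, ofReal_exp,
        ofReal_exp, ← exp_add, ← exp_add, ← exp_add, ← exp_add, ← exp_add]
      congr 1
      push_cast
      ring
    rw [melT]
    linear_combination b r * melP Y t ((1 / 2 : ℝ) + τ * I) * key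
  simp only [melF, e]
  rw [tsum_mul_left, norm_mul, norm_mul, norm_mul, norm_exp_ofReal_mul_I, mul_one, norm_real,
    Real.norm_eq_abs, abs_of_pos (Real.exp_pos _)]

theorem melE_main (A : ℕ) : ∃ C : ℝ, 0 < C ∧
    ∀ (J : Finset Eis) (b : Eis → Eis → ℂ) (Q : Eis → ℝ) (Y R0 B B0 t : ℝ),
      0 < Y → 1 ≤ R0 → 0 ≤ B → 0 ≤ B0 →
      (∀ j ∈ J, b j 0 = 0 ∧ (∀ r, ‖b j r‖ ≤ B0 * ab r) ∧ 0 < Q j) →
      (∀ R τ : ℝ, 1 ≤ R → R ≤ R0 →
        ∑ j ∈ J, ‖∑' r, b j r * W R τ r‖ ^ 2 ≤ B * R * (1 + |τ|) ^ A) →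
      ∑ j ∈ J, ‖∑' r, b j r * ((Q j : ℂ)⁻¹ * melH Y t (ab r / Q j)) *
        melO (Ioc 0 (Real.log R0)) (Real.log (N r))‖ ^ 2 ≤
        C * (1 + |t|) ^ A * Y * (B * Real.log R0 ^ 2) := by
  obtain ⟨C, hC, hP⟩ := melP_half
  refine ⟨C ^ 2 * ((∫ x, melJ A x) ^ 2 + 1), by positivity,
    fun J b Q Y R0 B B0 t hY hR hB hB0 hJ hS => ?_⟩
  have hl : 0 ≤ Real.log R0 := Real.log_nonneg hR
  have hg : Integrable (fun x : ℝ × ℝ => (1 : ℝ) * melJ A (x.2 + t))
      ((volume.restrict (Ioc 0 (Real.log R0))).prod volume) :=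
    (integrable_const (1 : ℝ)).mul_prod ((melJ_int A).comp_add_right t)
  have h := melD_mink J (fun j => melF Y t (Q j) (b j))
    (fun j hj => (melF_eq hY t _ (hJ j hj).2.2 (hJ j hj).1 (hJ j hj).2.1).1) hg
    (fun x => by rw [one_mul]; exact melJ_nonneg _ _)
    (D := C ^ 2 * Y * B * (1 + |t|) ^ A) (by positivity) (by
      filter_upwards [Measure.quasiMeasurePreserving_fst.ae (ae_restrict_mem measurableSet_Ioc)]
      rintro ⟨ρ, τ⟩ ⟨h1, h2⟩
      have h3 := hS (Real.exp ρ) τ (Real.one_le_exp h1.le)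
        ((Real.le_log_iff_exp_le (by linarith)).1 h2)
      have h4 := pow_le_pow_left₀ (norm_nonneg _) (hP Y t τ hY) 2
      rw [mul_pow, mul_pow, Real.sq_sqrt hY.le] at h4
      have h5 := melJ_le A τ t
      have h6 : Real.exp (-(τ + t) ^ 2 / 4) ≤ melJ A (τ + t) :=
        le_mul_of_one_le_right (Real.exp_pos _).le
          (one_le_pow₀ (le_add_of_nonneg_right (abs_nonneg _)))
      have h7 : Real.exp (-ρ / 2) ^ 2 * Real.exp ρ = 1 := by
        rw [← Real.exp_nat_mul, ← Real.exp_add, Real.exp_eq_one_iff]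
        push_cast
        ring
      have h8 := melJ_nonneg A (τ + t)
      rw [Finset.sum_congr rfl fun j hj => by
        rw [melF_norm Y t (hJ j hj).2.2 (hJ j hj).1, mul_pow], ← Finset.mul_sum, mul_pow, one_mul]
      calc _ ≤ Real.exp (-ρ / 2) ^ 2 * (C ^ 2 * Y * Real.exp (-(τ + t) ^ 2 / 4) ^ 2) *
            (B * Real.exp ρ * (1 + |τ|) ^ A) := by
            gcongr
        _ = (Real.exp (-ρ / 2) ^ 2 * Real.exp ρ) * (C ^ 2 * Y * B) * Real.exp (-(τ + t) ^ 2 / 4) *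
            (Real.exp (-(τ + t) ^ 2 / 4) * (1 + |τ|) ^ A) := by ring
        _ ≤ 1 * (C ^ 2 * Y * B) * melJ A (τ + t) * ((1 + |t|) ^ A * melJ A (τ + t)) := by
            rw [h7]
            gcongr
        _ = _ := by ring)
  rw [integral_prod_mul (fun _ : ℝ => (1 : ℝ)) (fun τ => melJ A (τ + t)),
    integral_add_right_eq_self, setIntegral_const, Real.volume_real_Ioc_of_le hl, sub_zero,
    smul_eq_mul, mul_one] at h
  rw [Finset.sum_congr rfl fun j hj => by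
    rw [(melF_eq hY t _ (hJ j hj).2.2 (hJ j hj).1 (hJ j hj).2.1).2]]
  refine h.trans ?_
  have : 0 ≤ C ^ 2 * (1 + |t|) ^ A * Y * (B * Real.log R0 ^ 2) := by positivity
  nlinarith

end Vale.Agent.P026
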