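import Vale.Agent.P026.Res1

/-! The Fourier series attached to a bounded coefficient sequence. -/

namespace Vale.Agent.P026

open Eis Complex MeasureTheory Filter Topology
open scoped Classical ComplexConjugate

/-- The non constant part of the Fourier expansion. -/
noncomputable def pwT (b : Eis → ℂ) (z : ℂ) (v : ℝ) : ℂ :=
  ∑' r : Eis, b r * (kap (ab r * v) : ℂ) * eR r z

/-- The phase of eR. -/
noncomputable def pwA (r : Eis) (x : ℂ) : ℝ := 2 * Real.pi * (2 * (toC r * x / (9 * toC lam)).re)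

theorem pw_bd (k : ℕ) {v0 : ℝ} (hv : 0 < v0) : ∃ u : Eis → ℝ, Summable u ∧
    ∀ r v, v0 ≤ v → ab r ^ k * kap (ab r * v) ≤ u r := by
  obtain ⟨C, hC, h⟩ := kap_le (k + 4)
  refine ⟨_, (summable_N_rpow (s := 2) (by norm_num)).mul_left (C / v0 ^ (k + 4)),
    fun r v hv' => ?_⟩
  by_cases hr : r = 0
  · subst hr
    have : ab 0 = 0 := by simp [ab]
    rw [this, zero_mul, kp_kap_zero, mul_zero]
    exact mul_nonneg (by positivity) (Real.rpow_nonneg (N_nonneg _) _)
  · have ha := ab_pos hr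
    have h1 : 0 < v := hv.trans_le hv'
    have h2 : N r ^ (-(2 : ℝ)) = (ab r ^ 4)⁻¹ := by
      rw [Real.rpow_neg (N_nonneg r), Real.rpow_two, ← ab_sq, ← pow_mul]
    rw [h2]
    calc ab r ^ k * kap (ab r * v) ≤ ab r ^ k * (C / (ab r * v) ^ (k + 4)) :=
          mul_le_mul_of_nonneg_left (h _ (by positivity)) (by positivity)
      _ ≤ ab r ^ k * (C / (ab r * v0) ^ (k + 4)) := by gcongr
      _ = _ := by
          rw [mul_pow, pow_add]; field_simp

variable {b : Eis → ℂ} {C : ℝ}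

theorem pw_norm (hb : ∀ r, ‖b r‖ ≤ C) (r : Eis) (z : ℂ) {v : ℝ} (hv : 0 ≤ v) :
    ‖b r * (kap (ab r * v) : ℂ) * eR r z‖ ≤ C * kap (ab r * v) := by
  have h := kap_nonneg (mul_nonneg (ab_nonneg r) hv)
  rw [norm_mul, norm_mul, norm_eR, mul_one, norm_real, Real.norm_of_nonneg h]
  exact mul_le_mul_of_nonneg_right (hb r) h

theorem pw_sum0 {v : ℝ} (hv : 0 < v) : Summable fun r : Eis => C * kap (ab r * v) := by
  simpa using (summable_kap 0 hv).mul_left C

theorem pw_summable (hb : ∀ r, ‖b r‖ ≤ C) (z : ℂ) {v : ℝ} (hv : 0 < v) :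
    Summable fun r : Eis => b r * (kap (ab r * v) : ℂ) * eR r z :=
  Summable.of_norm_bounded (pw_sum0 hv) fun r => pw_norm hb r z hv.le

theorem pw_cont_term (r : Eis) :
    Continuous fun p : ℂ × ℝ => b r * (kap (ab r * p.2) : ℂ) * eR r p.1 :=
  (continuous_const.mul (continuous_ofReal.comp (continuous_kap.comp
    (continuous_const.mul continuous_snd)))).mul ((continuous_eR r).comp continuous_fst)

theorem pw_meas : Measurable fun p : ℂ × ℝ => pwT b p.1 p.2 :=
  Measurable.tsum fun r => (pw_cont_term r).measurable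

theorem pw_contAt (hb : ∀ r, ‖b r‖ ≤ C) {p : ℂ × ℝ} (hp : 0 < p.2) :
    ContinuousAt (fun p : ℂ × ℝ => pwT b p.1 p.2) p := by
  obtain ⟨u, hu, h⟩ := pw_bd 0 (half_pos hp)
  have hC : 0 ≤ C := (norm_nonneg _).trans (hb 0)
  have h1 : ContinuousOn (fun p : ℂ × ℝ => pwT b p.1 p.2) {x | p.2 / 2 < x.2} :=
    continuousOn_tsum (fun r => (pw_cont_term r).continuousOn) (hu.mul_left C) fun r x hx =>
      (pw_norm hb r x.1 ((half_pos hp).trans hx).le).trans
        (mul_le_mul_of_nonneg_left (by simpa using h r x.2 (le_of_lt hx)) hC)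
  exact h1.continuousAt ((isOpen_lt continuous_const continuous_snd).mem_nhds (half_lt_self hp))

theorem pw_le (hb : ∀ r, ‖b r‖ ≤ C) (z : ℂ) {v : ℝ} (hv : 0 < v) :
    ‖pwT b z v‖ ≤ ∑' r : Eis, C * kap (ab r * v) :=
  tsum_of_norm_bounded (pw_sum0 hv).hasSum fun r => pw_norm hb r z hv.le

theorem pw_per (z : ℂ) (y : Eis) (v : ℝ) : pwT b (z + 9 * toC y) v = pwT b z v := by
  simp only [pwT, eR_add, eR_nine, mul_one]

instance pw_fin : IsFiniteMeasure (volume.restrict F9) :=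
  ⟨by rw [Measure.restrict_apply_univ, volume_F9]; exact ENNReal.ofReal_lt_top⟩

theorem pw_coef (hb : ∀ r, ‖b r‖ ≤ C) {v : ℝ} (hv : 0 < v) (r : Eis) :
    ∫ z in F9, pwT b z v * conj (eR r z) = (V9 : ℂ) * (b r * (kap (ab r * v) : ℂ)) := by
  simp only [pwT, ← tsum_mul_right]
  rw [← r1_swap (h := fun _ => 1) (v := fun s => C * kap (ab s * v))
    (u := fun s z => b s * (kap (ab s * v) : ℂ) * eR s z * conj (eR r z)) (fun s =>
    ((continuous_const.mul (continuous_eR s)).mul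
      (continuous_conj.comp (continuous_eR r))).measurable) (integrable_const _) (pw_sum0 hv)
    fun s => Eventually.of_forall fun z => by
      rw [norm_mul, RCLike.norm_conj, norm_eR, mul_one, mul_one]
      exact pw_norm hb s z hv.le]
  have h : ∀ s, ∫ z in F9, b s * (kap (ab s * v) : ℂ) * eR s z * conj (eR r z) =
      if s = r then (V9 : ℂ) * (b r * (kap (ab r * v) : ℂ)) else 0 := fun s => by
    simp only [mul_assoc, ← eR_neg, ← eR_add_left]
    rw [integral_const_mul, integral_const_mul, integral_eR]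
    by_cases hs : s = r
    · subst hs
      rw [if_pos (add_neg_cancel s), if_pos rfl]
      ring
    · rw [if_neg (fun h => hs (add_neg_eq_zero.1 h)), if_neg hs, mul_zero, mul_zero]
  simp only [h, tsum_ite_eq]

theorem pwA_cont (r : Eis) : Continuous (pwA r) := by
  unfold pwA
  fun_prop

theorem pwA_le (r : Eis) (x : ℂ) : |pwA r x| ≤ 4 * Real.pi * (ab r * ‖x‖) := by
  have h1 : ‖toC r * x / (9 * toC lam)‖ ≤ ab r * ‖x‖ := by
    rw [norm_div, norm_mul, norm_toC, norm_mul, norm_toC]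
    have h2 : 1 ≤ ab lam := one_le_ab (by decide)
    refine div_le_self (mul_nonneg (ab_nonneg r) (norm_nonneg x)) ?_
    rw [Complex.norm_ofNat]
    linarith
  have h2 := (abs_re_le_norm _).trans h1
  rw [pwA, abs_mul, abs_mul, abs_mul, abs_two, abs_of_pos Real.pi_pos]
  nlinarith [Real.pi_pos]

theorem pwA_eq (r : Eis) (x : ℂ) :
    2 * I * (pwA r x : ℂ) = 4 * Real.pi / (9 * (√3 : ℝ)) * (toC r * x - conj (toC r) * conj x) := by
  have h3 : ((√3 : ℝ) : ℂ) ≠ 0 := by exact_mod_cast (by positivity : (√3 : ℝ) ≠ 0)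
  have h : (((toC r * x / (9 * toC lam)).re : ℝ) : ℂ) =
      (toC r * x / (9 * toC lam) + conj (toC r * x / (9 * toC lam))) / 2 := re_eq_add_conj _
  rw [pwA, ofReal_mul, ofReal_mul, ofReal_mul, h, toC_lam]
  simp only [map_div₀, map_mul, conj_ofReal, conj_I, map_ofNat]
  push_cast
  field_simp
  ring

theorem pw_diff (r : Eis) (z x : ℂ) (e : ℝ) :
    eR r (z + e * x) - eR r (z - e * x) =
      e * (eR r z * (2 * I * (pwA r x : ℂ) * (Real.sinc (e * pwA r x) : ℂ))) := by
  have h1 : eR r (e * x) = cexp ((e * pwA r x : ℝ) * I) := by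
    rw [eR, pwA, mul_left_comm, mul_div_assoc, re_ofReal_mul]
    push_cast
    ring_nf
  have h2 : eR r (-(e * x)) = cexp (-(e * pwA r x : ℝ) * I) := by
    rw [eR, pwA, mul_neg, neg_div, neg_re, mul_left_comm, mul_div_assoc, re_ofReal_mul]
    push_cast
    ring_nf
  have h3 : (e * pwA r x) * Real.sinc (e * pwA r x) = Real.sin (e * pwA r x) := by
    by_cases h : e * pwA r x = 0
    · rw [h]; simp
    · rw [Real.sinc_of_ne_zero h, mul_div_cancel₀ _ h]
  have h4 := Complex.two_sin ((e * pwA r x : ℝ) : ℂ)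
  rw [← ofReal_sin, ← h3] at h4
  rw [sub_eq_add_neg z, eR_add, eR_add, h1, h2]
  push_cast at h4 ⊢
  linear_combination (-I * eR r z) * h4 - (eR r z * (cexp (-(↑e * ↑(pwA r x)) * I) -
    cexp (↑e * ↑(pwA r x) * I))) * I_mul_I

theorem pw_lim (hb : ∀ r, ‖b r‖ ≤ C) (z : ℂ) {x : ℝ → ℂ} {v : ℝ → ℝ} {x0 : ℂ} {v0 : ℝ}
    (hv0 : 0 < v0) (hx : Tendsto x (𝓝[>] 0) (𝓝 x0)) (hv : Tendsto v (𝓝[>] 0) (𝓝 v0)) :
    Tendsto (fun e : ℝ => (pwT b (z + e * x e) (v e) - pwT b (z - e * x e) (v e)) / e) (𝓝[>] 0)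
      (𝓝 (∑' r : Eis, b r * (kap (ab r * v0) : ℂ) * (eR r z * (2 * I * (pwA r x0 : ℂ))))) := by
  obtain ⟨u, hu, h⟩ := pw_bd 1 (half_pos hv0)
  have hC : 0 ≤ C := (norm_nonneg _).trans (hb 0)
  have e1 : ∀ᶠ e in 𝓝[>] (0 : ℝ), v0 / 2 < v e := hv.eventually (lt_mem_nhds (half_lt_self hv0))
  have e2 : ∀ᶠ e in 𝓝[>] (0 : ℝ), ‖x e‖ < ‖x0‖ + 1 :=
    hx.norm.eventually (gt_mem_nhds (lt_add_one _))
  have key := tendsto_tsum_of_dominated_convergence (𝓕 := 𝓝[>] (0 : ℝ))
    (f := fun e r => b r * (kap (ab r * v e) : ℂ) *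
      (eR r z * (2 * I * (pwA r (x e) : ℂ) * (Real.sinc (e * pwA r (x e)) : ℂ))))
    (g := fun r => b r * (kap (ab r * v0) : ℂ) * (eR r z * (2 * I * (pwA r x0 : ℂ))))
    (hu.mul_left (C * (8 * Real.pi * (‖x0‖ + 1)))) (fun r => ?_) ?_
  · refine key.congr' ?_
    filter_upwards [e1, self_mem_nhdsWithin] with e h1 h2
    have h3 : 0 < v e := (half_pos hv0).trans h1
    have h4 : (e : ℂ) ≠ 0 := by exact_mod_cast (ne_of_gt h2)
    rw [eq_div_iff h4, pwT, pwT, ← (pw_summable hb _ h3).tsum_sub (pw_summable hb _ h3),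
      ← tsum_mul_right]
    refine tsum_congr fun r => ?_
    rw [← mul_sub, pw_diff]
    ring
  · have t1 : Tendsto (fun e => pwA r (x e)) (𝓝[>] 0) (𝓝 (pwA r x0)) :=
      ((pwA_cont r).tendsto x0).comp hx
    have t2 : Tendsto (fun e : ℝ => Real.sinc (e * pwA r (x e))) (𝓝[>] 0) (𝓝 1) := by
      have := (Real.continuous_sinc.tendsto _).comp
        ((tendsto_id.mono_left (nhdsWithin_le_nhds (s := Set.Ioi (0 : ℝ)))).mul t1)
      rwa [zero_mul, Real.sinc_zero] at this
    have t3 : Tendsto (fun e => kap (ab r * v e)) (𝓝[>] 0) (𝓝 (kap (ab r * v0))) :=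
      (continuous_kap.tendsto _).comp (hv.const_mul _)
    have t4 := ((((continuous_ofReal.tendsto _).comp t3).const_mul (b r)).mul
      ((((((continuous_ofReal.tendsto _).comp t1).const_mul (2 * I))).mul
        ((continuous_ofReal.tendsto _).comp t2)).const_mul (eR r z)))
    rw [ofReal_one, mul_one] at t4
    exact t4
  · filter_upwards [e1, e2] with e h1 h2 r
    have h3 : 0 ≤ kap (ab r * v e) :=
      kap_nonneg (mul_nonneg (ab_nonneg r) ((half_pos hv0).trans h1).le)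
    have h4 := h r _ h1.le
    rw [pow_one] at h4
    have h5 := pwA_le r (x e)
    have h6 := Real.abs_sinc_le_one (e * pwA r (x e))
    have h7 := ab_nonneg r
    simp only [norm_mul, norm_eR, norm_real, Real.norm_eq_abs, norm_I, Complex.norm_ofNat,
      abs_of_nonneg h3, one_mul, mul_one]
    calc ‖b r‖ * kap (ab r * v e) * (2 * |pwA r (x e)| * |Real.sinc (e * pwA r (x e))|)
        ≤ C * kap (ab r * v e) * (2 * (4 * Real.pi * (ab r * (‖x0‖ + 1))) * 1) := by
          have := Real.pi_pos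
          have := hb r
          refine mul_le_mul (by gcongr) (mul_le_mul (mul_le_mul_of_nonneg_left
            (h5.trans (by gcongr)) zero_le_two) h6 (abs_nonneg _) (by positivity))
            (by positivity) (by positivity)
      _ = C * (8 * Real.pi * (‖x0‖ + 1)) * (ab r * kap (ab r * v e)) := by ring
      _ ≤ _ := by
          have := Real.pi_pos
          gcongr

end Vale.Agent.P026
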