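import Vale.Agent.P026.LemP
import Vale.Agent.P026.Struct
import Vale.Agent.P026.BootA

/-! Removal of the coprimality condition and the reverse Poisson step. -/

namespace Vale.Agent.P026

open Eis Complex
open scoped Classical ComplexConjugate

theorem rl_mu0_zero : mu0 0 = 0 := by
  by_contra hc
  exact (mu0_ne_zero.mp hc).ne_zero rfl

theorem rl_bd {Xi : Eis → ℂ} (hB : Bd1 Xi) (D : Eis) : Bd1 fun c => mu0 c * Xi c * cop D c :=
  (Bd1.bt_mul norm_mu0_le hB).bt_mul (bt_norm_cop_le D)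

theorem rl_triv (a : ℝ) : ∃ C : ℝ, 0 < C ∧ ∀ (j : ℕ) (b : Eis → ℂ), b 0 = 0 → Bd1 b →
    ∀ Y M t : ℝ, 0 < Y → Y ≤ 1 → 0 < M → QQ j (fun c => b c * W Y t c) M ≤ C * M * Y ^ a := by
  obtain ⟨C, hC, h⟩ := QQ_triv (max 2 a) (le_max_left _ _)
  refine ⟨C, hC, fun j b h0 hb Y M t hY hY1 hM => ?_⟩
  have h1 := h j b h0 hb Y M t hY hM
  rw [if_pos hY1] at h1
  exact h1.trans (mul_le_mul_of_nonneg_left
    (Real.rpow_le_rpow_of_exponent_ge hY hY1 (le_max_right _ _)) (by positivity))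

theorem rl_triv2 : ∃ C : ℝ, 0 < C ∧ ∀ (Xi : Eis → ℂ), Bd1 Xi → ∀ (D : Eis) (Y M t : ℝ),
    0 < Y → 0 < M → AA Xi D Y M t ≤ C * M * Y ^ 2 := by
  obtain ⟨C, hC, h⟩ := QQ_triv 2 le_rfl
  refine ⟨C, hC, fun Xi hB D Y M t hY hM => ?_⟩
  have h1 := h 2 _ (by simp [rl_mu0_zero]) (rl_bd hB D) Y M t hY hM
  rwa [Real.rpow_two, ite_self] at h1

theorem HH_one (q : Eis) : HH q 1 := by
  obtain ⟨C, hC, h⟩ := rl_triv2
  refine ⟨C, 0, fun Xi _ hB Y M t hY hM => (h Xi hB 1 Y M t hY hM).trans ?_⟩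
  rw [pow_zero, mul_one, one_add_one_eq_two, Real.rpow_two]
  gcongr
  exact le_add_of_nonneg_right (by positivity)

theorem HH.mono {q : Eis} {f f' : ℝ} (h : HH q f) (hf : f ≤ f') : HH q f' := by
  obtain ⟨C, A, h⟩ := h
  obtain ⟨C', hC', h'⟩ := rl_triv (1 + f')
  refine ⟨|C| + C', A, fun Xi hP hB Y M t hY hM => ?_⟩
  have ht : 1 ≤ (1 + |t|) ^ A := one_le_pow₀ (by linarith [abs_nonneg t])
  rcases le_total Y 1 with hY1 | hY1
  · calc AA Xi 1 Y M t ≤ C' * M * Y ^ (1 + f') :=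
          h' 2 _ (by simp [rl_mu0_zero]) (rl_bd hB 1) Y M t hY hY1 hM
      _ = (0 + C') * 1 * (M + 0) * Y ^ (1 + f') := by ring
      _ ≤ _ := by gcongr <;> positivity
  · calc AA Xi 1 Y M t ≤ _ := h Xi hP hB Y M t hY hM
      _ ≤ (|C| + 0) * (1 + |t|) ^ A * (M + Y ^ (19 / 16 : ℝ)) * Y ^ (1 + f) := by
        gcongr
        simpa using le_abs_self C
      _ ≤ _ := by gcongr

theorem rl_summable {b : Eis → ℂ} (hb : Bd1 b) {D : Eis} (hD : D ≠ 0) {Y : ℝ} (hY : 0 < Y)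
    (t : ℝ) (j : ℕ) (h : Eis) : Summable fun c => b c * W Y t (D * c) * chi j h c := by
  refine Summable.of_norm_bounded (summable_w 0 (Y := Y / N D) (div_pos hY (N_pos hD))) fun c => ?_
  rw [norm_mul, norm_mul, norm_W, Real.rpow_zero, N_mul, div_div_eq_mul_div, mul_comm (N c)]
  refine (mul_le_of_le_one_right (mul_nonneg (norm_nonneg _) (w_pos _).le)
    (norm_chi_le _ _ _)).trans ?_
  exact mul_le_mul_of_nonneg_right (hb c) (w_pos _).le

theorem rl_cop_prime_mul {p : Eis} (hp : Prime p) (D x : Eis) :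
    cop (p * D) x = if p ∣ x then 0 else cop D x := by
  unfold cop
  by_cases h : p ∣ x
  · rw [if_pos h, if_neg]
    intro hc
    exact hp.not_isUnit (hc.of_mul_right_left.isUnit_of_dvd' h dvd_rfl)
  · have h1 : IsCoprime x p := ((hp.irreducible.coprime_iff_not_dvd).mpr h).symm
    rw [if_neg h]
    simp only [IsCoprime.mul_right_iff, h1, true_and]

theorem rl_cop_mul_left (p D x : Eis) : cop (p * D) x = cop p x * cop D x := by
  unfold cop
  by_cases hx : IsCoprime x p <;> by_cases hy : IsCoprime x D <;>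
    simp [hx, hy, IsCoprime.mul_right_iff]

theorem rl_cop_comm (x y : Eis) : cop x y = cop y x := by
  unfold cop
  simp only [isCoprime_comm]

/-- The recursion for one inner sum. -/
theorem rl_rec {Xi : Eis → ℂ} (hB : Bd1 Xi) {p D D' : Eis} (hp : Prime p) (h1 : P1 p)
    (hpD : ¬ p ∣ D) (hD' : D' ≠ 0) {Y : ℝ} (hY : 0 < Y) (t : ℝ) (h : Eis) :
    ‖∑' c, mu0 (D' * c) * Xi (D' * c) * cop (p * D) (D' * c) * W Y t (D' * c) * chi 2 h c‖ ≤
      ‖∑' c, mu0 (D' * c) * Xi (D' * c) * cop D (D' * c) * W Y t (D' * c) * chi 2 h c‖ +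
      ‖∑' c, mu0 (D' * c) * Xi (p * (D' * c)) * cop (p * D) (D' * c) *
        W (Y / N p) t (D' * c) * chi 2 h c‖ := by
  by_cases hpD' : p ∣ D'
  · have h0 : ∀ c, cop (p * D) (D' * c) = 0 := fun c => by
      rw [rl_cop_prime_mul hp, if_pos (hpD'.mul_right c)]
    simp only [h0, mul_zero, zero_mul, tsum_zero, norm_zero, add_zero]
    exact norm_nonneg _
  have s1 := rl_summable (b := fun c => mu0 (D' * c) * Xi (D' * c) * cop (p * D) (D' * c))
    (fun c => rl_bd hB _ _) hD' hY t 2 h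
  have s2 := rl_summable (b := fun c => mu0 (D' * c) * Xi (D' * c) * cop D (D' * c))
    (fun c => rl_bd hB _ _) hD' hY t 2 h
  have hinj : Function.Injective fun c : Eis => p * c := mul_right_injective₀ hp.ne_zero
  have e1 := hinj.tsum_eq (f := fun c =>
      mu0 (D' * c) * Xi (D' * c) * cop D (D' * c) * W Y t (D' * c) * chi 2 h c -
      mu0 (D' * c) * Xi (D' * c) * cop (p * D) (D' * c) * W Y t (D' * c) * chi 2 h c) (by
    intro c hc
    by_contra hn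
    have h2 : ¬ p ∣ D' * c := fun h3 => (hp.dvd_or_dvd h3).elim hpD' fun ⟨c', hc'⟩ =>
      hn ⟨c', hc'.symm⟩
    exact hc (by simp only [rl_cop_prime_mul hp, if_neg h2, sub_self]))
  rw [s2.tsum_sub s1] at e1
  have e2 : ∀ c, mu0 (D' * (p * c)) * Xi (D' * (p * c)) * cop D (D' * (p * c)) *
        W Y t (D' * (p * c)) * chi 2 h (p * c) -
      mu0 (D' * (p * c)) * Xi (D' * (p * c)) * cop (p * D) (D' * (p * c)) *
        W Y t (D' * (p * c)) * chi 2 h (p * c) = -(nit t p * chi 2 h p) *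
      (mu0 (D' * c) * Xi (p * (D' * c)) * cop (p * D) (D' * c) * W (Y / N p) t (D' * c) *
        chi 2 h c) := fun c => by
    rcases eq_or_ne c 0 with rfl | hc
    · simp [rl_mu0_zero]
    have h2 : cop D p = 1 := if_pos ((hp.irreducible.coprime_iff_not_dvd).mpr hpD)
    rw [mul_left_comm D' p c, rl_cop_prime_mul hp D (p * _), if_pos (dvd_mul_right _ _),
      mu0_mul (P0.of_prime hp h1), mu0_prime hp h1, bt_cop_mul D p, h2,
      W_mul _ _ (mul_ne_zero hD' hc) hp.ne_zero, chi_mul_right 2 h hp.ne_zero hc,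
      rl_cop_mul_left]
    ring
  rw [tsum_congr e2, tsum_mul_left] at e1
  rw [eq_sub_iff_add_eq, ← eq_sub_iff_add_eq'] at e1
  rw [e1]
  refine (norm_sub_le _ _).trans (add_le_add le_rfl ?_)
  rw [norm_mul, norm_neg, norm_mul, norm_nit, one_mul]
  exact mul_le_of_le_one_left (norm_nonneg _) (norm_chi_le _ _ _)

theorem rl_rec2 {Xi : Eis → ℂ} (hB : Bd1 Xi) {p D : Eis} (hp : Prime p) (h1 : P1 p)
    (hpD : ¬ p ∣ D) {Y : ℝ} (hY : 0 < Y) (M t : ℝ) :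
    AA Xi (p * D) Y M t ≤
      2 * AA Xi D Y M t + 2 * AA (fun c => Xi (p * c)) (p * D) (Y / N p) M t := by
  simp only [AA, QQ, Finset.mul_sum, ← Finset.sum_add_distrib]
  refine Finset.sum_le_sum fun h hh => Finset.sum_le_sum fun D' hD' => ?_
  have hD0 : D' ≠ 0 :=
    ((mem_divs (mem_ball.mp hh).1).mp (Finset.mem_filter.mp hD').1).1.ne_zero
  have h2 := (pow_le_pow_left₀ (norm_nonneg _) (rl_rec hB hp h1 hpD hD0 hY t h) 2).trans add_sq_le
  refine (mul_le_mul_of_nonneg_left h2 (N_nonneg D')).trans (le_of_eq ?_)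
  ring

theorem rl_step {q : Eis} {f Z : ℝ} (hf : 0 ≤ f) (hZ : 0 ≤ Z) {p D : Eis} (hp : Prime p)
    (h1 : P1 p) (hpD : ¬ p ∣ D) {M : ℝ} (hM : 0 < M) (t : ℝ)
    (ih : ∀ Xi : Eis → ℂ, Per q Xi → Bd1 Xi → ∀ Y : ℝ, 0 < Y →
      AA Xi D Y M t ≤ Z * (M + Y ^ (19 / 16 : ℝ)) * Y ^ (1 + f))
    (Xi : Eis → ℂ) (hP : Per q Xi) (hB : Bd1 Xi) (Y : ℝ) (hY : 0 < Y) :
    AA Xi (p * D) Y M t ≤ 4 * Z * (M + Y ^ (19 / 16 : ℝ)) * Y ^ (1 + f) := by
  obtain ⟨C, hC, hT⟩ := rl_triv2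
  have h7 : 7 ≤ N p := h1.seven_le hp.ne_one
  have key : ∀ k : ℕ, ∀ Xi : Eis → ℂ, Per q Xi → Bd1 Xi → ∀ Y : ℝ, 0 < Y →
      AA Xi (p * D) Y M t ≤ 4 * Z * (M + Y ^ (19 / 16 : ℝ)) * Y ^ (1 + f) +
        C * M * Y ^ 2 * (1 / 2) ^ k := by
    intro k
    induction k with
    | zero =>
      intro Xi _ hB Y hY
      rw [pow_zero, mul_one]
      exact (hT Xi hB _ Y M t hY hM).trans (le_add_of_nonneg_left (by positivity))
    | succ k ih' =>
      intro Xi hP hB Y hY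
      have a1 := ih Xi hP hB Y hY
      have a2 := ih' _ (hP.comp_mul p) (fun c => hB _) (Y / N p) (by positivity)
      have a3 : Y / N p ≤ Y / 7 := by gcongr
      have a4 : (Y / N p) ^ (19 / 16 : ℝ) ≤ Y ^ (19 / 16 : ℝ) := by
        gcongr
        linarith
      have a5 : (Y / N p) ^ (1 + f) ≤ Y ^ (1 + f) / 7 := by
        rw [Real.div_rpow hY.le (by positivity)]
        gcongr
        exact h7.trans (Real.self_le_rpow_of_one_le (by linarith) (by linarith))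
      have a6 : 4 * Z * (M + (Y / N p) ^ (19 / 16 : ℝ)) * (Y / N p) ^ (1 + f) +
          C * M * (Y / N p) ^ 2 * (1 / 2) ^ k ≤
          4 * Z * (M + Y ^ (19 / 16 : ℝ)) * (Y ^ (1 + f) / 7) +
            C * M * (Y / 7) ^ 2 * (1 / 2) ^ k := by gcongr
      have a7 : 0 ≤ Z * (M + Y ^ (19 / 16 : ℝ)) * Y ^ (1 + f) := by positivity
      have a8 : 0 ≤ C * M * Y ^ 2 * (1 / 2) ^ k := by positivity
      have a9 := rl_rec2 hB hp h1 hpD hY M t
      rw [pow_succ (1 / 2 : ℝ) k]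
      linarith
  have hlim : Filter.Tendsto (fun k : ℕ => 4 * Z * (M + Y ^ (19 / 16 : ℝ)) * Y ^ (1 + f) +
      C * M * Y ^ 2 * (1 / 2 : ℝ) ^ k) Filter.atTop
      (nhds (4 * Z * (M + Y ^ (19 / 16 : ℝ)) * Y ^ (1 + f) + C * M * Y ^ 2 * 0)) :=
    ((tendsto_pow_atTop_nhds_zero_of_lt_one (by norm_num) (by norm_num)).const_mul _).const_add _
  rw [mul_zero, add_zero] at hlim
  exact ge_of_tendsto' hlim fun k => key k Xi hP hB Y hY

theorem rem_cop {q : Eis} {f : ℝ} (hf : 0 ≤ f) (h : HH q f) {e : ℝ} (he : 0 < e) :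
    ∃ (C : ℝ) (A : ℕ), 0 < C ∧ ∀ Xi : Eis → ℂ, Per q Xi → Bd1 Xi → ∀ D0 : Eis, P0 D0 →
      ∀ Y M t : ℝ, 0 < Y → 0 < M →
        AA Xi D0 Y M t ≤
          C * (1 + |t|) ^ A * N D0 ^ e * (M + Y ^ (19 / 16 : ℝ)) * Y ^ (1 + f) := by
  obtain ⟨C, A, h⟩ := h
  obtain ⟨Cd, hCd, hd⟩ := card_divs_le (e := e / 2) (by positivity)
  refine ⟨(|C| + 1) * Cd ^ 2, A, by positivity, fun Xi hP hB D0 hD0 Y M t hY hM => ?_⟩
  have key : ∀ D, P0 D → ∀ Xi : Eis → ℂ, Per q Xi → Bd1 Xi → ∀ Y : ℝ, 0 < Y →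
      AA Xi D Y M t ≤ ((divs D).card : ℝ) ^ 2 * ((|C| + 1) * (1 + |t|) ^ A) *
        (M + Y ^ (19 / 16 : ℝ)) * Y ^ (1 + f) := by
    intro D hD
    refine P0.induction (Pr := fun D => ∀ Xi : Eis → ℂ, Per q Xi → Bd1 Xi → ∀ Y : ℝ, 0 < Y →
      AA Xi D Y M t ≤ ((divs D).card : ℝ) ^ 2 * ((|C| + 1) * (1 + |t|) ^ A) *
        (M + Y ^ (19 / 16 : ℝ)) * Y ^ (1 + f)) ?_ ?_ hD
    · intro Xi hP hB Y hY
      have h1 : (1 : ℝ) ≤ ((divs 1).card : ℝ) := by
        exact_mod_cast Finset.card_pos.mpr ⟨1, (mem_divs one_ne_zero).mpr ⟨P0.one, dvd_rfl⟩⟩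
      calc AA Xi 1 Y M t ≤ _ := h Xi hP hB Y M t hY hM
        _ ≤ 1 ^ 2 * ((|C| + 1) * (1 + |t|) ^ A) * (M + Y ^ (19 / 16 : ℝ)) * Y ^ (1 + f) := by
          rw [one_pow, one_mul]
          gcongr
          linarith [le_abs_self C]
        _ ≤ _ := by gcongr
    · intro p x hp h1 hx hpx ih Xi hP hB Y hY
      refine (rl_step hf (by positivity) hp h1 hpx hM t ih Xi hP hB Y hY).trans (le_of_eq ?_)
      rw [card_divs_prime_mul hp h1 hx.ne_zero hpx]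
      push_cast
      ring
  refine (key D0 hD0 Xi hP hB Y hY).trans ?_
  have h2 : ((divs D0).card : ℝ) ^ 2 ≤ Cd ^ 2 * N D0 ^ e := by
    refine (pow_le_pow_left₀ (by positivity) (hd D0 hD0.ne_zero) 2).trans (le_of_eq ?_)
    rw [mul_pow, ← Real.rpow_natCast (N D0 ^ _), ← Real.rpow_mul (N_nonneg _)]
    norm_num
  calc _ ≤ Cd ^ 2 * N D0 ^ e * ((|C| + 1) * (1 + |t|) ^ A) * (M + Y ^ (19 / 16 : ℝ)) *
        Y ^ (1 + f) := by gcongr
    _ = _ := by ring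

theorem rl_final {Y K B σ l e f : ℝ} {J : ℕ} (hY : 1 ≤ Y) (hK : 1 ≤ K) (hB : 0 ≤ B) (hσ : 0 ≤ σ)
    (hl : 0 ≤ l) (he : 2 * σ + l ≤ e) (hJ : 1 ≤ l * (J - 1)) (hf : 0 ≤ f) :
    K * Y + K / Y * (Y ^ 2 / K) ^ σ * (B * (Y ^ l * Y ^ 2 / K + Y ^ (19 / 16 : ℝ)) * Y ^ (1 + f)) +
      Y ^ 3 * (Y ^ l) ^ (1 - (J : ℝ)) ≤
      (1 + B) * (Y + K * Y ^ (3 / 16 : ℝ)) * Y ^ (1 + f + e) := by
  have hY0 : 0 < Y := by linarith
  have h0 : Y ≤ Y ^ (1 + f + e) := Real.self_le_rpow_of_one_le hY (by linarith)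
  have h1 : (Y ^ 2 / K) ^ σ ≤ Y ^ (2 * σ) := by
    rw [Real.rpow_mul hY0.le, Real.rpow_two]
    gcongr
    exact div_le_self (by positivity) hK
  have h2 : Y ^ (2 * σ) * Y ^ l * Y ^ (1 + f) ≤ Y ^ (1 + f + e) := by
    rw [← Real.rpow_add hY0, ← Real.rpow_add hY0]
    exact Real.rpow_le_rpow_of_exponent_le hY (by linarith)
  have h3 : Y ^ 3 * (Y ^ l) ^ (1 - (J : ℝ)) ≤ Y * Y := by
    rw [← Real.rpow_mul hY0.le, ← Real.rpow_natCast, ← Real.rpow_add hY0, ← sq,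
      ← Real.rpow_natCast]
    exact Real.rpow_le_rpow_of_exponent_le hY (by push_cast; linarith)
  have h4 : 1 ≤ Y ^ (3 / 16 : ℝ) := Real.one_le_rpow hY (by norm_num)
  have h5 : 1 ≤ Y ^ l := Real.one_le_rpow hY hl
  have h6 : Y ^ (19 / 16 : ℝ) = Y * Y ^ (3 / 16 : ℝ) := by
    rw [← Real.rpow_one_add' hY0.le (by norm_num)]
    norm_num
  have h7 : K * Y ≤ K * Y ^ (3 / 16 : ℝ) * Y ^ (1 + f + e) := by
    rw [mul_assoc]
    gcongr
    nlinarith
  rw [h6]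
  calc _ ≤ K * Y ^ (3 / 16 : ℝ) * Y ^ (1 + f + e) + K / Y * Y ^ (2 * σ) *
        (B * (Y ^ l * Y ^ 2 / K + Y ^ l * (Y * Y ^ (3 / 16 : ℝ))) * Y ^ (1 + f)) +
        Y * Y ^ (1 + f + e) := by
        refine add_le_add (add_le_add h7 ?_) (h3.trans (by gcongr))
        have h8 : Y * Y ^ (3 / 16 : ℝ) ≤ Y ^ l * (Y * Y ^ (3 / 16 : ℝ)) :=
          le_mul_of_one_le_left (by positivity) h5
        gcongr
    _ = (Y + K * Y ^ (3 / 16 : ℝ)) * Y ^ (1 + f + e) +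
        B * (Y + K * Y ^ (3 / 16 : ℝ)) * (Y ^ (2 * σ) * Y ^ l * Y ^ (1 + f)) := by
        field_simp
        ring
    _ ≤ (Y + K * Y ^ (3 / 16 : ℝ)) * Y ^ (1 + f + e) +
        B * (Y + K * Y ^ (3 / 16 : ℝ)) * Y ^ (1 + f + e) := by gcongr
    _ = _ := by ring

theorem rlem {q : Eis} (h72 : (72 : Eis) ∣ q) {f : ℝ} (hf : 0 ≤ f) (h : HH q f) {e : ℝ}
    (he : 0 < e) : ∃ (C : ℝ) (A : ℕ), 0 < C ∧ ∀ Xi : Eis → ℂ, Per q Xi → Bd1 Xi →
      ∀ D0 : Eis, P0 D0 → ∀ Y K t : ℝ, 0 < Y → 0 < K →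
        BB Xi D0 Y K t ≤
          C * (1 + |t|) ^ A * N D0 ^ e * (Y + K * Y ^ (3 / 16 : ℝ)) * Y ^ (1 + f + e) := by
  obtain ⟨C, A, hC, hR⟩ := rem_cop hf h he
  obtain ⟨J, hJ⟩ := exists_nat_ge (2 / e + 2)
  have hJ' : 1 ≤ e / 2 * (J - 1) := by
    have : e * (2 / e) = 2 := by field_simp
    nlinarith
  have hJ2 : 2 ≤ J := by
    have : (0 : ℝ) < 2 / e := by positivity
    exact_mod_cast (show (2 : ℝ) ≤ J by linarith)
  have hσ : 0 < min (1 / 2) (e / 4) := lt_min (by norm_num) (by positivity)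
  obtain ⟨Cp, hCp, hp⟩ := lemP2 hσ (min_le_left _ _) A J hJ2
  obtain ⟨Cq, hCq, hq⟩ := rl_triv (3 / 16 + (1 + f + e))
  obtain ⟨η, hη1, hη2, hη3⟩ := exists_eta'
  refine ⟨Cq + Cp * (1 + C), A, by positivity, fun Xi hP hB D0 hD0 Y K t hY hK => ?_⟩
  have hn : 1 ≤ N D0 ^ e := Real.one_le_rpow (one_le_N hD0.ne_zero) he.le
  have ht : 1 ≤ (1 + |t|) ^ A := one_le_pow₀ (by linarith [abs_nonneg t])
  have ha : Bd1 fun c => alph true c * Xi c * cop D0 c :=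
    (Bd1.bt_mul (norm_alph_le true) hB).bt_mul (bt_norm_cop_le D0)
  have h0 : BB Xi D0 Y K t ≤ QQ 1 (fun c => alph true c * Xi c * cop D0 c * W Y t c) K := by
    refine le_trans (le_of_eq ?_) (le_QQ 1 _ K)
    refine Finset.sum_congr rfl fun h _ => congrArg (fun z => ‖z‖ ^ 2) (tsum_congr fun c => ?_)
    ring
  rcases lt_or_ge K 1 with hK1 | hK1
  · rw [BB, ball_eq_empty hK1, Finset.sum_empty]
    positivity
  rcases le_total Y 1 with hY1 | hY1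
  · have h1 := hq 1 _ (by
      have : alph true 0 = 0 := by
        by_contra hc
        exact (alph_ne_zero hc).ne_zero rfl
      simp [this]) ha Y K t hY hY1 hK
    rw [Real.rpow_add hY] at h1
    calc _ ≤ _ := h0.trans h1
      _ = (Cq + 0) * 1 * 1 * (0 + K * Y ^ (3 / 16 : ℝ)) * Y ^ (1 + f + e) := by ring
      _ ≤ _ := by gcongr; positivity
  have h3 := hp 1 2 (by norm_num) _ (fun c hc => alph_ne_zero
    (left_ne_zero_of_mul (left_ne_zero_of_mul hc))) ha Y K (Y ^ (e / 2)) t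
    (C * N D0 ^ e * (Y ^ (e / 2) * Y ^ 2 / K + Y ^ (19 / 16 : ℝ)) * Y ^ (1 + f))
    hY hK (by positivity) (by positivity) fun i Y' t' a1 a2 => by
      have hY' : 0 < Y' := by linarith
      have h4 := hR (fun c => η c * (Xi c * cls 4 i c))
        ((hη1.of_dvd h72).mul (hP.mul ((per_cls 4 i).of_dvd
          ((show (4 : Eis) ∣ 72 from ⟨18, by norm_num⟩).trans h72))))
        (hη2.bt_mul (hB.bt_mul fun c => by unfold cls; split_ifs <;> simp)) D0 hD0 Y'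
        (Y ^ (e / 2) * Y ^ 2 / K) t' hY' (by positivity)
      refine le_trans (le_of_eq ?_) (h4.trans ?_)
      · refine congrArg (fun a => QQ 2 a _) (funext fun c => ?_)
        linear_combination (Xi c * cop D0 c * cls 4 i c * W Y' t' c) * hη3 c
      · calc _ ≤ C * (1 + |t'|) ^ A * N D0 ^ e * (Y ^ (e / 2) * Y ^ 2 / K + Y ^ (19 / 16 : ℝ)) *
              Y ^ (1 + f) := by gcongr
          _ = _ := by ring
  have h6 := rl_final hY1 hK1 (B := C * N D0 ^ e) (by positivity) hσ.le (l := e / 2) (e := e)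
    (by positivity) (by linarith [min_le_right (1 / 2 : ℝ) (e / 4)]) hJ' hf
  calc _ ≤ _ := h0.trans h3
    _ ≤ Cp * (1 + |t|) ^ A * ((N D0 ^ e + C * N D0 ^ e) * (Y + K * Y ^ (3 / 16 : ℝ)) *
        Y ^ (1 + f + e)) := by
      gcongr
      exact h6.trans (by gcongr)
    _ = (0 + Cp * (1 + C)) * (1 + |t|) ^ A * N D0 ^ e * (Y + K * Y ^ (3 / 16 : ℝ)) *
        Y ^ (1 + f + e) := by ring
    _ ≤ _ := by gcongr

/-- The theta side of the Poisson inequality in terms of BB. -/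
theorem QQ_alph (Xi : Eis → ℂ) (Y K t : ℝ) :
    QQ 1 (fun c => alph true c * Xi c * W Y t c) K =
      ∑ D ∈ (ball K).filter P0,
        N D * BB (fun c => Xi (D * c)) D (Y / N D) (K / N D ^ 2) t := by
  rw [QQ_eq]
  refine Finset.sum_congr rfl fun D hD => ?_
  have hD0 : P0 D := (Finset.mem_filter.mp hD).2
  rw [BB, Finset.mul_sum]
  refine Finset.sum_congr rfl fun h _ => congrArg (fun z => N D * z ^ 2) ?_
  have h1 : ∀ c, alph true (D * c) * Xi (D * c) * W Y t (D * c) * chi 1 (h * D ^ 2) c =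
      (alph true D * nit t D) *
        (alph true c * (Xi (D * c) * cop D c * chi 1 h c) * W (Y / N D) t c) := fun c => by
    rw [alph_mul true hD0]
    by_cases hc : P0 c
    · rw [W_mul _ _ hc.ne_zero hD0.ne_zero, chi_mul_left 1 _ _ hc.1, sq, chi_mul_left 1 _ _ hc.1]
      have h2 : cub D c * chi 1 D c * chi 1 D c = cop D c := by
        by_cases hcD : IsCoprime D c
        · rw [cop, if_pos hcD.symm, chi, pow_one]
          linear_combination (quad D c ^ 2) * cub_cube hcD + quad_sq hcD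
        · rw [cop, if_neg fun h => hcD h.symm, (cub_eq_zero hc.ne_zero).mpr hcD, zero_mul, zero_mul]
      rw [← h2]
      ring
    · have h2 : alph true c = 0 := if_neg hc
      simp [h2]
  have h3 : ‖alph true D‖ = 1 := by
    rw [alph, if_pos hD0, norm_mul, Complex.norm_conj, norm_g3 hD0, norm_ang _ hD0.ne_zero, mul_one]
  rw [tsum_congr h1, tsum_mul_left, norm_mul, norm_mul, h3, norm_nit, one_mul, one_mul]
  rfl

end Vale.Agent.P026
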