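import Vale.Agent.P026.Recip2A

/-! Quadratic reciprocity and periodicity of chi j in the lower entry. -/

namespace Vale.Agent.P026

open Eis Complex
open scoped Classical ComplexConjugate

theorem Gam_congr {x y : Eis} (h : (4 : Eis) ∣ x - y) : Gam x = Gam y := by
  rw [r2_Gam, r2_Gam, r2_red_congr h]

theorem Gam_one : Gam 1 = 1 := by
  have : r2_g (r2_red 1) = 1 := by decide +kernel
  rw [r2_Gam, this, map_one]

theorem r2_Gam_mul_conj {x : Eis} (hx : ¬ (2 : Eis) ∣ x) : Gam x * conj (Gam x) = 1 := by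
  have := congrArg GaussianInt.toComplex (r2_g_norm _ (r2_odd hx))
  rwa [map_mul, GaussianInt.toComplex_star, map_one, ← r2_Gam] at this

theorem norm_Gam {x : Eis} (hx : ¬ (2 : Eis) ∣ x) : ‖Gam x‖ = 1 := by
  have h := congrArg norm (r2_Gam_mul_conj hx)
  rw [norm_mul, norm_conj, norm_one] at h
  nlinarith [norm_nonneg (Gam x)]

theorem norm_Gam_le (x : Eis) : ‖Gam x‖ ≤ 1 := by
  by_cases h : (2 : Eis) ∣ x
  · simp [Gam, h]
  · exact (norm_Gam h).le

theorem Rq_comm (x y : Eis) : Rq x y = Rq y x := by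
  rw [Rq, Rq, mul_comm x y]
  ring

theorem Rq_congr {x x' y y' : Eis} (hx : (4 : Eis) ∣ x - x') (hy : (4 : Eis) ∣ y - y') :
    Rq x y = Rq x' y' := by
  rw [r2_Rq, r2_Rq, r2_red_congr hx, r2_red_congr hy]

theorem norm_Rq_le (x y : Eis) : ‖Rq x y‖ ≤ 1 := by
  rw [Rq, norm_mul, norm_mul, norm_conj, norm_conj]
  exact mul_le_one₀ (mul_le_one₀ (norm_Gam_le _) (norm_nonneg _) (norm_Gam_le _)) (norm_nonneg _)
    (norm_Gam_le _)

theorem r2_Rq_cases {x y : Eis} (hx : ¬ (2 : Eis) ∣ x) (hy : ¬ (2 : Eis) ∣ y) :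
    Rq x y = 1 ∨ Rq x y = -1 := by
  rw [r2_Rq]
  rcases r2_r_sq _ _ (r2_odd hx) (r2_odd hy) with h | h <;> simp [h]

theorem Rq_sq {x y : Eis} (hx : ¬ (2 : Eis) ∣ x) (hy : ¬ (2 : Eis) ∣ y) : Rq x y ^ 2 = 1 := by
  rcases r2_Rq_cases hx hy with h | h <;> simp [h]

theorem conj_Rq {x y : Eis} (hx : ¬ (2 : Eis) ∣ x) (hy : ¬ (2 : Eis) ∣ y) :
    conj (Rq x y) = Rq x y := by
  rcases r2_Rq_cases hx hy with h | h <;> simp [h]

theorem Rq_mul_left {x x' y : Eis} (hx : ¬ (2 : Eis) ∣ x) (hx' : ¬ (2 : Eis) ∣ x')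
    (hy : ¬ (2 : Eis) ∣ y) : Rq (x * x') y = Rq x y * Rq x' y := by
  rw [r2_Rq, r2_Rq, r2_Rq, r2_red_mul, r2_r_mul _ _ _ (r2_odd hx) (r2_odd hx') (r2_odd hy),
    map_mul]

theorem Rq_one_left {y : Eis} (hy : ¬ (2 : Eis) ∣ y) : Rq 1 y = 1 := by
  have e : r2_red 1 = (1, 0) := by simp [r2_red]
  rw [r2_Rq, e, r2_r_one _ (r2_odd hy), map_one]

theorem Rq_self {x : Eis} (hx : ¬ (2 : Eis) ∣ x) : Rq x x = quad (-1) x := by
  rw [r2_Rq, r2_r_self _ (r2_odd hx), r2_quad_neg_one hx]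
  split_ifs <;> simp

theorem Gam_mul {x y : Eis} (hx : ¬ (2 : Eis) ∣ x) (hy : ¬ (2 : Eis) ∣ y) :
    Gam (x * y) = Gam x * Gam y * Rq x y := by
  rw [Rq]
  linear_combination (-Gam (x * y) * Gam y * conj (Gam y)) * r2_Gam_mul_conj hx -
    Gam (x * y) * r2_Gam_mul_conj hy

theorem quad_neg_one_congr {x y : Eis} (hx : ¬ (2 : Eis) ∣ x) (h : (4 : Eis) ∣ x - y) :
    quad (-1) x = quad (-1) y := by
  have hy : ¬ (2 : Eis) ∣ y := fun h2 => hx (by
    have := (Dvd.dvd.trans ⟨2, by norm_num⟩ h).add h2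
    rwa [sub_add_cancel] at this)
  rw [r2_quad_neg_one hx, r2_quad_neg_one hy, r2_red_congr h]

theorem r2_per_quad (c : Eis) : Per c fun y => quad y c := Per.of_congr fun _ _ h => quad_congr h

theorem r2_gauss_aux {p : Eis} (hp : Prime p) (h : ¬ (2 : Eis) ∣ p) (a : Eis) (ha : ¬ p ∣ a) :
    ∑ x ∈ res p, psi p (a * x ^ 2) = quad a p * ∑ y ∈ res p, quad y p * psi p y := by
  have h0 := hp.ne_zero
  have hc : IsCoprime a p := ((hp.irreducible.coprime_iff_not_dvd).2 ha).symm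
  rw [r2_sum_sq hp h (per_psi p a)]
  simp only [add_mul, one_mul, Finset.sum_add_distrib]
  rw [sum_psi h0, if_neg ha, zero_add]
  have hP : Per p fun y => quad y p * psi p y :=
    (r2_per_quad p).mul (Per.of_congr fun _ _ h => psi_congr h)
  rw [← sum_res_affine h0 hP hc 0, Finset.mul_sum]
  refine Finset.sum_congr rfl fun y _ => ?_
  rw [add_zero, quad_mul_left a y h]
  linear_combination (-quad y p * psi p (a * y)) * quad_sq hc

/-- The quadratic Gauss sum at an odd prime. -/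
theorem gauss_quad_prime {p : Eis} (hp : Prime p) (h : ¬ (2 : Eis) ∣ p) (a : Eis) (ha : ¬ p ∣ a) :
    ∑ x ∈ res p, psi p (a * x ^ 2) = quad a p * (ab p : ℂ) * Gam p := by
  have h1 := r2_gauss_aux hp h 1 hp.not_dvd_one
  simp only [one_mul, quad_one_left h, milgram h] at h1
  rw [r2_gauss_aux hp h a ha, ← h1, mul_assoc]

theorem r2_odd_mul {x y : Eis} (hx : ¬ (2 : Eis) ∣ x) (hy : ¬ (2 : Eis) ∣ y) :
    ¬ (2 : Eis) ∣ x * y := fun h => (prime_two.dvd_or_dvd h).elim hx hy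

theorem r2_ne_zero {x : Eis} (hx : ¬ (2 : Eis) ∣ x) : x ≠ 0 := by
  rintro rfl
  exact hx (dvd_zero _)

theorem r2_odd_unit {u : Eis} (hu : IsUnit u) : ¬ (2 : Eis) ∣ u := fun h =>
  prime_two.not_isUnit (isUnit_of_dvd_unit h hu)

theorem r2_recip_symm {x y : Eis} (hx : ¬ (2 : Eis) ∣ x) (hy : ¬ (2 : Eis) ∣ y)
    (h : quad x y = quad y x * Rq x y) : quad y x = quad x y * Rq y x := by
  rw [h, Rq_comm y x]
  linear_combination (-quad y x) * Rq_sq hx hy

theorem r2_recip_mul {x x' y : Eis} (hx : ¬ (2 : Eis) ∣ x) (hx' : ¬ (2 : Eis) ∣ x')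
    (hy : ¬ (2 : Eis) ∣ y) (h : quad x y = quad y x * Rq x y)
    (h' : quad x' y = quad y x' * Rq x' y) : quad (x * x') y = quad y (x * x') * Rq (x * x') y := by
  rw [quad_mul_left _ _ hy, quad_mul_right _ (r2_ne_zero hx) (r2_ne_zero hx'),
    Rq_mul_left hx hx' hy, h, h']
  ring

theorem r2_recip_unit {u y : Eis} (hu : IsUnit u) (hy : ¬ (2 : Eis) ∣ y) :
    quad u y = quad y u * Rq u y := by
  have uom : IsUnit om := isUnit_iff.2 (by simp)
  have h1 : quad 1 y = quad y 1 * Rq 1 y := by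
    rw [quad_one_left hy, quad_one_right, Rq_one_left hy, mul_one]
  have h2 : quad (-1) y = quad y (-1) * Rq (-1) y := by
    have e : r2_red (-1) = (-1, 0) := by simp [r2_red]
    rw [quad_unit_right isUnit_one.neg, r2_Rq, e, r2_r_neg _ (r2_odd hy), r2_quad_neg_one hy]
    split_ifs <;> simp
  have h3 : quad om y = quad y om * Rq om y := by
    have e : r2_red om = (0, 1) := by simp [r2_red]
    rw [quad_unit_right uom, r2_Rq, e, r2_r_om _ (r2_odd hy), quad_om hy]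
    simp
  have h4 := r2_recip_mul (r2_odd_unit uom) (r2_odd_unit uom) hy h3 h3
  rcases isUnit_iff.1 hu with rfl | rfl | rfl | rfl | rfl | rfl
  · exact h1
  · exact h2
  · exact h3
  · simpa using r2_recip_mul (r2_odd_unit isUnit_one.neg) (r2_odd_unit uom) hy h2 h3
  · rwa [sq]
  · have := r2_recip_mul (r2_odd_unit isUnit_one.neg) (r2_odd_unit (uom.mul uom)) hy h2 h4
    rwa [neg_one_mul, ← sq] at this

theorem r2_recip_prime {p q : Eis} (hp : Prime p) (hq : Prime q) (hp2 : ¬ (2 : Eis) ∣ p)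
    (hq2 : ¬ (2 : Eis) ∣ q) : quad p q = quad q p * Rq p q := by
  by_cases hc : IsCoprime p q
  · have hpq : ¬ p ∣ q := hp.irreducible.coprime_iff_not_dvd.1 hc
    have hqp : ¬ q ∣ p := hq.irreducible.coprime_iff_not_dvd.1 hc.symm
    have hP : Per (p * q) fun x => psi (p * q) (x ^ 2) := Per.of_congr fun x y h =>
      psi_congr (h.trans (sub_dvd_pow_sub_pow x y 2))
    have h1 := milgram (r2_odd_mul hp2 hq2)
    rw [sum_res_crt hp.ne_zero hq.ne_zero hc hP] at h1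
    have e : ∀ u v : Eis, psi (p * q) ((q * u + p * v) ^ 2) =
        psi p (q * u ^ 2) * psi q (p * v ^ 2) := by
      intro u v
      rw [psi_congr (y := q * (q * u ^ 2) + p * (p * v ^ 2)) ⟨2 * u * v, by ring⟩, psi_add,
        psi_mul_left hq.ne_zero, mul_comm p q, psi_mul_left hp.ne_zero]
    simp only [e] at h1
    rw [← Finset.sum_mul_sum, gauss_quad_prime hp hp2 q hpq, gauss_quad_prime hq hq2 p hqp,
      ab_mul, Gam_mul hp2 hq2] at h1
    have a1 : (ab p : ℂ) ≠ 0 := by exact_mod_cast (ab_pos hp.ne_zero).ne'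
    have a2 : (ab q : ℂ) ≠ 0 := by exact_mod_cast (ab_pos hq.ne_zero).ne'
    have a3 : Gam p ≠ 0 := by
      rw [← norm_ne_zero_iff, norm_Gam hp2]
      exact one_ne_zero
    have a4 : Gam q ≠ 0 := by
      rw [← norm_ne_zero_iff, norm_Gam hq2]
      exact one_ne_zero
    have h2 : quad q p * quad p q = Rq p q := by
      refine mul_left_cancel₀ (mul_ne_zero (mul_ne_zero a1 a2) (mul_ne_zero a3 a4)) ?_
      push_cast at h1
      linear_combination h1
    rw [← h2]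
    linear_combination (-quad p q) * quad_sq hc.symm
  · rw [(quad_eq_zero hq.ne_zero).2 hc, (quad_eq_zero hp.ne_zero).2 fun h => hc h.symm, zero_mul]

theorem r2_recip_left {y : Eis} (hy : ¬ (2 : Eis) ∣ y)
    (h : ∀ p, Prime p → ¬ (2 : Eis) ∣ p → quad p y = quad y p * Rq p y) (x : Eis) :
    ¬ (2 : Eis) ∣ x → quad x y = quad y x * Rq x y := by
  induction x using UniqueFactorizationMonoid.induction_on_prime with
  | h₁ => exact fun hx => absurd (dvd_zero _) hx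
  | h₂ u hu => exact fun _ => r2_recip_unit hu hy
  | h₃ a p _ hp ih =>
    intro hx
    have h1 : ¬ (2 : Eis) ∣ p := fun h' => hx (h'.mul_right _)
    have h2 : ¬ (2 : Eis) ∣ a := fun h' => hx (h'.mul_left _)
    exact r2_recip_mul h1 h2 hy (h p hp h1) (ih h2)

theorem quad_recip {x y : Eis} (hx : ¬ (2 : Eis) ∣ x) (hy : ¬ (2 : Eis) ∣ y) :
    quad x y = quad y x * Rq x y := by
  refine r2_recip_left hy (fun p hp hp2 => r2_recip_symm hy hp2 ?_) x hx
  exact r2_recip_left hp2 (fun q hq hq2 => r2_recip_prime hq hp hq2 hp2) y hy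

theorem chi_recip (j : ℕ) {x y : Eis} (hx : P1 x) (hy : P1 y) :
    chi j x y = chi j y x * Rq x y := by
  rw [chi, chi, cub_recip hx.1 hy.1, quad_recip hx.2 hy.2, mul_assoc]

theorem r2_nrm_congr {e e' : Eis} (h : (8 : Eis) ∣ e - e') :
    ((nrm e : ℤ) : ZMod 8) = ((nrm e' : ℤ) : ZMod 8) := by
  have h' := (r2_dvd_iff 8 (e - e')).1 (by rwa [Int.cast_ofNat])
  simp only [sub_a, sub_b] at h'
  have h1 : (e.a : ZMod 8) = e'.a := ((ZMod.intCast_eq_intCast_iff_dvd_sub _ _ 8).2 h'.1).symm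
  have h2 : (e.b : ZMod 8) = e'.b := ((ZMod.intCast_eq_intCast_iff_dvd_sub _ _ 8).2 h'.2).symm
  simp [nrm, h1, h2]

theorem r2_quad_per_odd {n e e' : Eis} (hn : ¬ (2 : Eis) ∣ n) (he : ¬ (2 : Eis) ∣ e)
    (he' : ¬ (2 : Eis) ∣ e') (h4 : (4 : Eis) ∣ e - e') (h : n ∣ e - e') :
    quad n e = quad n e' := by
  rw [quad_recip hn he, quad_recip hn he', quad_congr h, Rq_congr (x := n) (x' := n) (by simp) h4]

theorem quad_per_rad {n q e e' : Eis} (he : ¬ (2 : Eis) ∣ e) (k : ℕ) (hn : n ∣ q ^ k) (hq : q ≠ 0)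
    (h : 8 * q ∣ e - e') : quad n e = quad n e' := by
  have h8 : (8 : Eis) ∣ e - e' := (dvd_mul_right _ _).trans h
  have h4 : (4 : Eis) ∣ e - e' := Dvd.dvd.trans ⟨2, by norm_num⟩ h8
  have he' : ¬ (2 : Eis) ∣ e' := fun h2 => he (by
    have := (Dvd.dvd.trans ⟨2, by norm_num⟩ h4).add h2
    rwa [sub_add_cancel] at this)
  have hu : ∀ u, IsUnit u → quad u e = quad u e' := fun u hu =>
    r2_quad_per_odd (r2_odd_unit hu) he he' h4 hu.dvd
  induction n using UniqueFactorizationMonoid.induction_on_prime with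
  | h₁ => exact absurd (zero_dvd_iff.1 hn) (pow_ne_zero k hq)
  | h₂ u hu' => exact hu u hu'
  | h₃ a p _ hp ih =>
    rw [quad_mul_left _ _ he, quad_mul_left _ _ he', ih ((dvd_mul_left _ _).trans hn)]
    congr 1
    by_cases h2 : (2 : Eis) ∣ p
    · obtain ⟨u, rfl⟩ := h2
      have uu : IsUnit u := (hp.irreducible.isUnit_or_isUnit rfl).resolve_left prime_two.not_isUnit
      rw [quad_mul_left _ _ he, quad_mul_left _ _ he', hu u uu, quad_two he, quad_two he',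
        r2_nrm_congr h8]
    · exact r2_quad_per_odd h2 he he' h4
        ((hp.dvd_of_dvd_pow ((dvd_mul_right _ _).trans hn)).trans ((dvd_mul_left _ _).trans h))

theorem chi_per_rad (j : ℕ) {n q e e' : Eis} (he : P1 e) (k : ℕ) (hn : n ∣ q ^ k) (hq : q ≠ 0)
    (h : 72 * q ∣ e - e') : chi j n e = chi j n e' := by
  rw [chi, chi, cub_per_rad he.1 k hn hq (Dvd.dvd.trans ⟨8, by ring⟩ h),
    quad_per_rad he.2 k hn hq (Dvd.dvd.trans ⟨9, by ring⟩ h)]


end Vale.Agent.P026
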