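import Vale.Agent.P026.Pois
import Vale.Agent.P026.Recip3

/-! Finite checks modulo four for the sign of the quadratic Gauss sum. -/

namespace Vale.Agent.P026

open Eis Complex
open scoped Classical ComplexConjugate

/-- Residues modulo four. -/
abbrev r2_E : Type := ZMod 4 × ZMod 4

/-- Reduction modulo four. -/
def r2_red (x : Eis) : r2_E := ((x.a : ZMod 4), (x.b : ZMod 4))

/-- Multiplication of residues. -/
def r2_mul (x y : r2_E) : r2_E := (x.1 * y.1 - x.2 * y.2, x.1 * y.2 + x.2 * y.1 - x.2 * y.2)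

/-- Even residues. -/
def r2_ev (x : r2_E) : Bool := decide (2 * x.1 = 0) && decide (2 * x.2 = 0)

/-- Norm of a residue. -/
def r2_n (x : r2_E) : ZMod 4 := x.1 ^ 2 - x.1 * x.2 + x.2 ^ 2

/-- Powers of -i. -/
def r2_ch (x : ZMod 4) : GaussianInt :=
  if x = 0 then ⟨1, 0⟩ else if x = 1 then ⟨0, -1⟩ else if x = 2 then ⟨-1, 0⟩ else ⟨0, 1⟩

/-- Twice the sign. -/
def r2_s (x : r2_E) : GaussianInt := 1 + r2_ch x.2 + r2_ch (x.1 - x.2) + r2_ch (-x.1)

/-- The sign. -/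
def r2_g (x : r2_E) : GaussianInt :=
  if r2_ev x then 0 else ⟨(r2_s x).re / 2, (r2_s x).im / 2⟩

/-- The reciprocity sign. -/
def r2_r (x y : r2_E) : GaussianInt := r2_g (r2_mul x y) * star (r2_g x) * star (r2_g y)

theorem r2_red_mul (x y : Eis) : r2_red (x * y) = r2_mul (r2_red x) (r2_red y) := by
  simp [r2_red, r2_mul]

theorem r2_nrm (x : Eis) : ((nrm x : ℤ) : ZMod 4) = r2_n (r2_red x) := by
  simp [r2_red, r2_n, nrm]

theorem r2_dvd_iff (n : ℤ) (x : Eis) : (n : Eis) ∣ x ↔ n ∣ x.a ∧ n ∣ x.b := by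
  constructor
  · rintro ⟨y, rfl⟩
    simp
  · rintro ⟨⟨s, hs⟩, ⟨t, ht⟩⟩
    exact ⟨⟨s, t⟩, by ext <;> simp [hs, ht]⟩

theorem r2_two_dvd (x : Eis) : (2 : Eis) ∣ x ↔ r2_ev (r2_red x) = true := by
  have h := r2_dvd_iff 2 x
  rw [Int.cast_ofNat] at h
  have k : ∀ n : ℤ, (2 : ℤ) ∣ n ↔ 2 * (n : ZMod 4) = 0 := by
    intro n
    have : (2 * (n : ZMod 4)) = ((2 * n : ℤ) : ZMod 4) := by push_cast; rfl
    rw [this, ZMod.intCast_zmod_eq_zero_iff_dvd]
    omega
  rw [h, k, k, r2_ev, Bool.and_eq_true]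
  exact and_congr decide_eq_true_iff.symm decide_eq_true_iff.symm

theorem r2_odd {x : Eis} (hx : ¬ (2 : Eis) ∣ x) : r2_ev (r2_red x) = false := by
  rw [r2_two_dvd] at hx
  simpa using hx

theorem r2_red_congr {x y : Eis} (h : (4 : Eis) ∣ x - y) : r2_red x = r2_red y := by
  have h' := (r2_dvd_iff 4 (x - y)).1 (by rwa [Int.cast_ofNat])
  simp only [sub_a, sub_b] at h'
  refine Prod.ext ?_ ?_
  · exact ((ZMod.intCast_eq_intCast_iff_dvd_sub _ _ 4).2 h'.1).symm
  · exact ((ZMod.intCast_eq_intCast_iff_dvd_sub _ _ 4).2 h'.2).symm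

theorem r2_zpow (n : ℤ) : (-I) ^ n = GaussianInt.toComplex (r2_ch (n : ZMod 4)) := by
  have h4 : (-I) ^ (4 : ℤ) = 1 := by
    rw [show (4 : ℤ) = ((4 : ℕ) : ℤ) from rfl, zpow_natCast, neg_pow, I_pow_four]
    norm_num
  have hI : (-I) ≠ 0 := neg_ne_zero.2 I_ne_zero
  obtain ⟨s, r, hn, h0, h1⟩ : ∃ s r : ℤ, n = 4 * s + r ∧ 0 ≤ r ∧ r < 4 :=
    ⟨n / 4, n % 4, by omega, by omega, by omega⟩
  have e : (n : ZMod 4) = (r : ZMod 4) := by
    rw [hn]
    push_cast
    rw [show (4 : ZMod 4) = 0 from rfl, zero_mul, zero_add]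
  rw [e, hn, zpow_add₀ hI, zpow_mul, h4, one_zpow, one_mul]
  have : r = 0 ∨ r = 1 ∨ r = 2 ∨ r = 3 := by omega
  rcases this with rfl | rfl | rfl | rfl
  · have : r2_ch ((0 : ℤ) : ZMod 4) = ⟨1, 0⟩ := by decide
    rw [this]
    simp [GaussianInt.toComplex_def']
  · have : r2_ch ((1 : ℤ) : ZMod 4) = ⟨0, -1⟩ := by decide
    rw [this]
    simp [GaussianInt.toComplex_def']
  · have : r2_ch ((2 : ℤ) : ZMod 4) = ⟨-1, 0⟩ := by decide
    rw [this, show (2 : ℤ) = ((2 : ℕ) : ℤ) from rfl, zpow_natCast]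
    simp [GaussianInt.toComplex_def']
  · have : r2_ch ((3 : ℤ) : ZMod 4) = ⟨0, 1⟩ := by decide
    rw [this, show (3 : ℤ) = ((3 : ℕ) : ℤ) from rfl, zpow_natCast, neg_pow, I_pow_three]
    simp [GaussianInt.toComplex_def']
    norm_num

theorem r2_two_g : ∀ x : r2_E, r2_ev x = false → r2_s x = 2 * r2_g x := by decide +kernel

theorem r2_Gam (x : Eis) : Gam x = GaussianInt.toComplex (r2_g (r2_red x)) := by
  unfold Gam
  split_ifs with h
  · rw [r2_two_dvd] at h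
    simp [r2_g, h]
  · have := congrArg GaussianInt.toComplex (r2_two_g _ (r2_odd h))
    simp only [r2_s, map_add, map_one, map_mul, map_ofNat, r2_red] at this
    rw [r2_zpow, r2_zpow, r2_zpow]
    push_cast
    rw [this]
    simp only [r2_red]
    ring

theorem r2_Rq (x y : Eis) : Rq x y = GaussianInt.toComplex (r2_r (r2_red x) (r2_red y)) := by
  simp only [Rq, r2_r, r2_Gam, r2_red_mul, map_mul, GaussianInt.toComplex_star]

theorem r2_g_norm : ∀ x : r2_E, r2_ev x = false → r2_g x * star (r2_g x) = 1 := by decide +kernel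

theorem r2_r_sq : ∀ x y : r2_E, r2_ev x = false → r2_ev y = false →
    r2_r x y = 1 ∨ r2_r x y = -1 := by decide +kernel

theorem r2_r_mul : ∀ x x' y : r2_E, r2_ev x = false → r2_ev x' = false → r2_ev y = false →
    r2_r (r2_mul x x') y = r2_r x y * r2_r x' y := by decide +kernel

theorem r2_r_one : ∀ y : r2_E, r2_ev y = false → r2_r (1, 0) y = 1 := by decide +kernel

theorem r2_r_om : ∀ y : r2_E, r2_ev y = false → r2_r (0, 1) y = 1 := by decide +kernel

theorem r2_r_self : ∀ y : r2_E, r2_ev y = false →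
    r2_r y y = if r2_n y = 1 then 1 else -1 := by decide +kernel

theorem r2_r_neg : ∀ y : r2_E, r2_ev y = false →
    r2_r (-1, 0) y = if r2_n y = 1 then 1 else -1 := by decide +kernel

theorem r2_n_odd : ∀ y : r2_E, r2_ev y = false → r2_n y = 1 ∨ r2_n y = 3 := by decide +kernel

theorem r2_quad_neg_one {x : Eis} (hx : ¬ (2 : Eis) ∣ x) :
    quad (-1) x = if r2_n (r2_red x) = 1 then 1 else -1 := by
  rw [quad_neg_one hx, ← r2_nrm]
  have h0 := nrm_nonneg x
  have h := r2_n_odd _ (r2_odd hx)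
  rw [← r2_nrm] at h
  have k1 : ((nrm x : ℤ) : ZMod 4) = 1 ↔ nrm x % 4 = 1 := by
    rw [show (1 : ZMod 4) = ((1 : ℤ) : ZMod 4) by simp, ZMod.intCast_eq_intCast_iff']
    rfl
  have k3 : ((nrm x : ℤ) : ZMod 4) = 3 ↔ nrm x % 4 = 3 := by
    rw [show (3 : ZMod 4) = ((3 : ℤ) : ZMod 4) by simp, ZMod.intCast_eq_intCast_iff']
    rfl
  rw [k1, k3] at h
  simp only [k1]
  split_ifs with h1
  · exact Even.neg_one_pow (Nat.even_iff.2 (by omega))
  · exact Odd.neg_one_pow (Nat.odd_iff.2 (by omega))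

/-- Sums over squares modulo an odd prime. -/
theorem r2_sum_sq {p : Eis} (hp : Prime p) (h : ¬ (2 : Eis) ∣ p) {F : Eis → ℂ} (hF : Per p F) :
    ∑ x ∈ res p, F (x ^ 2) = ∑ y ∈ res p, (1 + quad y p) * F y := by
  have h0 := hp.ne_zero
  have e1 : ∀ y ∈ res p, (1 + quad y p) * F y =
      ∑ x ∈ res p, if p ∣ x ^ 2 - y then F y else 0 := by
    intro y _
    rw [← card_sqrt hp h y, ← Finset.sum_filter, Finset.sum_const, nsmul_eq_mul]
  rw [Finset.sum_congr rfl e1, Finset.sum_comm]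
  refine Finset.sum_congr rfl fun x _ => ?_
  rw [Finset.sum_eq_single_of_mem (x ^ 2 % p) (mod_mem_res h0 _)]
  · rw [if_pos (dvd_sub_mod p _)]
    exact hF.congr (dvd_sub_mod p _)
  · intro y hy hne
    refine if_neg fun hd => hne (res_unique hy (mod_mem_res h0 _) ?_)
    have := (dvd_sub_mod p (x ^ 2)).sub hd
    rwa [sub_sub_sub_cancel_left] at this

end Vale.Agent.P026
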