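import Vale.Agent.P026.Sym

/-! The Frobenius computation behind cubic reciprocity. -/

namespace Vale.Agent.P026

open Eis Complex
open scoped Classical ComplexConjugate

/-- Reduction of complex algebraic integers modulo a prime above q. -/
theorem r3_red {q : Eis} (hq : Prime q) :
    ∃ (A : Subring ℂ) (ι : Eis →+* A) (F : Type) (_ : Field F) (φ : A →+* F) (l f : ℕ),
      l.Prime ∧ CharP F l ∧ (nrm q).natAbs = l ^ f ∧ (∀ x, (ι x : ℂ) = toC x) ∧
      (∀ (z : ℂ) (n : ℕ), 0 < n → z ^ n = 1 → z ∈ A) ∧ ∀ x, φ (ι x) = 0 ↔ q ∣ x := by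
  let : Algebra Eis ℂ := toC.toAlgebra
  have hmax : (Ideal.span {q}).IsMaximal :=
    PrincipalIdealRing.isMaximal_of_irreducible hq.irreducible
  obtain ⟨M, hM, hc⟩ := Ideal.exists_ideal_over_maximal_of_isIntegral
    (S := integralClosure Eis ℂ) (Ideal.span {q}) (by
      intro x hx
      have h1 : toC x = 0 := congrArg Subtype.val (RingHom.mem_ker.1 hx)
      have h2 : x = 0 := toC_inj (by rw [h1, map_zero])
      rw [h2]; exact zero_mem _)
  have hfin := finite_quot hq.ne_zero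
  let := Fintype.ofFinite (Eis ⧸ Ideal.span {q})
  let := Ideal.Quotient.field (Ideal.span {q})
  let := Ideal.Quotient.field M
  obtain ⟨l, hl, f, hlp, hcard⟩ := FiniteField.card' (Eis ⧸ Ideal.span {q})
  have key : ∀ x, Ideal.Quotient.mk M (algebraMap Eis (integralClosure Eis ℂ) x) = 0 ↔ q ∣ x := by
    intro x
    rw [Ideal.Quotient.eq_zero_iff_mem, ← Ideal.mem_comap, hc, Ideal.mem_span_singleton]
  refine ⟨(integralClosure Eis ℂ).toSubring, algebraMap Eis (integralClosure Eis ℂ),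
    integralClosure Eis ℂ ⧸ M, inferInstance, Ideal.Quotient.mk M, l, f, hlp, ?_, ?_,
    fun _ => rfl, fun z n hn hz => ?_, key⟩
  · refine (CharP.charP_iff_prime_eq_zero hlp).2 ?_
    have h1 : q ∣ (l : Eis) := by
      rw [← Ideal.mem_span_singleton, ← Ideal.Quotient.eq_zero_iff_mem, map_natCast]
      exact CharP.cast_eq_zero _ l
    simpa using (key l).2 h1
  · rw [← card_quot hq.ne_zero, Nat.card_eq_fintype_card, hcard]
  · exact IsIntegral.of_pow hn (by rw [hz]; exact isIntegral_one)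

theorem r3_natAbs (p : Eis) : (((nrm p).natAbs : ℕ) : Eis) = (nrm p : Eis) := by
  rw [← Int.cast_natCast, Int.natAbs_of_nonneg (nrm_nonneg p)]

theorem r3_psi_pow (p x : Eis) (n : ℕ) : psi p x ^ n = psi p (n * x) := by
  induction n with
  | zero => simp
  | succ n ih => rw [pow_succ, ih, ← psi_add]; congr 1; push_cast; ring

theorem r3_cub_pow (a c : Eis) (k : ℕ) : cub a c ^ (3 * k + 1) = cub a c := by
  induction k with
  | zero => simp
  | succ k ih =>
    have e : 3 * (k + 1) + 1 = 3 * k + 1 + 3 := by ring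
    rw [e, pow_add, ih, ← pow_succ', cub_pow_four]

theorem r3_nrm_mod {q : Eis} (h : Prim q) : ∃ k : ℕ, (nrm q).natAbs = 3 * k + 1 := by
  obtain ⟨y, hy⟩ := h
  have e : q = 1 + 3 * y := by linear_combination hy
  have h1 : nrm q = 3 * (2 * y.a - y.b + 3 * nrm y) + 1 := by
    rw [e]; simp [nrm]; ring
  have h2 := nrm_nonneg q
  exact ⟨(2 * y.a - y.b + 3 * nrm y).natAbs, by omega⟩

theorem r3_root {z : Eis} (h : toC z ^ 3 = 1) : z = 1 ∨ z = om ∨ z = om ^ 2 := by
  have h1 : z ^ 3 = 1 := toC_inj (by rw [map_pow, h, map_one])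
  have h2 : (z - 1) * ((z - om) * (z - om ^ 2)) = 0 := by
    linear_combination h1 + (-z ^ 2 + z * om - om + 1) * om_sq_add
  rcases mul_eq_zero.1 h2 with h | h
  · exact Or.inl (sub_eq_zero.1 h)
  · rcases mul_eq_zero.1 h with h | h
    · exact Or.inr (Or.inl (sub_eq_zero.1 h))
    · exact Or.inr (Or.inr (sub_eq_zero.1 h))

/-- Cube roots of unity are distinct modulo primes different from lam. -/
theorem r3_sep {q z z' : Eis} (hq : Prime q) (h : Prim q) (hz : toC z ^ 3 = 1)
    (hz' : toC z' ^ 3 = 1) (hd : q ∣ z - z') : z = z' := by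
  by_contra hne
  have h3 : z - z' ∣ 3 := by
    have e : om ^ 2 = ⟨-1, -1⟩ := by decide
    rcases r3_root hz with rfl | rfl | rfl <;> rcases r3_root hz' with rfl | rfl | rfl <;>
      first
      | exact absurd rfl hne
      | exact ⟨cj _, by rw [mul_cj]; try rw [e]
                        decide⟩
  exact hq.not_isUnit (h.coprime_three.isUnit_of_dvd' dvd_rfl (hd.trans h3))

theorem r3_key0 {p q : Eis} (hp : Prime p) (h1 : Prim p) (hq : Prime q) (h2 : Prim q)
    (hqp : ¬q ∣ (nrm p : Eis)) (hpq : ¬p ∣ (nrm q : Eis)) :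
    conj (cub (nrm q) p) = cub (nrm p * p) q := by
  obtain ⟨A, ι, F, _, φ, l, f, hl, hchar, hcard, hι, hroot, hker⟩ := r3_red hq
  have := Fact.mk hl
  obtain ⟨k, hk⟩ := r3_nrm_mod h2
  have hcop : IsCoprime (nrm q : Eis) p := ((hp.coprime_iff_not_dvd).2 hpq).symm
  choose c hc _ using fun a => cub_spec hp h1.not_lam_dvd a
  have hpsi : ∀ x, psi p x ∈ A := fun x => hroot _ (nrm p).natAbs
    (Int.natAbs_pos.2 (nrm_pos hp.ne_zero).ne') (by
      rw [r3_psi_pow, r3_natAbs, ← mul_cj]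
      exact psi_of_dvd ((dvd_mul_right _ _).mul_right _))
  let G : A := ∑ x ∈ res p, ι (c x) * ⟨psi p x, hpsi x⟩
  have hG : (G : ℂ) = gauss (fun x => cub x p) p 1 := by
    simp only [G, gauss, AddSubmonoidClass.coe_finsetSum, MulMemClass.coe_mul, hι, hc, one_mul]
  have hG3 : G ^ 3 = ι (-(nrm p * p)) := by
    apply Subtype.ext
    rw [SubmonoidClass.coe_pow, hG, gauss_cub_cube hp h1, hι]
    simp [N]
  obtain ⟨z, hz, hz'⟩ := cub_spec hq h2.not_lam_dvd (-(nrm p * p))
  have hfrob : ∑ x ∈ res p, (ι (c x) * ⟨psi p x, hpsi x⟩) ^ (3 * k + 1) =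
      ι (c (nrm q) ^ 2) * G := by
    apply Subtype.ext
    simp only [AddSubmonoidClass.coe_finsetSum, MulMemClass.coe_mul, SubmonoidClass.coe_pow, hι,
      hc, hG, mul_pow, map_pow, r3_cub_pow, r3_psi_pow]
    have e : (((3 * k + 1 : ℕ)) : Eis) = (nrm q : Eis) := by rw [← hk, r3_natAbs]
    rw [e]
    have h0 := sum_res_affine hp.ne_zero (F := fun x => cub x p * psi p (1 * x))
      (Per.mul (Per.of_congr fun _ _ => cub_congr) (per_psi p 1)) hcop 0
    rw [gauss, ← h0, Finset.mul_sum]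
    refine Finset.sum_congr rfl fun x _ => ?_
    rw [add_zero, one_mul, cub_mul_left _ _ h1.not_lam_dvd]
    linear_combination (-(cub x p * psi p (nrm q * x))) * cub_cube hcop
  have h3 : φ G ≠ 0 := fun h => by
    have : φ (ι (-(nrm p * p))) = 0 := by rw [← hG3, map_pow, h]; simp
    rw [hker, dvd_neg] at this
    rcases hq.dvd_or_dvd this with h | h
    · exact hqp h
    · exact hqp (h.trans ⟨cj p, (mul_cj p).symm⟩)
  have h4 : φ G ^ (3 * k + 1) = φ (ι (c (nrm q) ^ 2)) * φ G := by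
    rw [← map_mul, ← hfrob, ← hk, hcard, map_sum, map_sum, sum_pow_char_pow]
    simp only [map_pow]
  have h5 : φ G ^ (3 * k + 1) = φ (ι z) * φ G := by
    rw [pow_succ, pow_mul, ← map_pow φ G 3, hG3, ← map_pow, ← map_pow]
    congr 1
    rw [← sub_eq_zero, ← map_sub, ← map_sub, hker]
    have e : ((nrm q).natAbs - 1) / 3 = k := by omega
    rwa [e] at hz'
  have h6 : q ∣ c (nrm q) ^ 2 - z := by
    rw [← hker, map_sub, map_sub, sub_eq_zero]
    exact mul_right_cancel₀ h3 (h4.symm.trans h5)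
  have hcop2 : IsCoprime (-(nrm p * p)) q := by
    refine ((hq.coprime_iff_not_dvd).2 fun h => ?_).symm
    rcases hq.dvd_or_dvd (dvd_neg.1 h) with h | h
    · exact hqp h
    · exact hqp (h.trans ⟨cj p, (mul_cj p).symm⟩)
  have h7 := r3_sep hq h2 (by rw [map_pow, hc, ← pow_mul, mul_comm, pow_mul, cub_cube hcop]; simp)
    (by rw [hz, cub_cube hcop2]) h6
  rw [conj_cub, ← hc, ← map_pow, h7, hz, cub_neg_left _ h2.not_lam_dvd]

end Vale.Agent.P026
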