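import Vale.Agent.P026.Res1A
import Vale.Agent.P026.Kap

/-! Averaged test functions. -/

namespace Vale.Agent.P026

open Eis Complex MeasureTheory Filter Topology
open scoped Classical ComplexConjugate

/-- A box in the parameter domain. -/
def r1B (D1 D2 : ℝ) : Set (ℝ × ℝ) := Set.Icc D1 D2 ×ˢ Set.Icc (1 : ℝ) 2

/-- The weighted test function at a parameter point. -/
noncomputable def r1F (a : ℝ) (p : ℝ × ℝ) (y : ℝ) : ℂ := (p.1 : ℂ) * fk a p.1 p.2 y

/-- The averaged test function. -/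
noncomputable def r1phi (a : ℝ) (s : Set (ℝ × ℝ)) (y : ℝ) : ℂ := ∫ p in s, r1F a p y

/-- The shape function. -/
noncomputable def r1K (a : ℝ) (p : ℝ × ℝ) : ℝ :=
  p.1 ^ (-(2 / 3) : ℝ) * p.2 ^ (-(1 / 3) : ℝ) * kk (a * (√p.2 / p.1))

theorem r1_phi0 : phi0 = r1phi 1 (r1B 1 2) := rfl

theorem r1_measB (D1 D2 : ℝ) : MeasurableSet (r1B D1 D2) := measurableSet_Icc.prod measurableSet_Icc

theorem r1_volB (D1 D2 : ℝ) : volume (r1B D1 D2) < ⊤ :=
  (isCompact_Icc.prod isCompact_Icc).measure_lt_top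

theorem r1_measF (a : ℝ) : Measurable fun z : (ℝ × ℝ) × ℝ => r1F a z.1 z.2 := by
  unfold r1F fk; fun_prop

theorem r1F_eq (a : ℝ) {p : ℝ × ℝ} (hp : p.1 ≠ 0) (y : ℝ) :
    r1F a p y = (Real.exp (-(y * p.2 / p.1) - a ^ 2 / (y * p.1)) : ℝ) := by
  unfold r1F fk
  rw [← ofReal_mul, mul_inv_cancel_left₀ hp]

variable {a D1 D2 : ℝ} {s : Set (ℝ × ℝ)} {γ : Eis → ℂ}

theorem r1F_le (hD : 0 < D1) {p : ℝ × ℝ} (hp : p ∈ r1B D1 D2) {y : ℝ} (hy : 0 < y) :
    ‖r1F a p y‖ ≤ Real.exp (-(D2⁻¹ * y)) := by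
  obtain ⟨⟨h1, h2⟩, h3, -⟩ := hp
  have h0 : 0 < p.1 := hD.trans_le h1
  rw [r1F_eq a h0.ne', norm_real, Real.norm_of_nonneg (Real.exp_pos _).le, Real.exp_le_exp]
  have e1 : 0 ≤ a ^ 2 / (y * p.1) := by positivity
  have e2 : D2⁻¹ * y ≤ y * p.2 / p.1 := by
    rw [mul_comm, mul_div_assoc, ← one_div]
    gcongr
  linarith

theorem r1T_phi (hD : 0 < D1) (hD' : D1 ≤ D2) (hs : s ⊆ r1B D1 D2) : r1T (r1phi a s) := by
  refine ⟨?_, volume.real s, D2⁻¹, measureReal_nonneg, inv_pos.2 (hD.trans_le hD'), fun y hy => ?_⟩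
  · exact ((r1_measF a).stronglyMeasurable.integral_prod_left' (μ := volume.restrict s)).measurable
  · rw [mul_comm]
    exact norm_setIntegral_le_of_norm_le_const ((measure_mono hs).trans_lt (r1_volB D1 D2))
      fun p hp => r1F_le hD (hs hp) hy

theorem r1S_phi (h0 : γ 0 = 0) (hγ : ∀ c, ‖γ c‖ ≤ 81) (hD : 0 < D1) (hD' : D1 ≤ D2)
    (hm : MeasurableSet s) (hs : s ⊆ r1B D1 D2) {t : ℝ} (ht : 0 < t) :
    r1S γ (r1phi a s) t = ∫ p in s, r1S γ (r1F a p) t := by
  have hfin : IsFiniteMeasure (volume.restrict s) :=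
    isFiniteMeasure_restrict.2 ((measure_mono hs).trans_lt (r1_volB D1 D2)).ne
  have hD2 : 0 < D2⁻¹ * t := mul_pos (inv_pos.2 (hD.trans_le hD')) ht
  simp only [r1S, r1phi]
  rw [integral_const_mul]
  congr 1
  simp only [← integral_const_mul]
  rw [r1_swap (u := fun c p => γ c * r1F a p (t * N c)) (h := fun _ => (1 : ℝ))
    (v := fun c => 81 * Real.exp (-(D2⁻¹ * t * N c)))
    (fun c => measurable_const.mul ((r1_measF a).comp (measurable_id.prodMk measurable_const)))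
    (integrable_const _) ((summable_exp hD2).mul_left _)]
  intro c
  filter_upwards [ae_restrict_mem hm] with p hp
  by_cases hc : c = 0
  · rw [hc, h0, zero_mul, norm_zero]; positivity
  · rw [norm_mul, mul_one, mul_assoc]
    exact mul_le_mul (hγ c) (r1F_le hD (hs hp) (mul_pos ht (N_pos hc))) (norm_nonneg _)
      (by norm_num)

theorem r1_intS (h0 : γ 0 = 0) (hγ : ∀ c, ‖γ c‖ ≤ 81) (hD : 0 < D1) (hD' : D1 ≤ D2)
    {t : ℝ} (ht : 0 < t) : IntegrableOn (fun p => r1S γ (r1F a p) t) (r1B D1 D2) := by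
  obtain ⟨C, -, hC⟩ := r1_crude h0 hγ zero_le_one (inv_pos.2 (hD.trans_le hD'))
  refine Measure.integrableOn_of_bounded (r1_volB D1 D2).ne (Measurable.aestronglyMeasurable ?_)
    (M := C * t ^ (-(2 / 3) : ℝ)) ?_
  · exact measurable_const.mul (Measurable.tsum fun c =>
      measurable_const.mul ((r1_measF a).comp (measurable_id.prodMk measurable_const)))
  · filter_upwards [ae_restrict_mem (r1_measB D1 D2)] with p hp
    exact hC _ (fun y hy => by rw [one_mul]; exact r1F_le hD hp hy) t ht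

theorem r1M_phi (hD : 0 < D1) (hD' : D1 ≤ D2) (hm : MeasurableSet s) (hs : s ⊆ r1B D1 D2) :
    IntegrableOn (fun p : ℝ × ℝ => ((p.1 * r1K a p : ℝ) : ℂ)) s ∧
      r1M (r1phi a s) = ∫ p in s, ((p.1 * r1K a p : ℝ) : ℂ) := by
  have hfin : IsFiniteMeasure (volume.restrict s) :=
    isFiniteMeasure_restrict.2 ((measure_mono hs).trans_lt (r1_volB D1 D2)).ne
  have hi : Integrable
      (Function.uncurry fun (y : ℝ) (p : ℝ × ℝ) => ((y ^ (-(2 / 3) : ℝ) : ℝ) : ℂ) * r1F a p y)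
      ((volume.restrict (Set.Ioi 0)).prod (volume.restrict s)) := by
    refine ((r1_int_exp (s := -(2 / 3)) (by norm_num) (inv_pos.2 (hD.trans_le hD'))).mul_prod
      (integrable_const (1 : ℝ))).mono' (Measurable.aestronglyMeasurable ?_) ?_
    · exact Measurable.mul (by fun_prop) ((r1_measF a).comp measurable_swap)
    · rw [Measure.prod_restrict]
      filter_upwards [ae_restrict_mem (measurableSet_Ioi.prod hm)] with z hz
      have hy : 0 < z.1 := hz.1
      rw [Function.uncurry_def, mul_one, norm_mul, norm_real, Real.norm_of_nonneg (by positivity)]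
      exact mul_le_mul_of_nonneg_left (r1F_le hD (hs hz.2) hy) (by positivity)
  have he : ∀ p ∈ s, ∫ y in Set.Ioi (0 : ℝ), ((y ^ (-(2 / 3) : ℝ) : ℝ) : ℂ) * r1F a p y =
      ((p.1 * r1K a p : ℝ) : ℂ) := fun p hp => by
    obtain ⟨⟨h1, -⟩, h3, -⟩ := hs hp
    simp only [r1F, mul_left_comm _ (p.1 : ℂ)]
    rw [integral_const_mul, (integral_fk (hD.trans_le h1) (one_pos.trans_le h3)).2, ofReal_mul p.1]
    rfl
  constructor
  · exact IntegrableOn.congr_fun hi.integral_prod_right he hm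
  · simp only [r1M, r1phi, ← integral_const_mul]
    rw [integral_integral_swap hi]
    exact setIntegral_congr_fun hm he

theorem r1K_pos (a : ℝ) {p : ℝ × ℝ} (h1 : 0 < p.1) (h2 : 0 < p.2) : 0 < r1K a p := by
  have := kk_pos (a * (√p.2 / p.1))
  unfold r1K; positivity

theorem r1M_phi0 : ∃ M : ℝ, 0 < M ∧ r1M phi0 = M := by
  obtain ⟨h1, h2⟩ := r1M_phi (a := 1) one_pos one_le_two (r1_measB 1 2) subset_rfl
  have hpos : ∀ p ∈ r1B 1 2, 0 < p.1 * r1K 1 p := fun p hp =>
    mul_pos (one_pos.trans_le hp.1.1)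
      (r1K_pos 1 (one_pos.trans_le hp.1.1) (one_pos.trans_le hp.2.1))
  refine ⟨∫ p in r1B 1 2, p.1 * r1K 1 p, ?_, by rw [r1_phi0, h2, integral_complex_ofReal]⟩
  rw [setIntegral_pos_iff_support_of_nonneg_ae]
  · rw [Set.inter_eq_self_of_subset_right fun p hp => Function.mem_support.2 (hpos p hp).ne']
    rw [r1B, Measure.volume_eq_prod, Measure.prod_prod, Real.volume_Icc]
    norm_num
  · filter_upwards [ae_restrict_mem (r1_measB 1 2)] with p hp using (hpos p hp).le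
  · simpa [IntegrableOn] using h1.re

theorem r1_intF (hD : 0 < D1) {y : ℝ} (hy : 0 < y) :
    IntegrableOn (fun p => r1F a p y) (r1B D1 D2) := by
  refine Measure.integrableOn_of_bounded (r1_volB D1 D2).ne
    ((r1_measF a).comp (measurable_id.prodMk measurable_const)).aestronglyMeasurable
    (M := Real.exp (-(D2⁻¹ * y))) ?_
  filter_upwards [ae_restrict_mem (r1_measB D1 D2)] with p hp using r1F_le hD hp hy

theorem r1_scale (ha : 0 < a) {y : ℝ} (hy : 0 < y) :
    r1phi a (r1B a (2 * a)) (a * y) = a * phi0 y := by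
  have h1 := setIntegral_prod _ (r1_intF (a := a) (D2 := 2 * a) ha (mul_pos ha hy))
  have h2 := setIntegral_prod _ (r1_intF (a := 1) (D2 := 2) one_pos hy)
  rw [r1_phi0, r1phi, r1phi, Measure.volume_eq_prod, r1B, r1B, h1, h2,
    integral_Icc_eq_integral_Ioc, integral_Icc_eq_integral_Ioc,
    ← intervalIntegral.integral_of_le (by linarith), ← intervalIntegral.integral_of_le one_le_two]
  have h3 := intervalIntegral.integral_comp_div (a := a) (b := 2 * a)
    (fun D => ∫ E in Set.Icc (1 : ℝ) 2, r1F 1 (D, E) y) ha.ne'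
  rw [div_self ha.ne', mul_div_cancel_right₀ _ ha.ne', real_smul] at h3
  rw [← h3]
  refine intervalIntegral.integral_congr fun D hD => ?_
  rw [Set.uIcc_of_le (by linarith)] at hD
  have hD0 : 0 < D := ha.trans_le hD.1
  refine integral_congr_ae (Eventually.of_forall fun E => ?_)
  simp only
  rw [r1F_eq _ hD0.ne', r1F_eq _ (div_pos hD0 ha).ne']
  congr 2
  field_simp

theorem r1S_scale (h0 : γ 0 = 0) (ha : 0 < a) {t : ℝ} (ht : 0 < t) :
    r1S γ phi0 t = ((a ^ (-(4 / 3) : ℝ) : ℝ) : ℂ) * r1S γ (r1phi a (r1B a (2 * a))) (a * t) := by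
  have h1 : ∑' c : Eis, γ c * r1phi a (r1B a (2 * a)) (a * t * N c) =
      a * ∑' c : Eis, γ c * phi0 (t * N c) := by
    rw [← tsum_mul_left]
    refine tsum_congr fun c => ?_
    by_cases hc : c = 0
    · simp [hc, h0]
    · rw [mul_assoc a, r1_scale ha (mul_pos ht (N_pos hc))]; ring
  have e : a ^ (-(4 / 3) : ℝ) * (a * t) ^ (1 / 3 : ℝ) * a = t ^ (1 / 3 : ℝ) := by
    rw [Real.mul_rpow ha.le ht.le, ← mul_assoc, ← Real.rpow_add ha, mul_right_comm,
      ← Real.rpow_add_one ha.ne']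
    norm_num
  rw [r1S, r1S, h1, ← e]
  push_cast
  ring

end Vale.Agent.P026
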