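import Vale.Agent.P026.Four
import Vale.Agent.P026.Res1B

/-! The shape of the Fourier coefficients of a mean square limit. -/

namespace Vale.Agent.P026

open Eis Complex MeasureTheory Filter Topology
open scoped Classical ComplexConjugate

theorem r1_meas_coef {f : HF → ℂ} (hf : Measurable f) (r : Eis) :
    Measurable fun p : ℝ × ℝ => ∫ z in F9, f (pt z p.1 p.2) * conj (eR r z) := by
  have h : Measurable fun z : ℂ × ℝ × ℝ => f (pt z.1 z.2.1 z.2.2) * conj (eR r z.1) :=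
    (hf.comp measurable_pt).mul
      ((continuous_conj.comp (continuous_eR r)).measurable.comp measurable_fst)
  exact (h.stronglyMeasurable.integral_prod_left' (μ := volume.restrict F9)).measurable

theorem r1_box_fin {D1 D2 : ℝ} (hD : 0 < D1) : ∫⁻ _ in box D1 D2, (1 : ENNReal) ≠ ⊤ := by
  rw [lintegral_box D1 D2 hD measurable_const]
  simp only [lintegral_const, one_mul, Measure.restrict_apply_univ, volume_F9]
  refine ne_top_of_le_ne_top ?_ (setLIntegral_mono (g := fun _ => ENNReal.ofReal D2 * ENNReal.ofReal V9)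
    measurable_const fun p hp => mul_le_mul_left (ENNReal.ofReal_le_ofReal hp.1.2) _)
  rw [setLIntegral_const]
  exact ENNReal.mul_ne_top (ENNReal.mul_ne_top ENNReal.ofReal_ne_top ENNReal.ofReal_ne_top)
    (r1_volB D1 D2).ne

theorem r1_L1_box {k : Eis → Eis → ℂ} {f : HF → ℂ} (hf : Measurable f) (hc : Conv k f)
    {D1 D2 : ℝ} (hD : 0 < D1) (hD' : D1 ≤ D2) :
    Tendsto (fun t : ℝ => ∫⁻ Q in box D1 D2, ‖((t ^ (4 / 3 : ℝ) : ℝ) : ℂ) * Es k t Q - f Q‖ₑ)
      (𝓝[>] 0) (𝓝 0) := by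
  have h1 := ((ENNReal.continuous_rpow_const (y := 1 / 2)).tendsto 0).comp (hc D1 D2 hD hD')
  rw [ENNReal.zero_rpow_of_pos (by norm_num)] at h1
  have h2 := ENNReal.Tendsto.mul_const h1 (b := (∫⁻ _ in box D1 D2, (1 : ENNReal)) ^ (1 / 2 : ℝ))
    (Or.inr (ENNReal.rpow_ne_top_of_nonneg (by norm_num) (r1_box_fin hD)))
  rw [zero_mul] at h2
  refine tendsto_of_tendsto_of_tendsto_of_le_of_le tendsto_const_nhds h2 (fun _ => zero_le)
    fun t => ?_
  have h3 := ENNReal.lintegral_mul_le_Lp_mul_Lq (volume.restrict (box D1 D2))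
    Real.HolderConjugate.two_two
    (f := fun Q => ‖((t ^ (4 / 3 : ℝ) : ℝ) : ℂ) * Es k t Q - f Q‖ₑ) (g := fun _ => 1)
    ((measurable_const.mul (measurable_Es k t)).sub hf).enorm.aemeasurable aemeasurable_const
  simpa using h3

theorem r1_L1 {k : Eis → Eis → ℂ} (hk : Adm k) {f : HF → ℂ} (hf : Measurable f) (hc : Conv k f)
    {r : Eis} (hr : r ≠ 0) {D1 D2 : ℝ} (hD : 0 < D1) (hD' : D1 ≤ D2) :
    Tendsto (fun t : ℝ => ∫⁻ p in r1B D1 D2,
      ‖(Real.pi : ℂ) * r1S (fun c => gK k r c / (N c : ℂ)) (r1F (c0 * ab r) p) t -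
        (p.1 : ℂ) * ∫ z in F9, f (pt z p.1 p.2) * conj (eR r z)‖ₑ) (𝓝[>] 0) (𝓝 0) := by
  have hL := r1_L1_box hf hc hD hD'
  have hm : ∀ t : ℝ, Measurable fun Q => ‖((t ^ (4 / 3 : ℝ) : ℝ) : ℂ) * Es k t Q - f Q‖ₑ :=
    fun t => ((measurable_const.mul (measurable_Es k t)).sub hf).enorm
  refine tendsto_of_tendsto_of_tendsto_of_le_of_le' tendsto_const_nhds hL
    (Eventually.of_forall fun _ => zero_le) ?_
  filter_upwards [self_mem_nhdsWithin] with t ht
  rw [lintegral_box D1 D2 hD (hm t)]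
  refine setLIntegral_mono' (r1_measB D1 D2) fun p hp => ?_
  have hp0 : 0 < p.1 := hD.trans_le hp.1.1
  have hDE : (p.1, p.2) ∈ DE := ⟨hp0, hp.2⟩
  by_cases hfin : ∫⁻ z in F9, ‖((t ^ (4 / 3 : ℝ) : ℝ) : ℂ) * Es k t (pt z p.1 p.2) -
      f (pt z p.1 p.2)‖ₑ = ⊤
  · rw [hfin, ENNReal.mul_top (by simpa using hp0)]
    exact le_top
  have hpt : Measurable fun z : ℂ => pt z p.1 p.2 :=
    measurable_pt.comp (measurable_id.prodMk measurable_const)
  have he : AEStronglyMeasurable (fun z => conj (eR r z)) (volume.restrict F9) :=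
    (continuous_conj.comp (continuous_eR r)).aestronglyMeasurable
  have he' : ∀ᵐ z ∂(volume.restrict F9), ‖conj (eR r z)‖ ≤ 1 :=
    Eventually.of_forall fun z => by rw [RCLike.norm_conj, norm_eR]
  have i1 : IntegrableOn (fun z => ((t ^ (4 / 3 : ℝ) : ℝ) : ℂ) * Es k t (pt z p.1 p.2)) F9 :=
    (integrableOn_Es hk.1 ht hDE).const_mul _
  have i2 : IntegrableOn (fun z => ((t ^ (4 / 3 : ℝ) : ℝ) : ℂ) * Es k t (pt z p.1 p.2) -
      f (pt z p.1 p.2)) F9 :=
    ⟨(((measurable_const.mul (measurable_Es k t)).sub hf).comp hpt).aestronglyMeasurable,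
      lt_top_iff_ne_top.2 hfin⟩
  have i3 : IntegrableOn (fun z => f (pt z p.1 p.2)) F9 :=
    (i1.sub i2).congr (Eventually.of_forall fun z => by simp)
  have e1 := four_coef hk ht hDE r
  rw [if_neg hr, zero_add] at e1
  have e2 : r1S (fun c => gK k r c / (N c : ℂ)) (r1F (c0 * ab r) p) t =
      (p.1 : ℂ) * Rs k r (fk (c0 * ab r) p.1 p.2) t := by
    simp only [r1S, Rs, r1F, mul_left_comm _ (p.1 : ℂ), tsum_mul_left]
  have e3 : (Real.pi : ℂ) * r1S (fun c => gK k r c / (N c : ℂ)) (r1F (c0 * ab r) p) t -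
      (p.1 : ℂ) * ∫ z in F9, f (pt z p.1 p.2) * conj (eR r z) =
      (p.1 : ℂ) * ∫ z in F9, (((t ^ (4 / 3 : ℝ) : ℝ) : ℂ) * Es k t (pt z p.1 p.2) -
        f (pt z p.1 p.2)) * conj (eR r z) := by
    simp only [sub_mul]
    rw [integral_sub (i1.mul_bdd he he') (i3.mul_bdd he he')]
    simp only [mul_assoc]
    rw [integral_const_mul, e1, e2]
    ring
  rw [e3, enorm_mul, ← ofReal_norm, norm_real, Real.norm_of_nonneg hp0.le]
  refine mul_le_mul_right ((enorm_integral_le_lintegral_enorm _).trans (le_of_eq ?_)) _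
  refine lintegral_congr fun z => ?_
  rw [enorm_mul, ← ofReal_norm (conj (eR r z)), RCLike.norm_conj, norm_eR]
  simp

theorem r1_gam {k : Eis → Eis → ℂ} (hk : Adm k) (r c : Eis) : ‖gK k r c / (N c : ℂ)‖ ≤ 81 := by
  by_cases hc : c = 0
  · simp [hc]
  · rw [norm_div, norm_real, Real.norm_of_nonneg (N_nonneg c), div_le_iff₀ (N_pos hc)]
    exact norm_gK_le hk r hc

theorem r1_lim {k : Eis → Eis → ℂ} (hk : Adm k) {f : HF → ℂ} (hf : Measurable f) (hc : Conv k f)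
    {r : Eis} (hr : r ≠ 0) {D1 D2 : ℝ} (hD : 0 < D1) (hD' : D1 ≤ D2) :
    IntegrableOn (fun p : ℝ × ℝ => (p.1 : ℂ) * ∫ z in F9, f (pt z p.1 p.2) * conj (eR r z))
      (r1B D1 D2) ∧ ∀ s, MeasurableSet s → s ⊆ r1B D1 D2 →
      Tendsto (r1S (fun c => gK k r c / (N c : ℂ)) (r1phi (c0 * ab r) s)) (𝓝[>] 0)
        (𝓝 ((Real.pi : ℂ)⁻¹ *
          ∫ p in s, (p.1 : ℂ) * ∫ z in F9, f (pt z p.1 p.2) * conj (eR r z))) := by
  have hL := r1_L1 hk hf hc hr hD hD'
  have h0 : (fun c => gK k r c / (N c : ℂ)) 0 = 0 := by simp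
  have hm : Measurable fun p : ℝ × ℝ => (p.1 : ℂ) * ∫ z in F9, f (pt z p.1 p.2) * conj (eR r z) :=
    Measurable.mul (by fun_prop) (r1_meas_coef hf r)
  have hi : ∀ t, 0 < t → IntegrableOn (fun p => (Real.pi : ℂ) *
      r1S (fun c => gK k r c / (N c : ℂ)) (r1F (c0 * ab r) p) t) (r1B D1 D2) := fun t ht =>
    (r1_intS h0 (r1_gam hk r) hD hD' ht).const_mul _
  constructor
  · obtain ⟨t, h1, ht⟩ := ((hL.eventually (gt_mem_nhds ENNReal.zero_lt_top)).and
      self_mem_nhdsWithin).exists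
    have h2 : IntegrableOn _ (r1B D1 D2) :=
      ⟨(hi t ht).aestronglyMeasurable.sub hm.aestronglyMeasurable, h1⟩
    simpa using (hi t ht).sub h2
  · intro s hs hsB
    have h1 := (tendsto_setIntegral_of_L1 _ hm.aestronglyMeasurable
      (eventually_mem_nhdsWithin.mono hi) hL s).const_mul (Real.pi : ℂ)⁻¹
    rw [Measure.restrict_restrict hs, Set.inter_eq_self_of_subset_left hsB] at h1
    refine h1.congr' ?_
    filter_upwards [self_mem_nhdsWithin] with t ht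
    rw [integral_const_mul, inv_mul_cancel_left₀ (by exact_mod_cast Real.pi_ne_zero),
      r1S_phi h0 (r1_gam hk r) hD hD' hs hsB ht]

theorem res_shape : ∃ m : ℝ, 0 < m ∧ ∀ (k : Eis → Eis → ℂ), Adm k → ∀ f : HF → ℂ, Measurable f →
    Conv k f → ∀ r : Eis, r ≠ 0 → ∃ ρ : ℂ, Tendsto (Rs k r phi0) (𝓝[>] 0) (𝓝 ρ) ∧
      ∀ᵐ p ∂(volume.restrict DE), ∫ z in F9, f (pt z p.1 p.2) * conj (eR r z) =
        (m : ℂ) * ρ * ((p.1 ^ (-(2 / 3) : ℝ) * p.2 ^ (-(1 / 3) : ℝ) *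
          kk (c0 * ab r * (√p.2 / p.1)) : ℝ) : ℂ) := by
  obtain ⟨M, hM, hM'⟩ := r1M_phi0
  refine ⟨Real.pi / M, div_pos Real.pi_pos hM, fun k hk f hf hc r hr => ?_⟩
  have h0 : (fun c => gK k r c / (N c : ℂ)) 0 = 0 := by simp
  have ha : 0 < c0 * ab r := mul_pos c0_pos (ab_pos hr)
  obtain ⟨ρ, hρ⟩ : ∃ ρ, Tendsto (r1S (fun c => gK k r c / (N c : ℂ)) phi0) (𝓝[>] 0) (𝓝 ρ) := by
    have h1 := (r1_lim hk hf hc hr ha (D2 := 2 * (c0 * ab r)) (by linarith)).2 _ (r1_measB _ _)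
      subset_rfl
    have h2 : Tendsto (fun t : ℝ => c0 * ab r * t) (𝓝[>] 0) (𝓝[>] 0) := by
      refine tendsto_nhdsWithin_of_tendsto_nhds_of_eventually_within _ ?_ ?_
      · have : Tendsto (fun t : ℝ => c0 * ab r * t) (𝓝 0) (𝓝 (c0 * ab r * 0)) :=
          tendsto_id.const_mul _
        rw [mul_zero] at this
        exact this.mono_left nhdsWithin_le_nhds
      · filter_upwards [self_mem_nhdsWithin] with t ht using mul_pos ha ht
    refine ⟨_, ((h1.comp h2).const_mul (((c0 * ab r) ^ (-(4 / 3) : ℝ) : ℝ) : ℂ)).congr' ?_⟩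
    filter_upwards [self_mem_nhdsWithin] with t ht
    exact (r1S_scale h0 ha ht).symm
  refine ⟨ρ, hρ, ?_⟩
  have hU : DE = ⋃ n : ℕ, r1B (1 / (n + 1)) (n + 1) := by
    ext p
    simp only [Set.mem_iUnion]
    constructor
    · rintro ⟨h1, h2⟩
      have h1' : 0 < p.1 := h1
      obtain ⟨n, hn⟩ := exists_nat_ge (max p.1 p.1⁻¹)
      refine ⟨n, ⟨?_, by linarith [le_max_left p.1 p.1⁻¹]⟩, h2⟩
      rw [one_div, inv_le_comm₀ (by positivity) h1']
      linarith [le_max_right p.1 p.1⁻¹]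
    · rintro ⟨n, h1, h2⟩
      exact ⟨lt_of_lt_of_le (by positivity) h1.1, h2⟩
  rw [hU, ae_restrict_iUnion_iff]
  intro n
  have hD : (0 : ℝ) < 1 / (n + 1) := by positivity
  have hD' : (1 : ℝ) / (n + 1) ≤ n + 1 := by
    rw [div_le_iff₀ (by positivity)]
    nlinarith [(Nat.cast_nonneg n : (0 : ℝ) ≤ n)]
  obtain ⟨i1, l1⟩ := r1_lim hk hf hc hr hD hD'
  have i2 := ((r1M_phi (a := c0 * ab r) hD hD' (r1_measB _ _) subset_rfl).1).const_mul
    (((Real.pi / M : ℝ) : ℂ) * ρ)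
  have key := Integrable.ae_eq_of_forall_setIntegral_eq _ _ i1 i2 fun s hs _ => by
    rw [Measure.restrict_restrict hs, integral_const_mul]
    have hs' := hs.inter (r1_measB (1 / (n + 1)) (n + 1))
    have h1 := r1_conv h0 (r1_gam hk r) (r1_phi0 ▸ r1T_phi one_pos one_le_two subset_rfl)
      (r1T_phi hD hD' Set.inter_subset_right) hρ (l1 _ hs' Set.inter_subset_right)
    rw [hM', (r1M_phi hD hD' hs' Set.inter_subset_right).2] at h1
    have hM0 : (M : ℂ) ≠ 0 := by exact_mod_cast hM.ne'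
    have hpi : (Real.pi : ℂ) ≠ 0 := by exact_mod_cast Real.pi_ne_zero
    rw [ofReal_div, mul_assoc, mul_comm ρ, h1]
    field_simp
  filter_upwards [key, ae_restrict_mem (r1_measB _ _)] with p hp hpB
  have hp0 : (p.1 : ℂ) ≠ 0 := by exact_mod_cast (hD.trans_le hpB.1.1).ne'
  refine mul_left_cancel₀ hp0 (hp.trans ?_)
  rw [ofReal_mul p.1, r1K]
  ring

theorem norm_phi0_le (n : ℕ) : ∃ C : ℝ, 0 < C ∧ ∀ y : ℝ, 0 < y → ‖phi0 y‖ ≤ C / y ^ n := by
  obtain ⟨C, b, hC, hb, h⟩ := (r1_phi0 ▸ r1T_phi one_pos one_le_two subset_rfl : r1T phi0).bd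
  refine ⟨(C + 1) * n.factorial / b ^ n, by positivity, fun y hy => (h y hy).trans ?_⟩
  have h1 := Real.pow_div_factorial_le_exp (b * y) (by positivity) n
  have h2 : Real.exp (-(b * y)) ≤ n.factorial / (b * y) ^ n := by
    rw [Real.exp_neg, inv_le_comm₀ (Real.exp_pos _) (by positivity), inv_div]
    exact h1
  calc C * Real.exp (-(b * y)) ≤ (C + 1) * (n.factorial / (b * y) ^ n) := by
        gcongr; linarith
    _ = _ := by rw [mul_pow]; field_simp

end Vale.Agent.P026
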