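import Vale.Agent.P026.Count

/-! The convolution trick for normalised lattice sums of test functions. -/

namespace Vale.Agent.P026

open Eis Complex MeasureTheory Filter Topology
open scoped Classical ComplexConjugate

/-- Normalised sum of a test function. -/
noncomputable def r1S (γ : Eis → ℂ) (f : ℝ → ℂ) (t : ℝ) : ℂ :=
  ((t ^ (1 / 3 : ℝ) : ℝ) : ℂ) * ∑' c : Eis, γ c * f (t * N c)

/-- The moment of a test function. -/
noncomputable def r1M (f : ℝ → ℂ) : ℂ :=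
  ∫ y in Set.Ioi (0 : ℝ), ((y ^ (-(2 / 3) : ℝ) : ℝ) : ℂ) * f y

/-- Test functions. -/
structure r1T (f : ℝ → ℂ) : Prop where
  meas : Measurable f
  bd : ∃ C b : ℝ, 0 ≤ C ∧ 0 < b ∧ ∀ y, 0 < y → ‖f y‖ ≤ C * Real.exp (-(b * y))

theorem r1_swap {X : Type*} [MeasurableSpace X] {μ : Measure X} {u : Eis → X → ℂ}
    (hu : ∀ c, Measurable (u c)) {h : X → ℝ} (hh : Integrable h μ) {v : Eis → ℝ} (hv : Summable v)
    (hb : ∀ c, ∀ᵐ x ∂μ, ‖u c x‖ ≤ v c * h x) :
    ∑' c, ∫ x, u c x ∂μ = ∫ x, ∑' c, u c x ∂μ := by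
  have hi : ∀ c, Integrable (u c) μ := fun c =>
    (hh.const_mul (v c)).mono' (hu c).aestronglyMeasurable (hb c)
  refine integral_tsum_of_summable_integral_norm hi ?_
  refine Summable.of_nonneg_of_le (fun c => integral_nonneg fun x => norm_nonneg _) (fun c => ?_)
    (hv.mul_right (∫ x, h x ∂μ))
  rw [← integral_const_mul]
  exact integral_mono_ae (hi c).norm (hh.const_mul _) (hb c)

theorem r1_summable {a : ℝ} (ha : 0 < a) :
    Summable fun c : Eis => if c = 0 then 0 else Real.exp (-(a * N c)) := by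
  refine Summable.of_nonneg_of_le (fun c => ?_) (fun c => ?_) (summable_exp ha)
  · split_ifs <;> positivity
  · split_ifs
    · positivity
    · exact le_rfl

variable {γ : Eis → ℂ}

theorem r1_crude (h0 : γ 0 = 0) (hγ : ∀ c, ‖γ c‖ ≤ 81) {C b : ℝ} (hC : 0 ≤ C) (hb : 0 < b) :
    ∃ C' : ℝ, 0 ≤ C' ∧ ∀ f : ℝ → ℂ, (∀ y, 0 < y → ‖f y‖ ≤ C * Real.exp (-(b * y))) →
      ∀ t, 0 < t → ‖r1S γ f t‖ ≤ C' * t ^ (-(2 / 3) : ℝ) := by
  obtain ⟨C0, hC0, h⟩ := tsum_exp_le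
  refine ⟨81 * C * C0 / b, by positivity, fun f hf t ht => ?_⟩
  have h1 : ‖∑' c : Eis, γ c * f (t * N c)‖ ≤ 81 * C * (C0 / (b * t)) := by
    refine le_trans (tsum_of_norm_bounded
      ((r1_summable (mul_pos hb ht)).hasSum.mul_left (81 * C)) fun c => ?_) ?_
    · split_ifs with hc
      · simp [hc, h0]
      · rw [norm_mul, mul_assoc, mul_assoc b]
        exact mul_le_mul (hγ c) (hf _ (mul_pos ht (N_pos hc))) (norm_nonneg _) (by norm_num)
    · exact mul_le_mul_of_nonneg_left (h _ (mul_pos hb ht)) (by positivity)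
  have e : t ^ (-(2 / 3) : ℝ) = t ^ (1 / 3 : ℝ) / t := by
    rw [← Real.rpow_sub_one ht.ne']; norm_num
  rw [r1S, norm_mul, norm_real, Real.norm_of_nonneg (by positivity), e]
  refine (mul_le_mul_of_nonneg_left h1 (by positivity)).trans (le_of_eq ?_)
  field_simp

theorem r1_bdd (h0 : γ 0 = 0) (hγ : ∀ c, ‖γ c‖ ≤ 81) {f : ℝ → ℂ} (hf : r1T f) {R : ℂ}
    (hR : Tendsto (r1S γ f) (𝓝[>] 0) (𝓝 R)) : ∃ B : ℝ, ∀ t, 0 < t → ‖r1S γ f t‖ ≤ B := by
  obtain ⟨C, b, hC, hb, h⟩ := hf.bd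
  obtain ⟨C', hC', h1⟩ := r1_crude h0 hγ hC hb
  have h2 : ∀ᶠ t in 𝓝[>] (0 : ℝ), ‖r1S γ f t‖ < ‖R‖ + 1 :=
    hR.norm.eventually (gt_mem_nhds (lt_add_one _))
  obtain ⟨δ, hδ, h3⟩ := (nhdsGT_basis (0 : ℝ)).eventually_iff.1 h2
  refine ⟨max (‖R‖ + 1) (C' * δ ^ (-(2 / 3) : ℝ)), fun t ht => ?_⟩
  by_cases h4 : t < δ
  · exact (h3 ⟨ht, h4⟩).le.trans (le_max_left _ _)
  · refine (h1 f h t ht).trans (le_trans ?_ (le_max_right _ _))
    exact mul_le_mul_of_nonneg_left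
      (Real.rpow_le_rpow_of_nonpos hδ (not_lt.1 h4) (by norm_num)) hC'

theorem r1_int_exp {s b : ℝ} (hs : -1 < s) (hb : 0 < b) :
    IntegrableOn (fun y : ℝ => y ^ s * Real.exp (-(b * y))) (Set.Ioi 0) := by
  simpa using integrableOn_rpow_mul_exp_neg_mul_rpow hs one_pos hb

theorem r1_meas_S {f : ℝ → ℂ} (hf : Measurable f) : Measurable (r1S γ f) := by
  unfold r1S
  refine Measurable.mul (by fun_prop) (Measurable.tsum fun c => ?_)
  exact measurable_const.mul (hf.comp (measurable_id.mul_const _))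

theorem r1_symm (f g : ℝ → ℂ) {u : ℝ} (hu : 0 < u) :
    ∫ s in Set.Ioi (0 : ℝ), ((s⁻¹ : ℝ) : ℂ) * g s * f (u / s) =
      ∫ s in Set.Ioi (0 : ℝ), ((s⁻¹ : ℝ) : ℂ) * f s * g (u / s) := by
  rw [← integral_comp_rpow_Ioi (fun s => ((s⁻¹ : ℝ) : ℂ) * g s * f (u / s)) (p := -1) (by norm_num)]
  have h := integral_comp_mul_left_Ioi' (fun s => ((s⁻¹ : ℝ) : ℂ) * f s * g (u / s)) 0 hu
  rw [mul_zero] at h
  rw [← h, ← integral_smul]
  refine setIntegral_congr_fun measurableSet_Ioi fun x hx => ?_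
  have hx' : (0 : ℝ) < x := hx
  have e1 : u / (u * x) = x⁻¹ := by field_simp
  have e2 : u / x⁻¹ = u * x := by field_simp
  have e3 : x ^ (-1 - 1 : ℝ) = x⁻¹ * x⁻¹ := by
    rw [Real.rpow_sub_one hx'.ne', Real.rpow_neg_one, div_eq_mul_inv]
  have hx0 : (x : ℂ) ≠ 0 := by exact_mod_cast hx'.ne'
  have hu0 : (u : ℂ) ≠ 0 := by exact_mod_cast hu.ne'
  simp only [Real.rpow_neg_one, e1, e2, e3, real_smul]
  push_cast
  simp only [abs_neg, abs_one, ofReal_one]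
  field_simp

theorem r1_conv_eq (h0 : γ 0 = 0) (hγ : ∀ c, ‖γ c‖ ≤ 81) {f g : ℝ → ℂ} (hf : r1T f) (hg : r1T g)
    {t : ℝ} (ht : 0 < t) :
    ∫ s in Set.Ioi (0 : ℝ), ((s ^ (-(2 / 3) : ℝ) : ℝ) : ℂ) * g s * r1S γ f (t / s) =
      ((t ^ (1 / 3 : ℝ) : ℝ) : ℂ) * ∑' c : Eis,
        γ c * ∫ s in Set.Ioi (0 : ℝ), ((s⁻¹ : ℝ) : ℂ) * g s * f (t * N c / s) := by
  obtain ⟨C, b, hC, hb, h⟩ := hf.bd
  obtain ⟨C', b', hC', hb', h'⟩ := hg.bd
  simp only [← integral_const_mul]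
  rw [r1_swap (h := fun s => s ^ (1 : ℝ) * Real.exp (-(b' * s)))
    (v := fun c => 81 * C * C' * 2 / (b * t) ^ 2 * N c ^ (-2 : ℝ))
    (fun c => by have := hf.meas; have := hg.meas; fun_prop)
    (r1_int_exp (by norm_num) hb') ((summable_N_rpow (s := 2) (by norm_num)).mul_left _),
    ← integral_const_mul]
  · refine setIntegral_congr_fun measurableSet_Ioi fun s hs => ?_
    have hs' : (0 : ℝ) < s := hs
    have e : s ^ (-(2 / 3) : ℝ) * (t / s) ^ (1 / 3 : ℝ) = t ^ (1 / 3 : ℝ) * s⁻¹ := by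
      rw [Real.div_rpow ht.le hs'.le, ← Real.rpow_neg_one, mul_div_left_comm, ← Real.rpow_sub hs']
      norm_num
    have e' : ((s ^ (-(2 / 3) : ℝ) : ℝ) : ℂ) * (((t / s) ^ (1 / 3 : ℝ) : ℝ) : ℂ) =
        ((t ^ (1 / 3 : ℝ) : ℝ) : ℂ) * ((s⁻¹ : ℝ) : ℂ) := by exact_mod_cast e
    simp only [r1S, div_mul_eq_mul_div, mul_left_comm (γ _), tsum_mul_left]
    linear_combination (g s * ∑' c, γ c * f (t * N c / s)) * e'
  · intro c
    filter_upwards [ae_restrict_mem measurableSet_Ioi] with s hs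
    have hs' : (0 : ℝ) < s := hs
    by_cases hc : c = 0
    · rw [hc, h0, zero_mul, norm_zero]
      have := Real.rpow_nonneg (N_nonneg 0) (-2 : ℝ)
      positivity
    have hN := N_pos hc
    have hx : 0 < b * (t * N c / s) := by positivity
    have h1 : Real.exp (-(b * (t * N c / s))) ≤ 2 / (b * (t * N c / s)) ^ 2 := by
      have := Real.pow_div_factorial_le_exp _ hx.le 2
      rw [Real.exp_neg, inv_eq_one_div, div_le_div_iff₀ (Real.exp_pos _) (by positivity)]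
      norm_num [Nat.factorial] at this ⊢
      linarith
    rw [norm_mul, norm_mul, norm_mul, norm_real, Real.norm_of_nonneg (by positivity)]
    calc ‖γ c‖ * (s⁻¹ * ‖g s‖ * ‖f (t * N c / s)‖)
        ≤ 81 * (s⁻¹ * (C' * Real.exp (-(b' * s))) * (C * (2 / (b * (t * N c / s)) ^ 2))) := by
          gcongr
          · exact hγ c
          · exact h' s hs'
          · exact (h _ (by positivity)).trans (mul_le_mul_of_nonneg_left h1 hC)
      _ = _ := by
          rw [Real.rpow_one, Real.rpow_neg hN.le, Real.rpow_two]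
          field_simp

theorem r1_conv_lim (h0 : γ 0 = 0) (hγ : ∀ c, ‖γ c‖ ≤ 81) {f g : ℝ → ℂ} (hf : r1T f)
    (hg : r1T g) {R : ℂ} (hR : Tendsto (r1S γ f) (𝓝[>] 0) (𝓝 R)) :
    Tendsto (fun t => ∫ s in Set.Ioi (0 : ℝ),
      ((s ^ (-(2 / 3) : ℝ) : ℝ) : ℂ) * g s * r1S γ f (t / s)) (𝓝[>] 0) (𝓝 (r1M g * R)) := by
  obtain ⟨B, hB⟩ := r1_bdd h0 hγ hf hR
  obtain ⟨C', b', hC', hb', h'⟩ := hg.bd
  rw [r1M, ← integral_mul_const]
  refine tendsto_integral_filter_of_dominated_convergence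
    (fun s => s ^ (-(2 / 3) : ℝ) * Real.exp (-(b' * s)) * (C' * B)) (Eventually.of_forall fun t => ?_)
    ?_ ((r1_int_exp (by norm_num) hb').mul_const _) ?_
  · have := hg.meas
    have := r1_meas_S (γ := γ) hf.meas
    exact Measurable.aestronglyMeasurable (by fun_prop)
  · filter_upwards [self_mem_nhdsWithin] with t ht
    filter_upwards [ae_restrict_mem measurableSet_Ioi] with s hs
    have hs' : (0 : ℝ) < s := hs
    have ht' : (0 : ℝ) < t := ht
    rw [norm_mul, norm_mul, norm_real, Real.norm_of_nonneg (by positivity)]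
    calc s ^ (-(2 / 3) : ℝ) * ‖g s‖ * ‖r1S γ f (t / s)‖
        ≤ s ^ (-(2 / 3) : ℝ) * (C' * Real.exp (-(b' * s))) * B := by
          gcongr
          · exact h' s hs'
          · exact hB _ (by positivity)
      _ = _ := by ring
  · filter_upwards [ae_restrict_mem measurableSet_Ioi] with s hs
    have hs' : (0 : ℝ) < s := hs
    refine Tendsto.const_mul _ (hR.comp ?_)
    refine tendsto_nhdsWithin_of_tendsto_nhds_of_eventually_within _ ?_ ?_
    · have : Tendsto (fun t : ℝ => t / s) (𝓝 0) (𝓝 (0 / s)) := tendsto_id.div_const s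
      rw [zero_div] at this
      exact this.mono_left nhdsWithin_le_nhds
    · filter_upwards [self_mem_nhdsWithin] with t ht
      exact div_pos ht hs'

/-- The convolution trick. -/
theorem r1_conv (h0 : γ 0 = 0) (hγ : ∀ c, ‖γ c‖ ≤ 81) {f g : ℝ → ℂ} (hf : r1T f) (hg : r1T g)
    {R R' : ℂ} (hR : Tendsto (r1S γ f) (𝓝[>] 0) (𝓝 R)) (hR' : Tendsto (r1S γ g) (𝓝[>] 0) (𝓝 R')) :
    r1M g * R = r1M f * R' := by
  refine tendsto_nhds_unique (r1_conv_lim h0 hγ hf hg hR) ((r1_conv_lim h0 hγ hg hf hR').congr' ?_)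
  filter_upwards [self_mem_nhdsWithin] with t ht
  rw [r1_conv_eq h0 hγ hf hg ht, r1_conv_eq h0 hγ hg hf ht]
  congr 1
  refine tsum_congr fun c => ?_
  by_cases hc : c = 0
  · simp [hc, h0]
  · rw [r1_symm f g (mul_pos ht (N_pos hc))]

end Vale.Agent.P026
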