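import Vale.Agent.P026.Basic

/-! Residue systems, periodic functions, additive characters. -/

namespace Vale.Agent.P026

open Eis Complex
open scoped Classical ComplexConjugate

/-! ### Residue systems -/

theorem resid_quo_add {c : Eis} (hc : c ≠ 0) (x y : Eis) : quo (x + c * y) c = quo x c + y := by
  have h := (nrm_pos hc).ne'
  have e : (x + c * y) * cj c = x * cj c + (nrm c : Eis) * y := by rw [← mul_cj]; ring
  ext
  · rw [add_a, quo, quo, e, ← Int.add_mul_ediv_left _ _ (mul_ne_zero two_ne_zero h)]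
    simp only [add_a, mul_a, intCast_a, intCast_b]
    congr 1
    ring
  · rw [add_b, quo, quo, e, ← Int.add_mul_ediv_left _ _ (mul_ne_zero two_ne_zero h)]
    simp only [add_b, mul_b, intCast_a, intCast_b]
    congr 1
    ring

theorem mod_eq_of_dvd_sub {c x y : Eis} (h : c ∣ x - y) : x % c = y % c := by
  obtain ⟨t, ht⟩ := h
  obtain rfl : x = y + c * t := by linear_combination ht
  rcases eq_or_ne c 0 with rfl | hc
  · rw [zero_mul, add_zero]
  rw [mod_def, mod_def, resid_quo_add hc]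
  ring

theorem dvd_sub_mod (c x : Eis) : c ∣ x - x % c := ⟨quo x c, by rw [mod_def]; ring⟩

theorem mem_res {c x : Eis} (hc : c ≠ 0) : x ∈ res c ↔ x % c = x := by
  rw [res, Finset.mem_filter, Set.Finite.mem_toFinset, and_iff_right_iff_imp]
  intro h
  have h1 := nrm_rem_lt x hc
  rw [← mod_def, h] at h1
  exact (Int.cast_le (R := ℝ)).2 h1.le

theorem mod_mem_res {c : Eis} (hc : c ≠ 0) (x : Eis) : x % c ∈ res c :=
  (mem_res hc).2 (mod_eq_of_dvd_sub (dvd_sub_comm.1 (dvd_sub_mod c x)))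

theorem res_unique {c x y : Eis} (hx : x ∈ res c) (hy : y ∈ res c) (h : c ∣ x - y) :
    x = y := by
  rw [← (Finset.mem_filter.1 hx).2, ← (Finset.mem_filter.1 hy).2, mod_eq_of_dvd_sub h]

/-- Passage to the quotient ring. -/
theorem sum_res_quot {c : Eis} (hc : c ≠ 0) [Fintype (Eis ⧸ Ideal.span {c})]
    (F : Eis ⧸ Ideal.span {c} → ℂ) :
    ∑ x ∈ res c, F (Ideal.Quotient.mk _ x) = ∑ z, F z := by
  refine Finset.sum_bij (fun x _ => Ideal.Quotient.mk _ x) (fun _ _ => Finset.mem_univ _)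
    (fun x hx y hy h => res_unique hx hy (Ideal.mem_span_singleton.1 (Ideal.Quotient.eq.1 h)))
    (fun z _ => ?_) fun _ _ => rfl
  obtain ⟨x, rfl⟩ := Ideal.Quotient.mk_surjective z
  exact ⟨x % c, mod_mem_res hc x,
    (Ideal.Quotient.eq.2 (Ideal.mem_span_singleton.2 (dvd_sub_mod c x))).symm⟩

theorem finite_quot {c : Eis} (hc : c ≠ 0) : Finite (Eis ⧸ Ideal.span {c}) := by
  refine Finite.of_surjective (fun x : res c => Ideal.Quotient.mk _ x.1) fun z => ?_
  obtain ⟨x, rfl⟩ := Ideal.Quotient.mk_surjective z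
  exact ⟨⟨x % c, mod_mem_res hc x⟩,
    (Ideal.Quotient.eq.2 (Ideal.mem_span_singleton.2 (dvd_sub_mod c x))).symm⟩

theorem card_quot {c : Eis} (hc : c ≠ 0) : Nat.card (Eis ⧸ Ideal.span {c}) = (nrm c).natAbs := by
  have _ := hc
  let e : Eis ≃+ (Fin 2 → ℤ) :=
    ⟨⟨fun x => ![x.a, x.b], fun v => ⟨v 0, v 1⟩, fun _ => rfl,
      fun v => funext (Fin.forall_fin_two.2 ⟨rfl, rfl⟩)⟩,
      fun x y => funext (Fin.forall_fin_two.2 ⟨rfl, rfl⟩)⟩
  let b := Module.Basis.ofEquivFun e.toIntLinearEquiv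
  have := Module.Free.of_basis b
  have := Module.Finite.of_basis b
  have h0 : b 0 = 1 := by rw [Module.Basis.coe_ofEquivFun]; rfl
  have h1 : b 1 = om := by rw [Module.Basis.coe_ofEquivFun]; rfl
  have h2 : ∀ x, b.repr x 0 = x.a := fun _ => rfl
  have h3 : ∀ x, b.repr x 1 = x.b := fun _ => rfl
  rw [← Submodule.cardQuot_apply, ← Ideal.absNorm_apply, Ideal.absNorm_span_singleton,
    Algebra.norm_eq_matrix_det b, Matrix.det_fin_two]
  simp only [Algebra.leftMulMatrix_eq_repr_mul, h0, h1, h2, h3, mul_one, mul_a, mul_b, om_a, om_b,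
    nrm]
  congr 1
  ring

theorem card_res {c : Eis} (hc : c ≠ 0) : ((res c).card : ℝ) = N c := by
  have := finite_quot hc
  have := Fintype.ofFinite (Eis ⧸ Ideal.span {c})
  have h := sum_res_quot hc fun _ => 1
  simp only [Finset.sum_const, nsmul_eq_mul, mul_one, Finset.card_univ, Nat.cast_inj] at h
  rw [h, ← Nat.card_eq_fintype_card, card_quot hc, N, Nat.cast_natAbs,
    abs_of_nonneg (nrm_nonneg c)]

theorem Per.congr {q : Eis} {F : Eis → ℂ} (hF : Per q F) {x y : Eis} (h : q ∣ x - y) :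
    F x = F y := by
  obtain ⟨t, ht⟩ := h
  rw [← hF y t, ← ht, add_sub_cancel]

theorem Per.of_congr {q : Eis} {F : Eis → ℂ} (h : ∀ x y, q ∣ x - y → F x = F y) : Per q F :=
  fun x y => h _ _ ⟨y, add_sub_cancel_left x _⟩

theorem Per.of_dvd {q q' : Eis} {F : Eis → ℂ} (hF : Per q F) (h : q ∣ q') : Per q' F :=
  Per.of_congr fun _ _ h' => hF.congr (h.trans h')

theorem Per.mul {q : Eis} {F G : Eis → ℂ} (hF : Per q F) (hG : Per q G) :
    Per q (fun x => F x * G x) := fun x y => by simp only [hF x y, hG x y]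

theorem Per.comp_mul {q : Eis} {F : Eis → ℂ} (hF : Per q F) (s : Eis) :
    Per q (fun x => F (s * x)) :=
  Per.of_congr fun _ _ h => hF.congr (mul_sub s _ _ ▸ h.mul_left s)

theorem per_cop (D : Eis) : Per D (cop D) := fun x y => by
  simp only [cop, IsCoprime.add_mul_left_left_iff]

theorem per_cls (q i : Eis) : Per q (cls q i) := fun x y => by
  simp only [cls, add_sub_right_comm x, dvd_add_left (dvd_mul_right q y)]

theorem sum_cls {q : Eis} (hq : q ≠ 0) (c : Eis) : ∑ i ∈ res q, cls q i c = 1 := by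
  rw [Finset.sum_eq_single_of_mem _ (mod_mem_res hq c), cls, if_pos (dvd_sub_mod q c)]
  exact fun i hi h => if_neg fun h' =>
    h (((mem_res hq).1 hi).symm.trans (mod_eq_of_dvd_sub h').symm)

theorem resid_sum {c : Eis} (hc : c ≠ 0) {F : Eis → ℂ} (hF : Per c F) {ι : Type*} (s : Finset ι)
    (g : ι → Eis) (hg : ∀ i ∈ s, ∀ j ∈ s, c ∣ g i - g j → i = j) (hs : (s.card : ℝ) = N c) :
    ∑ i ∈ s, F (g i) = ∑ x ∈ res c, F x := by
  have h1 : Set.InjOn (fun i => g i % c) s := fun i hi j hj (h : g i % c = g j % c) =>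
    hg i hi j hj (by simpa [h] using (dvd_sub_mod c (g i)).sub (dvd_sub_mod c (g j)))
  have h2 : s.image (fun i => g i % c) = res c :=
    Finset.eq_of_subset_of_card_le (Finset.image_subset_iff.2 fun i _ => mod_mem_res hc _)
      (by rw [Finset.card_image_of_injOn h1, ← Nat.cast_le (α := ℝ), hs, card_res hc])
  rw [← h2, Finset.sum_image h1]
  exact Finset.sum_congr rfl fun i _ => hF.congr (dvd_sub_mod c _)

/-- Reindexing by any map that is injective modulo c. -/
theorem sum_res_reindex {c : Eis} (hc : c ≠ 0) {F : Eis → ℂ} (hF : Per c F) (g : Eis → Eis)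
    (hg : ∀ x y, c ∣ g x - g y → c ∣ x - y) : ∑ x ∈ res c, F (g x) = ∑ x ∈ res c, F x :=
  resid_sum hc hF _ g (fun _ hx _ hy h => res_unique hx hy (hg _ _ h)) (card_res hc)

theorem sum_res_affine {c s : Eis} (hc : c ≠ 0) {F : Eis → ℂ} (hF : Per c F) (hs : IsCoprime s c)
    (t : Eis) : ∑ x ∈ res c, F (s * x + t) = ∑ x ∈ res c, F x :=
  sum_res_reindex hc hF (fun x => s * x + t) fun x y h =>
    hs.symm.dvd_of_dvd_mul_left (by rwa [add_sub_add_right_eq_sub, ← mul_sub] at h)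

theorem sum_res_assoc {c u : Eis} (hc : c ≠ 0) (hu : IsUnit u) {F : Eis → ℂ} (hF : Per c F) :
    ∑ x ∈ res (u * c), F x = ∑ x ∈ res c, F x :=
  resid_sum hc hF _ id (fun _ hx _ hy h => res_unique hx hy (hu.mul_left_dvd.2 h)) (by
    rw [card_res (mul_ne_zero hu.ne_zero hc), N_mul, N, isUnit_iff_nrm.1 hu, Int.cast_one, one_mul])

theorem resid_card {c d : Eis} (hc : c ≠ 0) (hd : d ≠ 0) :
    ((res c ×ˢ res d).card : ℝ) = N (c * d) := by
  rw [Finset.card_product, Nat.cast_mul, card_res hc, card_res hd, N_mul]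

theorem sum_res_mul {c d : Eis} (hc : c ≠ 0) (hd : d ≠ 0) {F : Eis → ℂ} (hF : Per (c * d) F) :
    ∑ x ∈ res (c * d), F x = ∑ u ∈ res c, ∑ v ∈ res d, F (u + c * v) := by
  rw [← Finset.sum_product']
  refine (resid_sum (mul_ne_zero hc hd) hF _ (fun p : Eis × Eis => p.1 + c * p.2)
    (fun p hp q hq h => ?_) (resid_card hc hd)).symm
  obtain ⟨hp, hp'⟩ := Finset.mem_product.1 hp
  obtain ⟨hq, hq'⟩ := Finset.mem_product.1 hq
  obtain ⟨t, ht⟩ := h
  have h1 := res_unique hp hq ⟨d * t - p.2 + q.2, by linear_combination ht⟩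
  exact Prod.ext h1 (res_unique hp' hq' ⟨t, mul_left_cancel₀ hc (by linear_combination ht - h1)⟩)

theorem sum_res_crt {c d : Eis} (hc : c ≠ 0) (hd : d ≠ 0) (h : IsCoprime c d) {F : Eis → ℂ}
    (hF : Per (c * d) F) :
    ∑ x ∈ res (c * d), F x = ∑ u ∈ res c, ∑ v ∈ res d, F (d * u + c * v) := by
  rw [← Finset.sum_product']
  refine (resid_sum (mul_ne_zero hc hd) hF _ (fun p : Eis × Eis => d * p.1 + c * p.2)
    (fun p hp q hq h' => ?_) (resid_card hc hd)).symm
  obtain ⟨hp, hp'⟩ := Finset.mem_product.1 hp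
  obtain ⟨hq, hq'⟩ := Finset.mem_product.1 hq
  obtain ⟨t, ht⟩ := h'
  exact Prod.ext
    (res_unique hp hq (h.dvd_of_dvd_mul_left ⟨d * t - p.2 + q.2, by linear_combination ht⟩))
    (res_unique hp' hq' (h.symm.dvd_of_dvd_mul_left ⟨c * t - p.1 + q.1, by linear_combination ht⟩))

theorem tsum_res {c : Eis} (hc : c ≠ 0) {F : Eis → ℂ} (hF : Summable F) :
    ∑' m, F m = ∑ x ∈ res c, ∑' y, F (x + c * y) := by
  let e : res c × Eis ≃ Eis := Equiv.ofBijective (fun p => p.1 + c * p.2) ⟨fun p q h => by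
    have h1 := res_unique p.1.2 q.1.2 ⟨q.2 - p.2, by linear_combination h⟩
    exact Prod.ext (Subtype.ext h1) (mul_left_cancel₀ hc (by linear_combination h - h1)),
    fun x => ⟨(⟨x % c, mod_mem_res hc x⟩, quo x c), sub_add_cancel _ _⟩⟩
  rw [← e.tsum_eq, ← Finset.tsum_subtype]
  exact (e.summable_iff.2 hF).tsum_prod


/-! ### Additive characters -/

theorem psi_add (c x y : Eis) : psi c (x + y) = psi c x * psi c y := by
  rw [psi, psi, psi, ← Complex.exp_add, add_mul, add_b]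
  push_cast
  ring_nf

@[simp] theorem psi_zero (c : Eis) : psi c 0 = 1 := by simp [psi]

theorem psi_neg (c x : Eis) : psi c (-x) = conj (psi c x) := by
  rw [psi, psi, ← Complex.exp_conj, neg_mul, neg_b]
  simp only [map_mul, conj_ofReal, conj_I, map_ofNat]
  push_cast
  ring_nf

theorem resid_norm (r : ℝ) : ‖cexp (2 * Real.pi * I * r)‖ = 1 := by
  rw [← Complex.norm_exp_ofReal_mul_I (2 * Real.pi * r)]
  push_cast
  ring_nf

theorem norm_psi (c x : Eis) : ‖psi c x‖ = 1 := resid_norm _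

theorem psi_mul_left {d : Eis} (hd : d ≠ 0) (c x : Eis) : psi (c * d) (d * x) = psi c x := by
  have e : d * x * cj (c * d) = (nrm d : Eis) * (x * cj c) := by rw [cj_mul, ← mul_cj]; ring
  rw [psi, psi, e, N_mul, mul_comm (N c), ← mul_div_mul_left _ (N c) (N_pos hd).ne']
  simp [N]

theorem psi_of_dvd {c x : Eis} (h : c ∣ x) : psi c x = 1 := by
  obtain ⟨y, rfl⟩ := h
  rcases eq_or_ne c 0 with rfl | hc
  · rw [zero_mul, psi_zero]
  rw [← Complex.exp_int_mul_two_pi_mul_I y.b, ← one_mul c, mul_assoc, one_mul (c * y),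
    psi_mul_left hc, psi, N_one]
  simp [mul_comm]

theorem psi_congr {c x y : Eis} (h : c ∣ x - y) : psi c x = psi c y := by
  rw [← sub_add_cancel x y, psi_add, psi_of_dvd h, one_mul]

theorem per_psi (c h : Eis) : Per c (fun x => psi c (h * x)) :=
  Per.comp_mul (Per.of_congr fun _ _ => psi_congr) h

theorem psi_cj (c x : Eis) : psi (cj c) (cj x) = conj (psi c x) := by
  rw [← psi_neg, psi, psi, ← cj_mul, cj_b, neg_mul, neg_b, N, N, nrm_cj]

theorem psi_eq {c : Eis} (hc : c ≠ 0) (x : Eis) :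
    psi c x = cexp (2 * Real.pi * I * ((2 * (toC x / (toC lam * toC c)).re : ℝ) : ℂ)) := by
  have h3 : √3 ≠ 0 := by positivity
  have h1 : toC x / (toC lam * toC c) = toC (x * cj c) * -I * ((√3 * N c)⁻¹ : ℝ) := by
    have h2 := (map_ne_zero_iff _ toC_inj).2 hc
    have h4 := ofReal_ne_zero.2 h3
    have h5 := (map_ne_zero (starRingEnd ℂ)).2 h2
    rw [map_mul, toC_cj, toC_lam, ← normSq_toC, ofReal_inv, ofReal_mul, ← mul_conj]
    field_simp
    rw [I_sq]
    ring
  rw [psi, h1, re_mul_ofReal, mul_neg, neg_re, mul_I_re, neg_neg, toC_im]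
  congr 3
  field_simp

theorem sum_psi {c : Eis} (hc : c ≠ 0) (h : Eis) :
    ∑ x ∈ res c, psi c (h * x) = if c ∣ h then (N c : ℂ) else 0 := by
  split_ifs with hh
  · rw [Finset.sum_congr rfl fun x _ => psi_of_dvd (hh.mul_right x), Finset.sum_const,
      nsmul_eq_mul, mul_one, ← card_res hc, ofReal_natCast]
  by_contra h0
  have key : ∀ t : Eis, nrm c ∣ (h * t * cj c).b := fun t => by
    have h1 := sum_res_affine hc (per_psi c h) isCoprime_one_left t
    simp only [one_mul, mul_add, psi_add, ← Finset.sum_mul] at h1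
    obtain ⟨n, hn⟩ := Complex.exp_eq_one_iff.1 ((mul_eq_left₀ h0).1 h1)
    have h2 := mul_left_cancel₀ Complex.two_pi_I_ne_zero (hn.trans (mul_comm _ _))
    rw [← ofReal_intCast, ofReal_inj, div_eq_iff (N_pos hc).ne', N] at h2
    exact ⟨n, by exact_mod_cast h2.trans (mul_comm _ _)⟩
  obtain ⟨k, hk⟩ := key 1
  obtain ⟨l, hl⟩ := key om
  have h1 : cj c ≠ 0 := fun e => hc (nrm_eq_zero.1 (nrm_cj c ▸ nrm_eq_zero.2 e))
  refine hh ⟨⟨k + l, k⟩, mul_right_cancel₀ h1 ?_⟩
  rw [mul_right_comm, mul_cj]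
  rw [mul_one] at hk
  rw [mul_right_comm] at hl
  generalize h * cj c = z at hk hl
  ext
  · simp at hl ⊢
    linear_combination hk + hl
  · simpa using hk

theorem eR_add (r : Eis) (z z' : ℂ) : eR r (z + z') = eR r z * eR r z' := by
  rw [eR, eR, eR, ← Complex.exp_add, mul_add (toC r), add_div, add_re]
  push_cast
  ring_nf

theorem eR_add_left (r r' : Eis) (z : ℂ) : eR (r + r') z = eR r z * eR r' z := by
  rw [eR, eR, eR, ← Complex.exp_add, map_add, add_mul, add_div, add_re]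
  push_cast
  ring_nf

theorem eR_neg (r : Eis) (z : ℂ) : eR (-r) z = conj (eR r z) := by
  rw [eR, eR, ← Complex.exp_conj, map_neg, neg_mul, neg_div, neg_re]
  simp only [map_mul, conj_ofReal, conj_I, map_ofNat]
  push_cast
  ring_nf

theorem norm_eR (r : Eis) (z : ℂ) : ‖eR r z‖ = 1 := resid_norm _

theorem continuous_eR (r : Eis) : Continuous (eR r) := by
  unfold eR
  fun_prop

theorem eR_div {c : Eis} (hc : c ≠ 0) (r d : Eis) :
    eR r (toC d / toC c) = psi (9 * c) (r * d) := by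
  rw [psi_eq (mul_ne_zero (by decide) hc), eR, map_mul, map_mul, map_ofNat]
  congr 5
  ring

theorem eR_nine (r y : Eis) : eR r (9 * toC y) = 1 := by
  have h := eR_div one_ne_zero r (9 * y)
  rwa [psi_of_dvd ⟨r * y, by ring⟩, map_one, div_one, map_mul, map_ofNat] at h

/-- Finite Fourier inversion. -/
theorem fourier_inv {q : Eis} (hq : q ≠ 0) {F : Eis → ℂ} (hF : Per q F) (x : Eis) :
    F x = ∑ y ∈ res q, (gauss F q (-y) / (N q : ℂ)) * psi q (x * y) := by
  have h1 : (N q : ℂ) ≠ 0 := ofReal_ne_zero.2 (N_pos hq).ne'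
  have h2 : ∀ y z, F z * psi q (-y * z) / N q * psi q (x * y) =
      F z / N q * psi q ((x - z) * y) := fun y z => by
    rw [show (x - z) * y = -y * z + x * y by ring, psi_add]
    ring
  simp only [gauss, Finset.sum_div, Finset.sum_mul, h2]
  rw [Finset.sum_comm, ← mul_one (F x), ← sum_cls hq x, Finset.mul_sum]
  refine Finset.sum_congr rfl fun z _ => ?_
  rw [← Finset.mul_sum, sum_psi hq, cls]
  split_ifs with h
  · rw [mul_one, div_mul_cancel₀ _ h1, hF.congr h]
  · rw [mul_zero, mul_zero]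

/-- The l1 norm of the Fourier coefficients. -/
theorem fourier_l1 {q : Eis} (hq : q ≠ 0) {F : Eis → ℂ} (hB : Bd1 F) :
    ∑ y ∈ res q, ‖gauss F q (-y) / (N q : ℂ)‖ ≤ ab q := by
  have h1 := N_pos hq
  have h2 : ∀ y z z', F z * psi q (-y * z) * conj (F z' * psi q (-y * z')) =
      F z * conj (F z') * psi q ((z' - z) * y) := fun y z z' => by
    rw [show (z' - z) * y = -y * z + -(-y * z') by ring, psi_add, psi_neg, map_mul]
    ring
  have h3 : ∑ y ∈ res q, ‖gauss F q (-y)‖ ^ 2 = ∑ z ∈ res q, ‖F z‖ ^ 2 * N q := by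
    rw [← ofReal_inj]
    push_cast
    simp only [← mul_conj', gauss, map_sum, Finset.sum_mul_sum, h2]
    rw [Finset.sum_comm]
    refine Finset.sum_congr rfl fun z hz => ?_
    rw [Finset.sum_comm, Finset.sum_eq_single_of_mem z hz fun z' hz' h => ?_]
    all_goals rw [← Finset.mul_sum, sum_psi hq]
    · rw [sub_self, if_pos (dvd_zero q)]
    · rw [if_neg fun h' => h (res_unique hz' hz h'), mul_zero]
  have h4 : ∑ z ∈ res q, ‖F z‖ ^ 2 * N q ≤ N q * N q := by
    rw [← Finset.sum_mul, ← card_res hq]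
    refine mul_le_mul_of_nonneg_right ?_ (Nat.cast_nonneg _)
    simpa using Finset.sum_le_card_nsmul _ _ (1 : ℝ) fun z (_ : z ∈ res q) =>
      pow_le_one₀ (n := 2) (norm_nonneg _) (hB z)
  have h5 := sq_sum_le_card_mul_sum_sq (s := res q) (f := fun y => ‖gauss F q (-y)‖)
  simp only [norm_div, Complex.norm_real, Real.norm_of_nonneg h1.le, ← Finset.sum_div]
  rw [div_le_iff₀ h1]
  refine (pow_le_pow_iff_left₀ (Finset.sum_nonneg fun _ _ => norm_nonneg _)
    (mul_nonneg (ab_nonneg q) h1.le) two_ne_zero).1 (h5.trans ?_)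
  rw [h3, card_res hq, mul_pow, ab_sq, sq]
  exact mul_le_mul_of_nonneg_left h4 h1.le


end Vale.Agent.P026
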