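import Vale.Agent.P026.SymB

/-! Elementary properties of the cubic and quadratic symbols, and the Jacobi sum. -/

namespace Vale.Agent.P026

open Eis Complex
open scoped Classical ComplexConjugate

theorem sym_rel {f : Eis → ℂ} (hf : ∀ p q, Associated p q → f p = f q) {s t : Multiset Eis}
    (h : Multiset.Rel Associated s t) : (s.map f).prod = (t.map f).prod :=
  congrArg Multiset.prod
    (Multiset.rel_eq.1 (Multiset.rel_map.2 (h.mono fun a _ b _ hab => hf a b hab)))

theorem sym_fp_prime {f : Eis → ℂ} (hf : ∀ p q, Associated p q → f p = f q) {p : Eis}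
    (hp : Prime p) : ((UniqueFactorizationMonoid.factors p).map f).prod = f p := by
  obtain ⟨q, h1, h2⟩ := UniqueFactorizationMonoid.factors_eq_singleton_of_irreducible hp.irreducible
  rw [h2, Multiset.map_singleton, Multiset.prod_singleton, hf p q h1]

theorem sym_fp_mul {f : Eis → ℂ} (hf : ∀ p q, Associated p q → f p = f q) {c d : Eis}
    (hc : c ≠ 0) (hd : d ≠ 0) : ((UniqueFactorizationMonoid.factors (c * d)).map f).prod =
      ((UniqueFactorizationMonoid.factors c).map f).prod *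
        ((UniqueFactorizationMonoid.factors d).map f).prod := by
  rw [sym_rel hf (UniqueFactorizationMonoid.factors_mul hc hd), Multiset.map_add,
    Multiset.prod_add]

theorem sym_fp_congr {f g : Eis → ℂ} {c : Eis} (h : ∀ p, Prime p → p ∣ c → f p = g p) :
    ((UniqueFactorizationMonoid.factors c).map f).prod =
      ((UniqueFactorizationMonoid.factors c).map g).prod :=
  congrArg Multiset.prod (Multiset.map_congr rfl fun p hp =>
    h p (UniqueFactorizationMonoid.prime_of_factor p hp)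
      (UniqueFactorizationMonoid.dvd_of_mem_factors hp))

theorem sym_fp_ind {f : Eis → ℂ} {c : Eis} (P : ℂ → Prop) (hm : ∀ x y, P x → P y → P (x * y))
    (h1 : P 1) (h : ∀ p, Prime p → p ∣ c → P (f p)) :
    P ((UniqueFactorizationMonoid.factors c).map f).prod :=
  Multiset.prod_induction P _ hm h1 fun z hz => by
    obtain ⟨p, hp, rfl⟩ := Multiset.mem_map.1 hz
    exact h p (UniqueFactorizationMonoid.prime_of_factor p hp)
      (UniqueFactorizationMonoid.dvd_of_mem_factors hp)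

theorem sym_fp_zero {f : Eis → ℂ} {a : Eis} (hf : ∀ p, f p = 0 ↔ p ∣ a) {c : Eis} (hc : c ≠ 0) :
    ((UniqueFactorizationMonoid.factors c).map f).prod = 0 ↔ ¬ IsCoprime a c := by
  rw [Multiset.prod_eq_zero_iff, Multiset.mem_map]
  constructor
  · rintro ⟨p, hp, h0⟩ h
    exact (UniqueFactorizationMonoid.prime_of_factor p hp).not_isUnit (h.isUnit_of_dvd'
      ((hf p).1 h0) (UniqueFactorizationMonoid.dvd_of_mem_factors hp))
  · intro h
    by_contra h'
    refine h (IsCoprime.symm (isRelPrime_iff_isCoprime.1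
      ((UniqueFactorizationMonoid.isRelPrime_iff_no_prime_factors hc).2 fun d h1 h2 hd => h' ?_)))
    obtain ⟨q, h3, h4⟩ := UniqueFactorizationMonoid.exists_mem_factors_of_dvd hc hd.irreducible h1
    exact ⟨q, h3, (hf q).2 (h4.dvd_iff_dvd_left.1 h2)⟩

theorem sym_om3 : toC om ^ 3 = 1 := by rw [← map_pow, sym_om_cube, map_one]

theorem sym_cubP_val (p a : Eis) : (p ∣ a ∧ cubP p a = 0) ∨ (¬ p ∣ a ∧ cubP p a ^ 3 = 1) := by
  by_cases ha : p ∣ a
  · exact Or.inl ⟨ha, if_pos ha⟩
  · obtain ⟨j, hj⟩ := sym_cubE_val ha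
    exact Or.inr ⟨ha, by rw [← sym_toC_cubE, hj, map_pow, ← pow_mul, mul_comm, pow_mul, sym_om3,
      one_pow]⟩

theorem sym_quadP_val (p a : Eis) : (p ∣ a ∧ quadP p a = 0) ∨ (¬ p ∣ a ∧ quadP p a ^ 2 = 1) := by
  unfold quadP
  split_ifs with h1 h2 <;> simp [h1]

theorem cubP_assoc {p q : Eis} (h : Associated p q) (a : Eis) : cubP p a = cubP q a := by
  unfold cubP
  simp only [sym_nrm_assoc h, h.dvd_iff_dvd_left]
theorem quadP_assoc {p q : Eis} (h : Associated p q) (a : Eis) : quadP p a = quadP q a := by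
  unfold quadP
  simp only [sym_nrm_assoc h, h.dvd_iff_dvd_left]
theorem cub_prime {p : Eis} (hp : Prime p) (a : Eis) : cub a p = cubP p a :=
  sym_fp_prime (fun _ _ h => cubP_assoc h a) hp
theorem quad_prime {p : Eis} (hp : Prime p) (a : Eis) : quad a p = quadP p a :=
  sym_fp_prime (fun _ _ h => quadP_assoc h a) hp
theorem cub_unit_right {u : Eis} (hu : IsUnit u) (a : Eis) : cub a u = 1 := by
  rw [cub, UniqueFactorizationMonoid.factors_of_isUnit hu, Multiset.map_zero, Multiset.prod_zero]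
theorem quad_unit_right {u : Eis} (hu : IsUnit u) (a : Eis) : quad a u = 1 := by
  rw [quad, UniqueFactorizationMonoid.factors_of_isUnit hu, Multiset.map_zero, Multiset.prod_zero]
theorem cub_one_right (a : Eis) : cub a 1 = 1 := cub_unit_right isUnit_one a
theorem quad_one_right (a : Eis) : quad a 1 = 1 := quad_unit_right isUnit_one a
theorem cub_mul_right (a : Eis) {c d : Eis} (hc : c ≠ 0) (hd : d ≠ 0) :
    cub a (c * d) = cub a c * cub a d := sym_fp_mul (fun _ _ h => cubP_assoc h a) hc hd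
theorem quad_mul_right (a : Eis) {c d : Eis} (hc : c ≠ 0) (hd : d ≠ 0) :
    quad a (c * d) = quad a c * quad a d := sym_fp_mul (fun _ _ h => quadP_assoc h a) hc hd
theorem cub_pow_right (a : Eis) {c : Eis} (hc : c ≠ 0) (k : ℕ) :
    cub a (c ^ k) = cub a c ^ k := by
  induction k with
  | zero => rw [pow_zero, pow_zero, cub_one_right]
  | succ k ih => rw [pow_succ, pow_succ, cub_mul_right a (pow_ne_zero k hc) hc, ih]
theorem quad_pow_right (a : Eis) {c : Eis} (hc : c ≠ 0) (k : ℕ) :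
    quad a (c ^ k) = quad a c ^ k := by
  induction k with
  | zero => rw [pow_zero, pow_zero, quad_one_right]
  | succ k ih => rw [pow_succ, pow_succ, quad_mul_right a (pow_ne_zero k hc) hc, ih]
theorem cub_assoc_right (a : Eis) {c d : Eis} (h : Associated c d) : cub a c = cub a d :=
  sym_rel (fun _ _ h => cubP_assoc h a) (UniqueFactorizationMonoid.factors_rel_of_associated h)
theorem quad_assoc_right (a : Eis) {c d : Eis} (h : Associated c d) : quad a c = quad a d :=
  sym_rel (fun _ _ h => quadP_assoc h a) (UniqueFactorizationMonoid.factors_rel_of_associated h)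
theorem cub_congr {a b c : Eis} (h : c ∣ a - b) : cub a c = cub b c :=
  sym_fp_congr fun p _ hp => by rw [← sym_toC_cubE, ← sym_toC_cubE, sym_cubE_congr (hp.trans h)]
theorem quad_congr {a b c : Eis} (h : c ∣ a - b) : quad a c = quad b c :=
  sym_fp_congr fun p _ hp => by
    have h1 := sym_mk_eq.2 (hp.trans h)
    unfold quadP
    simp only [← sym_mk_eq, map_pow, h1]
    simp only [← sym_mk_zero, h1]
theorem norm_cub_le (a c : Eis) : ‖cub a c‖ ≤ 1 :=
  sym_fp_ind (fun z => ‖z‖ ≤ 1)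
    (fun x y hx hy => by rw [norm_mul]; exact mul_le_one₀ hx (norm_nonneg _) hy) (by simp)
    fun p _ _ => by
      rcases sym_cubP_val p a with h | h
      · rw [h.2]; simp
      · exact (Complex.norm_eq_one_of_pow_eq_one h.2 (by norm_num)).le
theorem norm_quad_le (a c : Eis) : ‖quad a c‖ ≤ 1 :=
  sym_fp_ind (fun z => ‖z‖ ≤ 1)
    (fun x y hx hy => by rw [norm_mul]; exact mul_le_one₀ hx (norm_nonneg _) hy) (by simp)
    fun p _ _ => by
      rcases sym_quadP_val p a with h | h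
      · rw [h.2]; simp
      · exact (Complex.norm_eq_one_of_pow_eq_one h.2 (by norm_num)).le
theorem cub_eq_zero {a c : Eis} (hc : c ≠ 0) : cub a c = 0 ↔ ¬ IsCoprime a c :=
  sym_fp_zero (fun p => by
    rcases sym_cubP_val p a with h | h
    · simp [h.1, h.2]
    · exact ⟨fun h0 => by simp [h0] at h, fun h0 => (h.1 h0).elim⟩) hc
theorem quad_eq_zero {a c : Eis} (hc : c ≠ 0) : quad a c = 0 ↔ ¬ IsCoprime a c :=
  sym_fp_zero (fun p => by
    rcases sym_quadP_val p a with h | h
    · simp [h.1, h.2]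
    · exact ⟨fun h0 => by simp [h0] at h, fun h0 => (h.1 h0).elim⟩) hc
theorem cub_cube {a c : Eis} (h : IsCoprime a c) : cub a c ^ 3 = 1 :=
  sym_fp_ind (fun z => z ^ 3 = 1) (fun x y hx hy => by rw [mul_pow, hx, hy, one_mul]) (one_pow 3)
    fun p hp hpc => ((sym_cubP_val p a).resolve_left fun h' =>
      hp.not_isUnit (h.isUnit_of_dvd' h'.1 hpc)).2
theorem quad_sq {a c : Eis} (h : IsCoprime a c) : quad a c ^ 2 = 1 :=
  sym_fp_ind (fun z => z ^ 2 = 1) (fun x y hx hy => by rw [mul_pow, hx, hy, one_mul]) (one_pow 2)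
    fun p hp hpc => ((sym_quadP_val p a).resolve_left fun h' =>
      hp.not_isUnit (h.isUnit_of_dvd' h'.1 hpc)).2
theorem norm_cub {a c : Eis} (h : IsCoprime a c) : ‖cub a c‖ = 1 :=
  Complex.norm_eq_one_of_pow_eq_one (cub_cube h) (by norm_num)
theorem norm_quad {a c : Eis} (h : IsCoprime a c) : ‖quad a c‖ = 1 :=
  Complex.norm_eq_one_of_pow_eq_one (quad_sq h) (by norm_num)
theorem sym_conj {z : ℂ} {n : ℕ} (h : z ^ (n + 1) = 1) : conj z = z ^ n := by
  have h1 := Complex.norm_eq_one_of_pow_eq_one h n.succ_ne_zero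
  rw [← Complex.inv_eq_conj h1]
  exact (eq_inv_of_mul_eq_one_left (by rw [← pow_succ, h])).symm
theorem conj_cub (a c : Eis) : conj (cub a c) = cub a c ^ 2 :=
  sym_fp_ind (fun z => conj z = z ^ 2) (fun x y hx hy => by rw [map_mul, mul_pow, hx, hy])
    (by simp) fun p _ _ => by
      rcases sym_cubP_val p a with h | h
      · rw [h.2]; simp
      · exact sym_conj h.2
theorem conj_quad (a c : Eis) : conj (quad a c) = quad a c :=
  sym_fp_ind (fun z => conj z = z) (fun x y hx hy => by rw [map_mul, hx, hy])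
    (by simp) fun p _ _ => by
      rcases sym_quadP_val p a with h | h
      · rw [h.2]; simp
      · exact (sym_conj h.2).trans (pow_one _)
theorem cub_pow_four (a c : Eis) : cub a c ^ 4 = cub a c :=
  sym_fp_ind (fun z => z ^ 4 = z) (fun x y hx hy => by rw [mul_pow, hx, hy])
    (by simp) fun p _ _ => by
      rcases sym_cubP_val p a with h | h
      · rw [h.2]; simp
      · rw [pow_succ, h.2, one_mul]
theorem cub_mul_left (a b : Eis) {c : Eis} (hc : ¬ lam ∣ c) :
    cub (a * b) c = cub a c * cub b c := by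
  unfold cub
  rw [← Multiset.prod_map_mul]
  exact sym_fp_congr fun p hp hpc => by
    simp only [← sym_toC_cubE, sym_cubE_mul hp (fun h => hc (h.trans hpc)), map_mul]
theorem quad_mul_left (a b : Eis) {c : Eis} (hc : ¬ (2 : Eis) ∣ c) :
    quad (a * b) c = quad a c * quad b c := by
  unfold quad
  rw [← Multiset.prod_map_mul]
  exact sym_fp_congr fun p hp hpc => by
    obtain ⟨χ, hχ, -⟩ := (sym_quad_pack hp (fun h => hc (h.trans hpc))).1
    simp only [← hχ, map_mul]
theorem cub_one_left {c : Eis} (hc : ¬ lam ∣ c) : cub 1 c = 1 :=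
  sym_fp_ind (fun z => z = 1) (fun x y hx hy => by rw [hx, hy, one_mul]) rfl
    fun p hp _ => by rw [← sym_toC_cubE, sym_cubE_one hp, map_one]
theorem quad_one_left {c : Eis} (hc : ¬ (2 : Eis) ∣ c) : quad 1 c = 1 :=
  sym_fp_ind (fun z => z = 1) (fun x y hx hy => by rw [hx, hy, one_mul]) rfl
    fun p hp _ => by rw [quadP, if_neg (sym_cubE_unit hp isUnit_one), if_pos (by simp)]
theorem cub_pow_left (a : Eis) {c : Eis} (hc : ¬ lam ∣ c) (k : ℕ) :
    cub (a ^ k) c = cub a c ^ k := by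
  induction k with
  | zero => rw [pow_zero, pow_zero, cub_one_left hc]
  | succ k ih => rw [pow_succ, pow_succ, cub_mul_left _ _ hc, ih]
theorem quad_pow_left (a : Eis) {c : Eis} (hc : ¬ (2 : Eis) ∣ c) (k : ℕ) :
    quad (a ^ k) c = quad a c ^ k := by
  induction k with
  | zero => rw [pow_zero, pow_zero, quad_one_left hc]
  | succ k ih => rw [pow_succ, pow_succ, quad_mul_left _ _ hc, ih]
theorem cub_neg_left (a : Eis) {c : Eis} (hc : ¬ lam ∣ c) : cub (-a) c = cub a c := by
  rw [show -a = (-1) ^ 3 * a by ring, cub_mul_left _ _ hc, cub_pow_left _ hc,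
    cub_cube isCoprime_one_left.neg_left, one_mul]
theorem sym_cj_ne {c : Eis} (hc : c ≠ 0) : cj c ≠ 0 := fun h =>
  hc (by rw [← nrm_eq_zero, ← nrm_cj, h]; rfl)
theorem cub_cj (a : Eis) {c : Eis} (hc : ¬ lam ∣ c) : cub (cj a) (cj c) = conj (cub a c) := by
  induction c using UniqueFactorizationMonoid.induction_on_prime with
  | h₁ => exact (hc (dvd_zero _)).elim
  | h₂ u hu => rw [cub_unit_right hu, cub_unit_right (sym_cj_unit hu), map_one]
  | h₃ c p h0 hp ih =>
    rw [cj_mul, cub_mul_right _ (sym_cj_ne hp.ne_zero) (sym_cj_ne h0),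
      cub_mul_right _ hp.ne_zero h0, ih fun h => hc (h.mul_left p), map_mul, cub_prime hp,
      cub_prime (sym_cj_prime hp), ← sym_toC_cubE, ← sym_toC_cubE,
      sym_cubE_cj hp fun h => hc (h.mul_right c), toC_cj]
theorem quad_cj (a c : Eis) : quad (cj a) (cj c) = quad a c := by
  induction c using UniqueFactorizationMonoid.induction_on_prime with
  | h₁ =>
    rw [show cj 0 = 0 from rfl, quad, quad, UniqueFactorizationMonoid.factors_zero]
    rfl
  | h₂ u hu => rw [quad_unit_right hu, quad_unit_right (sym_cj_unit hu)]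
  | h₃ c p h0 hp ih =>
    have h1 : ∀ k : ℕ, cj a ^ k - 1 = cj (a ^ k - 1) := fun k => by
      change cjH a ^ k - 1 = cjH (a ^ k - 1)
      rw [map_sub, map_pow, map_one]
    rw [cj_mul, quad_mul_right _ (sym_cj_ne hp.ne_zero) (sym_cj_ne h0),
      quad_mul_right _ hp.ne_zero h0, ih, quad_prime hp, quad_prime (sym_cj_prime hp)]
    unfold quadP
    simp only [nrm_cj, h1, sym_cj_dvd]
theorem cub_om {c : Eis} (hc : ¬ lam ∣ c) :
    cub om c = toC om ^ (((nrm c).natAbs - 1) / 3) := by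
  induction c using UniqueFactorizationMonoid.induction_on_prime with
  | h₁ => exact (hc (dvd_zero _)).elim
  | h₂ u hu => rw [cub_unit_right hu, isUnit_iff_nrm.1 hu]; simp
  | h₃ c p h0 hp ih =>
    have h1 : ¬ lam ∣ p := fun h => hc (h.mul_right c)
    have h2 : ¬ lam ∣ c := fun h => hc (h.mul_left p)
    obtain ⟨s, hs⟩ : ∃ s, (nrm p).natAbs = 3 * s + 1 :=
      ⟨(nrm p).natAbs / 3, by have := sym_nrm_three h1; omega⟩
    obtain ⟨t, ht⟩ : ∃ t, (nrm c).natAbs = 3 * t + 1 :=
      ⟨(nrm c).natAbs / 3, by have := sym_nrm_three h2; omega⟩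
    rw [cub_mul_right _ hp.ne_zero h0, ih h2, cub_prime hp, ← sym_toC_cubE, sym_cubE_om hp h1,
      map_pow, nrm_mul, Int.natAbs_mul, hs, ht,
      show (3 * s + 1) * (3 * t + 1) = 3 * (3 * (s * t) + s + t) + 1 by ring]
    simp only [Nat.add_sub_cancel, Nat.mul_div_cancel_left _ (show 0 < 3 by norm_num), pow_add,
      pow_mul, sym_om3, one_pow, one_mul]
theorem quad_om {c : Eis} (hc : ¬ (2 : Eis) ∣ c) : quad om c = 1 := by
  rw [show om = (om ^ 2) ^ 2 by linear_combination (-om) * sym_om_cube, quad_pow_left _ hc,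
    quad_sq ⟨om, 0, by linear_combination sym_om_cube⟩]
theorem quad_neg_one {c : Eis} (hc : ¬ (2 : Eis) ∣ c) :
    quad (-1) c = (-1) ^ (((nrm c).natAbs - 1) / 2) := by
  induction c using UniqueFactorizationMonoid.induction_on_prime with
  | h₁ => exact (hc (dvd_zero _)).elim
  | h₂ u hu => rw [quad_unit_right hu, isUnit_iff_nrm.1 hu]; simp
  | h₃ c p h0 hp ih =>
    have h1 : ¬ (2 : Eis) ∣ p := fun h => hc (h.mul_right c)
    have h2 : ¬ (2 : Eis) ∣ c := fun h => hc (h.mul_left p)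
    obtain ⟨s, hs⟩ : ∃ s, (nrm p).natAbs = 2 * s + 1 :=
      ⟨(nrm p).natAbs / 2, by have := sym_nrm_two h1; omega⟩
    obtain ⟨t, ht⟩ : ∃ t, (nrm c).natAbs = 2 * t + 1 :=
      ⟨(nrm c).natAbs / 2, by have := sym_nrm_two h2; omega⟩
    have h3 : quadP p (-1) = (-1) ^ s := by
      rw [quadP, if_neg (sym_cubE_unit hp isUnit_one.neg), hs, Nat.add_sub_cancel,
        Nat.mul_div_cancel_left _ two_pos]
      rcases Nat.even_or_odd s with h | h
      · rw [h.neg_one_pow, h.neg_one_pow, if_pos (by simp)]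
      · rw [h.neg_one_pow, h.neg_one_pow, if_neg fun h' => sym_not_two hp h1
          (by rw [show (2 : Eis) = -(-1 - 1) by ring]; exact h'.neg_right)]
    rw [quad_mul_right _ hp.ne_zero h0, ih h2, quad_prime hp, h3, nrm_mul, Int.natAbs_mul, hs, ht,
      show (2 * s + 1) * (2 * t + 1) = 2 * (2 * (s * t) + s + t) + 1 by ring]
    simp only [Nat.add_sub_cancel, Nat.mul_div_cancel_left _ two_pos, pow_add,
      pow_mul, neg_one_sq, one_pow, one_mul]
theorem quad_two {c : Eis} (hc : ¬ (2 : Eis) ∣ c) :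
    quad 2 c = ((ZMod.χ₈ ((nrm c : ℤ) : ZMod 8) : ℤ) : ℂ) := by
  induction c using UniqueFactorizationMonoid.induction_on_prime with
  | h₁ => exact (hc (dvd_zero _)).elim
  | h₂ u hu => rw [quad_unit_right hu, isUnit_iff_nrm.1 hu]; simp
  | h₃ c p h0 hp ih =>
    rw [quad_mul_right _ hp.ne_zero h0, ih fun h => hc (h.mul_left p), quad_prime hp,
      (sym_quad_pack hp fun h => hc (h.mul_right c)).2.1, nrm_mul, Int.cast_mul, map_mul,
      Int.cast_mul]
theorem exists_cub_ne {p : Eis} (hp : Prime p) (h : ¬ lam ∣ p) :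
    ∃ a, ¬ p ∣ a ∧ cub a p ≠ 1 := by
  obtain ⟨a, h1, h2⟩ := sym_cub_ne hp h
  refine ⟨a, h1, fun h3 => h2 (toC_inj ?_)⟩
  rw [sym_toC_cubE, ← cub_prime hp, h3, map_one]
theorem exists_quad_ne {p : Eis} (hp : Prime p) (h : ¬ (2 : Eis) ∣ p) :
    ∃ a, ¬ p ∣ a ∧ quad a p = -1 := by
  simpa only [quad_prime hp] using (sym_quad_pack hp h).2.2.1
/-- Number of square roots modulo an odd prime. -/
theorem card_sqrt {p : Eis} (hp : Prime p) (h : ¬ (2 : Eis) ∣ p) (y : Eis) :
    ((((res p).filter (fun x => p ∣ x ^ 2 - y)).card : ℕ) : ℂ) = 1 + quad y p := by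
  rw [quad_prime hp]
  exact (sym_quad_pack hp h).2.2.2 y
/-- The characterising congruence. -/
theorem cub_spec {p : Eis} (hp : Prime p) (h : ¬ lam ∣ p) (a : Eis) :
    ∃ z : Eis, toC z = cub a p ∧ p ∣ a ^ (((nrm p).natAbs - 1) / 3) - z :=
  ⟨cubE p a, by rw [sym_toC_cubE, cub_prime hp], sym_cubE_spec hp h a⟩
/-- Packaging as multiplicative characters of the residue field. -/
theorem exists_mulChar_cub {p : Eis} (hp : Prime p) (h : ¬ lam ∣ p) :
    ∃ χ : MulChar (Eis ⧸ Ideal.span {p}) ℂ,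
      (∀ a, χ (Ideal.Quotient.mk _ a) = cub a p) ∧ orderOf χ = 3 := by
  obtain ⟨χ, hχ, h3, h1⟩ := sym_mulChar' hp h
  refine ⟨χ.ringHomComp toC, fun a => ?_, orderOf_eq_prime ?_ ?_⟩
  · rw [MulChar.ringHomComp_apply, hχ, sym_toC_cubE, cub_prime hp]
  · rw [MulChar.ringHomComp_pow, h3, MulChar.ringHomComp_one]
  · exact (MulChar.ringHomComp_ne_one_iff toC_inj).2 h1
theorem exists_mulChar_quad {p : Eis} (hp : Prime p) (h : ¬ (2 : Eis) ∣ p) :
    ∃ χ : MulChar (Eis ⧸ Ideal.span {p}) ℂ,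
      (∀ a, χ (Ideal.Quotient.mk _ a) = quad a p) ∧ orderOf χ = 2 := by
  simpa only [quad_prime hp] using (sym_quad_pack hp h).1
theorem exists_addChar {c : Eis} (hc : c ≠ 0) :
    ∃ e : AddChar (Eis ⧸ Ideal.span {c}) ℂ,
      (∀ a, e (Ideal.Quotient.mk _ a) = psi c a) ∧ e.IsPrimitive := by
  have key : ∀ a, psi c (Quotient.out (Ideal.Quotient.mk (Ideal.span {c}) a)) = psi c a :=
    fun a => psi_congr (sym_mk_eq.1 (Ideal.Quotient.mk_out _))
  obtain ⟨e, he⟩ : ∃ e : AddChar (Eis ⧸ Ideal.span {c}) ℂ,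
      ∀ a, e (Ideal.Quotient.mk _ a) = psi c a := by
    refine ⟨⟨fun z => psi c (Quotient.out z), (key 0).trans (psi_zero c), fun x y => ?_⟩, key⟩
    obtain ⟨a, rfl⟩ := Ideal.Quotient.mk_surjective x
    obtain ⟨b, rfl⟩ := Ideal.Quotient.mk_surjective y
    rw [← map_add, key, key, key, psi_add]
  refine ⟨e, he, fun z hz h1 => hz ?_⟩
  obtain ⟨h, rfl⟩ := Ideal.Quotient.mk_surjective z
  have h2 : ∀ x, psi c (h * x) = 1 := fun x => by
    rw [← he, map_mul, ← AddChar.mulShift_apply, h1, AddChar.one_apply]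
  have h3 := sum_psi hc h
  by_contra h4
  rw [if_neg (mt sym_mk_zero.2 h4)] at h3
  simp only [h2, Finset.sum_const, nsmul_eq_mul, mul_one] at h3
  have h5 := card_res hc
  rw [Nat.cast_eq_zero.1 h3, Nat.cast_zero] at h5
  exact (N_pos hc).ne h5
/-- The cubic Jacobi sum at a primary prime. -/
theorem jacobi_cub {p : Eis} (hp : Prime p) (h : Prim p) :
    ∑ x ∈ res p, cub x p * cub (1 - x) p = -toC p := by
  have := finite_quot hp.ne_zero
  let _ := Fintype.ofFinite (Eis ⧸ Ideal.span {p})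
  obtain ⟨χ, hχ, -, hJ⟩ := sym_jacobi hp h
  rw [← hJ, jacobiSum, ← sum_res_quot hp.ne_zero]
  refine Finset.sum_congr rfl fun x _ => ?_
  rw [← map_one (Ideal.Quotient.mk (Ideal.span {p})), ← map_sub, hχ, hχ, cub_prime hp, cub_prime hp]
theorem gauss_cub_cube {p : Eis} (hp : Prime p) (h : Prim p) :
    gauss (fun x => cub x p) p 1 ^ 3 = -(N p : ℂ) * toC p := by
  have := sym_max hp
  have := finite_quot hp.ne_zero
  let _ := Fintype.ofFinite (Eis ⧸ Ideal.span {p})
  let _ := Ideal.Quotient.field (Ideal.span {p})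
  obtain ⟨χ, hχ, h3, hJ⟩ := sym_jacobi hp h
  obtain ⟨e, he, hprim⟩ := exists_addChar hp.ne_zero
  have h1 : gauss (fun x => cub x p) p 1 = gaussSum χ e := by
    rw [gauss, gaussSum, ← sum_res_quot hp.ne_zero]
    refine Finset.sum_congr rfl fun x _ => ?_
    rw [hχ, he, cub_prime hp, one_mul]
  have h2 := gaussSum_pow_eq_prod_jacobiSum (χ := χ) (by rw [h3]; norm_num) hprim
  have h4 : χ (-1) = 1 := by
    rw [← map_one (Ideal.Quotient.mk (Ideal.span {p})), ← map_neg, hχ, ← cub_prime hp,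
      cub_neg_left _ h.not_lam_dvd, cub_one_left h.not_lam_dvd]
  rw [h3, h4, ← Nat.card_eq_fintype_card, card_quot hp.ne_zero,
    show Finset.Ico 1 (3 - 1) = {1} from rfl, Finset.prod_singleton, pow_one, hJ,
    ← Int.cast_natCast, Int.natAbs_of_nonneg (nrm_nonneg p)] at h2
  rw [h1, h2, N]
  push_cast
  ring

/-! The symbols chi j -/

theorem norm_chi_le (j : ℕ) (a c : Eis) : ‖chi j a c‖ ≤ 1 := by
  rw [chi, norm_mul, norm_pow]
  exact mul_le_one₀ (pow_le_one₀ (norm_nonneg _) (norm_cub_le a c)) (norm_nonneg _)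
    (norm_quad_le a c)
theorem chi_congr (j : ℕ) {a b c : Eis} (h : c ∣ a - b) : chi j a c = chi j b c := by
  rw [chi, chi, cub_congr h, quad_congr h]
theorem chi_mul_left (j : ℕ) (a b : Eis) {c : Eis} (hc : P1 c) :
    chi j (a * b) c = chi j a c * chi j b c := by
  rw [chi, chi, chi, cub_mul_left a b hc.1.not_lam_dvd, quad_mul_left a b hc.2]
  ring
theorem chi_mul_right (j : ℕ) (a : Eis) {c d : Eis} (hc : c ≠ 0) (hd : d ≠ 0) :
    chi j a (c * d) = chi j a c * chi j a d := by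
  rw [chi, chi, chi, cub_mul_right a hc hd, quad_mul_right a hc hd]
  ring
theorem chi_one_right (j : ℕ) (a : Eis) : chi j a 1 = 1 := by
  rw [chi, cub_one_right, quad_one_right, one_pow, one_mul]
theorem chi_one_left (j : ℕ) {c : Eis} (hc : P1 c) : chi j 1 c = 1 := by
  rw [chi, cub_one_left hc.1.not_lam_dvd, quad_one_left hc.2, one_pow, one_mul]
theorem norm_chi (j : ℕ) {a c : Eis} (h : IsCoprime a c) : ‖chi j a c‖ = 1 := by
  rw [chi, norm_mul, norm_pow, norm_cub h, norm_quad h, one_pow, one_mul]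
theorem chi_eq_zero (j : ℕ) {a c : Eis} (hc : c ≠ 0) : chi j a c = 0 ↔ ¬ IsCoprime a c :=
  ⟨fun h0 h => by simpa [h0] using norm_chi j h,
    fun h => by rw [chi, (quad_eq_zero hc).2 h, mul_zero]⟩
theorem conj_chi {j j' : ℕ} (hj : 3 ∣ j + j') (a : Eis) {c : Eis} (hc : c ≠ 0) :
    conj (chi j a c) = chi j' a c := by
  by_cases h : IsCoprime a c
  · rw [chi, chi, map_mul, map_pow, conj_cub, conj_quad, ← pow_mul,
      pow_eq_pow_mod _ (cub_cube h), pow_eq_pow_mod j' (cub_cube h),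
      show 2 * j % 3 = j' % 3 by omega]
  · rw [(chi_eq_zero j hc).2 h, (chi_eq_zero j' hc).2 h, map_zero]
theorem chi_zero_eq (a c : Eis) : chi 0 a c = quad a c := by rw [chi, pow_zero, one_mul]
theorem chi_sixth (j : ℕ) (k : Eis) {c : Eis} (hc : P1 c) : chi j (k ^ 6) c = cop k c := by
  unfold cop
  split_ifs with h
  · rw [chi, cub_pow_left _ hc.1.not_lam_dvd, quad_pow_left _ hc.2,
      show cub k c ^ 6 = (cub k c ^ 3) ^ 2 by ring, show quad k c ^ 6 = (quad k c ^ 2) ^ 3 by ring,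
      cub_cube h.symm, quad_sq h.symm]
    simp
  · exact (chi_eq_zero j hc.ne_zero).2 fun h' =>
      h ((IsCoprime.pow_left_iff (by norm_num)).1 h').symm
theorem chi_zero_left (j : ℕ) {c : Eis} (hc : P1 c) : chi j 0 c = if c = 1 then 1 else 0 := by
  split_ifs with h
  · rw [h, chi_one_right]
  · exact (chi_eq_zero j hc.ne_zero).2 fun h' =>
      h (hc.1.eq_one_of_isUnit (isCoprime_zero_left.1 h'))

end Vale.Agent.P026
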