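import Vale.Agent.P026.Resid

/-! The cubic symbol at a prime. -/

namespace Vale.Agent.P026

open Eis Complex
open scoped Classical ComplexConjugate

theorem sym_max {p : Eis} (hp : Prime p) : (Ideal.span {p}).IsMaximal :=
  PrincipalIdealRing.isMaximal_of_irreducible hp.irreducible

theorem sym_mk_eq {p a b : Eis} :
    Ideal.Quotient.mk (Ideal.span {p}) a = Ideal.Quotient.mk _ b ↔ p ∣ a - b := by
  rw [Ideal.Quotient.eq, Ideal.mem_span_singleton]

theorem sym_mk_zero {p a : Eis} : Ideal.Quotient.mk (Ideal.span {p}) a = 0 ↔ p ∣ a := by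
  rw [Ideal.Quotient.eq_zero_iff_mem, Ideal.mem_span_singleton]

theorem sym_fermat {p a : Eis} (hp : Prime p) (ha : ¬ p ∣ a) :
    p ∣ a ^ ((nrm p).natAbs - 1) - 1 := by
  have := sym_max hp
  have := finite_quot hp.ne_zero
  let _ := Fintype.ofFinite (Eis ⧸ Ideal.span {p})
  let _ := Ideal.Quotient.field (Ideal.span {p})
  have h := FiniteField.pow_card_sub_one_eq_one (Ideal.Quotient.mk (Ideal.span {p}) a)
    (mt sym_mk_zero.1 ha)
  rw [← Nat.card_eq_fintype_card, card_quot hp.ne_zero, ← map_pow,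
    ← map_one (Ideal.Quotient.mk (Ideal.span {p}))] at h
  exact sym_mk_eq.1 h

theorem sym_nrm_three {c : Eis} (hc : ¬ lam ∣ c) : (nrm c).natAbs % 3 = 1 := by
  have h0 := nrm_nonneg c
  have h1 : ¬ (3 : ℤ) ∣ c.a + c.b := by
    rintro ⟨t, ht⟩
    refine hc ⟨⟨c.b - t, t - c.a⟩, ?_⟩
    ext
    · simp only [mul_a, lam_a, lam_b]; omega
    · simp only [mul_b, lam_a, lam_b]; omega
  have h2 : nrm c = (c.a + c.b) ^ 2 - 3 * (c.a * c.b) := by unfold nrm; ring
  have h3 : (c.a + c.b) ^ 2 % 3 = 1 := by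
    have : (c.a + c.b) % 3 = 1 ∨ (c.a + c.b) % 3 = 2 := by omega
    rcases this with h | h <;> simp [pow_two, Int.mul_emod, h]
  omega

theorem sym_nrm_two {c : Eis} (hc : ¬ (2 : Eis) ∣ c) : (nrm c).natAbs % 2 = 1 := by
  have h0 := nrm_nonneg c
  have h1 : ¬ (c.a % 2 = 0 ∧ c.b % 2 = 0) := by
    rintro ⟨h, h'⟩
    refine hc ⟨⟨c.a / 2, c.b / 2⟩, ?_⟩
    ext
    · simp only [mul_a, ofNat_a, ofNat_b]; omega
    · simp only [mul_b, ofNat_a, ofNat_b]; omega
  have h3 : nrm c % 2 = 1 := by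
    unfold nrm
    obtain ⟨u, hu⟩ : ∃ u, c.a = 2 * u ∨ c.a = 2 * u + 1 := ⟨c.a / 2, by omega⟩
    obtain ⟨v, hv⟩ : ∃ v, c.b = 2 * v ∨ c.b = 2 * v + 1 := ⟨c.b / 2, by omega⟩
    rcases hu with hu | hu <;> rcases hv with hv | hv
    · exact (h1 ⟨by omega, by omega⟩).elim
    all_goals
      rw [hu, hv]
      ring_nf
      omega
  omega

theorem sym_nrm_ge {p : Eis} (hp : Prime p) : 2 ≤ (nrm p).natAbs := by
  have h1 := nrm_pos hp.ne_zero
  have h2 : nrm p ≠ 1 := mt isUnit_iff_nrm.2 hp.not_isUnit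
  omega

theorem sym_nrm_assoc {p q : Eis} (h : Associated p q) : nrm p = nrm q := by
  obtain ⟨u, rfl⟩ := h
  rw [nrm_mul, isUnit_iff_nrm.1 u.isUnit, mul_one]

theorem sym_om_cube : om ^ 3 = 1 := by linear_combination (om - 1) * om_sq_add

theorem sym_om_unit : IsUnit om := isUnit_iff_nrm.2 (by decide)

theorem sym_not_three {p : Eis} (hp : Prime p) (h : ¬ lam ∣ p) : ¬ p ∣ 3 := fun h3 => by
  have h1 : p ∣ lam ^ 2 := by rw [lam_sq]; exact h3.neg_right
  exact h (hp.irreducible.associated_of_dvd prime_lam.irreducible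
    (hp.dvd_of_dvd_pow h1)).symm.dvd

theorem sym_not_two {p : Eis} (hp : Prime p) (h : ¬ (2 : Eis) ∣ p) : ¬ p ∣ 2 := fun h2 =>
  h (hp.irreducible.associated_of_dvd prime_two.irreducible h2).symm.dvd

theorem sym_dist {p : Eis} (hp : Prime p) (h : ¬ lam ∣ p) {i j : ℕ} (hij : p ∣ om ^ i - om ^ j) :
    om ^ i = om ^ j := by
  have h3 := sym_not_three hp h
  have a1 : ¬ p ∣ om - 1 := fun h' => h3 (by
    rw [show (3 : Eis) = (om - 1) * (om ^ 2 - 1) by
      linear_combination (2 - om) * om_sq_add]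
    exact h'.mul_right _)
  have a2 : ¬ p ∣ om ^ 2 - 1 := fun h' => a1 (by
    rw [show om - 1 = (om ^ 2 - 1) * (om ^ 2 + 1) by
      linear_combination (-om ^ 2 + om) * om_sq_add]
    exact h'.mul_right _)
  have a3 : ¬ p ∣ om ^ 2 - om := fun h' => a1 (by
    rw [show om - 1 = (om ^ 2 - om) * om ^ 2 by
      linear_combination (-om ^ 2 + 2 * om - 1) * om_sq_add]
    exact h'.mul_right _)
  rw [pow_eq_pow_mod i sym_om_cube, pow_eq_pow_mod j sym_om_cube] at hij ⊢
  have hi : i % 3 < 3 := Nat.mod_lt _ (by norm_num)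
  have hj : j % 3 < 3 := Nat.mod_lt _ (by norm_num)
  generalize i % 3 = a at hi hij
  generalize j % 3 = b at hj hij
  interval_cases a <;> interval_cases b <;> simp only [pow_zero, pow_one] at hij ⊢
  · exact (a1 (dvd_sub_comm.1 hij)).elim
  · exact (a2 (dvd_sub_comm.1 hij)).elim
  · exact (a1 hij).elim
  · exact (a3 (dvd_sub_comm.1 hij)).elim
  · exact (a2 hij).elim
  · exact (a3 hij).elim

/-- The cubic symbol at a prime, with values in the ring. -/
noncomputable def cubE (p a : Eis) : Eis :=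
  if p ∣ a then 0
  else if p ∣ a ^ (((nrm p).natAbs - 1) / 3) - 1 then 1
  else if p ∣ a ^ (((nrm p).natAbs - 1) / 3) - om then om
  else om ^ 2

theorem sym_toC_cubE (p a : Eis) : toC (cubE p a) = cubP p a := by
  unfold cubE cubP
  split_ifs <;> simp

theorem sym_cubE_val {p a : Eis} (ha : ¬ p ∣ a) : ∃ j : ℕ, cubE p a = om ^ j := by
  unfold cubE
  rw [if_neg ha]
  split_ifs
  exacts [⟨0, by simp⟩, ⟨1, by simp⟩, ⟨2, rfl⟩]

theorem sym_cubE_zero {p a : Eis} (ha : p ∣ a) : cubE p a = 0 := if_pos ha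

theorem sym_k_pos {p : Eis} (hp : Prime p) (h : ¬ lam ∣ p) : 0 < ((nrm p).natAbs - 1) / 3 := by
  have := sym_nrm_three h
  have := sym_nrm_ge hp
  omega

theorem sym_cubE_spec {p : Eis} (hp : Prime p) (h : ¬ lam ∣ p) (a : Eis) :
    p ∣ a ^ (((nrm p).natAbs - 1) / 3) - cubE p a := by
  unfold cubE
  split_ifs with h0 h1 h2
  · rw [sub_zero]
    exact dvd_pow h0 (sym_k_pos hp h).ne'
  · exact h1
  · exact h2
  · have hf := sym_fermat hp h0
    have h3 := sym_nrm_three h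
    rw [show (nrm p).natAbs - 1 = ((nrm p).natAbs - 1) / 3 * 3 by omega, pow_mul] at hf
    generalize a ^ (((nrm p).natAbs - 1) / 3) = x at *
    rw [show x ^ 3 - 1 = (x - 1) * ((x - om) * (x - om ^ 2)) by
      linear_combination (x ^ 2 - x * om + om - 1) * om_sq_add] at hf
    exact ((hp.dvd_or_dvd ((hp.dvd_or_dvd hf).resolve_left h1)).resolve_left h2)

theorem sym_cubE_eq {p : Eis} (hp : Prime p) (h : ¬ lam ∣ p) {a : Eis} (ha : ¬ p ∣ a) {j : ℕ}
    (hj : p ∣ a ^ (((nrm p).natAbs - 1) / 3) - om ^ j) : cubE p a = om ^ j := by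
  have h1 := sym_cubE_spec hp h a
  obtain ⟨i, hi⟩ := sym_cubE_val ha
  rw [hi] at h1 ⊢
  refine sym_dist hp h ?_
  have := dvd_sub hj h1
  rwa [sub_sub_sub_cancel_left] at this

theorem sym_cubE_mul {p : Eis} (hp : Prime p) (h : ¬ lam ∣ p) (a b : Eis) :
    cubE p (a * b) = cubE p a * cubE p b := by
  by_cases ha : p ∣ a
  · rw [sym_cubE_zero ha, sym_cubE_zero (ha.mul_right b), zero_mul]
  by_cases hb : p ∣ b
  · rw [sym_cubE_zero hb, sym_cubE_zero (hb.mul_left a), mul_zero]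
  have h1 := sym_cubE_spec hp h a
  have h2 := sym_cubE_spec hp h b
  obtain ⟨i, hi⟩ := sym_cubE_val ha
  obtain ⟨j, hj⟩ := sym_cubE_val hb
  rw [hi] at h1
  rw [hj] at h2
  rw [hi, hj, ← pow_add]
  refine sym_cubE_eq hp h (fun hab => (hp.dvd_or_dvd hab).elim ha hb) ?_
  rw [mul_pow, pow_add]
  exact sym_mk_eq.1 (by rw [map_mul, map_mul, sym_mk_eq.2 h1, sym_mk_eq.2 h2])

theorem sym_cubE_congr {p a b : Eis} (h : p ∣ a - b) : cubE p a = cubE p b := by
  have h1 := sym_mk_eq.2 h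
  unfold cubE
  simp only [← sym_mk_eq, map_pow, h1]
  simp only [← sym_mk_zero, h1]

theorem sym_cubE_unit {p : Eis} (hp : Prime p) {u : Eis} (hu : IsUnit u) : ¬ p ∣ u :=
  fun h => hp.not_isUnit (isUnit_of_dvd_unit h hu)

theorem sym_cubE_one {p : Eis} (hp : Prime p) : cubE p 1 = 1 := by
  unfold cubE
  rw [if_neg (sym_cubE_unit hp isUnit_one), if_pos (by simp)]

theorem sym_cubE_om {p : Eis} (hp : Prime p) (h : ¬ lam ∣ p) :
    cubE p om = om ^ (((nrm p).natAbs - 1) / 3) :=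
  sym_cubE_eq hp h (sym_cubE_unit hp sym_om_unit) (by simp)

/-- Conjugation as a ring homomorphism. -/
def cjH : Eis →+* Eis where
  toFun := cj
  map_one' := by ext <;> simp
  map_zero' := by ext <;> simp
  map_mul' := cj_mul
  map_add' := cj_add

theorem sym_cj_dvd {a b : Eis} : cj a ∣ cj b ↔ a ∣ b :=
  ⟨fun h => by simpa only [cj_cj] using (show cj (cj a) ∣ cj (cj b) from map_dvd cjH h),
    fun h => map_dvd cjH h⟩

theorem sym_cj_om : cj om = om ^ 2 := by ext <;> simp [pow_two]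

theorem sym_cj_lam {c : Eis} (hc : ¬ lam ∣ c) : ¬ lam ∣ cj c := fun h => by
  have h1 := sym_cj_dvd.2 h
  rw [cj_cj, show cj lam = -lam by ext <;> simp] at h1
  exact hc (neg_dvd.1 h1)

theorem sym_cj_unit {u : Eis} (hu : IsUnit u) : IsUnit (cj u) := hu.map cjH

theorem sym_cj_prime {p : Eis} (hp : Prime p) : Prime (cj p) := by
  refine ⟨fun h => hp.ne_zero ?_, fun h => hp.not_isUnit ?_, fun a b h => ?_⟩
  · rw [← nrm_eq_zero, ← nrm_cj, h]; rfl
  · simpa only [cj_cj] using sym_cj_unit h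
  · rw [← cj_cj (a * b), sym_cj_dvd, cj_mul] at h
    rw [← cj_cj a, ← cj_cj b, sym_cj_dvd, sym_cj_dvd]
    exact hp.dvd_or_dvd h

theorem sym_cubE_cj {p : Eis} (hp : Prime p) (h : ¬ lam ∣ p) (a : Eis) :
    cubE (cj p) (cj a) = cj (cubE p a) := by
  by_cases ha : p ∣ a
  · rw [sym_cubE_zero ha, sym_cubE_zero (sym_cj_dvd.2 ha)]
    rfl
  have h1 := sym_cubE_spec hp h a
  obtain ⟨i, hi⟩ := sym_cubE_val ha
  have h2 : cj (om ^ i) = om ^ (2 * i) := by rw [pow_mul, ← sym_cj_om]; exact map_pow cjH om i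
  rw [hi] at h1 ⊢
  rw [h2]
  refine sym_cubE_eq (sym_cj_prime hp) (sym_cj_lam h) (mt sym_cj_dvd.1 ha) ?_
  have h3 : cjH p ∣ cjH _ := map_dvd cjH h1
  rw [map_sub, map_pow] at h3
  rw [nrm_cj, ← h2]
  exact h3

/-- The cubic character of the residue field with values in the ring. -/
theorem sym_mulChar {p : Eis} (hp : Prime p) (h : ¬ lam ∣ p) :
    ∃ χ : MulChar (Eis ⧸ Ideal.span {p}) Eis, ∀ a, χ (Ideal.Quotient.mk _ a) = cubE p a := by
  have := sym_max hp
  let _ := Ideal.Quotient.field (Ideal.span {p})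
  have key : ∀ a, cubE p (Quotient.out (Ideal.Quotient.mk (Ideal.span {p}) a)) = cubE p a :=
    fun a => sym_cubE_congr (sym_mk_eq.1 (Ideal.Quotient.mk_out _))
  refine ⟨⟨⟨⟨fun z => cubE p (Quotient.out z), ?_⟩, ?_⟩, ?_⟩, key⟩
  · exact (key 1).trans (sym_cubE_one hp)
  · intro x y
    obtain ⟨a, rfl⟩ := Ideal.Quotient.mk_surjective x
    obtain ⟨b, rfl⟩ := Ideal.Quotient.mk_surjective y
    simp only [← map_mul, key, sym_cubE_mul hp h]
  · intro x hx
    have h0 : x = 0 := by simpa using hx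
    subst h0
    exact (key 0).trans (sym_cubE_zero (dvd_zero p))

end Vale.Agent.P026
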