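import Vale.Agent.P026.SymA

/-! The quadratic symbol at a prime, and the cubic Jacobi sum. -/

namespace Vale.Agent.P026

open Eis Complex
open scoped Classical ComplexConjugate

theorem sym_quad_pack {p : Eis} (hp : Prime p) (h : ¬ (2 : Eis) ∣ p) :
    (∃ χ : MulChar (Eis ⧸ Ideal.span {p}) ℂ,
      (∀ a, χ (Ideal.Quotient.mk _ a) = quadP p a) ∧ orderOf χ = 2) ∧
    quadP p 2 = ((ZMod.χ₈ ((nrm p : ℤ) : ZMod 8) : ℤ) : ℂ) ∧
    (∃ a, ¬ p ∣ a ∧ quadP p a = -1) ∧
    ∀ y, ((((res p).filter (fun x => p ∣ x ^ 2 - y)).card : ℕ) : ℂ) = 1 + quadP p y := by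
  have := sym_max hp
  have := finite_quot hp.ne_zero
  let _ := Fintype.ofFinite (Eis ⧸ Ideal.span {p})
  let _ := Ideal.Quotient.field (Ideal.span {p})
  have hcard : Fintype.card (Eis ⧸ Ideal.span {p}) = (nrm p).natAbs := by
    rw [← Nat.card_eq_fintype_card, card_quot hp.ne_zero]
  have hch : ringChar (Eis ⧸ Ideal.span {p}) ≠ 2 := fun h2 => by
    have h3 := (ringChar.spec (Eis ⧸ Ideal.span {p}) 2).2 (by rw [h2])
    rw [← map_natCast (Ideal.Quotient.mk (Ideal.span {p})), sym_mk_zero] at h3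
    exact sym_not_two hp h (by exact_mod_cast h3)
  have key : ∀ a, ((quadraticChar (Eis ⧸ Ideal.span {p}) (Ideal.Quotient.mk _ a) : ℤ) : ℂ) =
      quadP p a := fun a => by
    unfold quadP
    by_cases ha : p ∣ a
    · rw [if_pos ha, sym_mk_zero.2 ha, MulChar.map_zero, Int.cast_zero]
    · have h2 := sym_nrm_two h
      rw [if_neg ha, quadraticChar_eq_pow_of_char_ne_two hch (mt sym_mk_zero.1 ha), hcard,
        show (nrm p).natAbs / 2 = ((nrm p).natAbs - 1) / 2 by omega, ← map_pow,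
        ← map_one (Ideal.Quotient.mk (Ideal.span {p}))]
      simp only [sym_mk_eq]
      split_ifs <;> simp
  obtain ⟨x, hx⟩ := quadraticChar_exists_neg_one hch
  obtain ⟨a, rfl⟩ := Ideal.Quotient.mk_surjective x
  have ha : quadP p a = -1 := by rw [← key, hx]; simp
  refine ⟨⟨(quadraticChar _).ringHomComp (Int.castRingHom ℂ), key, ?_⟩, ?_, ⟨a, fun h' => ?_, ha⟩,
    fun y => ?_⟩
  · refine orderOf_eq_prime ((quadraticChar_isQuadratic _).comp _).sq_eq_one fun h1 => ?_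
    exact quadraticChar_ne_one hch
      ((MulChar.ringHomComp_eq_one_iff (RingHom.injective_int _)).1 h1)
  · rw [← key, show Ideal.Quotient.mk (Ideal.span {p}) 2 = 2 from rfl, quadraticChar_two hch, hcard,
      ← Int.cast_natCast (R := ZMod 8), Int.natAbs_of_nonneg (nrm_nonneg p)]
  · rw [quadP, if_pos h'] at ha
    norm_num at ha
  · have h1 := sum_res_quot hp.ne_zero
      (fun z => if z ^ 2 = Ideal.Quotient.mk (Ideal.span {p}) y then (1 : ℂ) else 0)
    simp only [← map_pow, sym_mk_eq] at h1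
    rw [Finset.sum_boole, Finset.sum_boole] at h1
    have h2 := quadraticChar_card_sqrts hch (Ideal.Quotient.mk (Ideal.span {p}) y)
    rw [Set.toFinset_ofPred] at h2
    rw [h1, ← key, add_comm, ← Int.cast_natCast (R := ℂ), h2]
    simp

theorem sym_cub_ne {p : Eis} (hp : Prime p) (h : ¬ lam ∣ p) : ∃ a, ¬ p ∣ a ∧ cubE p a ≠ 1 := by
  have := sym_max hp
  have := finite_quot hp.ne_zero
  let _ := Fintype.ofFinite (Eis ⧸ Ideal.span {p})
  let _ := Ideal.Quotient.field (Ideal.span {p})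
  obtain ⟨g, hg⟩ := IsCyclic.exists_generator (α := (Eis ⧸ Ideal.span {p})ˣ)
  have h1 := orderOf_eq_card_of_forall_mem_zpowers hg
  rw [Nat.card_units, card_quot hp.ne_zero] at h1
  obtain ⟨a, ha⟩ := Ideal.Quotient.mk_surjective (g : Eis ⧸ Ideal.span {p})
  refine ⟨a, fun h' => g.ne_zero (ha ▸ sym_mk_zero.2 h'), fun h' => ?_⟩
  have h2 := sym_mk_eq.2 (sym_cubE_spec hp h a)
  rw [h', map_pow, map_one, ha, ← Units.val_pow_eq_pow_val, Units.val_eq_one] at h2
  have h3 := Nat.le_of_dvd (sym_k_pos hp h) (orderOf_dvd_of_pow_eq_one h2)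
  have h4 := sym_k_pos hp h
  omega

theorem sym_mulChar' {p : Eis} (hp : Prime p) (h : ¬ lam ∣ p) :
    ∃ χ : MulChar (Eis ⧸ Ideal.span {p}) Eis,
      (∀ a, χ (Ideal.Quotient.mk _ a) = cubE p a) ∧ χ ^ 3 = 1 ∧ χ ≠ 1 := by
  have := sym_max hp
  let _ := Ideal.Quotient.field (Ideal.span {p})
  obtain ⟨χ, hχ⟩ := sym_mulChar hp h
  refine ⟨χ, hχ, ?_, fun h1 => ?_⟩
  · refine MulChar.ext fun g => ?_
    obtain ⟨a, ha⟩ := Ideal.Quotient.mk_surjective (g : Eis ⧸ Ideal.span {p})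
    obtain ⟨j, hj⟩ := sym_cubE_val (fun h' => g.ne_zero (ha ▸ sym_mk_zero.2 h') : ¬ p ∣ a)
    rw [MulChar.pow_apply_coe, MulChar.one_apply_coe, ← ha, hχ, hj, ← pow_mul, mul_comm, pow_mul,
      sym_om_cube, one_pow]
  · obtain ⟨a, ha, ha'⟩ := sym_cub_ne hp h
    rw [← hχ, h1, MulChar.one_apply (Ne.isUnit (mt sym_mk_zero.1 ha))] at ha'
    exact ha' rfl

theorem sym_prim_root : IsPrimitiveRoot om 3 := by
  refine IsPrimitiveRoot.iff_orderOf.2 (orderOf_eq_prime sym_om_cube ?_)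
  decide

theorem sym_sum_zero {K : Type*} [Field K] [Fintype K] {k : ℕ} (hk : 2 * k < Fintype.card K - 1) :
    ∑ x : K, x ^ k * (1 - x) ^ k = 0 := by
  simp only [sub_eq_neg_add, add_pow, one_pow, mul_one, Finset.mul_sum]
  rw [Finset.sum_comm]
  refine Finset.sum_eq_zero fun j hj => ?_
  have h4 := FiniteField.sum_pow_lt_card_sub_one K (k + j)
    (by have := Finset.mem_range.1 hj; omega)
  have h5 : ∀ x : K, x ^ k * ((-x) ^ j * (k.choose j : K)) =
      ((-1) ^ j * (k.choose j : K)) * x ^ (k + j) := fun x => by rw [neg_pow x j]; ring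
  simp only [h5]
  rw [← Finset.mul_sum, h4, mul_zero]

theorem sym_jacobi {p : Eis} (hp : Prime p) (h : Prim p) :
    ∃ χ : MulChar (Eis ⧸ Ideal.span {p}) ℂ,
      (∀ a, χ (Ideal.Quotient.mk _ a) = cubP p a) ∧ orderOf χ = 3 ∧
      ∀ [Fintype (Eis ⧸ Ideal.span {p})], jacobiSum χ χ = -toC p := by
  have hl := h.not_lam_dvd
  have := sym_max hp
  let _ := Ideal.Quotient.field (Ideal.span {p})
  obtain ⟨χ, hχ, h3, h1⟩ := sym_mulChar' hp hl
  have h1' : χ.ringHomComp toC ≠ 1 := (MulChar.ringHomComp_ne_one_iff toC_inj).2 h1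
  have h3' : χ.ringHomComp toC ^ 3 = 1 := by
    rw [MulChar.ringHomComp_pow, h3, MulChar.ringHomComp_one]
  refine ⟨χ.ringHomComp toC, fun a => by rw [MulChar.ringHomComp_apply, hχ, sym_toC_cubE],
    orderOf_eq_prime h3' h1', ?_⟩
  intro _
  have hcard : Fintype.card (Eis ⧸ Ideal.span {p}) = (nrm p).natAbs := by
    rw [← Nat.card_eq_fintype_card, card_quot hp.ne_zero]
  have hn := sym_nrm_three hl
  have hk := sym_k_pos hp hl
  rw [jacobiSum_ringHomComp, ← map_neg]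
  refine congrArg toC ?_
  obtain ⟨z, -, hz⟩ := exists_jacobiSum_eq_neg_one_add (n := 3) (by norm_num) h3 h3
    (by rw [hcard]; omega) sym_prim_root
  have hprim : Prim (-jacobiSum χ χ) := ⟨z * om, by rw [hz]; linear_combination (-z) * om_sq_add⟩
  have hpow : ∀ x, Ideal.Quotient.mk (Ideal.span {p}) (χ x) = x ^ (((nrm p).natAbs - 1) / 3) :=
    fun x => by
      obtain ⟨a, rfl⟩ := Ideal.Quotient.mk_surjective x
      rw [hχ, ← map_pow, sym_mk_eq.2 (sym_cubE_spec hp hl a)]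
  have hdvd : p ∣ jacobiSum χ χ := by
    rw [← sym_mk_zero, jacobiSum, map_sum]
    simp only [map_mul, hpow]
    exact sym_sum_zero (by rw [hcard]; omega)
  have hch : ringChar ℂ ≠ ringChar (Eis ⧸ Ideal.span {p}) := by
    rw [ringChar.eq_zero]
    exact (CharP.ringChar_ne_zero_of_finite _).symm
  have h2' : χ.ringHomComp toC * χ.ringHomComp toC ≠ 1 := fun h2 => h1' (by
    rw [← h3', pow_three, h2, mul_one])
  have hN := jacobiSum_mul_jacobiSum_inv hch h1' h1' h2'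
  have hinv : jacobiSum (χ.ringHomComp toC)⁻¹ (χ.ringHomComp toC)⁻¹ =
      conj (jacobiSum (χ.ringHomComp toC) (χ.ringHomComp toC)) := by
    simp only [jacobiSum, map_sum, map_mul, ← MulChar.star_apply', RCLike.star_def]
  rw [hinv, jacobiSum_ringHomComp, ← toC_cj, ← map_mul, mul_cj, hcard, map_intCast,
    ← Int.cast_natCast (R := ℂ), Int.cast_inj, Int.natAbs_of_nonneg (nrm_nonneg p)] at hN
  obtain ⟨u, hu⟩ := hdvd
  have hu1 : IsUnit u := by
    rw [hu, nrm_mul] at hN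
    exact isUnit_iff_nrm.2 (mul_left_cancel₀ (nrm_pos hp.ne_zero).ne' (by rw [hN, mul_one]))
  have h5 : p = -jacobiSum χ χ := h.eq_of_associated hprim (by
    rw [hu]
    exact (associated_mul_unit_right p u hu1).neg_right)
  rw [← neg_eq_iff_eq_neg]
  exact h5.symm

end Vale.Agent.P026
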