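import Mathlib

/-! Real inequalities for the Voronoi step. -/

namespace Vale.Agent.P026

open Complex
open scoped ComplexConjugate

/-- Minkowski inequality for a series of finite families. -/
theorem vs_mink {ι κ : Type*} (J : Finset κ) {f : ι → κ → ℂ} {S : κ → ℂ} {u : ι → ℝ} {Z U : ℝ}
    (hf : ∀ h ∈ J, HasSum (fun p => f p h) (S h)) (hu : HasSum u U) (h0 : ∀ p, 0 ≤ u p)
    (hZ : 0 ≤ Z) (hb : ∀ p, ∑ h ∈ J, ‖f p h‖ ^ 2 ≤ Z * u p ^ 2) :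
    ∑ h ∈ J, ‖S h‖ ^ 2 ≤ Z * U ^ 2 := by
  obtain ⟨X, hX⟩ : ∃ X, X = ∑ h ∈ J, ‖S h‖ ^ 2 := ⟨_, rfl⟩
  have hX0 : 0 ≤ X := hX ▸ Finset.sum_nonneg fun _ _ => sq_nonneg _
  have h1 := hasSum_sum (s := J) fun h hh => (hf h hh).mul_left (conj (S h))
  have h2 := h1.norm_le_of_bounded (hu.mul_left (√X * √Z)) fun p => by
    refine (norm_sum_le _ _).trans ?_
    simp only [norm_mul, Complex.norm_conj]
    refine (Real.sum_mul_le_sqrt_mul_sqrt _ _ _).trans ?_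
    rw [← hX, mul_assoc]
    refine mul_le_mul_of_nonneg_left ((Real.sqrt_le_sqrt (hb p)).trans (le_of_eq ?_))
      (Real.sqrt_nonneg _)
    rw [Real.sqrt_mul hZ, Real.sqrt_sq (h0 p)]
  have h3 : ∑ h ∈ J, conj (S h) * S h = (X : ℂ) := by
    rw [hX, Complex.ofReal_sum]
    exact Finset.sum_congr rfl fun h _ => by rw [Complex.conj_mul', Complex.ofReal_pow]
  rw [h3, Complex.norm_real, Real.norm_of_nonneg hX0] at h2
  rw [← hX]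
  rcases hX0.eq_or_lt with h4 | h4
  · rw [← h4]
    positivity
  · have h5 := Real.sqrt_pos.2 h4
    have h6 : √X ≤ √Z * U := by
      refine le_of_mul_le_mul_left ?_ h5
      rw [Real.mul_self_sqrt hX0, ← mul_assoc]
      exact h2
    have h7 := pow_le_pow_left₀ h5.le h6 2
    rwa [Real.sq_sqrt hX0, mul_pow, Real.sq_sqrt hZ] at h7

/-- The bracket of the family bounds. -/
noncomputable def vsBr (n H K0 R : ℝ) : ℝ :=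
  1 + R / √(H * max 1 K0) + R ^ (3 / 2 : ℝ) / H + R ^ 4 / H ^ 3
    + n ^ 2 * K0 ^ (3 / 2 : ℝ) * R ^ 2 / H ^ (3 / 2 : ℝ)

theorem vsBr_one_le {n H K0 R : ℝ} (hH : 0 ≤ H) (hK : 0 ≤ K0) (hR : 0 ≤ R) :
    1 ≤ vsBr n H K0 R := by
  unfold vsBr
  have h1 : 0 ≤ R / √(H * max 1 K0) := by positivity
  have h2 : 0 ≤ R ^ (3 / 2 : ℝ) / H := by positivity
  have h3 : 0 ≤ R ^ 4 / H ^ 3 := by positivity
  have h4 : 0 ≤ n ^ 2 * K0 ^ (3 / 2 : ℝ) * R ^ 2 / H ^ (3 / 2 : ℝ) := by positivity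
  linarith

theorem vsBr_mono {n n' H K0 R R' : ℝ} (hH : 0 ≤ H) (hK : 0 ≤ K0) (hR : 0 ≤ R) (h : R ≤ R')
    (hn : 0 ≤ n) (hn' : n ≤ n') : vsBr n H K0 R ≤ vsBr n' H K0 R' := by
  unfold vsBr
  gcongr

theorem vsBr_scale {n H K0 R c Z : ℝ} (hH : 0 ≤ H) (hK : 0 ≤ K0) (hR : 0 ≤ R) (hc : 1 ≤ c)
    (hZ : 1 ≤ Z) : vsBr (c * n) H K0 (R * Z) ≤ c ^ 2 * Z ^ 4 * vsBr n H K0 R := by
  have c2 : 1 ≤ c ^ 2 := one_le_pow₀ hc
  have z : ∀ {a : ℝ}, a ≤ Z ^ 4 → a ≤ c ^ 2 * Z ^ 4 := fun h =>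
    h.trans (le_mul_of_one_le_left (by positivity) c2)
  have z0 : 1 ≤ c ^ 2 * Z ^ 4 := z (one_le_pow₀ hZ)
  have z1 : Z ≤ c ^ 2 * Z ^ 4 := z (le_self_pow₀ hZ (by norm_num))
  have z2 : Z ^ (3 / 2 : ℝ) ≤ c ^ 2 * Z ^ 4 := z (by
    rw [← Real.rpow_natCast]
    exact Real.rpow_le_rpow_of_exponent_le hZ (by norm_num))
  have z3 : Z ^ 4 ≤ c ^ 2 * Z ^ 4 := z le_rfl
  have z4 : c ^ 2 * Z ^ 2 ≤ c ^ 2 * Z ^ 4 :=
    mul_le_mul_of_nonneg_left (pow_le_pow_right₀ hZ (by norm_num)) (by positivity)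
  have h1 := mul_le_mul_of_nonneg_right z1 (show 0 ≤ R / √(H * max 1 K0) by positivity)
  have h2 := mul_le_mul_of_nonneg_right z2 (show 0 ≤ R ^ (3 / 2 : ℝ) / H by positivity)
  have h3 := mul_le_mul_of_nonneg_right z3 (show 0 ≤ R ^ 4 / H ^ 3 by positivity)
  have h4 := mul_le_mul_of_nonneg_right z4
    (show 0 ≤ n ^ 2 * K0 ^ (3 / 2 : ℝ) * R ^ 2 / H ^ (3 / 2 : ℝ) by positivity)
  unfold vsBr
  rw [Real.mul_rpow hR (by linarith)]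
  have e1 : R * Z / √(H * max 1 K0) = Z * (R / √(H * max 1 K0)) := by ring
  have e2 : R ^ (3 / 2 : ℝ) * Z ^ (3 / 2 : ℝ) / H = Z ^ (3 / 2 : ℝ) * (R ^ (3 / 2 : ℝ) / H) := by
    ring
  have e3 : (R * Z) ^ 4 / H ^ 3 = Z ^ 4 * (R ^ 4 / H ^ 3) := by ring
  have e4 : (c * n) ^ 2 * K0 ^ (3 / 2 : ℝ) * (R * Z) ^ 2 / H ^ (3 / 2 : ℝ) =
      c ^ 2 * Z ^ 2 * (n ^ 2 * K0 ^ (3 / 2 : ℝ) * R ^ 2 / H ^ (3 / 2 : ℝ)) := by ring
  rw [e1, e2, e3, e4, mul_add, mul_add, mul_add, mul_add, mul_one]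
  linarith

theorem vs_r32 {z : ℝ} (hz : 0 ≤ z) : (z ^ 2) ^ (3 / 2 : ℝ) = z ^ 3 := by
  rw [← Real.rpow_natCast, ← Real.rpow_mul hz, ← Real.rpow_natCast]
  norm_num

theorem vs_mon {a P y : ℝ} (ha : 1 ≤ a) (hP : 1 ≤ P) (hy : 1 ≤ y) {i j k : ℕ} (hi : i ≤ 8)
    (hj : j ≤ 12) (hk : k ≤ 32) : a ^ i * P ^ j * y ^ k ≤ a ^ 8 * P ^ 12 * y ^ 32 := by
  gcongr

theorem vs_br_one {κ L y a P : ℝ} (hL : 1 ≤ L) (hLκ : L ≤ κ) (hy : 1 ≤ y) (ha : 1 ≤ a)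
    (hP : 1 ≤ P) (hκ : κ ≤ P * y ^ 13) :
    κ ^ 2 * vsBr (a * L) ((κ / L) ^ 2) ((y / L) ^ 2) 1 ≤ 5 * (a ^ 8 * P ^ 12 * y ^ 32) := by
  have hκ1 : 1 ≤ κ := hL.trans hLκ
  have hH : 1 ≤ (κ / L) ^ 2 := one_le_pow₀ ((one_le_div (by linarith)).2 hLκ)
  have k2 : κ ^ 2 ≤ a ^ 8 * P ^ 12 * y ^ 32 := by
    refine (pow_le_pow_left₀ (by linarith) hκ 2).trans (le_trans (le_of_eq ?_)
      (vs_mon ha hP hy (i := 0) (j := 2) (k := 26) (by norm_num) (by norm_num) (by norm_num)))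
    ring
  have t1 : 1 / √((κ / L) ^ 2 * max 1 ((y / L) ^ 2)) ≤ 1 := by
    refine div_le_one_of_le₀ (Real.one_le_sqrt.2 ?_) (Real.sqrt_nonneg _)
    exact one_le_mul_of_one_le_of_one_le hH (le_max_left _ _)
  have t2 : 1 / (κ / L) ^ 2 ≤ 1 := div_le_one_of_le₀ hH (by positivity)
  have t3 : 1 / ((κ / L) ^ 2) ^ 3 ≤ 1 := div_le_one_of_le₀ (one_le_pow₀ hH) (by positivity)
  have t4 : κ ^ 2 * ((a * L) ^ 2 * (y / L) ^ 3 / (κ / L) ^ 3) ≤ a ^ 8 * P ^ 12 * y ^ 32 := by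
    calc κ ^ 2 * ((a * L) ^ 2 * (y / L) ^ 3 / (κ / L) ^ 3) = a ^ 2 * y ^ 3 * (L ^ 2 / κ) := by
          field_simp
      _ ≤ a ^ 2 * y ^ 3 * (κ ^ 2 / κ) := by gcongr
      _ = a ^ 2 * y ^ 3 * κ := by field_simp
      _ ≤ a ^ 2 * y ^ 3 * (P * y ^ 13) := by gcongr
      _ = a ^ 2 * P ^ 1 * y ^ 16 := by ring
      _ ≤ _ := vs_mon ha hP hy (by norm_num) (by norm_num) (by norm_num)
  unfold vsBr
  rw [vs_r32 (by positivity), vs_r32 (by positivity), Real.one_rpow, one_pow, one_pow, mul_one,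
    mul_add, mul_add, mul_add, mul_add, mul_one]
  have k0 : 0 ≤ κ ^ 2 := by positivity
  linarith [mul_le_of_le_one_right k0 t1, mul_le_of_le_one_right k0 t2,
    mul_le_of_le_one_right k0 t3]

theorem vs_br_big {κ L y a P : ℝ} (hL : 1 ≤ L) (hLκ : L ≤ κ) (hy : 1 ≤ y) (ha : 1 ≤ a)
    (hP : 1 ≤ P) (hκ : κ ≤ P * y ^ 13) :
    κ ^ 2 * vsBr (a * L) ((κ / L) ^ 2) ((y / L) ^ 2) ((a * κ ^ 2 / (L * y ^ 16)) ^ 2) ≤
      5 * (a ^ 8 * P ^ 12 * y ^ 32) := by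
  have hκ1 : 1 ≤ κ := hL.trans hLκ
  have k2 : κ ^ 2 ≤ a ^ 8 * P ^ 12 * y ^ 32 := by
    refine (pow_le_pow_left₀ (by linarith) hκ 2).trans (le_trans (le_of_eq ?_)
      (vs_mon ha hP hy (i := 0) (j := 2) (k := 26) (by norm_num) (by norm_num) (by norm_num)))
    ring
  have t1 : κ ^ 2 * ((a * κ ^ 2 / (L * y ^ 16)) ^ 2 / √((κ / L) ^ 2 * max 1 ((y / L) ^ 2))) ≤
      a ^ 8 * P ^ 12 * y ^ 32 := by
    have s1 : κ / L * (y / L) ≤ √((κ / L) ^ 2 * max 1 ((y / L) ^ 2)) := by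
      refine Real.le_sqrt_of_sq_le ?_
      rw [mul_pow]
      exact mul_le_mul_of_nonneg_left (le_max_right _ _) (by positivity)
    calc _ ≤ κ ^ 2 * ((a * κ ^ 2 / (L * y ^ 16)) ^ 2 / (κ / L * (y / L))) := by gcongr
      _ = a ^ 2 * κ ^ 5 / y ^ 33 := by field_simp
      _ ≤ a ^ 2 * (P * y ^ 13) ^ 5 / y ^ 33 := by gcongr
      _ = a ^ 2 * P ^ 5 * y ^ 32 := by field_simp
      _ ≤ _ := vs_mon ha hP hy (by norm_num) (by norm_num) (by norm_num)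
  have t2 : κ ^ 2 * ((a * κ ^ 2 / (L * y ^ 16)) ^ 3 / (κ / L) ^ 2) ≤ a ^ 8 * P ^ 12 * y ^ 32 := by
    calc _ = a ^ 3 * κ ^ 6 / (L * y ^ 48) := by field_simp
      _ ≤ a ^ 3 * (P * y ^ 13) ^ 6 / (1 * y ^ 48) := by gcongr
      _ = a ^ 3 * P ^ 6 * y ^ 30 := by field_simp
      _ ≤ _ := vs_mon ha hP hy (by norm_num) (by norm_num) (by norm_num)
  have t3 : κ ^ 2 * (((a * κ ^ 2 / (L * y ^ 16)) ^ 2) ^ 4 / ((κ / L) ^ 2) ^ 3) ≤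
      a ^ 8 * P ^ 12 * y ^ 32 := by
    calc _ = a ^ 8 * κ ^ 12 / (L ^ 2 * y ^ 128) := by field_simp
      _ ≤ a ^ 8 * (P * y ^ 13) ^ 12 / (1 ^ 2 * y ^ 128) := by gcongr
      _ = a ^ 8 * P ^ 12 * y ^ 28 := by field_simp
      _ ≤ _ := vs_mon ha hP hy (by norm_num) (by norm_num) (by norm_num)
  have t4 : κ ^ 2 * ((a * L) ^ 2 * (y / L) ^ 3 * ((a * κ ^ 2 / (L * y ^ 16)) ^ 2) ^ 2 /
      (κ / L) ^ 3) ≤ a ^ 8 * P ^ 12 * y ^ 32 := by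
    calc _ = a ^ 6 * κ ^ 7 / (L ^ 2 * y ^ 61) := by field_simp
      _ ≤ a ^ 6 * (P * y ^ 13) ^ 7 / (1 ^ 2 * y ^ 61) := by gcongr
      _ = a ^ 6 * P ^ 7 * y ^ 30 := by field_simp
      _ ≤ _ := vs_mon ha hP hy (by norm_num) (by norm_num) (by norm_num)
  unfold vsBr
  rw [vs_r32 (by positivity), vs_r32 (by positivity), vs_r32 (by positivity),
    mul_add, mul_add, mul_add, mul_add, mul_one]
  linarith

/-- The numerical heart of the Voronoi step. -/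
theorem vs_br {K L Y a P n : ℝ} (hL : 1 ≤ L) (hLK : L ^ 2 ≤ K) (hY : 1 ≤ Y) (ha : 1 ≤ a)
    (hP : 1 ≤ P) (hK : K ≤ P * Y ^ (13 / 16 : ℝ)) (hn : 0 ≤ n) (hn' : n ≤ a * L) :
    K * vsBr n (K / L ^ 2) (Y ^ (1 / 16 : ℝ) / L ^ 2) (max 1 ((K / L ^ 2) ^ 2 * n ^ 2 / Y)) ≤
      5 * (a ^ 8 * P ^ 12 * Y) := by
  have hK0 : 0 ≤ K := le_trans (by positivity) hLK
  obtain ⟨y, hy⟩ : ∃ y, y = Y ^ (1 / 32 : ℝ) := ⟨_, rfl⟩
  have y1 : 1 ≤ y := hy ▸ Real.one_le_rpow hY (by norm_num)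
  have yp : ∀ k : ℕ, y ^ k = Y ^ ((k : ℝ) / 32) := fun k => by
    rw [hy, ← Real.rpow_natCast, ← Real.rpow_mul (by linarith)]
    congr 1
    ring
  have y2 : Y ^ (1 / 16 : ℝ) = y ^ 2 := by rw [yp]; norm_num
  have y26 : Y ^ (13 / 16 : ℝ) = y ^ 26 := by rw [yp]; norm_num
  have y32 : Y = y ^ 32 := by rw [yp]; norm_num
  obtain ⟨κ, hκ⟩ : ∃ κ, κ = √K := ⟨_, rfl⟩
  have k2 : K = κ ^ 2 := by rw [hκ, Real.sq_sqrt hK0]
  have k1 : L ≤ κ := hκ ▸ Real.le_sqrt_of_sq_le hLK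
  have k3 : κ ≤ P * y ^ 13 := by
    rw [hκ]
    refine Real.sqrt_le_iff.2 ⟨by positivity, hK.trans ?_⟩
    rw [y26, mul_pow, ← pow_mul]
    exact mul_le_mul_of_nonneg_right (le_self_pow₀ hP two_ne_zero) (by positivity)
  have hκ0 : 0 ≤ κ := by linarith
  rw [y2, ← div_pow y, k2, ← div_pow κ]
  rcases le_total 1 (((κ / L) ^ 2) ^ 2 * n ^ 2 / Y) with h | h
  · rw [max_eq_right h, y32]
    refine le_trans (mul_le_mul_of_nonneg_left (vsBr_mono (by positivity) (by positivity)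
      (by positivity) ?_ hn hn') (by positivity)) (vs_br_big hL k1 y1 ha hP k3)
    calc _ ≤ ((κ / L) ^ 2) ^ 2 * (a * L) ^ 2 / y ^ 32 := by gcongr
      _ = _ := by field_simp
  · rw [max_eq_left h, y32]
    exact le_trans (mul_le_mul_of_nonneg_left (vsBr_mono (by positivity) (by positivity)
      zero_le_one le_rfl hn hn') (by positivity)) (vs_br_one hL k1 y1 ha hP k3)

theorem vs_log {R e : ℝ} (hR : 1 ≤ R) (he : 0 < e) :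
    (1 + Real.log R) ^ 2 ≤ (1 + 4 / e) ^ 2 * R ^ (e / 2) := by
  have h1 := Real.log_le_rpow_div (x := R) (by linarith) (show 0 < e / 4 by positivity)
  have h2 : 1 ≤ R ^ (e / 4) := Real.one_le_rpow hR (by positivity)
  have h3 : 1 + Real.log R ≤ (1 + 4 / e) * R ^ (e / 4) := by
    have : R ^ (e / 4) / (e / 4) = 4 / e * R ^ (e / 4) := by field_simp
    linarith
  have h4 : (R ^ (e / 4)) ^ 2 = R ^ (e / 2) := by
    rw [← Real.rpow_natCast, ← Real.rpow_mul (by linarith)]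
    congr 1
    push_cast
    ring
  have h5 := pow_le_pow_left₀ (by linarith [Real.log_nonneg hR]) h3 2
  rwa [mul_pow, h4] at h5

theorem vs_tail {R e x c : ℝ} {n : ℕ} (hR : 1 ≤ R) (hn : 1 ≤ n * e) (hx : 0 ≤ x)
    (hc : 0 ≤ c) (h : R ^ e * x ≤ R) : R ^ 2 * (c * x / R) ^ (2 * n) ≤ c ^ (2 * n) := by
  have hR0 : 0 < R := by linarith
  have he : 0 < R ^ e := Real.rpow_pos_of_pos hR0 e
  have h1 : c * x / R ≤ c * (R ^ e)⁻¹ := by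
    rw [mul_div_assoc]
    refine mul_le_mul_of_nonneg_left ?_ hc
    rw [div_le_iff₀ hR0, le_inv_mul_iff₀ he]
    exact h
  have h2 : R ^ 2 ≤ (R ^ e) ^ (2 * n) := by
    rw [← Real.rpow_natCast, ← Real.rpow_natCast, ← Real.rpow_mul hR0.le]
    refine Real.rpow_le_rpow_of_exponent_le hR ?_
    push_cast
    linarith
  calc R ^ 2 * (c * x / R) ^ (2 * n) ≤ (R ^ e) ^ (2 * n) * (c * (R ^ e)⁻¹) ^ (2 * n) := by gcongr
    _ = c ^ (2 * n) := by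
      rw [← mul_pow, mul_left_comm, mul_inv_cancel₀ he.ne', mul_one]

end Vale.Agent.P026
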