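import Vale.Agent.P026.CStep
import Vale.Agent.P026.VStepA

/-! The dual bound and the Voronoi step for one residue class. -/

namespace Vale.Agent.P026

open Eis Complex
open scoped Classical ComplexConjugate

theorem vs_Sm_nine : Sm 9 := ⟨2, 4, by norm_num⟩

/-- The twisted coefficient function of the dual sum. -/
noncomputable def vsPhi (s d : Eis) (G : Eis → ℂ) (B0 : ℝ) (e : Eis) : ℂ :=
  if P1 e then conj (cub 9 e) * cub s e * G (s * e * d ^ 3) / B0 else 0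

theorem vsPhi_per {q s d : Eis} {G : Eis → ℂ} (B0 : ℝ) (h18 : (18 : Eis) ∣ q) (hs : Sm s)
    (hG : Per q G) : Per q (vsPhi s d G B0) := by
  refine Per.of_congr fun x y h => ?_
  have h6 : (6 : Eis) ∣ x - y := (Dvd.dvd.trans ⟨3, by norm_num⟩ h18).trans h
  unfold vsPhi
  by_cases hx : P1 x
  · have hy : P1 y := hx.of_dvd_sub (dvd_sub_comm.1 h6)
    rw [if_pos hx, if_pos hy, cub_per_Sm hx.1 vs_Sm_nine (h18.trans h),
      cub_per_Sm hx.1 hs (h18.trans h), hG.congr (x := s * x * d ^ 3) (y := s * y * d ^ 3)]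
    rw [show s * x * d ^ 3 - s * y * d ^ 3 = (x - y) * (s * d ^ 3) by ring]
    exact h.mul_right _
  · rw [if_neg hx, if_neg fun hy => hx (hy.of_dvd_sub h6)]

theorem vsPhi_bd (s d : Eis) {G : Eis → ℂ} {B0 : ℝ} (h0 : 0 < B0) (hG : ∀ r, ‖G r‖ ≤ B0) :
    Bd1 (vsPhi s d G B0) := fun x => by
  unfold vsPhi
  split_ifs
  · rw [norm_div, norm_mul, norm_mul, Complex.norm_conj, Complex.norm_real, Real.norm_of_nonneg h0.le,
      div_le_one h0]
    exact (mul_le_of_le_one_left (norm_nonneg _)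
      (mul_le_one₀ (norm_cub_le _ _) (norm_nonneg _) (norm_cub_le _ _))).trans (hG _)
  · simp

theorem vs_Tsq {s d h : Eis} {G : Eis → ℂ} {B0 : ℝ} (h0 : 0 < B0) (hh : P0 h) (R τ : ℝ) :
    ‖Tsq false (fun e => conj (cub 9 e) * cub s e *
      (G (s * e * d ^ 3) * quad (s * e * d ^ 3) h)) R τ‖ ≤
      B0 * ‖Tsq false (fun e => vsPhi s d G B0 e * quad e h) R τ‖ := by
  have hb : (B0 : ℂ) ≠ 0 := ofReal_ne_zero.2 h0.ne'
  rw [Tsq_congr false (G := fun e => (B0 * quad (s * d ^ 3) h) * (vsPhi s d G B0 e * quad e h)),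
    Tsq_const_mul, norm_mul, norm_mul, Complex.norm_real, Real.norm_of_nonneg h0.le]
  · exact mul_le_mul_of_nonneg_right (mul_le_of_le_one_right h0.le (norm_quad_le _ _))
      (norm_nonneg _)
  · intro e he
    rw [vsPhi, if_pos he.1, show s * e * d ^ 3 = s * d ^ 3 * e by ring, quad_mul_left _ _ hh.1.2]
    field_simp

theorem vs_weight {a b R e : ℝ} (ha : 0 < a) (hb : 0 < b) (hR : 0 < R) :
    a * b * (R / (a * b ^ 3)) ^ (1 + e) =
      R ^ (1 + e) * (a ^ (-(e / 2)) * b ^ (-(1 + 3 * e / 2))) ^ 2 := by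
  refine Real.log_injOn_pos (Set.mem_Ioi.2 (by positivity)) (Set.mem_Ioi.2 (by positivity)) ?_
  rw [Real.log_mul (by positivity) (by positivity), Real.log_mul ha.ne' hb.ne',
    Real.log_rpow (by positivity), Real.log_div hR.ne' (by positivity),
    Real.log_mul ha.ne' (by positivity), Real.log_pow,
    Real.log_mul (by positivity) (by positivity), Real.log_rpow hR, Real.log_pow,
    Real.log_mul (by positivity) (by positivity), Real.log_rpow ha, Real.log_rpow hb]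
  push_cast
  ring

/-- The bound for the dual sums. -/
theorem vs_dual (T : Theta) {e : ℝ} (he : 0 < e) : ∃ (C : ℝ) (A : ℕ), 0 < C ∧
    ∀ (q A0 q0 : Eis) (G : Eis → ℂ) (B0 : ℝ), q ≠ 0 → (18 : Eis) ∣ q → 0 < B0 → Per q G →
      (∀ r, ‖G r‖ ≤ B0) → ∀ R H K0 τ : ℝ, 0 < R → 1 ≤ H → 0 < K0 →
      ∑ h ∈ (ball H).filter P0,
        ‖∑' r, T.tau A0 q0 r * ang false r * (G r * quad r h) * W R τ r‖ ^ 2 ≤
        C * (1 + |τ|) ^ A * B0 ^ 2 * H * R ^ (1 + e) * vsBr (N q) H K0 R := by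
  obtain ⟨Cc, A, hCc, hc⟩ := cstep T he
  have s1 := summable_Sm (half_pos he)
  have s2 := summable_N_rpow (s := 1 + 3 * e / 2) (by linarith)
  have n1 : ∀ r : Eis, 0 ≤ (if Sm r then N r ^ (-(e / 2)) else 0) := fun r => by
    split_ifs
    · exact Real.rpow_nonneg (N_nonneg r) _
    · exact le_rfl
  have n2 : ∀ r : Eis, 0 ≤ N r ^ (-(1 + 3 * e / 2)) := fun r => Real.rpow_nonneg (N_nonneg r) _
  obtain ⟨U, hU⟩ := s1.mul_of_nonneg s2 n1 n2
  refine ⟨(T.C ^ 2 * U ^ 2 + 1) * Cc, A, by positivity, ?_⟩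
  intro q A0 q0 G B0 hq h18 h0 hG hB R H K0 τ hR hH hK
  have hbr := vsBr_one_le (n := N q) (zero_le_one.trans hH) hK.le hR.le
  have hb0 := zero_le_one.trans hbr
  have hH0 := zero_le_one.trans hH
  have key := vs_mink ((ball H).filter P0) (fun h _ => dual_hasSum T A0 q0 false
    (G := fun r => G r * quad r h) (B := B0) (fun r => by
      rw [norm_mul]
      exact (mul_le_of_le_one_right (norm_nonneg _) (norm_quad_le _ _)).trans (hB r)) hR τ) hU
    (fun p => mul_nonneg (n1 _) (n2 _))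
    (Z := T.C ^ 2 * B0 ^ 2 * (Cc * (1 + |τ|) ^ A * H * R ^ (1 + e) * vsBr (N q) H K0 R))
    (by positivity) ?_
  · refine key.trans ?_
    have : 0 ≤ Cc * (1 + |τ|) ^ A * B0 ^ 2 * H * R ^ (1 + e) * vsBr (N q) H K0 R := by positivity
    linarith
  · rintro ⟨s, d⟩
    dsimp only
    by_cases hs : Sm s
    swap
    · simp [hs]
    by_cases hd : P1 d
    swap
    · simp only [bet, hd, if_false, mul_zero, zero_mul, ite_self, norm_zero]
      rw [zero_pow two_ne_zero, Finset.sum_const_zero]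
      positivity
    have hs0 := N_pos hs.ne_zero
    have hd0 := N_pos hd.ne_zero
    have hR' : 0 < R / (N s * N d ^ 3) := by positivity
    have hle : R / (N s * N d ^ 3) ≤ R := div_le_self hR.le
      (one_le_mul_of_one_le_of_one_le (one_le_N hs.ne_zero) (one_le_pow₀ (one_le_N hd.ne_zero)))
    have h1 := hc q (vsPhi s d G B0) hq (vsPhi_per B0 h18 hs hG) (vsPhi_bd s d h0 hB) _ H K0 τ
      hR' hH hK
    have h2 := vsBr_mono (n := N q) hH0 hK.le hR'.le hle (N_nonneg q) le_rfl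
    have h3 : ∑ h ∈ (ball H).filter P0,
        ‖Tsq false (fun c => vsPhi s d G B0 c * quad c h) (R / (N s * N d ^ 3)) τ‖ ^ 2 ≤
        Cc * (1 + |τ|) ^ A * H * (R / (N s * N d ^ 3)) ^ (1 + e) * vsBr (N q) H K0 R :=
      h1.trans (mul_le_mul_of_nonneg_left h2 (by positivity))
    simp only [if_pos hs]
    calc _ ≤ ∑ h ∈ (ball H).filter P0, T.C ^ 2 * B0 ^ 2 * (N s * N d) *
          ‖Tsq false (fun c => vsPhi s d G B0 c * quad c h) (R / (N s * N d ^ 3)) τ‖ ^ 2 := by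
          refine Finset.sum_le_sum fun h hh => ?_
          have h4 := vs_Tsq (s := s) (d := d) (G := G) h0 (Finset.mem_filter.1 hh).2
            (R / (N s * N d ^ 3)) τ
          rw [← ab_sq s, ← ab_sq d, ← mul_pow, ← mul_pow, ← mul_pow, ← mul_pow, ab_sq, ab_sq]
          refine pow_le_pow_left₀ (norm_nonneg _) ?_ 2
          rw [norm_mul, norm_mul, norm_mul, norm_mul, norm_nit, norm_ang _ hs.ne_zero, mul_one,
            mul_one]
          have h5 := mul_le_mul (mul_le_mul (T.bound A0 q0 s) (norm_bet_le false d) (norm_nonneg _)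
            (mul_nonneg T.C_nonneg (ab_nonneg s))) h4 (norm_nonneg _)
            (mul_nonneg (mul_nonneg T.C_nonneg (ab_nonneg s)) (ab_nonneg d))
          linarith
      _ ≤ T.C ^ 2 * B0 ^ 2 * (N s * N d) * (Cc * (1 + |τ|) ^ A * H *
          (R / (N s * N d ^ 3)) ^ (1 + e) * vsBr (N q) H K0 R) := by
          rw [← Finset.mul_sum]
          exact mul_le_mul_of_nonneg_left h3 (by positivity)
      _ = _ := by
          have := vs_weight (e := e) hs0 hd0 hR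
          linear_combination (T.C ^ 2 * B0 ^ 2 * Cc * (1 + |τ|) ^ A * H * vsBr (N q) H K0 R) * this

theorem vs_summable (T : Theta) {F : Eis → ℂ} {B Y : ℝ} (hF : ∀ r, ‖F r‖ ≤ B) (hY : 0 < Y)
    (h : Eis) (t : ℝ) :
    Summable fun r => T.tau 1 0 r * ang true r * F r * chi 1 r h * W Y t r := by
  refine Summable.of_norm_bounded ((summable_w (1 / 2) hY).mul_left (T.C * B)) fun r => ?_
  rw [norm_mul, norm_mul, norm_mul, norm_mul, norm_W, ← Real.sqrt_eq_rpow, ← ab, ← mul_assoc]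
  refine mul_le_mul_of_nonneg_right ?_ (w_pos _).le
  refine (mul_le_of_le_one_right (by positivity) (norm_chi_le _ _ _)).trans ?_
  have h1 := mul_le_mul ((mul_le_of_le_one_right (norm_nonneg _) (norm_ang_le true r)).trans
    (T.bound 1 0 r)) (hF r) (norm_nonneg _) (mul_nonneg T.C_nonneg (ab_nonneg r))
  linarith

theorem vs_coef (T : Theta) (A q : Eis) (o : Bool) {F g : Eis → ℂ} {B : ℝ} (hF : ∀ r, ‖F r‖ ≤ B)
    (hg : ∀ r, ‖g r‖ ≤ 1) (r : Eis) : ‖T.tau A q r * ang o r * F r * g r‖ ≤ T.C * B * ab r := by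
  rw [norm_mul, norm_mul, norm_mul]
  refine (mul_le_of_le_one_right (by positivity) (hg r)).trans ?_
  have h1 := mul_le_mul ((mul_le_of_le_one_right (norm_nonneg _) (norm_ang_le o r)).trans
    (T.bound A q r)) (hF r) (norm_nonneg _) (mul_nonneg T.C_nonneg (ab_nonneg r))
  linarith

/-- One term of the Voronoi decomposition. -/
theorem vs_one (T : Theta) {e : ℝ} (he : 0 < e) {n : ℕ} (hn : 2 ≤ n) : ∃ (C : ℝ) (A : ℕ), 0 < C ∧
    ∀ (q0 A1 q2 : Eis) (Fi Fs : Eis → ℂ), q0 ≠ 0 → (2 : Eis) ∣ q0 → q2 ∣ q0 →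
      (∀ r, ‖Fi r‖ ≤ ab q0) → (∀ r, ‖Fs r‖ ≤ ab q0) → Per (9 * q0) Fs →
      ∀ Y H K0 R0 t : ℝ, 0 < Y → 1 ≤ H → 0 < K0 → 1 ≤ R0 → ∀ J ⊆ (ball H).filter P0,
      (∀ h ∈ J, ∃ e : ℂ, ‖e‖ ≤ 1 ∧
        Vor (fun r => T.tau 1 0 r * ang true r * Fi r * chi 1 r h)
          (fun r => T.tau A1 q2 r * ang false r * Fs r * quad r h) (N h * N q2) e) →
      ∑ h ∈ J, ‖∑' r, T.tau 1 0 r * ang true r * Fi r * chi 1 r h * W Y t r‖ ^ 2 ≤
        C * (1 + |t|) ^ A * Y * N q0 * H * (R0 ^ e * vsBr (N (9 * q0)) H K0 R0 +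
          R0 ^ 2 * ((H * N q0) ^ 2 / (Y * R0)) ^ (2 * n)) := by
  obtain ⟨Cd, A, hCd, hd⟩ := vs_dual T (half_pos he)
  obtain ⟨C2, hC2, h2⟩ := V2 A n hn
  refine ⟨C2 * (Cd * (1 + 4 / e) ^ 2 + 16 * T.C ^ 2), A + 8 * n, by positivity, ?_⟩
  intro q0 A1 q2 Fi Fs hq0 h2q hq2 hFi hFs hP Y H K0 R0 t hY hH hK hR J hJ hV
  have hH0 := zero_le_one.trans hH
  have hR0 := zero_le_one.trans hR
  have hq9 : 9 * q0 ≠ 0 := mul_ne_zero vs_Sm_nine.ne_zero hq0
  have hbr := vsBr_one_le (n := N (9 * q0)) hH0 hK.le hR0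
  have hb0 := zero_le_one.trans hbr
  have ha := ab_pos hq0
  have hN := N_pos hq0
  have hq20 := ne_zero_of_dvd_ne_zero hq0 hq2
  choose! ε hε using hV
  have key := h2 J (fun h r => T.tau 1 0 r * ang true r * Fi r * chi 1 r h)
    (fun h r => T.tau A1 q2 r * ang false r * Fs r * quad r h) (fun h => N h * N q2) ε (H * N q0)
    Y R0 (Cd * N q0 * H * R0 ^ (e / 2) * vsBr (N (9 * q0)) H K0 R0) (T.C * ab q0) t hY hR
    (by positivity) (mul_nonneg T.C_nonneg ha.le) ?_ ?_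
  · refine key.trans ?_
    have c1 : (J.card : ℝ) ≤ 16 * H := le_trans (Nat.cast_le.2 (Finset.card_le_card
      (hJ.trans (Finset.filter_subset _ _)))) (card_ball_le hH0)
    have c2 : R0 ^ (e / 2) * (1 + Real.log R0) ^ 2 ≤ (1 + 4 / e) ^ 2 * R0 ^ e := by
      refine (mul_le_mul_of_nonneg_left (vs_log hR he) (by positivity)).trans (le_of_eq ?_)
      rw [mul_left_comm, ← Real.rpow_add (by linarith), add_halves]
    have c3 : 1 ≤ R0 ^ e * vsBr (N (9 * q0)) H K0 R0 :=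
      one_le_mul_of_one_le_of_one_le (Real.one_le_rpow hR he.le) hbr
    obtain ⟨X, hX⟩ : ∃ X, X = R0 ^ 2 * ((H * N q0) ^ 2 / (Y * R0)) ^ (2 * n) := ⟨_, rfl⟩
    have hX0 : 0 ≤ X := by rw [hX]; positivity
    rw [← hX, mul_pow, ab_sq]
    obtain ⟨b, hb⟩ : ∃ b, b = vsBr (N (9 * q0)) H K0 R0 := ⟨_, rfl⟩
    rw [← hb] at c3 hb0 ⊢
    have c4 := mul_le_mul_of_nonneg_left c2 (show 0 ≤ Cd * N q0 * H * b by positivity)
    have c5 := mul_le_mul c1 (add_le_add_left c3 X) (by positivity) (by positivity)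
    have c6 := mul_le_mul_of_nonneg_left c5 (show 0 ≤ T.C ^ 2 * N q0 by positivity)
    have c7 : 0 ≤ Cd * (1 + 4 / e) ^ 2 * N q0 * H * X := by positivity
    have c8 : Cd * N q0 * H * R0 ^ (e / 2) * b * (1 + Real.log R0) ^ 2 +
        J.card * (T.C ^ 2 * N q0) * (1 + X) ≤
        (Cd * (1 + 4 / e) ^ 2 + 16 * T.C ^ 2) * N q0 * H * (R0 ^ e * b + X) := by linarith
    have c9 := mul_le_mul_of_nonneg_left c8
      (show 0 ≤ C2 * (1 + |t|) ^ (A + 8 * n) * Y by positivity)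
    linarith
  · intro h hh
    have hb := mem_ball.1 (Finset.mem_filter.1 (hJ hh)).1
    refine ⟨by simp [T.zero], by simp [T.zero],
      ⟨_, vs_coef T 1 0 true hFi fun r => norm_chi_le 1 r h⟩,
      vs_coef T A1 q2 false hFs fun r => norm_quad_le r h, mul_pos (N_pos hb.1) (N_pos hq20),
      mul_le_mul hb.2 (N_le_of_dvd hq0 hq2) (N_nonneg _) hH0, hε h hh⟩
  · intro R τ hR1 hRR
    have hRp : 0 < R := by linarith
    have k1 := hd (9 * q0) A1 q2 Fs (ab q0) hq9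
      (by rw [show (18 : Eis) = 9 * 2 by norm_num]; exact mul_dvd_mul_left 9 h2q) ha hP hFs
      R H K0 τ hRp hH hK
    simp only [← mul_assoc] at k1
    refine ((Finset.sum_le_sum_of_subset_of_nonneg hJ fun _ _ _ => sq_nonneg _).trans k1).trans ?_
    rw [ab_sq, Real.rpow_add hRp, Real.rpow_one]
    have k2 := mul_le_mul (Real.rpow_le_rpow hRp.le hRR (half_pos he).le)
      (vsBr_mono (n := N (9 * q0)) hH0 hK.le hRp.le hRR (N_nonneg _) le_rfl)
      (zero_le_one.trans (vsBr_one_le hH0 hK.le hRp.le)) (by positivity)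
    have k3 := mul_le_mul_of_nonneg_left k2
      (show 0 ≤ Cd * (1 + |τ|) ^ A * N q0 * H * R by positivity)
    linarith

/-- The Voronoi step for one residue class. -/
theorem vs_vor (T : Theta) {e : ℝ} (he : 0 < e) {n : ℕ} (hn : 2 ≤ n) : ∃ (C : ℝ) (A : ℕ), 0 < C ∧
    ∀ (q0 q1 hs : Eis) (F : Eis → ℂ), q0 ≠ 0 → (18 : Eis) ∣ q1 → q1 ∣ q0 → Per q0 F → Bd1 F →
      (∀ s, q1 ∣ s - 1 → IsCoprime s q0 → ∃ ξ : ℂ, ‖ξ‖ = 1 ∧ ∀ r, F (r * s) = ξ * F r) →
      ∀ Y H K0 R0 t : ℝ, 0 < Y → 1 ≤ H → 0 < K0 → 1 ≤ R0 → ∀ J ⊆ (ball H).filter P0,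
      (∀ h ∈ J, IsCoprime h q0 ∧ q1 ∣ h - hs) →
      ∑ h ∈ J, ‖∑' r, T.tau 1 0 r * ang true r * F r * chi 1 r h * W Y t r‖ ^ 2 ≤
        C * (1 + |t|) ^ A * Y * N q0 ^ (1 + e) * H * (R0 ^ e * vsBr (N (9 * q0)) H K0 R0 +
          R0 ^ 2 * ((H * N q0) ^ 2 / (Y * R0)) ^ (2 * n)) := by
  obtain ⟨C1, A, hC1, h1⟩ := vs_one T he hn
  obtain ⟨Cv, hCv, hv⟩ := card_dvd_le (half_pos he)
  refine ⟨(9 * Cv) ^ 2 * C1, A, by positivity, ?_⟩
  intro q0 q1 hs F hq0 h18 hq1 hP hB cov Y H K0 R0 t hY hH hK hR J hJ hJ'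
  obtain ⟨I, Fi, Fs, hI, hF, hi⟩ := V0F T true hq0 (Dvd.dvd.trans ⟨2, by norm_num⟩ h18) hq1 hs hP
    hB cov
  have hH0 := zero_le_one.trans hH
  have hR0 := zero_le_one.trans hR
  have hN := N_pos hq0
  have hb0 := zero_le_one.trans (vsBr_one_le (n := N (9 * q0)) hH0 hK.le hR0)
  obtain ⟨X, hX⟩ : ∃ X, X = C1 * (1 + |t|) ^ A * Y * N q0 * H *
      (R0 ^ e * vsBr (N (9 * q0)) H K0 R0 + R0 ^ 2 * ((H * N q0) ^ 2 / (Y * R0)) ^ (2 * n)) :=
    ⟨_, rfl⟩
  have hX0 : 0 ≤ X := by rw [hX]; positivity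
  have c1 : (I.card : ℝ) ^ 2 ≤ (9 * Cv) ^ 2 * N q0 ^ e := by
    refine (pow_le_pow_left₀ (Nat.cast_nonneg _)
      (hI.trans (mul_le_mul_of_nonneg_left (hv q0 hq0) (by norm_num))) 2).trans (le_of_eq ?_)
    rw [← mul_assoc, mul_pow, ← Real.rpow_natCast (N q0 ^ (e / 2)), ← Real.rpow_mul hN.le]
    norm_num
  calc _ ≤ ∑ h ∈ J, I.card * ∑ i ∈ I,
        ‖∑' r, T.tau 1 0 r * ang true r * Fi i r * chi 1 r h * W Y t r‖ ^ 2 := by
        refine Finset.sum_le_sum fun h _ => ?_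
        simp only [hF, Finset.mul_sum, Finset.sum_mul]
        rw [Summable.tsum_finsetSum fun i hi' => vs_summable T (hi i hi').2.1 hY h t,
          ← Finset.mul_sum]
        exact (pow_le_pow_left₀ (norm_nonneg _) (norm_sum_le _ _) 2).trans
          sq_sum_le_card_mul_sum_sq
    _ ≤ I.card * ∑ i ∈ I, X := by
        rw [← Finset.mul_sum, Finset.sum_comm]
        refine mul_le_mul_of_nonneg_left (Finset.sum_le_sum fun i hi' => ?_) (Nat.cast_nonneg _)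
        obtain ⟨a1, a2, a3, a4, a5⟩ := hi i hi'
        rw [hX]
        exact h1 q0 i.1 i.2 (Fi i) (Fs i) hq0 ((Dvd.dvd.trans ⟨9, by norm_num⟩ h18).trans hq1)
          a1 a2 a3 a4 Y H K0 R0 t hY hH hK hR J hJ fun h hh =>
            a5 h (Finset.mem_filter.1 (hJ hh)).2 (hJ' h hh).1 (hJ' h hh).2
    _ ≤ (9 * Cv) ^ 2 * N q0 ^ e * X := by
        rw [Finset.sum_const, nsmul_eq_mul, ← mul_assoc, ← sq]
        exact mul_le_mul_of_nonneg_right c1 hX0
    _ = _ := by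
        rw [hX, Real.rpow_add hN, Real.rpow_one]
        ring

end Vale.Agent.P026
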